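import Crest.Agent.R040.Bas

/-! # Row 40, Step 2: perturbing the 60° rotation -/

set_option autoImplicit false

open MeasureTheory Filter Topology Set Metric
open scoped Real

noncomputable section

namespace Crest.Agent.R040

/-- the correction of the angle -/
def pertF (σ : ℝ) (w : ℂ) : ℝ := (Complex.log (1 + w)).im + σ * Real.arccos (‖1 + w‖ / 2)

theorem pertF_zero (σ : ℝ) : pertF σ 0 = σ * (π / 3) := by
  have : Real.arccos (1 / 2) = π / 3 := by
    rw [← Real.cos_pi_div_three, Real.arccos_cos (by positivity) (by linarith [Real.pi_pos])]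
  rw [pertF, add_zero, norm_one, this, Complex.log_one, Complex.zero_im, zero_add]

theorem pertF_contDiffAt (σ : ℝ) : ContDiffAt ℝ 1 (pertF σ) 0 := by
  have h1 : ContDiffAt ℝ 1 (fun w : ℂ => 1 + w) 0 := contDiffAt_const.add contDiffAt_id
  have h2 : ContDiffAt ℝ 1 (fun w : ℂ => Complex.log (1 + w)) 0 :=
    ((Complex.contDiffAt_log (x := 1 + 0) (by simp)).restrict_scalars ℝ).comp 0 h1
  have h3 : ContDiffAt ℝ 1 (fun w : ℂ => ‖1 + w‖ / 2) 0 := (h1.norm ℝ (by simp)).div_const 2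
  have h4 : ContDiffAt ℝ 1 (fun w : ℂ => Real.arccos (‖1 + w‖ / 2)) 0 :=
    ContDiffAt.comp (g := Real.arccos) 0 (Real.contDiffAt_arccos (by norm_num) (by norm_num)) h3
  exact (Complex.imCLM.contDiff.contDiffAt.comp 0 h2).add (contDiffAt_const.mul h4)

theorem pertF_norm {σ : ℝ} (hσ : σ = 1 ∨ σ = -1) {w : ℂ} (hw : ‖w‖ ≤ 1) :
    ‖1 + w - cis (pertF σ w)‖ = 1 := by
  have h1 : ‖1 + w‖ ≤ 2 := (norm_add_le _ _).trans (by rw [norm_one]; linarith)
  have h0 := norm_nonneg (1 + w)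
  have h2 : 1 + w = ‖1 + w‖ * cis (Complex.log (1 + w)).im := by
    rw [Complex.log_im, cis, Complex.norm_mul_exp_arg_mul_I]
  have h3 : Real.cos (σ * Real.arccos (‖1 + w‖ / 2)) = ‖1 + w‖ / 2 := by
    have := Real.cos_arccos (x := ‖1 + w‖ / 2) (by linarith) (by linarith)
    rcases hσ with rfl | rfl
    · rwa [one_mul]
    · rwa [neg_one_mul, Real.cos_neg]
  rw [pertF, cis_add]
  generalize σ * Real.arccos (‖1 + w‖ / 2) = φ at h3
  generalize (Complex.log (1 + w)).im = α at h2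
  generalize ‖1 + w‖ = ρ at h2 h3
  rw [h2, mul_comm (ρ : ℂ), ← mul_sub, norm_mul, norm_cis, one_mul,
    ← sq_eq_sq₀ (norm_nonneg _) zero_le_one, Complex.sq_norm, Complex.normSq_apply]
  simp only [Complex.sub_re, Complex.sub_im, Complex.ofReal_re, Complex.ofReal_im, cis_re, cis_im]
  have := Real.sin_sq_add_cos_sq φ
  rw [h3] at this ⊢
  linarith

/-- `d + cis θ = ρ(θ) cis β(θ)` with `w = d cis(-θ)`, `ρ = ‖1 + w‖`, `β = θ + arg(1 + w)`; `g = β + σ arccos(ρ/2)`.  `h = g - id - σπ/3` is small and `1/2`-Lipschitz when `‖d‖` is small (`arg` near `1`, `arccos` near `1/2` are Lipschitz, `θ ↦ w` is `‖d‖`-Lipschitz),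
so `g` is injective with a `2`-Lipschitz left inverse on its range; `LipschitzOnWith.hausdorffMeasure_image_le` and `hausdorffMeasure_real`. -/
theorem exists_pert (σ : ℝ) (hσ : σ = 1 ∨ σ = -1) {η : ℝ} (hη : 0 < η) : ∃ δ > (0 : ℝ), ∀ d : ℂ, ‖d‖ < δ →
    ∃ g : ℝ → ℝ, Continuous g ∧ (∀ θ, |g θ - (θ + σ * (π / 3))| ≤ η) ∧ (∀ θ, ‖d + cis θ - cis (g θ)‖ = 1) ∧
      ∀ S : Set ℝ, volume (g ⁻¹' S) ≤ 2 * volume S := by
  obtain ⟨K, t, ht, hK⟩ := (pertF_contDiffAt σ).exists_lipschitzOnWith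
  obtain ⟨r, hr, hrt⟩ := Metric.mem_nhds_iff.1 ht
  have hK0 : (0 : ℝ) < K + 1 := by positivity
  refine ⟨min (min r 1) (min (1 / 2) η / (K + 1)), by positivity, fun d hd => ?_⟩
  have hd1 : ‖d‖ < r := hd.trans_le ((min_le_left _ _).trans (min_le_left _ _))
  have hd2 : ‖d‖ ≤ 1 := hd.le.trans ((min_le_left _ _).trans (min_le_right _ _))
  have hd3 : K * ‖d‖ ≤ min (1 / 2) η := by
    have := (le_div_iff₀ hK0).1 (hd.le.trans (min_le_right _ _))
    linarith [norm_nonneg d]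
  have hn : ∀ θ, ‖d * cis (-θ)‖ = ‖d‖ := fun θ => by rw [norm_mul, norm_cis, mul_one]
  have hm : ∀ θ, d * cis (-θ) ∈ t := fun θ => hrt (by rwa [mem_ball_zero_iff, hn])
  have hl : ∀ θ φ, |pertF σ (d * cis (-θ)) - pertF σ (d * cis (-φ))| ≤ 1 / 2 * |θ - φ| :=
    fun θ φ => by
      have h1 := hK.dist_le_mul _ (hm θ) _ (hm φ)
      rw [Real.dist_eq, dist_eq_norm, ← mul_sub, norm_mul, ← mul_assoc] at h1
      have h2 := norm_cis_sub (-θ) (-φ)
      rw [neg_sub_neg, abs_sub_comm] at h2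
      exact h1.trans (mul_le_mul (hd3.trans (min_le_left _ _)) h2 (norm_nonneg _) (by norm_num))
  refine ⟨fun θ => θ + pertF σ (d * cis (-θ)), continuous_id.add ?_, fun θ => ?_, fun θ => ?_,
    fun S => ?_⟩
  · exact hK.continuousOn.comp_continuous
      (continuous_const.mul (continuous_cis.comp continuous_neg)) hm
  · have h1 := hK.dist_le_mul _ (hm θ) _ (mem_of_mem_nhds ht)
    rw [Real.dist_eq, dist_zero_right, hn, pertF_zero] at h1
    rw [add_sub_add_left_eq_sub]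
    exact h1.trans (hd3.trans (min_le_right _ _))
  · have e : d + cis θ = cis θ * (1 + d * cis (-θ)) := by
      rw [mul_add, mul_left_comm, ← cis_add, add_neg_cancel]
      simp [cis, add_comm]
    rw [e, cis_add, ← mul_sub, norm_mul, norm_cis, one_mul, pertF_norm hσ ((hn θ).trans_le hd2)]
  · have h1 : AntilipschitzWith 2 fun θ => θ + pertF σ (d * cis (-θ)) :=
      AntilipschitzWith.of_le_mul_dist fun θ φ => by
        have h2 := hl θ φ
        have h3 := abs_sub (θ + pertF σ (d * cis (-θ)) - (φ + pertF σ (d * cis (-φ))))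
          (pertF σ (d * cis (-θ)) - pertF σ (d * cis (-φ)))
        rw [show θ + pertF σ (d * cis (-θ)) - (φ + pertF σ (d * cis (-φ))) -
          (pertF σ (d * cis (-θ)) - pertF σ (d * cis (-φ))) = θ - φ by ring] at h3
        rw [Real.dist_eq, Real.dist_eq]
        push_cast
        linarith
    simpa using h1.hausdorffMeasure_preimage_le zero_le_one S

/-- compact `K ⊆ E ⊆ V` open with small differences; `η < dist(K, Vᶜ)` (`IsCompact.exists_thickening_subset_open`) -/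
theorem pert_measure {E : Set ℝ} (hE : MeasurableSet E) (hfin : volume E ≠ ⊤) {ε : ℝ} (hε : 0 < ε) :
    ∃ η > (0 : ℝ), ∀ (g : ℝ → ℝ) (t : ℝ), (∀ θ, |g θ - (θ + t)| ≤ η) →
      (∀ S : Set ℝ, volume (g ⁻¹' S) ≤ 2 * volume S) →
      volume.real {θ | θ + t ∈ E ∧ g θ ∉ E} < ε := by
  have h0 : ENNReal.ofReal (ε / 4) ≠ 0 := (ENNReal.ofReal_pos.2 (by positivity)).ne'
  obtain ⟨K, hKE, hK, hK1⟩ := hE.exists_isCompact_sdiff_lt hfin h0
  obtain ⟨V, hEV, hV, -, hV1⟩ := hE.exists_isOpen_sdiff_lt hfin h0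
  obtain ⟨η, hη, hηV⟩ := hK.exists_cthickening_subset_open hV (hKE.trans hEV)
  refine ⟨η, hη, fun g t hg hS => ?_⟩
  have hsub : {θ | θ + t ∈ E ∧ g θ ∉ E} ⊆ (fun θ => θ + t) ⁻¹' (E \ K) ∪ g ⁻¹' (V \ E) := by
    rintro θ ⟨h1, h2⟩
    by_cases h : θ + t ∈ K
    · exact Or.inr ⟨hηV (mem_cthickening_of_dist_le _ _ _ _ h (hg θ)), h2⟩
    · exact Or.inl ⟨h1, h⟩
  have h1 : volume {θ | θ + t ∈ E ∧ g θ ∉ E} ≤ ENNReal.ofReal (3 * (ε / 4)) := by
    refine (measure_mono hsub).trans ((measure_union_le _ _).trans ?_)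
    rw [measure_preimage_add_right]
    refine (add_le_add hK1.le ((hS _).trans (mul_le_mul_right hV1.le 2))).trans_eq ?_
    rw [ENNReal.ofReal_mul (by norm_num), ENNReal.ofReal_ofNat]
    ring
  exact (ENNReal.toReal_le_of_le_ofReal (by positivity) h1).trans_lt (by linarith)

theorem shift_small {U : Set ℝ} (hU : MeasurableSet U) (a b : ℝ) {ε : ℝ} (hε : 0 < ε) :
    ∃ η > (0 : ℝ), ∀ t : ℝ, |t| ≤ η → volume.real {θ | θ ∈ Ioc a b ∧ ¬ (θ ∈ U ↔ θ + t ∈ U)} < ε := by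
  have hf : ∀ W : Set ℝ, volume (W ∩ Ioc a b) ≠ ⊤ := fun W =>
    ((measure_mono inter_subset_right).trans_lt measure_Ioc_lt_top).ne
  obtain ⟨η₁, h1, H1⟩ := pert_measure (hU.inter measurableSet_Ioc) (hf U) (half_pos hε)
  obtain ⟨η₂, h2, H2⟩ := pert_measure (hU.compl.inter measurableSet_Ioc) (hf Uᶜ) (half_pos hε)
  refine ⟨min η₁ η₂, lt_min h1 h2, fun t ht => ?_⟩
  have hS : ∀ S : Set ℝ, volume ((fun θ => θ + t) ⁻¹' S) ≤ 2 * volume S := fun S => by
    rw [measure_preimage_add_right, two_mul]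
    exact le_self_add
  have a1 := H1 (fun θ => θ + t) 0 (fun θ => by simpa using ht.trans (min_le_left _ _)) hS
  have a2 := H2 (fun θ => θ + t) 0 (fun θ => by simpa using ht.trans (min_le_right _ _)) hS
  simp only [add_zero] at a1 a2
  have hsub : {θ | θ ∈ Ioc a b ∧ ¬ (θ ∈ U ↔ θ + t ∈ U)} ⊆
      {θ | θ ∈ U ∩ Ioc a b ∧ θ + t ∉ U ∩ Ioc a b} ∪
        {θ | θ ∈ Uᶜ ∩ Ioc a b ∧ θ + t ∉ Uᶜ ∩ Ioc a b} := by
    rintro θ ⟨h3, h4⟩
    by_cases h : θ ∈ U
    · exact Or.inl ⟨⟨h, h3⟩, fun h5 => h4 (iff_of_true h h5.1)⟩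
    · exact Or.inr ⟨⟨h, h3⟩, fun h5 => h4 (iff_of_false h h5.1)⟩
  have hfin : ∀ W : Set ℝ, volume {θ | θ ∈ W ∩ Ioc a b ∧ θ + t ∉ W ∩ Ioc a b} ≠ ⊤ := fun W =>
    ne_top_of_le_ne_top (hf W) (measure_mono fun θ h => h.1)
  refine (measureReal_mono hsub (measure_union_ne_top (hfin _) (hfin _))).trans_lt
    ((measureReal_union_le _ _).trans_lt (by linarith))

end Crest.Agent.R040

end
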