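import Crest.Agent.R040.Bas

/-! # Row 40, Step 2: the map `(α, β) ↦ cis α + cis β` -/

set_option autoImplicit false

open MeasureTheory Filter Topology Set Metric
open scoped Real

noncomputable section

namespace Crest.Agent.R040

/-- the map in real coordinates -/
def circSumF (p : ℝ × ℝ) : ℝ × ℝ := (Real.cos p.1 + Real.cos p.2, Real.sin p.1 + Real.sin p.2)

/-- its derivative -/
def circSumD (p : ℝ × ℝ) : ℝ × ℝ →L[ℝ] ℝ × ℝ :=
  (Matrix.toLin (.finTwoProd ℝ) (.finTwoProd ℝ)
    !![-Real.sin p.1, -Real.sin p.2; Real.cos p.1, Real.cos p.2]).toContinuousLinearMap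

theorem circSum_deriv (p : ℝ × ℝ) : HasFDerivAt circSumF (circSumD p) p := by
  unfold circSumD circSumF
  rw [Matrix.toLin_finTwoProd_toContinuousLinearMap]
  exact HasFDerivAt.prodMk (𝕜 := ℝ)
    (((Real.hasDerivAt_cos p.1).comp_hasFDerivAt p hasFDerivAt_fst).add
      ((Real.hasDerivAt_cos p.2).comp_hasFDerivAt p hasFDerivAt_snd))
    (((Real.hasDerivAt_sin p.1).comp_hasFDerivAt p hasFDerivAt_fst).add
      ((Real.hasDerivAt_sin p.2).comp_hasFDerivAt p hasFDerivAt_snd))

theorem circSum_det (p : ℝ × ℝ) : |(circSumD p).det| = |Real.sin (p.1 - p.2)| := by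
  rw [← abs_neg, Real.sin_sub]
  unfold circSumD
  simp only [LinearMap.det_toContinuousLinearMap, LinearMap.det_toLin, Matrix.det_fin_two_of]
  congr 1
  ring

theorem circSum_eq (p : ℝ × ℝ) :
    circSumF p = Complex.measurableEquivRealProd (cis p.1 + cis p.2) := by
  simp only [circSumF, Complex.measurableEquivRealProd_apply, Complex.add_re, Complex.add_im,
    cis_re, cis_im]

theorem circSum_vol (T : Set (ℝ × ℝ)) :
    volume ((fun p : ℝ × ℝ => cis p.1 + cis p.2) '' T) = volume (circSumF '' T) := by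
  rw [← Complex.volume_preserving_equiv_real_prod.measure_preimage_equiv,
    show circSumF = Complex.measurableEquivRealProd ∘ fun p : ℝ × ℝ => cis p.1 + cis p.2 from
      funext circSum_eq, image_comp,
    preimage_image_eq _ Complex.measurableEquivRealProd.injective]

theorem circSum_cont : Continuous fun p : ℝ × ℝ => cis p.1 + cis p.2 :=
  (continuous_cis.comp continuous_fst).add (continuous_cis.comp continuous_snd)

theorem circSum_cis_inj {a x y : ℝ} (hx : x ∈ Ioc a (a + 2 * π)) (hy : y ∈ Ioc a (a + 2 * π))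
    (h : cis x = cis y) : x = y :=
  Circle.exp_injOn_Ioc (a := a) (b := a + 2 * π) (by linarith) hx hy (Circle.ext (by
    rw [Circle.coe_exp, Circle.coe_exp]; exact h))

/-- two unit vectors with a given nonzero sum are determined up to order -/
theorem circSum_pair {a b a' b' : ℝ} (h : cis a + cis b = cis a' + cis b')
    (hs : 0 < Real.sin (a - b) * Real.sin (a' - b')) : cis a = cis a' ∧ cis b = cis b' := by
  have h1 := congrArg Complex.re h
  have h2 := congrArg Complex.im h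
  simp only [Complex.add_re, Complex.add_im, cis_re, cis_im] at h1 h2
  rw [Real.sin_sub, Real.sin_sub] at hs
  have q1 := Real.cos_sq_add_sin_sq a
  have q2 := Real.cos_sq_add_sin_sq b
  have q3 := Real.cos_sq_add_sin_sq a'
  have q4 := Real.cos_sq_add_sin_sq b'
  have key : Real.cos a = Real.cos a' ∧ Real.sin a = Real.sin a' := by
    generalize Real.cos a = x1 at *
    generalize Real.sin a = y1 at *
    generalize Real.cos b = x2 at *
    generalize Real.sin b = y2 at *
    generalize Real.cos a' = x3 at *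
    generalize Real.sin a' = y3 at *
    generalize Real.cos b' = x4 at *
    generalize Real.sin b' = y4 at *
    obtain rfl : x4 = x1 + x2 - x3 := by linarith
    obtain rfl : y4 = y1 + y2 - y3 := by linarith
    have e1 : x3 * (x1 + x2) + y3 * (y1 + y2) = x1 * (x1 + x2) + y1 * (y1 + y2) := by
      linear_combination (-1 / 2) * q4 + (1 / 2) * q3 + (1 / 2) * q2 - (1 / 2) * q1
    obtain ⟨D, hD⟩ : ∃ D, D = y1 * (x1 + x2) - x1 * (y1 + y2) := ⟨_, rfl⟩
    obtain ⟨D', hD'⟩ : ∃ D', D' = y3 * (x1 + x2) - x3 * (y1 + y2) := ⟨_, rfl⟩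
    have p : 0 < D * D' := by rw [hD, hD']; linarith
    have e2 : (D - D') * (D + D') = 0 := by
      rw [hD, hD']
      linear_combination ((x1 + x2) ^ 2 + (y1 + y2) ^ 2) * (q1 - q3) +
        (x3 * (x1 + x2) + y3 * (y1 + y2) + (x1 * (x1 + x2) + y1 * (y1 + y2))) * e1
    have e3 : D = D' := by
      rcases mul_eq_zero.1 e2 with e | e
      · linarith
      · obtain rfl : D' = -D := by linarith
        nlinarith [sq_nonneg D]
    have n : (x1 + x2) ^ 2 + (y1 + y2) ^ 2 ≠ 0 := by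
      intro h0
      have a1 : x1 + x2 = 0 := by nlinarith [sq_nonneg (x1 + x2), sq_nonneg (y1 + y2)]
      have a2 : y1 + y2 = 0 := by nlinarith [sq_nonneg (x1 + x2), sq_nonneg (y1 + y2)]
      rw [hD, a1, a2] at p
      simp at p
    rw [hD, hD'] at e3
    constructor
    · refine mul_left_cancel₀ n ?_
      linear_combination (-(x1 + x2)) * e1 - (y1 + y2) * e3
    · refine mul_left_cancel₀ n ?_
      linear_combination (-(y1 + y2)) * e1 + (x1 + x2) * e3
  have k : cis a = cis a' := Complex.ext (by simp only [cis_re, key.1]) (by simp only [cis_im, key.2])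
  exact ⟨k, by rwa [k, add_right_inj] at h⟩

/-- one sheet -/
theorem circSum_sheet {S : Set ℂ} (hS : MeasurableSet S) (y : ℂ) (a b : ℝ) {c : ℝ} (hc : 0 < c)
    {e : ℝ} (he : e ^ 2 = 1) :
    volume {p : ℝ × ℝ | p.1 ∈ Ioc a (a + 2 * π) ∧ p.2 ∈ Ioc b (b + 2 * π) ∧
      c ≤ e * Real.sin (p.1 - p.2) ∧ y + cis p.1 + cis p.2 ∈ S} ≤
      ENNReal.ofReal (1 / c) * volume S := by
  set A := {p : ℝ × ℝ | p.1 ∈ Ioc a (a + 2 * π) ∧ p.2 ∈ Ioc b (b + 2 * π) ∧
      c ≤ e * Real.sin (p.1 - p.2) ∧ y + cis p.1 + cis p.2 ∈ S} with hA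
  have hm : MeasurableSet A := by
    refine (measurable_fst measurableSet_Ioc).inter ((measurable_snd measurableSet_Ioc).inter
      ((measurableSet_le (g := fun p : ℝ × ℝ => e * Real.sin (p.1 - p.2)) measurable_const
        (by fun_prop)).inter ?_))
    exact ((continuous_const.add (continuous_cis.comp continuous_fst)).add
      (continuous_cis.comp continuous_snd)).measurable hS
  have hi : InjOn circSumF A := by
    intro p hp q hq h
    rw [circSum_eq, circSum_eq] at h
    have h1 := mul_pos (hc.trans_le hp.2.2.1) (hc.trans_le hq.2.2.1)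
    obtain ⟨k1, k2⟩ := circSum_pair (Complex.measurableEquivRealProd.injective h) (by
      have : e * Real.sin (p.1 - p.2) * (e * Real.sin (q.1 - q.2)) =
        e ^ 2 * (Real.sin (p.1 - p.2) * Real.sin (q.1 - q.2)) := by ring
      rwa [this, he, one_mul] at h1)
    exact Prod.ext (circSum_cis_inj hp.1 hq.1 k1) (circSum_cis_inj hp.2.1 hq.2.1 k2)
  have h1 := lintegral_abs_det_fderiv_le_addHaar_image volume hm
    (fun p _ => (circSum_deriv p).hasFDerivWithinAt) hi
  have h2 : ENNReal.ofReal c * volume A ≤ ∫⁻ p in A, ENNReal.ofReal |(circSumD p).det| := by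
    rw [← setLIntegral_const]
    refine setLIntegral_mono' hm fun p hp => ENNReal.ofReal_le_ofReal ?_
    rw [circSum_det]
    refine hp.2.2.1.trans ((le_abs_self _).trans (le_of_eq ?_))
    have : |e| = 1 := by rw [← sq_eq_sq₀ (abs_nonneg _) zero_le_one, sq_abs, he, one_pow]
    rw [abs_mul, this, one_mul]
  have h3 : volume (circSumF '' A) ≤ volume S := by
    rw [← circSum_vol, ← measure_preimage_add volume y S]
    refine measure_mono ?_
    rintro _ ⟨p, hp, rfl⟩
    simpa only [mem_preimage, add_assoc] using hp.2.2.2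
  calc volume A = ENNReal.ofReal (1 / c) * (ENNReal.ofReal c * volume A) := by
        rw [← mul_assoc, ← ENNReal.ofReal_mul (by positivity), one_div_mul_cancel hc.ne',
          ENNReal.ofReal_one, one_mul]
    _ ≤ _ := mul_le_mul_right (h2.trans (h1.trans h3)) _

theorem circSum_null : volume {p : ℝ × ℝ | Real.sin (p.1 - p.2) = 0} = 0 := by
  refine Measure.measure_prod_null_of_ae_null
    (measurableSet_eq_fun (by fun_prop) measurable_const) (Eventually.of_forall fun x => ?_)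
  refine Countable.measure_zero ((countable_range fun n : ℤ => x - n * π).mono fun t ht => ?_) _
  obtain ⟨n, hn⟩ := Real.sin_eq_zero_iff.1 ht
  exact ⟨n, by simp only at hn ⊢; linarith⟩

/-- solving `cos t' = y` near `t` -/
theorem circSum_cos {c t δ y : ℝ} (hc : c / 2 ≤ |Real.sin t|) (h0 : 0 ≤ δ) (h1 : δ ≤ c / 4)
    (hy : |y - Real.cos t| ≤ δ * c / 8) : ∃ t', |t' - t| ≤ δ ∧ Real.cos t' = y := by
  have hc2 : c ≤ 2 := by linarith [Real.abs_sin_le_one t]
  have hs : δ / 2 ≤ Real.sin δ := by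
    have h2 := Real.mul_le_sin h0 (by linarith [Real.pi_gt_three])
    refine le_trans ?_ h2
    rw [div_mul_eq_mul_div, le_div_iff₀ Real.pi_pos]
    nlinarith [Real.pi_le_four]
  have h3 : |Real.cos t * (Real.cos δ - 1)| ≤ δ * c / 8 := by
    rw [abs_mul]
    refine (mul_le_of_le_one_left (abs_nonneg _) (Real.abs_cos_le_one t)).trans ?_
    rw [abs_le]
    constructor <;> nlinarith [Real.one_sub_sq_div_two_le_cos (x := δ), Real.cos_le_one δ]
  have h4 : δ * c / 4 ≤ |Real.sin t| * Real.sin δ := by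
    have := mul_le_mul hc hs (by positivity) (abs_nonneg _)
    linarith
  obtain ⟨y1, y2⟩ := abs_le.1 hy
  obtain ⟨z1, z2⟩ := abs_le.1 h3
  have hm : y ∈ uIcc (Real.cos (t - δ)) (Real.cos (t + δ)) := by
    rw [Real.cos_sub, Real.cos_add, mem_uIcc]
    rcases abs_cases (Real.sin t) with h | h <;> rw [h.1] at h4
    · right; constructor <;> linarith
    · left; constructor <;> linarith
  obtain ⟨t', ht, e⟩ := intermediate_value_uIcc Real.continuous_cos.continuousOn hm
  rw [uIcc_of_le (by linarith)] at ht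
  exact ⟨t', abs_le.2 ⟨by linarith [ht.1], by linarith [ht.2]⟩, e⟩

theorem circSum_half (m t : ℝ) : cis (m + t) + cis (m - t) = (2 * Real.cos t : ℝ) * cis m := by
  apply Complex.ext
  · simp only [Complex.add_re, Complex.re_ofReal_mul, cis_re, Real.cos_add, Real.cos_sub]
    ring
  · simp only [Complex.add_im, Complex.im_ofReal_mul, cis_im, Real.sin_add, Real.sin_sub]
    ring

/-- polar form of a number near `1` -/
theorem circSum_polar {u : ℂ} {h : ℝ} (hu : ‖u - 1‖ ≤ h) (hh : h ≤ 1 / 2) :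
    ∃ r φ : ℝ, |r - 1| ≤ h ∧ |φ| ≤ 4 * h ∧ u = r * cis φ := by
  have h1 : |‖u‖ - 1| ≤ h := by
    have := abs_norm_sub_norm_le u 1
    rw [norm_one] at this
    exact this.trans hu
  have h2 : |u.re - 1| ≤ h := by simpa using (Complex.abs_re_le_norm (u - 1)).trans hu
  have h3 : |u.im| ≤ h := by simpa using (Complex.abs_im_le_norm (u - 1)).trans hu
  have h4 : 1 / 2 ≤ ‖u‖ := by linarith [(abs_le.1 h1).1]
  refine ⟨‖u‖, u.arg, h1, ?_, (Complex.norm_mul_exp_arg_mul_I u).symm⟩
  have h5 := Real.mul_abs_le_abs_sin (Complex.abs_arg_le_pi_div_two_iff.2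
    (show 0 ≤ u.re by linarith [(abs_le.1 h2).1]))
  rw [Complex.sin_arg, abs_div, abs_norm, le_div_iff₀ (by linarith), div_mul_eq_mul_div,
    div_mul_eq_mul_div, div_le_iff₀ Real.pi_pos] at h5
  have h6 := mul_le_mul_of_nonneg_left h4 (abs_nonneg u.arg)
  have h7 := mul_le_mul h3 Real.pi_le_four Real.pi_pos.le ((abs_nonneg _).trans h3)
  linarith

/-- Jacobian `|sin(α - β)| ≤ 1`: `addHaar_image_le_lintegral_abs_det_fderiv` after identifying `ℂ` with `ℝ × ℝ` (`Complex.measurableEquivRealProd`, `Complex.volume_preserving_equiv_real_prod`). -/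
theorem sum_image_le {T : Set (ℝ × ℝ)} (hT : MeasurableSet T) :
    volume ((fun p : ℝ × ℝ => cis p.1 + cis p.2) '' T) ≤ volume T := by
  rw [circSum_vol]
  refine (addHaar_image_le_lintegral_abs_det_fderiv volume hT
    fun p _ => (circSum_deriv p).hasFDerivWithinAt).trans ?_
  rw [← setLIntegral_one]
  refine lintegral_mono fun p => ?_
  rw [circSum_det]
  exact ENNReal.ofReal_le_one.2 (Real.abs_sin_le_one _)

theorem sum_image_null {T : Set (ℝ × ℝ)} (hT : volume T = 0) (v : ℂ) :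
    volume ((fun p : ℝ × ℝ => v + cis p.1 + cis p.2) '' T) = 0 := by
  have h := sum_image_le (measurableSet_toMeasurable volume T)
  rw [measure_toMeasurable, hT, nonpos_iff_eq_zero, ← measure_preimage_add volume (-v)] at h
  refine measure_mono_null ?_ h
  rintro _ ⟨p, hp, rfl⟩
  exact ⟨p, subset_toMeasurable _ _ hp, by ring⟩

/-- On `{sin(α - β) > 0}` and on `{sin(α - β) < 0}` inside a period square the map is injective (two unit vectors with a given nonzero sum are determined up to order); `lintegral_abs_det_fderiv_le_addHaar_image`. -/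
theorem sum_pre_le {S : Set ℂ} (hS : MeasurableSet S) (y : ℂ) (a b : ℝ) {c : ℝ} (hc : 0 < c) :
    volume {p : ℝ × ℝ | p.1 ∈ Ioc a (a + 2 * π) ∧ p.2 ∈ Ioc b (b + 2 * π) ∧ c ≤ |Real.sin (p.1 - p.2)| ∧
      y + cis p.1 + cis p.2 ∈ S} ≤ ENNReal.ofReal (2 / c) * volume S := by
  have h1 := circSum_sheet hS y a b hc (e := 1) (by norm_num)
  have h2 := circSum_sheet hS y a b hc (e := -1) (by norm_num)
  have e : ENNReal.ofReal (2 / c) = ENNReal.ofReal (1 / c) + ENNReal.ofReal (1 / c) := by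
    rw [← ENNReal.ofReal_add (by positivity) (by positivity)]
    congr 1
    ring
  rw [e, add_mul]
  refine le_trans (measure_mono ?_) ((measure_union_le _ _).trans (add_le_add h1 h2))
  rintro p ⟨a1, a2, a3, a4⟩
  rcases abs_cases (Real.sin (p.1 - p.2)) with h | h <;> rw [h.1] at a3
  · exact Or.inl ⟨a1, a2, by linarith, a4⟩
  · exact Or.inr ⟨a1, a2, by linarith, a4⟩

/-- countable union of `sum_pre_le`; `{sin(α - β) = 0}` is null -/
theorem ae_sum_notMem {Z : Set ℂ} (hZ : volume Z = 0) (y : ℂ) :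
    ∀ᵐ p : ℝ × ℝ, y + cis p.1 + cis p.2 ∉ Z := by
  have h : ∀ q : ℤ × ℤ × ℕ, volume {p : ℝ × ℝ | p.1 ∈ Ioc (q.1 * (2 * π)) (q.1 * (2 * π) + 2 * π) ∧
      p.2 ∈ Ioc (q.2.1 * (2 * π)) (q.2.1 * (2 * π) + 2 * π) ∧
      1 / ((q.2.2 : ℝ) + 1) ≤ |Real.sin (p.1 - p.2)| ∧
      y + cis p.1 + cis p.2 ∈ toMeasurable volume Z} = 0 := fun q => by
    have := sum_pre_le (measurableSet_toMeasurable volume Z) y (q.1 * (2 * π)) (q.2.1 * (2 * π))
      (c := 1 / ((q.2.2 : ℝ) + 1)) (by positivity)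
    rwa [measure_toMeasurable, hZ, mul_zero, nonpos_iff_eq_zero] at this
  have hc : ∀ x : ℝ, ∃ n : ℤ, x ∈ Ioc (n * (2 * π)) (n * (2 * π) + 2 * π) := fun x => by
    obtain ⟨n, hn⟩ := mem_iUnion.1 ((iUnion_Ioc_zsmul Real.two_pi_pos).symm ▸ mem_univ x)
    refine ⟨n, ?_⟩
    simpa only [zsmul_eq_mul, Int.cast_add, Int.cast_one, add_mul, one_mul] using hn
  refine measure_mono_null ?_ (measure_union_null circSum_null (measure_iUnion_null h))
  intro p hp
  by_cases h0 : Real.sin (p.1 - p.2) = 0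
  · exact Or.inl h0
  obtain ⟨i, hi⟩ := hc p.1
  obtain ⟨j, hj⟩ := hc p.2
  obtain ⟨n, hn⟩ := exists_nat_one_div_lt (abs_pos.2 h0)
  exact Or.inr (mem_iUnion.2 ⟨(i, j, n), hi, hj, hn.le,
    subset_toMeasurable _ _ (not_not.1 hp)⟩)

/-- `{|sin(α - β)| < c}` has small measure; on the rest use `sum_pre_le` and continuity of translation (`tendsto_measure_symmDiff_preimage_nhds_zero` for `S ∩ ball v 4`). -/
theorem sum_translate {S : Set ℂ} (hS : MeasurableSet S) (v : ℂ) (a b : ℝ) {ε : ℝ} (hε : 0 < ε) :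
    ∃ δ > (0 : ℝ), ∀ x : ℂ, ‖x - v‖ < δ →
      volume.real {p : ℝ × ℝ | p.1 ∈ Ioc a (a + 2 * π) ∧ p.2 ∈ Ioc b (b + 2 * π) ∧
        ¬ (x + cis p.1 + cis p.2 ∈ S ↔ v + cis p.1 + cis p.2 ∈ S)} < ε := by
  obtain ⟨B, hB⟩ : ∃ B : ℕ → Set (ℝ × ℝ), B = fun n : ℕ =>
    (Ioc a (a + 2 * π) ×ˢ Ioc b (b + 2 * π)) ∩ {p | |Real.sin (p.1 - p.2)| < 1 / ((n : ℝ) + 1)} :=
    ⟨_, rfl⟩
  have h1 : Tendsto (volume ∘ B) atTop (𝓝 (volume (⋂ n, B n))) := by
    refine tendsto_measure_iInter_atTop (fun n => ?_) (fun n m hnm => ?_) ⟨0, ?_⟩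
    · rw [hB]
      exact ((measurableSet_Ioc.prod measurableSet_Ioc).inter
        (measurableSet_lt (by fun_prop) measurable_const)).nullMeasurableSet
    · rw [hB]
      refine fun p hp => ⟨hp.1, ?_⟩
      have h : |Real.sin (p.1 - p.2)| < 1 / ((m : ℝ) + 1) := hp.2
      exact h.trans_le (Nat.one_div_le_one_div hnm)
    · rw [hB]
      refine ne_top_of_le_ne_top ?_ (measure_mono inter_subset_left)
      rw [Measure.volume_eq_prod, Measure.prod_prod]
      exact ENNReal.mul_ne_top measure_Ioc_lt_top.ne measure_Ioc_lt_top.ne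
  have h2 : volume (⋂ n, B n) = 0 := by
    refine measure_mono_null (fun p hp => ?_) circSum_null
    by_contra h0
    obtain ⟨n, hn⟩ := exists_nat_one_div_lt (abs_pos.2 h0)
    have := mem_iInter.1 hp n
    rw [hB] at this
    exact lt_asymm hn this.2
  rw [h2] at h1
  have hε2 : 0 < ENNReal.ofReal (ε / 2) := ENNReal.ofReal_pos.2 (by positivity)
  obtain ⟨n, hn⟩ := (h1.eventually (gt_mem_nhds hε2)).exists
  obtain ⟨A, hA⟩ : ∃ A : C(ℂ, C(ℂ, ℂ)), ∀ x z, A x z = x + z :=
    ⟨ContinuousMap.curry ⟨fun p : ℂ × ℂ => p.1 + p.2, by fun_prop⟩, fun _ _ => rfl⟩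
  have hAm : ∀ x, MeasurePreserving (A x) volume volume := fun x => by
    rw [show (A x : ℂ → ℂ) = fun z => x + z from funext (hA x)]
    exact measurePreserving_add_left volume x
  have hS' : MeasurableSet (S ∩ ball v 4) := hS.inter measurableSet_ball
  have h3 := tendsto_measure_symmDiff_preimage_nhds_zero (A.continuous.tendsto v)
    (Eventually.of_forall hAm) (hAm v) hS'.nullMeasurableSet
    (ne_top_of_le_ne_top measure_ball_lt_top.ne (measure_mono inter_subset_right))
  have h4 := ENNReal.Tendsto.const_mul (a := ENNReal.ofReal (2 / (1 / ((n : ℝ) + 1)))) h3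
    (Or.inr ENNReal.ofReal_ne_top)
  rw [mul_zero] at h4
  obtain ⟨δ, hδ, h5⟩ := Metric.eventually_nhds_iff.1 (h4.eventually (gt_mem_nhds hε2))
  refine ⟨min δ 1, lt_min hδ one_pos, fun x hx => ?_⟩
  have h6 := h5 (y := x) (by rw [dist_eq_norm]; exact hx.trans_le (min_le_left _ _))
  have h7 := sum_pre_le (((hAm x).measurable hS').symmDiff ((hAm v).measurable hS')) 0 a b
    (c := 1 / ((n : ℝ) + 1)) (by positivity)
  refine ENNReal.toReal_lt_of_lt_ofReal (lt_of_le_of_lt ((measure_mono ?_).trans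
    (measure_union_le _ _)) ((ENNReal.add_lt_add hn (h7.trans_lt h6)).trans_eq ?_))
  · rintro p ⟨a1, a2, a3⟩
    rcases lt_or_ge |Real.sin (p.1 - p.2)| (1 / ((n : ℝ) + 1)) with h | h
    · left
      rw [hB]
      exact ⟨⟨a1, a2⟩, h⟩
    refine Or.inr ⟨a1, a2, h, ?_⟩
    have hb : ∀ z : ℂ, ‖z - v‖ < 1 → z + (cis p.1 + cis p.2) ∈ ball v 4 := fun z hz => by
      rw [mem_ball, dist_eq_norm, add_sub_right_comm]
      refine (norm_add_le _ _).trans_lt ?_
      have := norm_add_le (cis p.1) (cis p.2)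
      rw [norm_cis, norm_cis] at this
      linarith
    have b1 := hb x (hx.trans_le (min_le_right _ _))
    have b2 := hb v (by simp)
    simp only [add_assoc] at a3
    simp only [mem_symmDiff, mem_preimage, hA, zero_add, mem_inter_iff, b1, b2, and_true]
    tauto
  · rw [← ENNReal.ofReal_add (by positivity) (by positivity), add_halves]

/-- local inverse with uniform Lipschitz bound.  E.g. `cis θ + cis γ = 2 cos t · cis m`, `m = (θ + γ)/2`, `t = (θ - γ)/2`, with `|cos t|, |sin t| ≥ c/2`: perturb `m` by `arg` of a number near `1` and `t` through `arccos` (or the intermediate value theorem);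
or `ApproximatesLinearOn.surjOn_closedBall_of_nonlinearRightInverse` plus compactness. -/
theorem sum_inv {c : ℝ} (hc : 0 < c) : ∃ (C s₀ : ℝ), 0 < C ∧ 0 < s₀ ∧ ∀ (θ γ s : ℝ) (z : ℂ),
    c ≤ |Real.sin (θ - γ)| → s ≤ s₀ → ‖z - (cis θ + cis γ)‖ ≤ s →
    ∃ θ' γ' : ℝ, |θ' - θ| ≤ C * s ∧ |γ' - γ| ≤ C * s ∧ z = cis θ' + cis γ' := by
  refine ⟨12 / c ^ 2, c ^ 3 / 32, by positivity, by positivity, fun θ γ s z h1 h2 h3 => ?_⟩
  have hs : 0 ≤ s := (norm_nonneg _).trans h3
  have hc1 : c ≤ 1 := h1.trans (Real.abs_sin_le_one _)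
  obtain ⟨m, t, rfl, rfl⟩ : ∃ m t, θ = m + t ∧ γ = m - t :=
    ⟨(θ + γ) / 2, (θ - γ) / 2, by ring, by ring⟩
  rw [show m + t - (m - t) = 2 * t by ring, Real.sin_two_mul, abs_mul, abs_mul, abs_two] at h1
  have a1 : c / 2 ≤ |Real.sin t| := by
    nlinarith [Real.abs_cos_le_one t, abs_nonneg (Real.sin t)]
  have a2 : c / 2 ≤ |Real.cos t| := by
    nlinarith [Real.abs_sin_le_one t, abs_nonneg (Real.cos t)]
  rw [circSum_half] at h3
  obtain ⟨w, hw⟩ : ∃ w : ℂ, w = (2 * Real.cos t : ℝ) * cis m := ⟨_, rfl⟩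
  have hw1 : c ≤ ‖w‖ := by
    rw [hw, norm_mul, norm_cis, mul_one, Complex.norm_real, Real.norm_eq_abs, abs_mul, abs_two]
    linarith
  have hw0 : w ≠ 0 := norm_pos_iff.1 (hc.trans_le hw1)
  rw [← hw] at h3
  have c2 : c ^ 2 ≤ 1 := pow_le_one₀ hc.le hc1
  obtain ⟨r, φ, r1, r2, e⟩ := circSum_polar (u := z / w) (h := s / c) (by
    rw [div_sub_one hw0, norm_div]
    exact div_le_div₀ hs h3 hc hw1) (by
    rw [div_le_iff₀ hc]
    nlinarith)
  obtain ⟨t', t1, t2⟩ := circSum_cos (δ := 8 * s / c ^ 2) (y := r * Real.cos t) a1 (by positivity)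
    (by rw [div_le_iff₀ (by positivity)]; linarith) (by
      rw [← sub_one_mul, abs_mul]
      refine (mul_le_of_le_one_right (abs_nonneg _) (Real.abs_cos_le_one t)).trans
        (r1.trans (le_of_eq ?_))
      field_simp)
  have b : 4 * (s / c) + 8 * s / c ^ 2 ≤ 12 / c ^ 2 * s := by
    have : s / c ≤ s / c ^ 2 := div_le_div_of_nonneg_left hs (by positivity) (by nlinarith)
    have e1 : 8 * s / c ^ 2 = 8 * (s / c ^ 2) := by ring
    have e2 : 12 / c ^ 2 * s = 12 * (s / c ^ 2) := by ring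
    linarith
  obtain ⟨u1, u2⟩ := abs_le.1 r2
  obtain ⟨v1, v2⟩ := abs_le.1 t1
  refine ⟨m + φ + t', m + φ - t', abs_le.2 ⟨by linarith, by linarith⟩,
    abs_le.2 ⟨by linarith, by linarith⟩, ?_⟩
  rw [circSum_half, t2, cis_add, (div_eq_iff hw0).1 e, hw]
  push_cast
  ring

end Crest.Agent.R040

end
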