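import Crest.Agent.R040.BasM
import Crest.Agent.R040.CircSum

/-! # Row 40, Step 2: at most two colours are unseen -/

set_option autoImplicit false

open MeasureTheory Filter Topology Set Metric
open scoped Real

noncomputable section

namespace Crest.Agent.R040

theorem two_sigma (θ x : ℝ) : ∃ x' γ : ℝ, cis x + cis x' = cis γ ∧ 3 / 4 ≤ |Real.sin (x - x')| ∧
    1 / 2 ≤ |Real.sin (θ - γ)| := by
  have h3 : (3 / 4 : ℝ) ≤ √3 / 2 := by
    have : (3 / 2 : ℝ) ≤ √3 := Real.le_sqrt_of_sq_le (by norm_num)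
    linarith
  have hs : Real.sin (2 * π / 3) = √3 / 2 := by
    rw [show 2 * π / 3 = π - π / 3 by ring, Real.sin_pi_sub, Real.sin_pi_div_three]
  by_cases h : 1 / 2 ≤ |Real.sin (θ - (x + π / 3))|
  · refine ⟨x + 2 * π / 3, x + π / 3, ?_, ?_, h⟩
    · rw [← cis_hex (x + π / 3), add_comm (cis x)]
      congr 2 <;> ring
    · rw [show x - (x + 2 * π / 3) = -(2 * π / 3) by ring, Real.sin_neg, abs_neg, hs]
      exact h3.trans (le_abs_self _)
  · refine ⟨x - 2 * π / 3, x - π / 3, ?_, ?_, ?_⟩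
    · rw [← cis_hex (x - π / 3)]
      congr 2 <;> ring
    · rw [show x - (x - 2 * π / 3) = 2 * π / 3 by ring, hs]
      exact h3.trans (le_abs_self _)
    · by_contra h'
      rw [not_le, abs_lt] at h h'
      rw [show θ - (x + π / 3) = (θ - x) - π / 3 by ring, Real.sin_sub, Real.sin_pi_div_three,
        Real.cos_pi_div_three] at h
      rw [show θ - (x - π / 3) = (θ - x) + π / 3 by ring, Real.sin_add, Real.sin_pi_div_three,
        Real.cos_pi_div_three] at h'
      have e1 := Real.sin_sq_add_cos_sq (θ - x)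
      have e2 : √3 ^ 2 = 3 := Real.sq_sqrt (by norm_num)
      have e3 : (Real.cos (θ - x) * √3) ^ 2 = 3 * Real.cos (θ - x) ^ 2 := by
        rw [mul_pow, e2]; ring
      have a1 := mul_pos (sub_pos.2 h.1) (sub_pos.2 h.2)
      have a2 := mul_pos (sub_pos.2 h'.1) (sub_pos.2 h'.2)
      nlinarith [sq_nonneg (Real.cos (θ - x))]

theorem two_split {A B : Set ℝ} (hA : MeasurableSet A) (h : ∀ᵐ α : ℝ, α ∈ B ↔ α ∉ A) (x : ℝ)
    {s : ℝ} (hs : 0 ≤ s) :
    volume.real (A ∩ Ioc (x - s) (x + s)) + volume.real (B ∩ Ioc (x - s) (x + s)) = 2 * s := by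
  have e : (B ∩ Ioc (x - s) (x + s) : Set ℝ) =ᵐ[volume] (Ioc (x - s) (x + s) \ A : Set ℝ) := by
    filter_upwards [h] with α hα
    refine propext ⟨fun g => ⟨g.2, hα.1 g.1⟩, fun g => ⟨hα.2 g.2, g.1⟩⟩
  rw [measureReal_congr e, inter_comm, measureReal_inter_add_sdiff hA (by simp), Real.volume_real_Ioc,
    max_eq_left (by linarith)]
  ring

theorem two_half {A : Set ℝ} (hA : MeasurableSet A) {t : ℝ} (h : ∀ᵐ α : ℝ, α + t ∈ A ↔ α ∉ A)
    {s : ℝ} (hs : 0 ≤ s) : ∃ x : ℝ, volume.real (A ∩ Ioc (x - s) (x + s)) = s := by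
  set g : ℝ → ℝ := A.indicator fun _ => (1 : ℝ) with hg
  have hi : ∀ a b, IntervalIntegrable g volume a b := fun a b =>
    ⟨((intervalIntegrable_const (c := (1 : ℝ)) (a := a) (b := b)).1).indicator hA,
      ((intervalIntegrable_const (c := (1 : ℝ)) (a := a) (b := b)).2).indicator hA⟩
  have e : ∀ x, volume.real (A ∩ Ioc (x - s) (x + s)) =
      (∫ u in (0 : ℝ)..(x + s), g u) - ∫ u in (0 : ℝ)..(x - s), g u := fun x => by
    rw [intervalIntegral.integral_interval_sub_left (hi _ _) (hi _ _),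
      intervalIntegral.integral_of_le (by linarith), hg, integral_indicator_const _ hA,
      measureReal_restrict_apply hA]
    simp
  have hc : Continuous fun x => volume.real (A ∩ Ioc (x - s) (x + s)) := by
    simp only [e]
    have := intervalIntegral.continuous_primitive hi 0
    exact (this.comp (continuous_add_const s)).sub (this.comp (continuous_sub_right s))
  have e2 : volume.real (A ∩ Ioc (0 - s) (0 + s)) + volume.real (A ∩ Ioc (t - s) (t + s)) =
      2 * s := by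
    rw [← two_split (B := (fun α => α + t) ⁻¹' A) hA h 0 hs]
    congr 1
    rw [Measure.real, Measure.real,
      ← measure_preimage_add_right volume t (A ∩ Ioc (t - s) (t + s))]
    congr 2
    ext α
    simp only [mem_preimage, mem_inter_iff, mem_Ioc]
    constructor <;> rintro ⟨a1, a2, a3⟩ <;> exact ⟨a1, by linarith, by linarith⟩
  rcases le_total (volume.real (A ∩ Ioc (0 - s) (0 + s))) s with h1 | h1
  · exact intermediate_value_univ 0 t hc ⟨h1, by linarith⟩
  · exact intermediate_value_univ t 0 hc ⟨by linarith, h1⟩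

theorem two_image {T : Set (ℝ × ℝ)} (hT : MeasurableSet T) (v : ℂ) :
    volume ((fun p : ℝ × ℝ => v + cis p.1 + cis p.2) '' T) ≤ volume T := by
  refine le_trans (le_of_eq ?_) (sum_image_le hT)
  rw [← measure_preimage_add volume v]
  congr 1
  ext z
  simp only [mem_preimage, mem_image, add_assoc, add_right_inj]

theorem two_main (c : MCol) (v : ℂ) {a b : Fin 5} (hab : a ≠ b) :
    ∀ᵐ θ : ℝ, ¬ ∀ᵐ γ : ℝ, v + cis θ + cis γ ∈ c.D a ∪ c.D b := by
  set Z := c.D a ∪ c.D b with hZdef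
  have hZ : MeasurableSet Z := (c.meas a).union (c.meas b)
  have hF : Measurable fun p : ℝ × ℝ => v + cis p.1 + cis p.2 :=
    ((continuous_const.add (continuous_cis.comp continuous_fst)).add
      (continuous_cis.comp continuous_snd)).measurable
  set E : Set ℝ := {θ | ∀ᵐ γ : ℝ, v + cis θ + cis γ ∈ Z} with hEdef
  have hE : MeasurableSet E :=
    measurable_measure_prodMk_left (ν := (volume : Measure ℝ)) (hF hZ.compl)
      (measurableSet_singleton 0)
  have hT0m : MeasurableSet {p : ℝ × ℝ | p.1 ∈ E ∧ v + cis p.1 + cis p.2 ∉ Z} :=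
    (measurable_fst hE).inter (hF hZ.compl)
  have hT0 : volume {p : ℝ × ℝ | p.1 ∈ E ∧ v + cis p.1 + cis p.2 ∉ Z} = 0 := by
    rw [Measure.volume_eq_prod, Measure.measure_prod_null hT0m]
    refine Eventually.of_forall fun θ => ?_
    by_cases hθ : θ ∈ E
    · exact measure_mono_null (fun γ hγ => hγ.2) hθ
    · exact measure_mono_null (fun γ hγ => (hθ hγ.1).elim) measure_empty
  obtain ⟨C, s₀, hC, hs₀, hinv⟩ := sum_inv (c := 1 / 2) (by norm_num)
  filter_upwards [ae_dens hE] with θ₁ hθ hmem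
  have hd := hθ hmem
  set ε : ℝ := 1 / (200 * C ^ 2) with hε
  have hε0 : 0 < ε := by positivity
  -- the scale
  obtain ⟨s, hs0, hs1, hs2, hs3⟩ : ∃ s : ℝ, 0 < s ∧ s ≤ 1 / 10 ∧ 2 * s ≤ s₀ ∧
      1 - ε < volume.real (E ∩ Ioo (θ₁ - 3 * C * s) (θ₁ + 3 * C * s)) / (2 * (3 * C * s)) := by
    have t1 : Tendsto (fun s : ℝ => 3 * C * s) (𝓝[>] 0) (𝓝[>] 0) := by
      refine tendsto_nhdsWithin_iff.2 ⟨?_, ?_⟩
      · have : Tendsto (fun s : ℝ => 3 * C * s) (𝓝 0) (𝓝 (3 * C * 0)) :=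
          (continuous_const.mul continuous_id).tendsto 0
        rw [mul_zero] at this
        exact this.mono_left nhdsWithin_le_nhds
      · filter_upwards [self_mem_nhdsWithin] with s hs
        have : 0 < s := hs
        change 0 < 3 * C * s
        positivity
    have t2 := (hd.comp t1).eventually (lt_mem_nhds (show 1 - ε < 1 by linarith))
    have t3 : ∀ᶠ s : ℝ in 𝓝[>] 0, s < min (1 / 10) (s₀ / 2) :=
      nhdsWithin_le_nhds (gt_mem_nhds (lt_min (by norm_num) (by linarith)))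
    obtain ⟨s, h1, h2, h3⟩ := (t2.and (t3.and self_mem_nhdsWithin)).exists
    rw [lt_min_iff] at h2
    exact ⟨s, h3, h2.1.le, by linarith [h2.2], h1⟩
  set t := 3 * C * s with ht
  have ht0 : 0 < t := by positivity
  have hsmall : volume.real (Ioo (θ₁ - t) (θ₁ + t) \ E) ≤ 2 * t * ε := by
    have := measureReal_inter_add_sdiff (μ := volume) (s := Ioo (θ₁ - t) (θ₁ + t)) hE (by simp)
    rw [Real.volume_real_Ioo, max_eq_left (by linarith), inter_comm] at this
    rw [lt_div_iff₀ (by positivity)] at hs3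
    nlinarith
  -- the two colours on the circle
  set y := v + cis θ₁ with hy
  have hy' : Measurable fun α : ℝ => y + cis α := (continuous_const.add continuous_cis).measurable
  set A : Set ℝ := {α | y + cis α ∈ c.D a} with hAdef
  set B : Set ℝ := {α | y + cis α ∈ c.D b} with hBdef
  have hA : MeasurableSet A := hy' (c.meas a)
  have hB : MeasurableSet B := hy' (c.meas b)
  have hdis : ∀ z, z ∈ c.D a → z ∈ c.D b → False := fun z h1 h2 =>
    Set.disjoint_left.1 (c.disj a b hab) h1 h2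
  have hBA : ∀ᵐ α : ℝ, α ∈ B ↔ α ∉ A := by
    filter_upwards [hmem] with α hα
    exact ⟨fun h1 h2 => hdis _ h2 h1, fun h1 => hα.resolve_left h1⟩
  have hAA : ∀ᵐ α : ℝ, α + π / 3 ∈ A ↔ α ∉ A := by
    filter_upwards [hmem, ae_shift hmem (π / 3)] with α h1 h2
    have hn : ‖(y + cis α) - (y + cis (α + π / 3))‖ = 1 := by
      rw [add_sub_add_left_eq_sub, norm_cis_sub_hex]
    refine ⟨fun g1 g2 => c.avoid a _ g2 _ g1 hn, fun g1 => ?_⟩
    exact h2.resolve_right fun g2 => c.avoid b _ (h1.resolve_left g1) _ g2 hn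
  obtain ⟨x, hx⟩ := two_half hA hAA hs0.le
  have hx2 : volume.real (B ∩ Ioc (x - s) (x + s)) = s := by
    linarith [two_split hA hBA x hs0.le]
  obtain ⟨x', γ₀, g1, g2, g3⟩ := two_sigma θ₁ x
  -- the bad set near `y + cis γ₀`
  set S : Set ℂ := Zᶜ ∩ closedBall (y + cis γ₀) (2 * s) with hSdef
  have hS : MeasurableSet S := hZ.compl.inter measurableSet_closedBall
  have hSle : volume S ≤ ENNReal.ofReal (2 * t * ε) * ENNReal.ofReal (2 * t) := by
    have hT1 : MeasurableSet ((Ioo (θ₁ - t) (θ₁ + t) \ E) ×ˢ Ioo (γ₀ - t) (γ₀ + t)) :=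
      (measurableSet_Ioo.diff hE).prod measurableSet_Ioo
    have hsub : S ⊆ (fun p : ℝ × ℝ => v + cis p.1 + cis p.2) ''
        ({p : ℝ × ℝ | p.1 ∈ E ∧ v + cis p.1 + cis p.2 ∉ Z} ∪
          (Ioo (θ₁ - t) (θ₁ + t) \ E) ×ˢ Ioo (γ₀ - t) (γ₀ + t)) := by
      rintro z ⟨z1, z2⟩
      obtain ⟨θ', γ', k1, k2, k3⟩ := hinv θ₁ γ₀ (2 * s) (z - v) g3 hs2 (by
        rw [mem_closedBall, dist_eq_norm] at z2
        rwa [show z - v - (cis θ₁ + cis γ₀) = z - (y + cis γ₀) by rw [hy]; ring])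
      have k4 : v + cis θ' + cis γ' = z := by rw [add_assoc, ← k3]; ring
      have k5 : C * (2 * s) < t := by rw [ht]; nlinarith [mul_pos hC hs0]
      rw [abs_le] at k1 k2
      refine ⟨(θ', γ'), ?_, k4⟩
      by_cases hθ' : θ' ∈ E
      · exact Or.inl ⟨hθ', by rw [k4]; exact z1⟩
      · exact Or.inr ⟨⟨⟨by linarith [k1.1], by linarith [k1.2]⟩, hθ'⟩,
          by linarith [k2.1], by linarith [k2.2]⟩
    refine (measure_mono hsub).trans ((two_image (hT0m.union hT1) v).trans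
      ((measure_union_le _ _).trans ?_))
    rw [hT0, zero_add, Measure.volume_eq_prod, Measure.prod_prod, Real.volume_Ioo,
      show γ₀ + t - (γ₀ - t) = 2 * t by ring]
    gcongr
    rw [← ofReal_measureReal (measure_ne_top_of_subset sdiff_subset (by simp))]
    exact ENNReal.ofReal_le_ofReal hsmall
  -- pairs of different colours
  have key : ∀ P P' : Set ℝ, s ≤ volume.real (P ∩ Ioc (x - s) (x + s)) →
      s ≤ volume.real (P' ∩ Ioc (x' - s) (x' + s)) →
      (∀ α ∈ P, ∀ α' ∈ P', y + cis α + cis α' ∉ Z) → False := by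
    intro P P' p1 p2 hP
    have hpre := sum_pre_le hS y (x - π) (x' - π) (c := 1 / 2) (by norm_num)
    have hsub : (P ∩ Ioc (x - s) (x + s)) ×ˢ (P' ∩ Ioc (x' - s) (x' + s)) ⊆
        {p : ℝ × ℝ | p.1 ∈ Ioc (x - π) (x - π + 2 * π) ∧ p.2 ∈ Ioc (x' - π) (x' - π + 2 * π) ∧
          1 / 2 ≤ |Real.sin (p.1 - p.2)| ∧ y + cis p.1 + cis p.2 ∈ S} := by
      rintro ⟨α, α'⟩ ⟨⟨q1, q2, q3⟩, q4, q5, q6⟩
      simp only at q1 q2 q3 q4 q5 q6
      have := Real.pi_gt_three
      refine ⟨⟨by linarith, by linarith⟩, ⟨by linarith, by linarith⟩, ?_, hP α q1 α' q4, ?_⟩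
      · have r1 := Real.abs_sin_sub_sin_le (x - x') (α - α')
        have r2 : |x - x' - (α - α')| ≤ 2 * s := abs_le.2 ⟨by linarith, by linarith⟩
        have r3 := abs_sub_abs_le_abs_sub (Real.sin (x - x')) (Real.sin (α - α'))
        change 1 / 2 ≤ |Real.sin (α - α')|
        linarith
      · rw [mem_closedBall, dist_eq_norm, ← g1]
        have r1 := norm_cis_sub α x
        have r2 := norm_cis_sub α' x'
        have r3 : |α - x| ≤ s := abs_le.2 ⟨by linarith, by linarith⟩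
        have r4 : |α' - x'| ≤ s := abs_le.2 ⟨by linarith, by linarith⟩
        have r5 := norm_add_le (cis α - cis x) (cis α' - cis x')
        rw [show y + cis α + cis α' - (y + (cis x + cis x')) =
          cis α - cis x + (cis α' - cis x') by ring]
        linarith
    have h1 : ENNReal.ofReal s * ENNReal.ofReal s ≤
        volume ((P ∩ Ioc (x - s) (x + s)) ×ˢ (P' ∩ Ioc (x' - s) (x' + s))) := by
      rw [Measure.volume_eq_prod, Measure.prod_prod]
      exact mul_le_mul' (ENNReal.ofReal_le_of_le_toReal p1) (ENNReal.ofReal_le_of_le_toReal p2)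
    have h2 := h1.trans ((measure_mono hsub).trans (hpre.trans (mul_le_mul_right hSle _)))
    rw [← ENNReal.ofReal_mul hs0.le, ← ENNReal.ofReal_mul (by positivity),
      ← ENNReal.ofReal_mul (by norm_num), ENNReal.ofReal_le_ofReal_iff (by positivity)] at h2
    have h3 : 2 / (1 / 2) * (2 * t * ε * (2 * t)) = 144 / 200 * (s * s) := by
      rw [ht, hε]; field_simp; ring
    rw [h3] at h2
    nlinarith [mul_pos hs0 hs0]
  have n1 : ∀ α α' : ℝ, ‖(y + cis α + cis α') - (y + cis α)‖ = 1 := fun α α' => by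
    rw [add_sub_cancel_left, norm_cis]
  have n2 : ∀ α α' : ℝ, ‖(y + cis α + cis α') - (y + cis α')‖ = 1 := fun α α' => by
    rw [show y + cis α + cis α' - (y + cis α') = cis α by ring, norm_cis]
  rcases le_total s (volume.real (A ∩ Ioc (x' - s) (x' + s))) with h | h
  · refine key B A hx2.ge h fun α q1 α' q2 q3 => ?_
    exact q3.elim (fun q => c.avoid a _ q _ q2 (n2 α α')) (fun q => c.avoid b _ q _ q1 (n1 α α'))
  · refine key A B hx.ge (by linarith [two_split hA hBA x' hs0.le]) fun α q1 α' q2 q3 => ?_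
    exact q3.elim (fun q => c.avoid a _ q _ q1 (n1 α α')) (fun q => c.avoid b _ q _ q2 (n2 α α'))

/-- Fix `a ≠ b` and let `E = {θ | ∀ k ∉ {a,b}, N (v + cis θ) k}` have positive measure; `θ₁ ∈ E` a density point whose circle around `y = v + cis θ₁` is a.e. coloured (`ae_sum_notMem`); `Z = D a ∪ D b`.  `φ(α)` = colour of `y + cis α`, in `{a, b}` a.e., and
`φ(α + π/3) ≠ φ(α)`.  For any `α₀` choose `σ = ±1` with `|sin(θ₁ - γ₀)| ≥ 1/2`, `γ₀ = α₀ + σπ/3`, `α₀' = α₀ + 2σπ/3` (`cis_hex`).  By `sum_inv`, `ball (y + cis γ₀) (2s)` lies in the image of `(θ₁ ± 2Cs) × (γ₀ ± 2Cs)`, so `Zᶜ` has measure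
`≤ |(θ₁ ± 2Cs) \ E| · 4Cs = o(s²)` there (`sum_image_le`, `sum_image_null`), uniformly in `α₀`.  By `sum_pre_le` (`c = 1/2`) all but `o(s²)` pairs `(α, α') ∈ (α₀ ± s) × (α₀' ± s)` have `y + cis α + cis α' ∈ Z`, hence `φ α = φ α'`.  With `q(α₀)` the proportion of
colour `a` in `(α₀ ± s)`: `q(1 - q') + (1 - q)q'` is small, so `q ∉ [1/4, 3/4]`; `q` is continuous and `q(α₀ + π/3) = 1 - q(α₀)`: intermediate value theorem. -/
theorem MCol.two (c : MCol) (v : ℂ) : ∀ᵐ θ : ℝ, ∀ i j k, i ≠ j → i ≠ k → j ≠ k →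
    c.N (v + cis θ) i → c.N (v + cis θ) j → c.N (v + cis θ) k → False := by
  have h0 : ∀ᵐ θ : ℝ, ∀ᵐ γ : ℝ, ∃ i, v + cis θ + cis γ ∈ c.D i := by
    have := ae_sum_notMem (Z := {z | ¬ ∃ i, z ∈ c.D i}) c.cover v
    rw [Measure.volume_eq_prod] at this
    filter_upwards [Measure.ae_ae_of_ae_prod this] with θ hθ
    filter_upwards [hθ] with γ hγ
    exact not_not.1 hγ
  have h1 : ∀ᵐ θ : ℝ, ∀ a b : Fin 5, a ≠ b →
      ¬ ∀ᵐ γ : ℝ, v + cis θ + cis γ ∈ c.D a ∪ c.D b := by
    refine ae_all_iff.2 fun a => ae_all_iff.2 fun b => ?_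
    by_cases hab : a = b
    · exact Eventually.of_forall fun θ h => absurd hab h
    · filter_upwards [two_main c v hab] with θ hθ _ using hθ
  have h2 : ∀ i j k : Fin 5, i ≠ j → i ≠ k → j ≠ k →
      ∃ a b : Fin 5, a ≠ b ∧ ∀ l, l = i ∨ l = j ∨ l = k ∨ l = a ∨ l = b := by decide
  filter_upwards [h0, h1] with θ g0 g1 i j k hij hik hjk ni nj nk
  obtain ⟨a, b, hab, hall⟩ := h2 i j k hij hik hjk
  refine g1 a b hab ?_
  filter_upwards [g0, ni, nj, nk] with γ ⟨l, hl⟩ mi mj mk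
  rcases hall l with rfl | rfl | rfl | rfl | rfl
  · exact absurd hl mi
  · exact absurd hl mj
  · exact absurd hl mk
  · exact Or.inl hl
  · exact Or.inr hl

end Crest.Agent.R040

end
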