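import Crest.Agent.R040.Ann
import Crest.Agent.R040.Pert
import Crest.Agent.R040.Two

/-! # Row 40, Step 2: absent colours -/

set_option autoImplicit false

open MeasureTheory Filter Topology Set Metric
open scoped Real

noncomputable section

namespace Crest.Agent.R040

namespace MCol

variable {c : MCol}

theorem absl_mono {S T : Set ℝ} (h : ∀ᵐ θ : ℝ, θ ∈ S → θ ∈ T) (hT : volume T ≠ ⊤) :
    volume.real S ≤ volume.real T :=
  ENNReal.toReal_mono hT (measure_mono_ae h)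

theorem absl_fin {S : Set ℝ} {a b : ℝ} (h : S ⊆ Ioc a b) : volume S ≠ ⊤ :=
  measure_ne_top_of_subset h measure_Ioc_lt_top.ne

theorem absl_fin' {S : Set ℝ} {a b : ℝ} (h : S ⊆ Ioo a b) : volume S ≠ ⊤ :=
  absl_fin (h.trans Ioo_subset_Ioc_self)

theorem absl_le2 {S A B : Set ℝ} (h : ∀ᵐ θ : ℝ, θ ∈ S → θ ∈ A ∨ θ ∈ B) (hA : volume A ≠ ⊤)
    (hB : volume B ≠ ⊤) : volume.real S ≤ volume.real A + volume.real B :=
  (absl_mono (T := A ∪ B) h (measure_union_ne_top hA hB)).trans (measureReal_union_le _ _)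

theorem absl_le3 {S A B C : Set ℝ} (h : ∀ᵐ θ : ℝ, θ ∈ S → θ ∈ A ∨ θ ∈ B ∨ θ ∈ C)
    (hA : volume A ≠ ⊤) (hB : volume B ≠ ⊤) (hC : volume C ≠ ⊤) :
    volume.real S ≤ volume.real A + volume.real B + volume.real C := by
  have h1 := absl_le2 (S := S) (A := A) (B := B ∪ C) h hA (measure_union_ne_top hB hC)
  have h2 := measureReal_union_le (μ := volume) B C
  linarith

/-- the estimate in `Abs` with a given half-length `s` -/
def AbslS (c : MCol) (v : ℂ) (k : Fin 5) (t s : ℝ) : Prop :=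
  ∀ ε > (0 : ℝ), ∃ δ > (0 : ℝ), ∀ x : ℂ, ‖x - v‖ < δ →
    volume.real {θ | θ ∈ Ioo (t - s) (t + s) ∧ x + cis θ ∈ c.D k} < ε

theorem AbslS.mono {v : ℂ} {k : Fin 5} {t s t' s' : ℝ} (h : c.AbslS v k t s)
    (hs : Ioo (t' - s') (t' + s') ⊆ Ioo (t - s) (t + s)) : c.AbslS v k t' s' := by
  intro ε hε
  obtain ⟨δ, hδ, H⟩ := h ε hε
  refine ⟨δ, hδ, fun x hx => lt_of_le_of_lt ?_ (H x hx)⟩
  exact measureReal_mono (fun θ hθ => ⟨hs hθ.1, hθ.2⟩) (absl_fin' fun θ hθ => hθ.1)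

/-- the directions near `t` whose circle sees every colour but `d`, `e`, `j` -/
def abslI (c : MCol) (v : ℂ) (d e j : Fin 5) (t s : ℝ) : Set ℝ :=
  {θ | θ ∈ Ioo (t - s) (t + s) ∧ ∀ l, c.N (v + cis θ) l → l = d ∨ l = e ∨ l = j}

theorem absl_meas (c : MCol) (v : ℂ) (d e j : Fin 5) (t s : ℝ) :
    MeasurableSet (c.abslI v d e j t s) := by
  have : c.abslI v d e j t s = Ioo (t - s) (t + s) ∩
      ⋂ l, ({θ | c.N (v + cis θ) l}ᶜ ∪ {_θ | l = d ∨ l = e ∨ l = j}) := by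
    ext θ
    simp only [abslI, mem_ofPred_eq, mem_inter_iff, mem_iInter, mem_union, mem_compl_iff,
      imp_iff_not_or]
  rw [this]
  exact measurableSet_Ioo.inter (MeasurableSet.iInter fun l =>
    (c.measurableSet_N_cis v l).compl.union (MeasurableSet.const _))

/-- for a good point `x ∈ D j` near `v` the points `x + cis θ`, `θ ∈ I_j`, are mostly in `D e` -/
theorem absl_good {v : ℂ} {d j : Fin 5} (e : Fin 5) {t s : ℝ} (hj : c.P v j) (hd : c.AbslS v d t s)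
    {ε δ : ℝ} (hε : 0 < ε) (hδ : 0 < δ) : ∃ x ∈ c.D j, ‖x - v‖ < δ ∧
      volume.real {θ | θ ∈ c.abslI v d e j t s ∧ x + cis θ ∉ c.D e} < ε := by
  obtain ⟨δ₁, hδ₁, H₁⟩ := c.ann v (t - s) (t + s) (half_pos hε)
  obtain ⟨δ₂, hδ₂, H₂⟩ := hd _ (half_pos hε)
  obtain ⟨x, hxj, hx, hcov⟩ := c.exists_good hj (lt_min hδ (lt_min hδ₁ hδ₂))
  rw [lt_min_iff, lt_min_iff] at hx
  refine ⟨x, hxj, hx.1, ?_⟩
  have h1 := H₁ x hx.2.1
  have h2 := H₂ x hx.2.2
  refine lt_of_le_of_lt (absl_le2 ?_ (absl_fin fun θ hθ => hθ.1) (absl_fin' fun θ hθ => hθ.1))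
    ((add_lt_add h1 h2).trans_eq (add_halves ε))
  filter_upwards [hcov] with θ ⟨k, hk⟩ ⟨⟨hI, hN⟩, he⟩
  by_cases hNk : c.N (v + cis θ) k
  · rcases hN k hNk with rfl | rfl | rfl
    · exact Or.inr ⟨hI, hk⟩
    · exact absurd hk he
    · exact absurd hk (c.N_of_mem hxj θ)
  · exact Or.inl ⟨Ioo_subset_Ioc_self hI, k, hk, hNk⟩

theorem absl_null {v : ℂ} {d e j : Fin 5} {t s : ℝ} (hj : c.P v j) (hd : c.AbslS v d t s)
    (he : c.AbslS v e t s) : volume.real (c.abslI v d e j t s) = 0 := by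
  refine le_antisymm (le_of_forall_pos_le_add fun ε hε => ?_) measureReal_nonneg
  obtain ⟨δ, hδ, H⟩ := he _ (half_pos hε)
  obtain ⟨x, -, hx, h1⟩ := absl_good e hj hd (half_pos hε) hδ
  have h2 := H x hx
  rw [zero_add]
  refine le_trans (absl_le2 (Eventually.of_forall fun θ hθ => ?_)
    (absl_fin' fun θ hθ => hθ.1.1) (absl_fin' fun θ hθ => hθ.1))
    ((add_lt_add h1 h2).trans_eq (add_halves ε)).le
  by_cases h : x + cis θ ∈ c.D e
  · exact Or.inr ⟨hθ.1, h⟩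
  · exact Or.inl ⟨hθ, h⟩

theorem TriHyp.absl_cover {v : ℂ} {a b g d e : Fin 5} (h : c.TriHyp v a b g d e) (t s : ℝ) :
    ∀ᵐ θ : ℝ, θ ∈ Ioo (t - s) (t + s) →
      θ ∈ c.abslI v d e a t s ∨ θ ∈ c.abslI v d e b t s ∨ θ ∈ c.abslI v d e g t s := by
  filter_upwards [h.de, c.two v] with θ hde htwo hI
  by_cases hex : ∃ l, c.N (v + cis θ) l ∧ l ≠ d ∧ l ≠ e
  · obtain ⟨l, hl, hld, hle⟩ := hex
    have key : θ ∈ c.abslI v d e l t s := by
      refine ⟨hI, fun l' hl' => ?_⟩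
      by_contra hcon
      push Not at hcon
      rcases hde with hN | hN
      · exact htwo l l' d (Ne.symm hcon.2.2) hld hcon.1 hl hl' hN
      · exact htwo l l' e (Ne.symm hcon.2.2) hle hcon.2.1 hl hl' hN
    rcases h.all l with rfl | rfl | rfl | rfl | rfl
    · exact Or.inl key
    · exact Or.inr (Or.inl key)
    · exact Or.inr (Or.inr key)
    · exact absurd rfl hld
    · exact absurd rfl hle
  · refine Or.inl ⟨hI, fun l hl => ?_⟩
    by_contra hcon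
    push Not at hcon
    exact hex ⟨l, hl, hcon.1, hcon.2.1⟩

theorem absl_stepj {v : ℂ} {d j : Fin 5} (e : Fin 5) {t s : ℝ} (hj : c.P v j)
    (hd : c.AbslS v d t s) {ε : ℝ} (hε : 0 < ε) : ∃ δ > (0 : ℝ), ∀ x : ℂ, ‖x - v‖ < δ →
      volume.real {θ | θ + -1 * (π / 3) ∈ c.abslI v d e j t s ∧ x + cis θ ∈ c.D e} < ε := by
  have hfin : volume (c.abslI v d e j t s) ≠ ⊤ := absl_fin' fun θ hθ => hθ.1
  obtain ⟨η, hη, H₁⟩ := pert_measure (c.absl_meas v d e j t s) hfin (half_pos hε)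
  obtain ⟨δ, hδ, H₂⟩ := exists_pert (-1) (Or.inr rfl) hη
  obtain ⟨y, -, hy, hZ⟩ := absl_good e hj hd (show 0 < ε / 4 by positivity) (half_pos hδ)
  refine ⟨δ / 2, half_pos hδ, fun x hx => ?_⟩
  have hxy : ‖x - y‖ < δ := by
    have := norm_sub_le_norm_sub_add_norm_sub x v y
    rw [norm_sub_rev v y] at this
    linarith
  obtain ⟨g, -, hg1, hg2, hg3⟩ := H₂ _ hxy
  obtain ⟨Z, hZd⟩ : ∃ Z, Z = {θ | θ ∈ c.abslI v d e j t s ∧ y + cis θ ∉ c.D e} := ⟨_, rfl⟩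
  rw [← hZd] at hZ
  have hZfin : volume Z ≠ ⊤ := by
    rw [hZd]; exact absl_fin' fun θ hθ => hθ.1.1
  have hZ2 : 2 * volume Z ≠ ⊤ := ENNReal.mul_ne_top (by norm_num) hZfin
  have h1 := H₁ g _ hg1 hg3
  have h2 : volume.real (g ⁻¹' Z) ≤ 2 * volume.real Z := by
    have := ENNReal.toReal_mono hZ2 (hg3 Z)
    rwa [ENNReal.toReal_mul, ENNReal.toReal_ofNat] at this
  have h3 : volume {θ | θ + -1 * (π / 3) ∈ c.abslI v d e j t s ∧ g θ ∉ c.abslI v d e j t s} ≠ ⊤ := by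
    refine absl_fin' (a := t - s + π / 3) (b := t + s + π / 3) fun θ hθ => ?_
    have := hθ.1.1
    constructor <;> linarith [this.1, this.2]
  refine lt_of_le_of_lt (absl_le2 (Eventually.of_forall fun θ hθ => ?_) h3
    (ne_top_of_le_ne_top hZ2 (hg3 Z))) (by linarith)
  by_cases hI : g θ ∈ c.abslI v d e j t s
  · right
    rw [hZd]
    refine ⟨hI, fun hmem => c.avoid e _ hθ.2 _ hmem ?_⟩
    rw [← hg2 θ]
    congr 1
    ring
  · exact Or.inl ⟨hθ.1, hI⟩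

theorem TriHyp.swap {v : ℂ} {a b g d e : Fin 5} (h : c.TriHyp v a b g d e) : c.TriHyp v a b g e d := by
  refine ⟨fun k => ?_, h.pa, h.pb, h.pg, h.de.mono fun θ hθ => hθ.symm⟩
  have := h.all k
  tauto

theorem isOpen_abs (c : MCol) (v : ℂ) (k : Fin 5) : IsOpen {t | c.Abs v k t} := by
  rw [Metric.isOpen_iff]
  rintro t ⟨s, hs, H⟩
  refine ⟨s / 2, half_pos hs, fun t' ht' => ⟨s / 2, half_pos hs, AbslS.mono (c := c) H ?_⟩⟩
  rw [mem_ball, Real.dist_eq, abs_lt] at ht'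
  exact Ioo_subset_Ioo (by linarith [ht'.1]) (by linarith [ht'.2])

theorem abs_periodic {v : ℂ} {k : Fin 5} {t : ℝ} : c.Abs v k (t + 2 * π) ↔ c.Abs v k t := by
  have key : ∀ (s : ℝ) (x : ℂ),
      volume.real {θ | θ ∈ Ioo (t + 2 * π - s) (t + 2 * π + s) ∧ x + cis θ ∈ c.D k} =
        volume.real {θ | θ ∈ Ioo (t - s) (t + s) ∧ x + cis θ ∈ c.D k} := by
    intro s x
    have : {θ | θ ∈ Ioo (t - s) (t + s) ∧ x + cis θ ∈ c.D k} = (fun θ => θ + 2 * π) ⁻¹'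
        {θ | θ ∈ Ioo (t + 2 * π - s) (t + 2 * π + s) ∧ x + cis θ ∈ c.D k} := by
      ext θ
      simp only [mem_ofPred_eq, mem_preimage, mem_Ioo, cis_add_two_pi]
      constructor <;> rintro ⟨⟨h1, h2⟩, h3⟩ <;> exact ⟨⟨by linarith, by linarith⟩, h3⟩
    rw [this, Measure.real, Measure.real, measure_preimage_add_right]
  simp only [Abs, key]

theorem abs_of_not_P {v : ℂ} {k : Fin 5} {t : ℝ} (h : ¬ c.P (v + cis t) k) : c.Abs v k t := by
  obtain ⟨δ, hδ, H, -⟩ := c.not_P h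
  refine ⟨δ, hδ, fun ε hε => ⟨δ, hδ, fun x hx => ?_⟩⟩
  have : {θ | θ ∈ Ioo (t - δ) (t + δ) ∧ x + cis θ ∈ c.D k} = ∅ := by
    refine eq_empty_of_forall_notMem fun θ hθ => H _ ?_ hθ.2
    have h1 := norm_cis_sub θ t
    have h2 : |θ - t| < δ := abs_lt.2 ⟨by linarith [hθ.1.1], by linarith [hθ.1.2]⟩
    have h3 := norm_add_le (x - v) (cis θ - cis t)
    rw [show x - v + (cis θ - cis t) = x + cis θ - (v + cis t) by ring] at h3
    linarith
  rw [this, measureReal_empty]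
  exact hε

/-- `ann` -/
theorem abs_of_null {v : ℂ} {k : Fin 5} {t s : ℝ} (hs : 0 < s)
    (h : volume ({α | c.N (v + cis α) k} ∩ Ioo (t - s) (t + s)) = 0) : c.Abs v k t := by
  refine ⟨s, hs, fun ε hε => ?_⟩
  obtain ⟨δ, hδ, H⟩ := c.ann v (t - s) (t + s) hε
  refine ⟨δ, hδ, fun x hx => lt_of_le_of_lt (absl_mono ?_ (absl_fin fun θ hθ => hθ.1)) (H x hx)⟩
  filter_upwards [measure_eq_zero_iff_ae_notMem.1 h] with θ hθ ⟨hI, hk⟩
  exact ⟨Ioo_subset_Ioc_self hI, k, hk, fun hN => hθ ⟨hN, hI⟩⟩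

/-- `I_j = {θ ∈ I | N ⊆ {d, e, j}}`, `j ∈ {a, b, g}`, cover `I` a.e. (`two`, `de`).  For a good `x ∈ D j` near `v` the colours `x + cis θ`, `θ ∈ I_j`, are mostly `d` or `e` (`ann`). -/
theorem TriHyp.not_both {v : ℂ} {a b g d e : Fin 5} (h : c.TriHyp v a b g d e) {t : ℝ}
    (hd : c.Abs v d t) (he : c.Abs v e t) : False := by
  obtain ⟨s₁, hs₁, H₁⟩ := hd
  obtain ⟨s₂, hs₂, H₂⟩ := he
  have hs : 0 < min s₁ s₂ := lt_min hs₁ hs₂
  have hd' : c.AbslS v d t (min s₁ s₂) := AbslS.mono (c := c) H₁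
    (Ioo_subset_Ioo (by linarith [min_le_left s₁ s₂]) (by linarith [min_le_left s₁ s₂]))
  have he' : c.AbslS v e t (min s₁ s₂) := AbslS.mono (c := c) H₂
    (Ioo_subset_Ioo (by linarith [min_le_right s₁ s₂]) (by linarith [min_le_right s₁ s₂]))
  have h1 := absl_le3 (h.absl_cover t (min s₁ s₂)) (absl_fin' fun θ hθ => hθ.1)
    (absl_fin' fun θ hθ => hθ.1) (absl_fin' fun θ hθ => hθ.1)
  rw [absl_null h.pa hd' he', absl_null h.pb hd' he', absl_null h.pg hd' he',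
    Real.volume_real_Ioo_of_le (by linarith)] at h1
  linarith

/-- where `¬ N e`, `N ⊆ {d, j}` for some `j ∈ {a, b, g}`, so the real colours are mostly `d` -/
theorem TriHyp.ae_N {v : ℂ} {a b g d e : Fin 5} (h : c.TriHyp v a b g d e) {t : ℝ} (hd : c.Abs v d t) :
    ∃ s > (0 : ℝ), ∀ᵐ θ : ℝ, θ ∈ Ioo (t - s) (t + s) → c.N (v + cis θ) e := by
  obtain ⟨s, hs, H⟩ := hd
  refine ⟨s, hs, ?_⟩
  have hn : ∀ j, c.P v j → ∀ᵐ θ : ℝ, θ ∉ c.abslI v d d j t s := fun j hj => by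
    rw [← measure_eq_zero_iff_ae_notMem]
    exact (measureReal_eq_zero_iff (absl_fin' fun θ hθ => hθ.1)).1 (absl_null hj H H)
  filter_upwards [h.absl_cover t s, hn a h.pa, hn b h.pb, hn g h.pg] with θ hc ha hb hg hI
  by_contra hne
  have key : ∀ j, θ ∈ c.abslI v d e j t s → θ ∈ c.abslI v d d j t s := fun j hj =>
    ⟨hI, fun l hl => by
      rcases hj.2 l hl with h1 | rfl | h1
      · exact Or.inl h1
      · exact absurd hl hne
      · exact Or.inr (Or.inr h1)⟩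
  rcases hc hI with h1 | h1 | h1
  · exact ha (key _ h1)
  · exact hb (key _ h1)
  · exact hg (key _ h1)

/-- for good `x_j ∈ D j` the points `x_j + cis θ`, `θ ∈ I_j`, are mostly in `D e`; for arbitrary `x` near `v` use `exists_pert` with `σ = -1`, `d = x - x_j`, and `pert_measure` for `I_j` -/
theorem TriHyp.step {v : ℂ} {a b g d e : Fin 5} (h : c.TriHyp v a b g d e) {t : ℝ} (hd : c.Abs v d t) :
    c.Abs v e (t + π / 3) := by
  obtain ⟨s, hs, H⟩ := hd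
  refine ⟨s, hs, fun ε hε => ?_⟩
  have hε3 : 0 < ε / 3 := by positivity
  obtain ⟨δ₁, hδ₁, H₁⟩ := absl_stepj e h.pa H hε3
  obtain ⟨δ₂, hδ₂, H₂⟩ := absl_stepj e h.pb H hε3
  obtain ⟨δ₃, hδ₃, H₃⟩ := absl_stepj e h.pg H hε3
  refine ⟨min δ₁ (min δ₂ δ₃), lt_min hδ₁ (lt_min hδ₂ hδ₃), fun x hx => ?_⟩
  rw [lt_min_iff, lt_min_iff] at hx
  have h1 := H₁ x hx.1
  have h2 := H₂ x hx.2.1
  have h3 := H₃ x hx.2.2
  have hfin : ∀ j, volume {θ | θ + -1 * (π / 3) ∈ c.abslI v d e j t s ∧ x + cis θ ∈ c.D e} ≠ ⊤ :=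
    fun j => by
      refine absl_fin' (a := t - s + π / 3) (b := t + s + π / 3) fun θ hθ => ?_
      have := hθ.1.1
      constructor <;> linarith [this.1, this.2]
  refine lt_of_le_of_lt (absl_le3 ?_ (hfin a) (hfin b) (hfin g)) (by linarith)
  filter_upwards [ae_shift (h.absl_cover t s) (-1 * (π / 3))] with θ hc ⟨hI, he⟩
  rcases hc ⟨by linarith [hI.1], by linarith [hI.2]⟩ with h1 | h1 | h1
  · exact Or.inl ⟨h1, he⟩
  · exact Or.inr (Or.inl ⟨h1, he⟩)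
  · exact Or.inr (Or.inr ⟨h1, he⟩)

end MCol

end Crest.Agent.R040

end
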