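import Crest.Agent.R040.BasM
import Crest.Agent.R040.CircSum

/-! # Row 40, Step 2: real circles near the virtual circle -/

set_option autoImplicit false

open MeasureTheory Filter Topology Set Metric
open scoped Real

noncomputable section

namespace Crest.Agent.R040

theorem ann_meas (x : ℂ) : Measurable fun p : ℝ × ℝ => x + cis p.1 + cis p.2 :=
  ((continuous_const.add (continuous_cis.comp continuous_fst)).add
    (continuous_cis.comp continuous_snd)).measurable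

theorem ann_N (c : MCol) {y : ℂ} {k : Fin 5}
    (h : volume {γ : ℝ | γ ∈ Ioc 0 (0 + 2 * π) ∧ y + cis γ ∈ c.D k} = 0) : c.N y k := by
  have h1 : ∀ᵐ γ : ℝ, ¬ (γ ∈ Ioc 0 (0 + 2 * π) ∧ y + cis γ ∈ c.D k) := by
    rw [ae_iff]
    simpa only [not_not] using h
  have hp : Function.Periodic cis (2 * π) := cis_add_two_pi
  have h2 : ∀ᵐ γ : ℝ, ∀ n : ℤ, ¬ (γ + -(n • (2 * π)) ∈ Ioc 0 (0 + 2 * π) ∧
      y + cis (γ + -(n • (2 * π))) ∈ c.D k) :=
    ae_all_iff.2 fun n => ae_shift h1 _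
  filter_upwards [h2] with γ hγ hmem
  refine hγ (toIocDiv Real.two_pi_pos 0 γ) ⟨?_, ?_⟩
  · rw [← sub_eq_add_neg]
    exact sub_toIocDiv_zsmul_mem_Ioc Real.two_pi_pos 0 γ
  · rwa [← sub_eq_add_neg, hp.sub_zsmul_eq]

theorem ann_one (c : MCol) (v : ℂ) (a : ℝ) (k : Fin 5) :
    Tendsto (fun x : ℂ => volume {θ | θ ∈ Ioc a (a + 2 * π) ∧ x + cis θ ∈ c.D k ∧
      ¬ c.N (v + cis θ) k}) (𝓝 v) (𝓝 0) := by
  set m : ℝ → ENNReal := fun θ =>
    volume {γ : ℝ | γ ∈ Ioc 0 (0 + 2 * π) ∧ v + cis θ + cis γ ∈ c.D k} with hm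
  have hmm : Measurable m := by
    have : MeasurableSet {p : ℝ × ℝ | p.2 ∈ Ioc 0 (0 + 2 * π) ∧ v + cis p.1 + cis p.2 ∈ c.D k} :=
      (measurable_snd measurableSet_Ioc).inter (ann_meas v (c.meas k))
    exact measurable_measure_prodMk_left this
  set A : ℕ → Set ℝ := fun n => {θ | θ ∈ Ioc a (a + 2 * π) ∧ m θ ≠ 0 ∧ m θ < (n : ENNReal)⁻¹}
    with hA
  have hAt : Tendsto (fun n => volume (A n)) atTop (𝓝 0) := by
    have h0 : (⋂ n, A n) = ∅ := by
      refine eq_empty_of_forall_notMem fun θ hθ => ?_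
      rw [mem_iInter] at hθ
      obtain ⟨n, hn⟩ := ENNReal.exists_inv_nat_lt (hθ 0).2.1
      exact lt_asymm hn (hθ n).2.2
    have := tendsto_measure_iInter_atTop (μ := (volume : Measure ℝ)) (s := A)
      (fun n => (measurableSet_Ioc.inter ((hmm (measurableSet_singleton 0).compl).inter
        (hmm measurableSet_Iio))).nullMeasurableSet)
      (fun i j hij θ hθ => ⟨hθ.1, hθ.2.1, hθ.2.2.trans_le
        (ENNReal.inv_le_inv.2 (by exact_mod_cast hij))⟩)
      ⟨0, ne_top_of_le_ne_top measure_Ioc_lt_top.ne (measure_mono fun θ hθ => hθ.1)⟩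
    rwa [h0, measure_empty] at this
  rw [ENNReal.tendsto_nhds_zero] at hAt ⊢
  intro ε hε
  by_cases hε' : ε = ⊤
  · simp [hε']
  have hε2 : 0 < ε / 2 := ENNReal.half_pos hε.ne'
  obtain ⟨n, hn1, hn⟩ := ((eventually_ge_atTop 1).and (hAt _ hε2)).exists
  have hτ0 : (n : ENNReal)⁻¹ ≠ 0 := by simp
  have hτt : (n : ENNReal)⁻¹ ≠ ⊤ := by simp; omega
  set τ := (n : ENNReal)⁻¹ with hτ
  have hne : τ * (ε / 2) ≠ ⊤ := ENNReal.mul_ne_top hτt (ENNReal.div_ne_top hε' (by simp))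
  obtain ⟨δ, hδ, h⟩ := sum_translate (c.meas k) v a 0 (ε := (τ * (ε / 2)).toReal)
    (ENNReal.toReal_pos (mul_ne_zero hτ0 hε2.ne') hne)
  filter_upwards [ball_mem_nhds v hδ] with x hx
  have hx' := h x (by rwa [mem_ball_iff_norm] at hx)
  set T := {p : ℝ × ℝ | p.1 ∈ Ioc a (a + 2 * π) ∧ p.2 ∈ Ioc 0 (0 + 2 * π) ∧
    ¬ (x + cis p.1 + cis p.2 ∈ c.D k ↔ v + cis p.1 + cis p.2 ∈ c.D k)} with hT
  have hTm : MeasurableSet T :=
    (measurable_fst measurableSet_Ioc).inter ((measurable_snd measurableSet_Ioc).inter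
      ((ann_meas x (c.meas k)).iff (ann_meas v (c.meas k))).compl)
  have hTf : volume T ≠ ⊤ := by
    refine ne_top_of_le_ne_top (b := volume (Ioc a (a + 2 * π) ×ˢ Ioc (0 : ℝ) (0 + 2 * π))) ?_
      (measure_mono fun p hp => ⟨hp.1, hp.2.1⟩)
    rw [Measure.volume_eq_prod, Measure.prod_prod]
    exact ENNReal.mul_ne_top measure_Ioc_lt_top.ne measure_Ioc_lt_top.ne
  have hTl : volume T ≤ τ * (ε / 2) := ((ENNReal.toReal_lt_toReal hTf hne).1 hx').le
  have hB : volume {θ : ℝ | τ ≤ volume (Prod.mk θ ⁻¹' T)} ≤ ε / 2 := by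
    have := mul_meas_ge_le_lintegral₀ (μ := (volume : Measure ℝ))
      (measurable_measure_prodMk_left (ν := (volume : Measure ℝ)) hTm).aemeasurable τ
    rw [← Measure.prod_apply hTm, ← Measure.volume_eq_prod] at this
    exact (ENNReal.mul_le_mul_iff_right hτ0 hτt).1 (this.trans hTl)
  calc _ ≤ volume (A n ∪ {θ : ℝ | τ ≤ volume (Prod.mk θ ⁻¹' T)}) := by
        refine measure_mono fun θ hθ => ?_
        by_cases hlt : m θ < τ
        · exact Or.inl ⟨hθ.1, fun h0 => hθ.2.2 (ann_N c h0), hlt⟩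
        · refine Or.inr ((not_lt.1 hlt).trans (measure_mono fun γ hγ => ?_))
          exact ⟨hθ.1, hγ.1, fun hi => c.N_of_mem hθ.2.1 γ (hi.2 hγ.2)⟩
    _ ≤ ε / 2 + ε / 2 := (measure_union_le _ _).trans (add_le_add hn hB)
    _ = ε := ENNReal.add_halves ε

/-- If `x + cis θ ∈ D k` then the circle around it avoids `D k` (`N_of_mem`), while `m_k(θ) = |{γ ∈ Ioc 0 2π | v + cis θ + cis γ ∈ D k}| > 0` when `¬ N` (periodicity).  `{0 < m_k < τ}` has small measure for small `τ`; on `{m_k ≥ τ}` Fubini and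
`sum_translate` bound `τ` times the measure of the bad set.  Intervals longer than `2π`: cover by finitely many period intervals. -/
theorem MCol.ann (c : MCol) (v : ℂ) (a b : ℝ) {ε : ℝ} (hε : 0 < ε) : ∃ δ > (0 : ℝ), ∀ x : ℂ, ‖x - v‖ < δ →
    volume.real {θ | θ ∈ Ioc a b ∧ ∃ k, x + cis θ ∈ c.D k ∧ ¬ c.N (v + cis θ) k} < ε := by
  obtain ⟨M, hM⟩ := exists_nat_ge ((b - a) / (2 * π))
  rw [div_le_iff₀ Real.two_pi_pos] at hM
  have h1 : Tendsto (fun x : ℂ => ∑ j ∈ Finset.range M, ∑ k : Fin 5,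
      volume {θ | θ ∈ Ioc (a + j * (2 * π)) (a + j * (2 * π) + 2 * π) ∧ x + cis θ ∈ c.D k ∧
        ¬ c.N (v + cis θ) k}) (𝓝 v) (𝓝 0) := by
    simpa using tendsto_finset_sum (Finset.range M) fun j _ =>
      tendsto_finset_sum Finset.univ fun k _ => ann_one c v (a + j * (2 * π)) k
  have h2 : Tendsto (fun x : ℂ =>
      volume {θ | θ ∈ Ioc a b ∧ ∃ k, x + cis θ ∈ c.D k ∧ ¬ c.N (v + cis θ) k}) (𝓝 v) (𝓝 0) := by
    refine tendsto_of_tendsto_of_tendsto_of_le_of_le tendsto_const_nhds h1 (fun _ => bot_le)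
      fun x => ?_
    refine le_trans (measure_mono ?_) ((measure_biUnion_finset_le _ _).trans
      (Finset.sum_le_sum fun j _ => measure_iUnion_fintype_le _ _))
    rintro θ ⟨hθ, k, hk⟩
    have h0 : 0 < (θ - a) / (2 * π) := div_pos (sub_pos.2 hθ.1) Real.two_pi_pos
    have hc : 1 ≤ ⌈(θ - a) / (2 * π)⌉₊ := Nat.ceil_pos.2 h0
    obtain ⟨j, hj⟩ : ∃ j, ⌈(θ - a) / (2 * π)⌉₊ = j + 1 := ⟨_, (Nat.sub_add_cancel hc).symm⟩
    have hj' := (Nat.ceil_eq_iff (by omega)).1 hj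
    simp only [Nat.add_sub_cancel, Nat.cast_add, Nat.cast_one] at hj'
    rw [lt_div_iff₀ Real.two_pi_pos, div_le_iff₀ Real.two_pi_pos] at hj'
    have hjM : j < M := by
      have : (j : ℝ) * (2 * π) < M * (2 * π) := by linarith [hθ.2, hj'.1]
      exact_mod_cast lt_of_mul_lt_mul_right this Real.two_pi_pos.le
    simp only [mem_iUnion, Finset.mem_range]
    exact ⟨j, hjM, k, ⟨by linarith [hj'.1], by linarith [hj'.2]⟩, hk⟩
  have h3 := (ENNReal.tendsto_toReal ENNReal.zero_ne_top).comp h2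
  obtain ⟨δ, hδ, h⟩ := Metric.eventually_nhds_iff.1 (h3.eventually (gt_mem_nhds (by simpa using hε)))
  exact ⟨δ, hδ, fun x hx => h (by rwa [dist_eq_norm])⟩

/-- lists: Fubini with the two angles exchanged -/
theorem MCol.ae_list (c : MCol) (v : ℂ) : ∀ᵐ α : ℝ, ∀ᵐ β : ℝ, (∃ k, v + cis α + cis β ∈ c.D k) ∧
    ∀ k, c.N (v + cis β) k → v + cis α + cis β ∉ c.D k := by
  have h1 : ∀ᵐ α : ℝ, ∀ᵐ β : ℝ, ∃ k, v + cis α + cis β ∈ c.D k := by
    have := ae_sum_notMem (ae_iff.1 c.cover) v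
    rw [Measure.volume_eq_prod] at this
    filter_upwards [Measure.ae_ae_of_ae_prod this] with α hα
    filter_upwards [hα] with β hβ
    simpa using hβ
  have h2 : ∀ k, ∀ᵐ α : ℝ, ∀ᵐ β : ℝ, c.N (v + cis β) k → v + cis α + cis β ∉ c.D k := by
    intro k
    refine (Measure.ae_ae_comm (p := fun α β => c.N (v + cis β) k → v + cis α + cis β ∉ c.D k)
      ((measurable_snd (c.measurableSet_N_cis v k)).imp (ann_meas v (c.meas k)).compl)).2
      (Eventually.of_forall fun β => ?_)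
    by_cases h : c.N (v + cis β) k
    · filter_upwards [h] with α hα _
      rwa [add_right_comm]
    · exact Eventually.of_forall fun α h' => (h h').elim
  filter_upwards [h1, ae_all_iff.2 h2] with α ha hb
  filter_upwards [ha, ae_all_iff.2 hb] with β h h'
  exact ⟨h, h'⟩

end Crest.Agent.R040

end
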