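import Crest.Agent.R040.Defs1

/-! # Row 40, Step 1: arithmetic of `Λ₅` -/

set_option autoImplicit false

open MeasureTheory Filter Topology Set

noncomputable section

namespace Crest.Agent.R040

theorem arith_iK_sq : iK ^ 2 = -1 := Subtype.ext (by simp)

theorem arith_cj_add (x y : K) : cj (x + y) = cj x + cj y := Subtype.ext (by simp)

theorem arith_cj_mul (x y : K) : cj (x * y) = cj x * cj y := Subtype.ext (by simp)

theorem piK_mul_pibK : piK * pibK = 5 := by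
  unfold piK pibK
  linear_combination -arith_iK_sq

theorem arith_piK_ne : piK ≠ 0 := left_ne_zero_of_mul (b := pibK) (by rw [piK_mul_pibK]; norm_num)

theorem arith_pibK_ne : pibK ≠ 0 := right_ne_zero_of_mul (a := piK) (by rw [piK_mul_pibK]; norm_num)

theorem norm_piK : ‖piK‖ = √5 := by
  have : (piK : ℂ) = 2 + Complex.I := rfl
  rw [norm_K, this, Complex.norm_def, Complex.normSq_apply]
  norm_num

theorem norm_pibK : ‖pibK‖ = √5 := by
  have : (pibK : ℂ) = 2 - Complex.I := rfl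
  rw [norm_K, this, Complex.norm_def, Complex.normSq_apply]
  norm_num

theorem norm_u0 : ‖u0‖ = 1 := by
  rw [u0, norm_div, norm_piK, norm_pibK, div_self (by positivity)]

theorem lam5_of_isIntegral {z : K} (h : IsIntegral ℤ z) : z ∈ Lam5 :=
  ⟨1, by norm_num, by simpa using h⟩

theorem arith_int (c : ℤ) : IsIntegral ℤ (c : K) := isIntegral_algebraMap (x := c)

theorem arith_not_dvd {c d : ℤ} (hc : ¬ (5 : ℤ) ∣ c) (hd : ¬ (5 : ℤ) ∣ d) : ¬ (5 : ℤ) ∣ c * d :=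
  fun h => (Int.prime_iff_natAbs_prime.2 (by norm_num) : Prime (5 : ℤ)).dvd_or_dvd h |>.elim hc hd

theorem lam5_add {x y : K} (hx : x ∈ Lam5) (hy : y ∈ Lam5) : x + y ∈ Lam5 := by
  obtain ⟨c, hc, hx⟩ := hx
  obtain ⟨d, hd, hy⟩ := hy
  refine ⟨c * d, arith_not_dvd hc hd, ?_⟩
  rw [show ((c * d : ℤ) : K) * (x + y) = d * (c * x) + c * (d * y) by push_cast; ring]
  exact ((arith_int d).mul hx).add ((arith_int c).mul hy)

theorem lam5_mul {x y : K} (hx : x ∈ Lam5) (hy : y ∈ Lam5) : x * y ∈ Lam5 := by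
  obtain ⟨c, hc, hx⟩ := hx
  obtain ⟨d, hd, hy⟩ := hy
  refine ⟨c * d, arith_not_dvd hc hd, ?_⟩
  rw [show ((c * d : ℤ) : K) * (x * y) = c * x * (d * y) by push_cast; ring]
  exact hx.mul hy

theorem lam5_neg {x : K} (hx : x ∈ Lam5) : -x ∈ Lam5 := by
  obtain ⟨c, hc, hx⟩ := hx
  exact ⟨c, hc, by rw [mul_neg]; exact hx.neg⟩

theorem lam5_cj {x : K} (hx : x ∈ Lam5) : cj x ∈ Lam5 := by
  obtain ⟨c, hc, hx⟩ := hx
  refine ⟨c, hc, ?_⟩
  let φ : K →+* K :=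
    { toFun := cj
      map_one' := Subtype.ext (by simp)
      map_zero' := Subtype.ext (by simp)
      map_add' := arith_cj_add
      map_mul' := arith_cj_mul }
  have := map_isIntegral_int φ hx
  rwa [map_mul, map_intCast] at this

/-- `Λ₅` as a subring -/
def arithL : Subring K where
  carrier := Lam5
  one_mem' := lam5_of_isIntegral isIntegral_one
  zero_mem' := lam5_of_isIntegral isIntegral_zero
  add_mem' := lam5_add
  mul_mem' := lam5_mul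
  neg_mem' := lam5_neg

theorem arith_mem {x : K} : x ∈ Lam5 ↔ x ∈ arithL := Iff.rfl

theorem arith_iK : iK ∈ arithL :=
  lam5_of_isIntegral (IsIntegral.of_pow two_pos (by rw [arith_iK_sq]; exact isIntegral_one.neg))

theorem arith_two : (2 : K) ∈ arithL := ofNat_mem _ 2

theorem arith_five : (5 : K) ∈ arithL := ofNat_mem _ 5

theorem arith_piK : piK ∈ arithL := add_mem arith_two arith_iK

theorem arith_pibK : pibK ∈ arithL := sub_mem arith_two arith_iK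

theorem arith_congr {x y : K} (hx : x ∈ arithL) (h : y = x) : y ∈ Lam5 := h ▸ hx

theorem lam5_gauss (a b : ℤ) : (a : K) + (b : K) * iK ∈ Lam5 :=
  arith_mem.2 (add_mem (intCast_mem _ a) (mul_mem (intCast_mem _ b) arith_iK))

theorem lam5_inv_int {c : ℤ} (hc : ¬ (5 : ℤ) ∣ c) : (c : K)⁻¹ ∈ Lam5 := by
  have h0 : (c : K) ≠ 0 := by
    rw [Ne, Int.cast_eq_zero]
    rintro rfl
    exact hc (dvd_zero _)
  exact ⟨c, hc, by rw [mul_inv_cancel₀ h0]; exact isIntegral_one⟩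

theorem arith_half : (2 : K)⁻¹ ∈ arithL := by
  simpa [arith_mem] using lam5_inv_int (c := 2) (by norm_num)

/-- `c x = y` integral, root of a monic `p ∈ ℤ[X]` of degree `d`; `s = c + 5y` is a root of the monic integer polynomial `5^d p((X - c)/5)` (or: `s` is integral and `∑ p_k 5^{d-k} (s - c)^k = 0`),
whose constant term is `≡ (-c)^d mod 5`; so that constant term is `s` times an integral element. -/
theorem lam5_inv {x : K} (hx : x ∈ Lam5) : 1 + 5 * x ≠ 0 ∧ (1 + 5 * x)⁻¹ ∈ Lam5 := by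
  obtain ⟨c, hc, hx⟩ := hx
  let y : integralClosure ℤ K := ⟨c * x, hx⟩
  have hp : (Ideal.span {(5 : ℤ)}).IsPrime :=
    (Ideal.span_singleton_prime (by norm_num)).2 (Int.prime_iff_natAbs_prime.2 (by norm_num))
  have key : ¬ (Ideal.span {(c : integralClosure ℤ K) + 5 * y}).comap
      (algebraMap ℤ (integralClosure ℤ K)) ≤ Ideal.span {(5 : ℤ)} := by
    intro hle
    obtain ⟨Q, hQ, -, hQc⟩ := Ideal.exists_ideal_over_prime_of_isIntegral _ _ hle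
    have h5 : (5 : integralClosure ℤ K) ∈ Q := by
      have : (5 : ℤ) ∈ Q.comap (algebraMap ℤ (integralClosure ℤ K)) :=
        hQc ▸ Ideal.mem_span_singleton_self _
      simpa using this
    have h1 := Q.sub_mem (hQ (Ideal.mem_span_singleton_self _)) (Q.mul_mem_right y h5)
    rw [add_sub_cancel_right] at h1
    have : c ∈ Q.comap (algebraMap ℤ (integralClosure ℤ K)) := by simpa using h1
    rw [hQc, Ideal.mem_span_singleton] at this
    exact hc this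
  obtain ⟨N, hN, hN5⟩ := SetLike.not_le_iff_exists.1 key
  rw [Ideal.mem_span_singleton] at hN5
  obtain ⟨t, ht⟩ := Ideal.mem_span_singleton.1 (Ideal.mem_comap.1 hN)
  have e : (N : K) = (1 + 5 * x) * (c * t) := by
    have := congrArg (fun a : integralClosure ℤ K => (a : K)) ht
    simp only [eq_intCast, SubringClass.coe_intCast, MulMemClass.coe_mul, AddMemClass.coe_add,
      y] at this
    rw [this, show ((5 : integralClosure ℤ K) : K) = 5 from rfl]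
    ring
  have h0 : 1 + 5 * x ≠ 0 := by
    intro h
    rw [h, zero_mul, Int.cast_eq_zero] at e
    exact hN5 (e ▸ dvd_zero _)
  refine ⟨h0, N, hN5, ?_⟩
  rw [e, mul_comm, inv_mul_cancel_left₀ h0]
  exact (arith_int c).mul t.2

theorem lam5_of_sq {t : K} (h : t ^ 2 ∈ Lam5) : t ∈ Lam5 := by
  obtain ⟨c, hc, h⟩ := h
  refine ⟨c, hc, IsIntegral.of_pow two_pos ?_⟩
  rw [show ((c : K) * t) ^ 2 = c * (c * t ^ 2) by ring]
  exact (arith_int c).mul h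

/-- an algebraic number has a nonzero integer multiple that is integral (`IsAlgebraic.exists_integral_multiple`); split off the power of `5` -/
theorem exists_pow_lam5 (z : K) : ∃ s : ℕ, 5 ^ s * z ∈ Lam5 := by
  have h : IsAlgebraic ℤ z :=
    (IsFractionRing.isAlgebraic_iff ℤ ℚ K).2 
      (IntermediateField.isAlgebraic_iff.2 (mem_algebraicClosure_iff.1 z.2))
  obtain ⟨y, hy, h⟩ := h.exists_integral_multiple
  obtain ⟨s, c, hc, rfl⟩ := WfDvdMonoid.max_power_factor hy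
    (Int.prime_iff_natAbs_prime.2 (by norm_num) : Prime (5 : ℤ)).irreducible
  refine ⟨s, c, hc, ?_⟩
  convert h using 1
  rw [zsmul_eq_mul]
  push_cast
  ring

theorem arith_dense (w : ℂ) {δ : ℝ} (hδ : 0 < δ) : ∃ t : K, t ∈ Lam5 ∧ ‖(t : ℂ) - w‖ < δ := by
  obtain ⟨k, hk⟩ := exists_pow_lt_of_lt_one (half_pos hδ) (by norm_num : (2 : ℝ)⁻¹ < 1)
  have h2 : (0 : ℝ) < 2 ^ k := by positivity
  have hf : ∀ u : ℝ, |(⌊u * 2 ^ k⌋ : ℝ) * 2⁻¹ ^ k - u| ≤ 2⁻¹ ^ k := by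
    intro u
    have a := Int.floor_le (u * 2 ^ k)
    have b := Int.lt_floor_add_one (u * 2 ^ k)
    rw [inv_pow, show (⌊u * 2 ^ k⌋ : ℝ) * (2 ^ k)⁻¹ - u = (⌊u * 2 ^ k⌋ - u * 2 ^ k) * (2 ^ k)⁻¹ by
      field_simp, abs_mul, abs_of_pos (inv_pos.2 h2)]
    exact mul_le_of_le_one_left (inv_pos.2 h2).le (abs_le.2 ⟨by linarith, by linarith⟩)
  refine ⟨((⌊w.re * 2 ^ k⌋ : K) + (⌊w.im * 2 ^ k⌋ : K) * iK) * 2⁻¹ ^ k,
    lam5_mul (lam5_gauss _ _) (pow_mem arith_half k), ?_⟩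
  have e : ((((⌊w.re * 2 ^ k⌋ : K) + (⌊w.im * 2 ^ k⌋ : K) * iK) * 2⁻¹ ^ k : K) : ℂ) - w =
      ((⌊w.re * 2 ^ k⌋ : ℝ) * 2⁻¹ ^ k - w.re : ℝ) +
        ((⌊w.im * 2 ^ k⌋ : ℝ) * 2⁻¹ ^ k - w.im : ℝ) * Complex.I := by
    have : ((2 : K) : ℂ) = 2 := rfl
    push_cast
    rw [this, coe_iK]
    linear_combination Complex.re_add_im w
  rw [e]
  refine (norm_add_le _ _).trans_lt ?_
  rw [norm_mul, Complex.norm_I, mul_one, Complex.norm_real, Complex.norm_real, Real.norm_eq_abs,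
    Real.norm_eq_abs]
  linarith [hf w.re, hf w.im]

/-- Gaussian integers times `5^M / 2^k` are dense -/
theorem lam5_dense (a : K) (ha : a ≠ 0) (M : ℕ) (z : ℂ) (ε : ℝ) (hε : 0 < ε) :
    ∃ y : K, y / a / 5 ^ M ∈ Lam5 ∧ ‖(y : ℂ) - z‖ < ε := by
  have hb : a * 5 ^ M ≠ 0 := mul_ne_zero ha (by norm_num)
  have hb' : ((a * 5 ^ M : K) : ℂ) ≠ 0 := fun h => hb (Subtype.ext h)
  have hn : 0 < ‖((a * 5 ^ M : K) : ℂ)‖ := norm_pos_iff.2 hb'
  obtain ⟨t, ht, h⟩ := arith_dense (z / (a * 5 ^ M : K)) (div_pos hε hn)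
  refine ⟨a * 5 ^ M * t, arith_congr ht (by field_simp), ?_⟩
  rw [lt_div_iff₀ hn, ← norm_mul, sub_mul, div_mul_cancel₀ _ hb', mul_comm] at h
  exact h

theorem deep_anti : Antitone deep := by
  rintro n n' h z ⟨k, hk⟩
  obtain ⟨d, rfl⟩ := Nat.exists_eq_add_of_le h
  refine ⟨k, arith_congr (mul_mem (arith_mem.1 hk) (pow_mem arith_piK d)) ?_⟩
  have := arith_piK_ne
  field_simp
  ring

theorem deep_of_lam5 {z : K} {n : ℕ} (h : z / 5 ^ n ∈ Lam5) : z ∈ deep n := by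
  refine ⟨0, arith_congr (mul_mem (arith_mem.1 h) (pow_mem arith_pibK n)) ?_⟩
  have := arith_piK_ne
  have := arith_pibK_ne
  rw [← piK_mul_pibK, mul_pow]
  field_simp

theorem deep_mul (v : K) : ∃ s : ℕ, ∀ (n : ℕ) (z : K), z ∈ deep (n + s) → v * z ∈ deep n := by
  obtain ⟨s, hs⟩ := exists_pow_lam5 v
  refine ⟨s, fun n z ⟨k, hk⟩ => ⟨k + s, arith_congr (mul_mem (arith_mem.1 hs) (arith_mem.1 hk)) ?_⟩⟩
  have := arith_piK_ne
  rw [← piK_mul_pibK, mul_pow]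
  field_simp
  ring

theorem arith_sqrt {x : K} {r : ℝ} (hx : (x : ℂ) = r) (hr : 0 ≤ r) :
    ∃ t : K, (t : ℂ) = (√r : ℝ) ∧ t ^ 2 = x := by
  obtain ⟨t, ht⟩ := IsAlgClosed.exists_pow_nat_eq x two_pos
  have h : (t : ℂ) ^ 2 = ((√r : ℝ) : ℂ) ^ 2 := by
    rw [← Complex.ofReal_pow, Real.sq_sqrt hr, ← hx, ← ht]
    rfl
  rcases sq_eq_sq_iff_eq_or_eq_neg.1 h with h | h
  · exact ⟨t, h, ht⟩
  · exact ⟨-t, by rw [← neg_neg ((√r : ℝ) : ℂ), ← h]; rfl, by rw [neg_sq, ht]⟩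

/-- unit vectors congruent to one -/
def arithG (m : ℕ) (v : K) : Prop := ‖v‖ = 1 ∧ (v - 1) / 5 ^ m ∈ Lam5

theorem arithG_mul {m : ℕ} {v w : K} (hv : arithG m v) (hw : arithG m w) : arithG m (v * w) := by
  refine ⟨by rw [norm_mul, hv.1, hw.1, one_mul], arith_congr (add_mem (add_mem
    (mul_mem (mul_mem (arith_mem.1 hv.2) (arith_mem.1 hw.2)) (pow_mem arith_five m))
    (arith_mem.1 hv.2)) (arith_mem.1 hw.2)) ?_⟩
  field_simp
  ring

theorem arith_cayley {m : ℕ} {t : K} {ρ : ℝ} (ht : (t : ℂ) = ρ) (h : t / 5 ^ (m + 1) ∈ Lam5) :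
    1 - iK * t ≠ 0 ∧ arithG m ((1 + iK * t) / (1 - iK * t)) := by
  have h1 := lam5_inv (arith_mem.2
    (neg_mem (mul_mem (mul_mem arith_iK (arith_mem.1 h)) (pow_mem arith_five m))))
  rw [show 1 + 5 * -(iK * (t / 5 ^ (m + 1)) * 5 ^ m) = 1 - iK * t by field_simp; ring] at h1
  refine ⟨h1.1, ?_, arith_congr (mul_mem (mul_mem (mul_mem (mul_mem arith_two arith_iK)
    (arith_mem.1 h)) arith_five) (arith_mem.1 h1.2)) ?_⟩
  · have e : ‖1 + iK * t‖ = ‖1 - iK * t‖ := by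
      rw [norm_K, norm_K, ← Complex.norm_conj]
      push_cast
      rw [ht, coe_iK]
      simp [sub_eq_add_neg]
    rw [norm_div, e, div_self (norm_ne_zero_iff.2 h1.1)]
  · have := h1.1
    field_simp
    ring

theorem arith_two_terms_pos {m : ℕ} {x : K} {ρ : ℝ} (hx : (x : ℂ) = ρ) (h0 : 0 ≤ ρ) (h4 : ρ < 4)
    (h : x / 5 ^ (2 * (m + 1)) ∈ Lam5) :
    ∃ v w, arithG m v ∧ arithG m w ∧ -x = (v - 1) + (w - 1) := by
  have h1 := lam5_inv (arith_mem.2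
    (sub_mem (mul_mem (arith_mem.1 h) (pow_mem arith_five (2 * m + 1))) (one_mem arithL)))
  rw [show 1 + 5 * (x / 5 ^ (2 * (m + 1)) * 5 ^ (2 * m + 1) - 1) = -(4 - x) by field_simp; ring]
    at h1
  have h2 : 4 - x ≠ 0 := neg_ne_zero.1 h1.1
  obtain ⟨t, ht, ht2⟩ := arith_sqrt (x := x / (4 - x)) (r := ρ / (4 - ρ)) (by
    have : ((4 : K) : ℂ) = 4 := rfl
    push_cast
    rw [hx, this]) (div_nonneg h0 (by linarith))
  have h3 : t / 5 ^ (m + 1) ∈ Lam5 := by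
    refine lam5_of_sq (arith_congr (neg_mem (mul_mem (arith_mem.1 h) (arith_mem.1 h1.2))) ?_)
    rw [div_pow, ht2]
    field_simp
    ring
  obtain ⟨a1, a2⟩ := arith_cayley ht h3
  obtain ⟨b1, b2⟩ := arith_cayley (t := -t) (ρ := -√(ρ / (4 - ρ))) (by push_cast; rw [ht])
    (by rw [neg_div]; exact lam5_neg h3)
  refine ⟨_, _, a2, b2, ?_⟩
  have e : t ^ 2 * (4 - x) = x := by rw [ht2]; field_simp
  simp only [mul_neg, sub_neg_eq_add] at b1 ⊢
  field_simp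
  linear_combination e + (t ^ 2 * (x - 4)) * arith_iK_sq

theorem arith_two_terms {m : ℕ} {x : K} {ρ : ℝ} (hx : (x : ℂ) = ρ) (h4 : |ρ| < 4)
    (h : x / 5 ^ (2 * (m + 1)) ∈ Lam5) : ∃ (v w : K) (s : ℤ), arithG m v ∧ arithG m w ∧
      (s = 1 ∨ s = -1) ∧ x = s * ((v - 1) + (w - 1)) := by
  rw [abs_lt] at h4
  rcases le_total 0 ρ with h0 | h0
  · obtain ⟨v, w, hv, hw, e⟩ := arith_two_terms_pos hx h0 h4.2 h
    exact ⟨v, w, -1, hv, hw, Or.inr rfl, by rw [← e]; simp⟩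
  · obtain ⟨v, w, hv, hw, e⟩ := arith_two_terms_pos (m := m) (x := -x) (ρ := -ρ)
      (by push_cast; rw [hx]) (by linarith) (by linarith) (by rw [neg_div]; exact lam5_neg h)
    exact ⟨v, w, 1, hv, hw, Or.inl rfl, by rw [← e]; simp⟩

/-- For real `x ∈ 5^{2m'}Λ₅` (`m' = m + 1`), `0 ≤ x < 4`: `t² = x/(4 - x)`, `t` real, `t ∈ 5^{m'}Λ₅` (`4 - x = -(1 + 5 y)` with `y = x/5 - 1`; `lam5_inv`, `lam5_of_sq`), `v₁ = (1 + it)/(1 - it)` has modulus one, `v₁ - 1 = 2it/(1 - it)`, and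
`-x = (v₁ - 1) + (v̄₁ - 1)`.  With the fixed `v = (1 + i 5^{m'})/(1 - i 5^{m'})`: `-x v = (v₁ v - 1) + (v̄₁ v - 1) - (v - 1) - (v - 1)`.  Write `z = x₁ + x₂ v` with real
`x₂ = Im z (1 + 5^{2m'})/(2·5^{m'})`, `x₁ = Re z - x₂ Re v`; `M = 3m'`; for negative `x` change all signs. -/
theorem six_terms (m : ℕ) : ∃ (M : ℕ) (r : ℝ), 0 < r ∧ ∀ z : K, z / 5 ^ M ∈ Lam5 → ‖z‖ < r →
    ∃ (v : Fin 6 → K) (s : Fin 6 → ℤ), (∀ i, ‖v i‖ = 1 ∧ (v i - 1) / 5 ^ m ∈ Lam5 ∧ (s i = 1 ∨ s i = -1)) ∧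
      z = ∑ i, (s i : K) * (v i - 1) := by
  obtain ⟨p, hp⟩ : ∃ p : ℝ, p = 5 ^ (m + 1) := ⟨_, rfl⟩
  obtain ⟨P, hP⟩ : ∃ P : K, P = 5 ^ (m + 1) := ⟨_, rfl⟩
  have p1 : 1 ≤ p := hp ▸ one_le_pow₀ (by norm_num)
  have P0 : P ≠ 0 := hP ▸ by norm_num
  have hPL : P ∈ arithL := hP ▸ pow_mem arith_five _
  have hPp : (P : ℂ) = p := by
    have : ((5 : K) : ℂ) = 5 := rfl
    rw [hP, hp]
    push_cast
    rw [this]
  refine ⟨3 * (m + 1), 1 / (1 + p ^ 2), by positivity, fun z hz hr => ?_⟩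
  have e3 : (5 : K) ^ (3 * (m + 1)) = P ^ 3 := by rw [hP]; ring
  have e2 : (5 : K) ^ (2 * (m + 1)) = P ^ 2 := by rw [hP]; ring
  rw [e3] at hz
  have c2 : ((2 : K) : ℂ) = 2 := rfl
  have hz' : cj z / P ^ 3 ∈ arithL := by
    refine arith_congr (lam5_cj hz) (Subtype.ext ?_)
    simp [hPp]
  obtain ⟨a, ha⟩ : ∃ a : K, a = (z + cj z) / 2 := ⟨_, rfl⟩
  obtain ⟨b, hb⟩ : ∃ b : K, b = -iK * (z - cj z) / 2 := ⟨_, rfl⟩
  have ha' : (a : ℂ) = (z : ℂ).re := by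
    rw [ha, Complex.re_eq_add_conj]
    push_cast
    rw [c2, coe_cj]
  have hb' : (b : ℂ) = (z : ℂ).im := by
    rw [hb, Complex.im_eq_sub_conj]
    push_cast
    rw [c2, coe_cj, coe_iK]
    field_simp
    linear_combination (-((z : ℂ) - (starRingEnd ℂ) z)) * Complex.I_sq
  have haL : a / P ^ 3 ∈ arithL :=
    arith_congr (mul_mem (add_mem (arith_mem.1 hz) hz') arith_half) (by rw [ha]; ring)
  have hbL : b / P ^ 3 ∈ arithL :=
    arith_congr (mul_mem (mul_mem (neg_mem arith_iK) (sub_mem (arith_mem.1 hz) hz')) arith_half)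
      (by rw [hb]; ring)
  have hzab : z = a + iK * b := by
    rw [ha, hb]
    linear_combination ((z - cj z) / 2) * arith_iK_sq
  have r1 : |(z : ℂ).re| * (1 + p ^ 2) < 1 := by
    rw [← lt_div_iff₀ (by positivity)]
    exact (Complex.abs_re_le_norm _).trans_lt hr
  have r2 : |(z : ℂ).im| * (1 + p ^ 2) < 1 := by
    rw [← lt_div_iff₀ (by positivity)]
    exact (Complex.abs_im_le_norm _).trans_lt hr
  have r3 : ∀ q : ℝ, |q| ≤ 1 + p ^ 2 → |(z : ℂ).im * q / (2 * p)| < 1 := by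
    intro q hq
    rw [abs_div, abs_mul, abs_of_pos (by positivity : 0 < 2 * p), div_lt_one (by positivity)]
    nlinarith [mul_le_mul_of_nonneg_left hq (abs_nonneg (z : ℂ).im)]
  obtain ⟨v0, hv⟩ := arith_cayley (m := m) hPp (by rw [← hP, div_self P0]; exact one_mem arithL)
  obtain ⟨a1, a2, s, g1, g2, hs, e1⟩ := arith_two_terms (m := m)
    (x := a - b * (1 - P ^ 2) / (2 * P)) (ρ := (z : ℂ).re - (z : ℂ).im * (1 - p ^ 2) / (2 * p))
    (by push_cast; rw [ha', hb', hPp, c2])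
    (by
      have := r3 (1 - p ^ 2) (abs_le.2 ⟨by linarith, by nlinarith⟩)
      have := abs_sub (z : ℂ).re ((z : ℂ).im * (1 - p ^ 2) / (2 * p))
      nlinarith [mul_nonneg (abs_nonneg (z : ℂ).re) (sq_nonneg p)])
    (arith_congr (sub_mem (mul_mem haL hPL) (mul_mem (mul_mem hbL
      (sub_mem (one_mem _) (pow_mem hPL 2))) arith_half)) (by rw [e2]; field_simp))
  obtain ⟨b1, b2, s', g3, g4, hs', e4⟩ := arith_two_terms (m := m)
    (x := b * (1 + P ^ 2) / (2 * P)) (ρ := (z : ℂ).im * (1 + p ^ 2) / (2 * p))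
    (by push_cast; rw [hb', hPp, c2])
    (by linarith [r3 (1 + p ^ 2) (abs_of_pos (by positivity)).le])
    (arith_congr (mul_mem (mul_mem hbL (add_mem (one_mem _) (pow_mem hPL 2))) arith_half)
      (by rw [e2]; field_simp))
  have e5 : z = (a - b * (1 - P ^ 2) / (2 * P)) +
      b * (1 + P ^ 2) / (2 * P) * ((1 + iK * P) / (1 - iK * P)) := by
    rw [hzab]
    field_simp
    linear_combination (-2 * b * P ^ 2) * arith_iK_sq
  generalize (1 + iK * P) / (1 - iK * P) = v at hv e5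
  have g5 := arithG_mul g3 hv
  have g6 := arithG_mul g4 hv
  have hs'' : -s' = 1 ∨ -s' = -1 := by omega
  refine ⟨![a1, a2, b1 * v, b2 * v, v, v], ![s, s, s', s', -s', -s'], fun i => ?_, ?_⟩
  · fin_cases i
    exacts [⟨g1.1, g1.2, hs⟩, ⟨g2.1, g2.2, hs⟩, ⟨g5.1, g5.2, hs'⟩, ⟨g6.1, g6.2, hs'⟩,
      ⟨hv.1, hv.2, hs''⟩, ⟨hv.1, hv.2, hs''⟩]
  · rw [e5, e1, e4]
    simp only [Fin.sum_univ_succ, Matrix.cons_val_zero, Matrix.cons_val_succ, Fin.sum_univ_zero]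
    push_cast
    ring

/-- `1 = α π^{n+s} + β π̄^{n'+s}` with Gaussian integers `α, β` (`1 = π(π - π̄) + π̄²`, `IsCoprime.pow`); divide by `5^s = π^s π̄^s`. -/
theorem split_sum (s n n' : ℕ) (hn : s ≤ n) (hn' : s ≤ n') (z : K) (hz : 5 ^ s * z ∈ Lam5) :
    ∃ z₁ ∈ Lam5, ∃ z₂ ∈ Lam5, z = u0 ^ n * z₁ + u0⁻¹ ^ n' * z₂ := by
  have hc : IsCoprime (⟨piK, arith_piK⟩ : arithL) ⟨pibK, arith_pibK⟩ :=
    ⟨⟨piK - pibK, sub_mem arith_piK arith_pibK⟩, ⟨pibK, arith_pibK⟩, Subtype.ext (by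
      show (piK - pibK) * piK + pibK * pibK = 1
      unfold piK pibK
      linear_combination 3 * arith_iK_sq)⟩
  obtain ⟨α, β, h⟩ := hc.pow (m := n + s) (n := n' + s)
  have h' : (α : K) * piK ^ (n + s) + β * pibK ^ (n' + s) = 1 := congrArg Subtype.val h
  obtain ⟨d, rfl⟩ := Nat.exists_eq_add_of_le hn
  obtain ⟨d', rfl⟩ := Nat.exists_eq_add_of_le hn'
  refine ⟨_, arith_mem.2 (mul_mem (mul_mem (arith_mem.1 hz) α.2) (pow_mem arith_pibK d)),
    _, arith_mem.2 (mul_mem (mul_mem (arith_mem.1 hz) β.2) (pow_mem arith_piK d')), ?_⟩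
  have := arith_piK_ne
  have := arith_pibK_ne
  rw [u0, inv_div, ← piK_mul_pibK, div_pow, div_pow, mul_pow]
  calc z = z * ((α : K) * piK ^ (s + d + s) + β * pibK ^ (s + d' + s)) := by rw [h', mul_one]
    _ = _ := by field_simp; ring

theorem lam5_div_u0 (n n' : ℕ) {z : K} (hz : z / 5 ^ (n + n') ∈ Lam5) :
    z / u0 ^ n ∈ Lam5 ∧ z / u0⁻¹ ^ n' ∈ Lam5 := by
  have := arith_piK_ne
  have := arith_pibK_ne
  constructor
  · refine arith_congr (mul_mem (mul_mem (arith_mem.1 hz) (pow_mem arith_five n'))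
      (pow_mem arith_pibK (2 * n))) ?_
    rw [u0, ← piK_mul_pibK, div_pow, mul_pow, mul_pow]
    field_simp
    ring
  · refine arith_congr (mul_mem (mul_mem (arith_mem.1 hz) (pow_mem arith_five n))
      (pow_mem arith_piK (2 * n'))) ?_
    rw [u0, inv_div, ← piK_mul_pibK, div_pow, mul_pow, mul_pow]
    field_simp
    ring

theorem arith_normSq (w : K) : ((w * cj w : K) : ℂ) = (‖w‖ ^ 2 : ℝ) := by
  push_cast
  rw [coe_cj, Complex.mul_conj, Complex.normSq_eq_norm_sq, norm_K]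
  push_cast
  rfl

/-- the disc trick: `w = z/b`, `‖w‖ ≤ 2`; `v = w/2 ± i t w` with `t` real algebraic, `t² = 1/‖w‖² - 1/4` (`‖w‖² = w * cj w`; `K` is algebraically closed, or `√` of an algebraic real is algebraic); `w = 0`: `v = ±1`. -/
theorem disc (b z : K) (hb : b ≠ 0) (hz : ‖z‖ ≤ 2 * ‖b‖) :
    ∃ v₁ v₂ : K, ‖v₁‖ = 1 ∧ ‖v₂‖ = 1 ∧ z = v₁ * b + v₂ * b := by
  obtain ⟨w, rfl⟩ : ∃ w, z = w * b := ⟨z / b, by field_simp⟩
  rw [norm_mul, mul_le_mul_iff_left₀ (norm_pos_iff.2 hb)] at hz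
  by_cases hw : w = 0
  · exact ⟨1, -1, norm_one, by rw [norm_neg, norm_one], by rw [hw]; ring⟩
  have w0 : 0 < ‖w‖ := norm_pos_iff.2 hw
  have h0 : 0 ≤ (‖w‖ ^ 2)⁻¹ - 4⁻¹ := sub_nonneg.2 (inv_anti₀ (by positivity) (by nlinarith))
  obtain ⟨t, ht, -⟩ := arith_sqrt (x := (w * cj w)⁻¹ - 4⁻¹) (r := (‖w‖ ^ 2)⁻¹ - 4⁻¹) (by
    have : ((4 : K) : ℂ) = 4 := rfl
    rw [AddSubgroupClass.coe_sub, IntermediateField.coe_inv, IntermediateField.coe_inv,
      arith_normSq, this]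
    push_cast
    rfl) h0
  have key : ∀ (u : K) (ρ : ℝ), (u : ℂ) = ρ → ρ ^ 2 = (‖w‖ ^ 2)⁻¹ - 4⁻¹ →
      ‖w * (2⁻¹ + iK * u)‖ = 1 := by
    intro u ρ hu hρ
    have c2 : ((2 : K) : ℂ) = 2 := rfl
    have e : ‖2⁻¹ + iK * u‖ ^ 2 = (‖w‖ ^ 2)⁻¹ := by
      rw [norm_K, ← Complex.normSq_eq_norm_sq]
      push_cast
      rw [hu, c2, coe_iK, Complex.normSq_apply]
      rw [norm_K] at hρ
      simp
      linarith
    rw [← sq_eq_sq₀ (norm_nonneg _) zero_le_one, norm_mul, mul_pow, e]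
    field_simp
  refine ⟨_, _, key t _ ht (Real.sq_sqrt h0), key (-t) (-√((‖w‖ ^ 2)⁻¹ - 4⁻¹))
    (by push_cast; rw [ht]) (by rw [neg_sq, Real.sq_sqrt h0]), by ring⟩

/-- algebraic unit vectors are dense in the circle: normalise an approximation, `‖a‖` is algebraic -/
theorem unit_dense (u : ℂ) (hu : ‖u‖ = 1) (ε : ℝ) (hε : 0 < ε) :
    ∃ v : K, ‖v‖ = 1 ∧ ‖(v : ℂ) - u‖ < ε := by
  obtain ⟨a, -, ha⟩ := arith_dense u (lt_min (half_pos hε) one_pos)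
  have h1 : |‖(a : ℂ)‖ - 1| ≤ ‖(a : ℂ) - u‖ := hu ▸ abs_norm_sub_norm_le _ _
  have h2 := ha.trans_le (min_le_left _ _)
  have h3 := ha.trans_le (min_le_right _ _)
  have a0 : 0 < ‖(a : ℂ)‖ := by linarith [(abs_le.1 h1).1]
  obtain ⟨t, ht, -⟩ := arith_sqrt (arith_normSq a) (sq_nonneg _)
  rw [Real.sqrt_sq (norm_nonneg _), norm_K] at ht
  have e : ((a / t : K) : ℂ) = a / (‖(a : ℂ)‖ : ℝ) := by push_cast; rw [ht]
  have n1 : ‖((a / t : K) : ℂ)‖ = 1 := by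
    rw [e, norm_div, Complex.norm_real, norm_norm, div_self a0.ne']
  refine ⟨a / t, n1, ?_⟩
  have e2 : ((a / t : K) : ℂ) - a = ((a / t : K) : ℂ) * ((1 - ‖(a : ℂ)‖ : ℝ) : ℂ) := by
    have : ((‖(a : ℂ)‖ : ℝ) : ℂ) ≠ 0 := by exact_mod_cast a0.ne'
    rw [e]
    push_cast
    field_simp
  have h4 : ‖((a / t : K) : ℂ) - a‖ = |‖(a : ℂ)‖ - 1| := by
    rw [e2, norm_mul, n1, one_mul, Complex.norm_real, Real.norm_eq_abs, abs_sub_comm]
  have h5 := norm_sub_le_norm_sub_add_norm_sub ((a / t : K) : ℂ) a u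
  linarith

end Crest.Agent.R040

end
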