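import Crest.Agent.R040.BasM
import Crest.Agent.R040.CircSum

/-! # Row 40, Step 2: exact separation along a pencil of circles -/

set_option autoImplicit false

open MeasureTheory Filter Topology Set Metric
open scoped Real

noncomputable section

namespace Crest.Agent.R040

theorem AsepP_deriv (θ : ℝ) : HasStrictDerivAt cis (cis θ * Complex.I) θ := by
  have h := ((Complex.ofRealCLM.hasStrictDerivAt (x := θ)).mul_const Complex.I).cexp
  rw [Complex.ofRealCLM_apply, Complex.ofRealCLM_apply, Complex.ofReal_one, one_mul] at h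
  exact h

/-- the local inverse of `(α, γ) ↦ w + cis α + cis γ` near `(t - π/3, t - π)` -/
theorem AsepP_inv (w : ℂ) (t : ℝ) : ∃ (g : ℂ → ℝ × ℝ) (L : ℂ →L[ℝ] ℝ),
    (∀ k, L k = (cis t).re * k.re + (cis t).im * k.im) ∧
    HasStrictFDerivAt (fun z => √3 / 2 * (g z).1) L (w + cis (t - π / 3) + cis (t - π)) ∧
    Tendsto (fun z => (g z).1) (𝓝 (w + cis (t - π / 3) + cis (t - π))) (𝓝 (t - π / 3)) ∧
    ∀ᶠ z in 𝓝 (w + cis (t - π / 3) + cis (t - π)), w + cis (g z).1 + cis (g z).2 = z := by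
  set D : ℝ × ℝ →L[ℝ] ℂ :=
    (ContinuousLinearMap.toSpanSingleton ℝ (cis (t - π / 3) * Complex.I)).comp
      (ContinuousLinearMap.fst ℝ ℝ ℝ) +
    (ContinuousLinearMap.toSpanSingleton ℝ (cis (t - π) * Complex.I)).comp
      (ContinuousLinearMap.snd ℝ ℝ ℝ) with hD
  have hDp : ∀ p : ℝ × ℝ, D p = p.1 • (cis (t - π / 3) * Complex.I) +
      p.2 • (cis (t - π) * Complex.I) := fun p => rfl
  have hcs := Real.cos_sq_add_sin_sq t
  have hre : ∀ p : ℝ × ℝ, (D p).re =
      -(p.1 * (Real.sin t / 2 - Real.cos t * (√3 / 2))) + p.2 * Real.sin t := fun p => by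
    simp only [hDp, Complex.add_re, Complex.smul_re, Complex.mul_re, Complex.I_re, Complex.I_im,
      cis_re, cis_im, Real.sin_sub, Real.cos_pi_div_three, Real.sin_pi_div_three, Real.sin_pi,
      Real.cos_pi, smul_eq_mul]
    ring
  have him : ∀ p : ℝ × ℝ, (D p).im =
      p.1 * (Real.cos t / 2 + Real.sin t * (√3 / 2)) - p.2 * Real.cos t := fun p => by
    simp only [hDp, Complex.add_im, Complex.smul_im, Complex.mul_im, Complex.I_re, Complex.I_im,
      cis_re, cis_im, Real.cos_sub, Real.cos_pi_div_three, Real.sin_pi_div_three, Real.sin_pi,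
      Real.cos_pi, smul_eq_mul]
    ring
  have key : ∀ p : ℝ × ℝ, Real.cos t * (D p).re + Real.sin t * (D p).im = √3 / 2 * p.1 := fun p => by
    rw [hre, him]
    linear_combination (√3 / 2 * p.1) * hcs
  have key' : ∀ p : ℝ × ℝ, -Real.sin t * (D p).re + Real.cos t * (D p).im = p.1 / 2 - p.2 :=
    fun p => by
      rw [hre, him]
      linear_combination (p.1 / 2 - p.2) * hcs
  have hinj : Function.Injective D := by
    rw [injective_iff_map_eq_zero]
    intro p hp
    have h1 := key p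
    have h2 := key' p
    rw [hp] at h1 h2
    simp only [Complex.zero_re, Complex.zero_im, mul_zero, add_zero] at h1 h2
    have h3 : (0 : ℝ) < √3 / 2 := by positivity
    have h4 : p.1 = 0 := (mul_eq_zero.1 h1.symm).resolve_left h3.ne'
    exact Prod.ext h4 (by rw [h4] at h2; simpa using h2)
  set D' : (ℝ × ℝ) ≃L[ℝ] ℂ :=
    ((D : ℝ × ℝ →ₗ[ℝ] ℂ).linearEquivOfInjective hinj (by simp)).toContinuousLinearEquiv with hD'
  have hDD : ∀ p, D' p = D p := fun p => rfl
  have hΦ : HasStrictFDerivAt (fun p : ℝ × ℝ => w + cis p.1 + cis p.2) (D' : ℝ × ℝ →L[ℝ] ℂ)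
      (t - π / 3, t - π) := by
    have h1 := (AsepP_deriv (t - π / 3)).hasStrictFDerivAt.comp (t - π / 3, t - π)
      (hasStrictFDerivAt_fst (𝕜 := ℝ) (p := (t - π / 3, t - π)))
    have h2 := (AsepP_deriv (t - π)).hasStrictFDerivAt.comp (t - π / 3, t - π)
      (hasStrictFDerivAt_snd (𝕜 := ℝ) (p := (t - π / 3, t - π)))
    exact (h1.const_add w).add h2
  refine ⟨hΦ.localInverse _ _ _, (√3 / 2) • (ContinuousLinearMap.fst ℝ ℝ ℝ).comp
    (D'.symm : ℂ →L[ℝ] ℝ × ℝ), fun k => ?_, hΦ.to_localInverse.fst.const_mul _,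
    (continuous_fst.tendsto _).comp hΦ.localInverse_tendsto, hΦ.eventually_right_inverse⟩
  obtain ⟨p, rfl⟩ := D'.surjective k
  rw [cis_re, cis_im, hDD, key, ← hDD]
  simp

/-- `w = v + cis (t + π/3)`.  For `z` near `v`: `ζ = (z - w) cis(-(t - 2π/3))` is near `1`, `α(z) = t - 2π/3 + arg ζ + arccos(‖ζ‖/2)` is near `t - π/3` and `‖z - w - cis α(z)‖ = 1`.  `ψ = (√3/2) α` is strictly differentiable at `v` with derivative
`⟪cis t, ·⟫` (`ContDiffAt`; differentiate the identity, or compute directly), which gives the Lipschitz estimate near `v` (`HasStrictFDerivAt.isLittleO`/`approximates_deriv_on_nhds`).  `B = {s | N (w + cis (2s/√3)) a}`; `E` = measurable hull of the null set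
`w + Φ{(α, γ) | α ∈ I, (N a ∧ point ∈ D a) ∨ (¬ N a ∧ point ∈ D b)}` (`sum_image_null`). -/
theorem MCol.asep_of_pencil (c : MCol) (v : ℂ) (a b : Fin 5) (t s : ℝ) (hs : 0 < s)
    (h : ∀ᵐ α : ℝ, α ∈ Ioo (t - π / 3 - s) (t - π / 3 + s) →
      c.N (v + cis (t + π / 3) + cis α) a ∨ c.N (v + cis (t + π / 3) + cis α) b) :
    c.ASep v a b (cis t) := by
  intro η hη K hK
  set w := v + cis (t + π / 3) with hw
  obtain ⟨g, L, hL, hg1, hg2, hg3⟩ := AsepP_inv w t
  have hv : w + cis (t - π / 3) + cis (t - π) = v := by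
    have h1 := cis_hex t
    have h2 := cis_add_pi (t - π)
    rw [sub_add_cancel] at h2
    rw [hw]
    linear_combination h1 + h2
  rw [hv] at hg1 hg2 hg3
  obtain ⟨ρ₁, hρ₁, h1⟩ := Metric.eventually_nhds_iff.1 (hg1.isLittleO.def hη)
  obtain ⟨ρ₂, hρ₂, h2⟩ := Metric.eventually_nhds_iff.1
    (hg3.and (hg2.eventually (Ioo_mem_nhds (sub_lt_self _ hs) (lt_add_of_pos_right _ hs))))
  set T : Set (ℝ × ℝ) := {p | p.1 ∈ Ioo (t - π / 3 - s) (t - π / 3 + s) ∧
    ((c.N (w + cis p.1) a ∧ w + cis p.1 + cis p.2 ∈ c.D a) ∨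
      (¬ c.N (w + cis p.1) a ∧ w + cis p.1 + cis p.2 ∈ c.D b))} with hT
  have hcΦ : Measurable fun p : ℝ × ℝ => w + cis p.1 + cis p.2 :=
    ((continuous_const.add (continuous_cis.comp continuous_fst)).add
      (continuous_cis.comp continuous_snd)).measurable
  have hN : MeasurableSet {p : ℝ × ℝ | c.N (w + cis p.1) a} :=
    measurable_fst (c.measurableSet_N_cis w a)
  have hTm : MeasurableSet T :=
    (measurable_fst measurableSet_Ioo).inter
      ((hN.inter (hcΦ (c.meas a))).union (hN.compl.inter (hcΦ (c.meas b))))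
  have hT0 : volume T = 0 := by
    have h3 : ∀ᵐ p : ℝ × ℝ ∂(volume.prod volume), p ∉ T := by
      refine (Measure.ae_prod_iff_ae_ae hTm.compl).2 (h.mono fun α hα => ?_)
      by_cases hI : α ∈ Ioo (t - π / 3 - s) (t - π / 3 + s)
      · by_cases hNa : c.N (w + cis α) a
        · exact hNa.mono fun γ hγ hp => hp.2.elim (fun h => hγ h.2) fun h => h.1 hNa
        · exact ((hα hI).resolve_left hNa).mono fun γ hγ hp =>
            hp.2.elim (fun h => hNa h.1) fun h => hγ h.2
      · exact .of_forall fun γ hp => hI hp.1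
    exact measure_eq_zero_iff_ae_notMem.2 h3
  have hE0 : volume (toMeasurable volume ((fun p : ℝ × ℝ => w + cis p.1 + cis p.2) '' T)) = 0 := by
    rw [measure_toMeasurable]
    exact sum_image_null hT0 w
  have hρ : 0 < min ρ₁ ρ₂ := lt_min hρ₁ hρ₂
  refine ⟨min ρ₁ ρ₂ / (K + 1), by positivity, fun x r hx hr hrδ => ?_⟩
  have hball : ∀ z ∈ ball x (K * r), dist z v < min ρ₁ ρ₂ := fun z hz => by
    have e1 := dist_triangle z x v
    rw [dist_eq_norm x v] at e1
    have e2 : K * r ≤ K * (min ρ₁ ρ₂ / (K + 1)) := mul_le_mul_of_nonneg_left hrδ.le (by linarith)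
    have e3 : K * (min ρ₁ ρ₂ / (K + 1)) + min ρ₁ ρ₂ / (K + 1) = min ρ₁ ρ₂ := by field_simp
    rw [mem_ball] at hz
    linarith
  have h3 : (0 : ℝ) < √3 := by positivity
  have hB : ∀ z, 2 / √3 * (√3 / 2 * (g z).1) = (g z).1 := fun z => by field_simp
  have hnot : ∀ z ∈ ball x (K * r),
      z ∉ toMeasurable volume ((fun p : ℝ × ℝ => w + cis p.1 + cis p.2) '' T) →
      (z ∈ c.D a → ¬ c.N (w + cis (g z).1) a) ∧ (z ∈ c.D b → c.N (w + cis (g z).1) a) := by
    intro z hz hE
    obtain ⟨e1, e2⟩ := h2 ((hball z hz).trans_le (min_le_right _ _))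
    have e3 : g z ∉ T := fun hgT => hE (subset_toMeasurable _ _ ⟨g z, hgT, e1⟩)
    refine ⟨fun ha hNa => e3 ⟨e2, Or.inl ⟨hNa, e1.symm ▸ ha⟩⟩, fun hb => ?_⟩
    by_contra hNa
    exact e3 ⟨e2, Or.inr ⟨hNa, e1.symm ▸ hb⟩⟩
  refine ⟨fun z => √3 / 2 * (g z).1, {u | c.N (w + cis (2 / √3 * u)) a},
    toMeasurable volume ((fun p : ℝ × ℝ => w + cis p.1 + cis p.2) '' T),
    (measurable_const_mul (2 / √3)) (c.measurableSet_N_cis w a), measurableSet_toMeasurable _ _,
    fun z hz z' hz' => ?_, ?_, fun z hz hE ha => ?_, fun z hz hE hb => ?_⟩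
  · have e1 := @h1 (z, z') (by
      rw [Prod.dist_eq]
      exact max_lt ((hball z hz).trans_le (min_le_left _ _))
        ((hball z' hz').trans_le (min_le_left _ _)))
    rw [hL, Real.norm_eq_abs] at e1
    exact e1
  · rw [measureReal_def, measure_mono_null inter_subset_left hE0, ENNReal.toReal_zero]
    positivity
  · rw [mem_setOf_eq, hB]
    exact (hnot z hz hE).1 ha
  · rw [mem_setOf_eq, hB]
    exact (hnot z hz hE).2 hb

end Crest.Agent.R040

end
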