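import Crest.Agent.R040.Ann

/-! # Row 40, Step 2: approximate separation from unseen pairs -/

set_option autoImplicit false

open MeasureTheory Filter Topology Set Metric
open scoped Real

noncomputable section

namespace Crest.Agent.R040

theorem asepU_avg {α β : Type} [MeasurableSpace α] [MeasurableSpace β] {μ : Measure α}
    {ν : Measure β} [SFinite ν] {W : Set (α × β)} (hW : MeasurableSet W) {A : Set α}
    (hA : MeasurableSet A) {d : ENNReal} (h : ((μ.restrict A).prod ν) W < d * μ A) :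
    ∃ a ∈ A, ν (Prod.mk a ⁻¹' W) < d := by
  by_contra! hc
  rw [Measure.prod_apply hW, ← setLIntegral_const] at h
  exact h.not_ge (setLIntegral_mono' hA hc)

theorem asepU_mp (x : ℂ) (θ : ℝ) :
    MeasurePreserving (fun p : ℝ × ℝ => x + cis θ * ⟨p.2, p.1⟩) (volume.prod volume) volume :=
  (measurePreserving_add_left volume x).comp
    ((rotation ⟨cis θ, by simpa [Submonoid.unitSphere] using norm_cis θ⟩).measurePreserving.comp
      (Complex.volume_preserving_equiv_real_prod.symm.comp Measure.measurePreserving_swap))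

theorem asepU_sqrt {u u' ρ : ℝ} (hρ : ρ ≤ 1 / 2) (h : |u| ≤ ρ) (h' : |u'| ≤ ρ) :
    |√(1 - u ^ 2) - √(1 - u' ^ 2)| ≤ 2 * ρ * |u - u'| := by
  have h1 : ∀ s : ℝ, |s| ≤ ρ → 1 / 2 ≤ √(1 - s ^ 2) ∧ √(1 - s ^ 2) ^ 2 = 1 - s ^ 2 := fun s hs => by
    have : s ^ 2 ≤ 1 / 4 := by
      rw [← sq_abs]
      nlinarith [abs_nonneg s]
    exact ⟨Real.le_sqrt_of_sq_le (by linarith), Real.sq_sqrt (by linarith)⟩
  obtain ⟨a1, a2⟩ := h1 u h
  obtain ⟨b1, b2⟩ := h1 u' h'
  have h2 : |√(1 - u ^ 2) - √(1 - u' ^ 2)| * (√(1 - u ^ 2) + √(1 - u' ^ 2)) =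
      |u + u'| * |u - u'| := by
    rw [← abs_of_pos (show 0 < √(1 - u ^ 2) + √(1 - u' ^ 2) by linarith), ← abs_mul, ← abs_mul,
      ← abs_neg]
    congr 1
    linear_combination b2 - a2
  have h3 : |u + u'| * |u - u'| ≤ 2 * ρ * |u - u'| :=
    mul_le_mul_of_nonneg_right ((abs_add_le _ _).trans (by linarith)) (abs_nonneg _)
  nlinarith [abs_nonneg (√(1 - u ^ 2) - √(1 - u' ^ 2))]

/-- `E₀ = U v a b ∩ (t ± η')` has measure `m > 0`.  For a window `(x, r)` average `ann` over the base points `ξ ∈ ball x (K' r)` (a.e. `ξ` has an a.e. coloured circle): by Fubini some `θ ∈ E₀` has `|{ξ ∈ ball x (K' r) | ξ + cis θ ∉ D a ∪ D b}| ≤ ε' r²`.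
Rotate: `ξ = x + cis θ (s + iσ)`; some `σ ∈ (-r, r)` has a small set `Bad` of `s ∈ (-K'' r, K'' r)` with `y(s) = x + cis θ (1 + s + iσ) ∉ D a ∪ D b`.  With `(z - x) cis(-θ) = ξ₁ + iξ₂` put `ψ z = ξ₁ - 1 + √(1 - (ξ₂ - σ)²)`, so that `‖z - y(ψ z)‖ = 1`;
`B = {s | y s ∈ D a}`, `E = ψ ⁻¹' Bad` (measure `≤ 2 K r |Bad|` in the disc by Fubini, `ξ₁ ↦ ψ` is a translation). -/
theorem MCol.asep_of_U (c : MCol) (v : ℂ) (a b : Fin 5) (t : ℝ)
    (h : ∀ s > (0 : ℝ), volume (c.U v a b ∩ Ioo (t - s) (t + s)) ≠ 0) : c.ASep v a b (cis t) := by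
  intro η hη K hK
  set E₀ := c.U v a b ∩ Ioo (t - η / 2) (t + η / 2) with hE₀
  have mE₀ : MeasurableSet E₀ := (c.measurableSet_U v a b).inter measurableSet_Ioo
  have fE₀ : volume E₀ ≠ ⊤ := ((measure_mono inter_subset_right).trans_lt measure_Ioo_lt_top).ne
  have hm : 0 < (volume E₀).toReal := ENNReal.toReal_pos (h _ (half_pos hη)) fE₀
  set m := (volume E₀).toReal with hmdef
  have hK0 : 0 < K := by linarith
  have hpi := Real.pi_pos
  obtain ⟨δ₁, hδ₁, hann⟩ := c.ann v (t - η / 2) (t + η / 2)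
    (ε := η * m / (2 * K * π * (2 * K + 2) ^ 2)) (by positivity)
  refine ⟨min (δ₁ / (2 * K + 3)) (min (η / (4 * (K + 1))) (1 / (2 * (K + 1)))), by positivity,
    fun x r hx hr hrδ => ?_⟩
  simp only [lt_min_iff] at hx hrδ
  have r1 : (2 * K + 3) * r < δ₁ := by rw [mul_comm]; exact (lt_div_iff₀ (by positivity)).1 hrδ.1
  have x1 : (2 * K + 3) * ‖x - v‖ < δ₁ := by
    rw [mul_comm]; exact (lt_div_iff₀ (by positivity)).1 hx.1
  have r2 : (K + 1) * r ≤ η / 4 := by
    have := (lt_div_iff₀ (by positivity)).1 hrδ.2.1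
    linarith
  have r3 : (K + 1) * r ≤ 1 / 2 := by
    have := (lt_div_iff₀ (by positivity)).1 hrδ.2.2
    linarith
  set Z := (c.D a ∪ c.D b)ᶜ with hZ
  have mZ : MeasurableSet Z := ((c.meas a).union (c.meas b)).compl
  have mcis : Measurable cis := continuous_cis.measurable
  -- choice of the direction
  have mW₀ : MeasurableSet {p : ℝ × ℂ | p.2 ∈ ball x ((2 * K + 2) * r) ∧ p.2 + cis p.1 ∈ Z} :=
    (measurable_snd measurableSet_ball).inter
      ((measurable_snd.add (mcis.comp measurable_fst)) mZ)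
  obtain ⟨θ, hθ, h1⟩ := asepU_avg (μ := volume) (ν := volume) mW₀ mE₀
    (d := ENNReal.ofReal (η * r ^ 2 / K)) (by
      rw [Measure.prod_apply_symm mW₀]
      refine (lintegral_mono_ae (g := (ball x ((2 * K + 2) * r)).indicator fun _ =>
        ENNReal.ofReal (η * m / (2 * K * π * (2 * K + 2) ^ 2))) ?_).trans_lt ?_
      · filter_upwards [c.ae_circle_cover] with ξ hξ
        by_cases hb : ξ ∈ ball x ((2 * K + 2) * r)
        · rw [indicator_of_mem hb, Measure.restrict_apply' mE₀]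
          have h2 : ‖ξ - v‖ < δ₁ := by
            have h3 := norm_sub_le_norm_sub_add_norm_sub ξ x v
            rw [mem_ball, dist_eq_norm] at hb
            have h4 : (2 * K + 3) * ‖ξ - v‖ < (2 * K + 3) * δ₁ := by nlinarith
            exact lt_of_mul_lt_mul_left h4 (by positivity)
          refine (measure_mono_ae ?_).trans ((ENNReal.lt_ofReal_iff_toReal_lt
            ((measure_mono fun _ h => h.1).trans_lt measure_Ioc_lt_top).ne).2 (hann ξ h2)).le
          filter_upwards [hξ] with γ hγ hγ'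
          obtain ⟨k, hk⟩ := hγ
          refine ⟨Ioo_subset_Ioc_self hγ'.2.2, k, hk, fun hN => hγ'.1.2 ?_⟩
          rcases hγ'.2.1 k hN with rfl | rfl
          exacts [Or.inl hk, Or.inr hk]
        · rw [indicator_of_notMem hb]
          refine (measure_mono (t := ∅) fun γ hγ => hb hγ.1).trans (by simp)
      · rw [lintegral_indicator_const measurableSet_ball,
          ← ENNReal.ofReal_toReal (measure_ball_lt_top (μ := volume) (x := x)).ne,
          ← ENNReal.ofReal_toReal fE₀, ← measureReal_def, volume_real_ball _ (by positivity),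
          ← ENNReal.ofReal_mul (by positivity), ← ENNReal.ofReal_mul (by positivity),
          ENNReal.ofReal_lt_ofReal_iff (by positivity)]
        have h5 : 0 < η * r ^ 2 / K * m := by positivity
        have h6 : η * m / (2 * K * π * (2 * K + 2) ^ 2) * (π * ((2 * K + 2) * r) ^ 2) =
            η * r ^ 2 / K * m / 2 := by field_simp
        linarith)
  have hT := asepU_mp x θ
  have mT := hT.measurable
  have nT : ∀ p : ℝ × ℝ, ‖x + cis θ * ⟨p.2, p.1⟩ - x‖ = ‖(⟨p.2, p.1⟩ : ℂ)‖ := fun p => by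
    rw [add_sub_cancel_left, norm_mul, norm_cis, one_mul]
  -- choice of the line
  have mW : MeasurableSet {p : ℝ × ℝ | p.2 ∈ Ioo (-((2 * K + 1) * r)) ((2 * K + 1) * r) ∧
      x + cis θ * ⟨p.2, p.1⟩ + cis θ ∈ Z} :=
    (measurable_snd measurableSet_Ioo).inter ((mT.add_const _) mZ)
  obtain ⟨σ, hσ, h2⟩ := asepU_avg (μ := volume) (ν := volume) mW
    (measurableSet_Ioo (a := -r) (b := r)) (d := ENNReal.ofReal (η * r / (2 * K))) (by
      rw [Measure.restrict_prod_eq_prod_univ, Measure.restrict_apply mW, Real.volume_Ioo,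
        ← ENNReal.ofReal_mul (by positivity),
        show η * r / (2 * K) * (r - -r) = η * r ^ 2 / K by field_simp; ring]
      refine lt_of_le_of_lt ?_ h1
      rw [← hT.measure_preimage (measurable_prodMk_left mW₀).nullMeasurableSet]
      refine measure_mono fun p hp => ⟨?_, hp.1.2⟩
      change x + cis θ * ⟨p.2, p.1⟩ ∈ ball x _
      rw [mem_ball, dist_eq_norm, nT]
      have h3 := Complex.norm_le_abs_re_add_abs_im ⟨p.2, p.1⟩
      have h4 := abs_lt.2 hp.1.1
      have h5 := abs_lt.2 hp.2.1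
      simp only at h3
      linarith)
  set Bad := Prod.mk σ ⁻¹' {p : ℝ × ℝ | p.2 ∈ Ioo (-((2 * K + 1) * r)) ((2 * K + 1) * r) ∧
      x + cis θ * ⟨p.2, p.1⟩ + cis θ ∈ Z} with hBad
  have mBad : MeasurableSet Bad := measurable_prodMk_left mW
  have hσ' := abs_lt.2 hσ
  have e1 : cis θ * cis (-θ) = 1 := by rw [← cis_add, add_neg_cancel]; simp [cis]
  let w : ℂ → ℂ := fun z => (z - x) * cis (-θ)
  let ψ : ℂ → ℝ := fun z => (w z).re + (√(1 - ((w z).im - σ) ^ 2) - 1)
  have mψ : Measurable ψ := by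
    have : Continuous ψ := by simp only [ψ, w]; fun_prop
    exact this.measurable
  have nw : ∀ z ∈ ball x (K * r), ‖w z‖ < K * r := fun z hz => by
    rwa [norm_mul, norm_cis, mul_one, ← dist_eq_norm]
  have hu : ∀ z ∈ ball x (K * r), |(w z).im - σ| ≤ (K + 1) * r := fun z hz => by
    have h3 := abs_sub (w z).im σ
    have h4 := Complex.abs_im_le_norm (w z)
    have h5 := nw z hz
    linarith
  have key : ∀ z ∈ ball x (K * r), ψ z ∉ Bad →
      x + cis θ * ⟨ψ z, σ⟩ + cis θ ∈ c.D a ∪ c.D b ∧ ‖z - (x + cis θ * ⟨ψ z, σ⟩ + cis θ)‖ = 1 := by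
    intro z hz hzb
    have h3 := hu z hz
    have h4 : ((w z).im - σ) ^ 2 ≤ 1 := by
      rw [← sq_abs]
      nlinarith [abs_nonneg ((w z).im - σ)]
    constructor
    · by_contra h5
      refine hzb ⟨abs_lt.1 ?_, h5⟩
      have h6 := asepU_sqrt (u := (w z).im - σ) (u' := 0) (ρ := 1 / 2) le_rfl (by linarith)
        (by simp)
      simp only [sub_zero, ne_eq, OfNat.ofNat_ne_zero, not_false_eq_true, zero_pow,
        Real.sqrt_one] at h6
      have h7 := abs_add_le (w z).re (√(1 - ((w z).im - σ) ^ 2) - 1)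
      have h8 := Complex.abs_re_le_norm (w z)
      have h9 := nw z hz
      change |(w z).re + (√(1 - ((w z).im - σ) ^ 2) - 1)| < _
      linarith
    · have h5 : z - (x + cis θ * ⟨ψ z, σ⟩ + cis θ) =
          cis θ * ⟨-√(1 - ((w z).im - σ) ^ 2), (w z).im - σ⟩ := by
        have h6 : (⟨-√(1 - ((w z).im - σ) ^ 2), (w z).im - σ⟩ : ℂ) = w z - ⟨ψ z, σ⟩ - 1 :=
          Complex.ext (by simp [ψ]) (by simp)
        rw [h6]
        simp only [w]
        linear_combination (x - z) * e1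
      rw [h5, norm_mul, norm_cis, one_mul, Complex.norm_eq_sqrt_sq_add_sq]
      simp only [neg_sq, Real.sq_sqrt (sub_nonneg.2 h4), sub_add_cancel, Real.sqrt_one]
  have mB : MeasurableSet {s : ℝ | x + cis θ * (⟨s, σ⟩ : ℂ) + cis θ ∈ c.D a} :=
    ((mT.add_const (cis θ)).comp (measurable_prodMk_left (x := σ))) (c.meas a)
  refine ⟨ψ, _, ψ ⁻¹' Bad, mB, mψ mBad, fun z hz z' hz' => ?_, ?_,
    fun z hz hE ha hB => c.avoid a z ha _ hB (key z hz hE).2,
    fun z hz hE hb => (key z hz hE).1.resolve_right fun hB => c.avoid b z hb _ hB (key z hz hE).2⟩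
  · have h3 := asepU_sqrt r3 (hu z hz) (hu z' hz')
    have h4 : (w z).im - σ - ((w z').im - σ) = ((z - z') * cis (-θ)).im := by
      simp only [w, sub_mul, Complex.sub_im]; ring
    have h5 : |((z - z') * cis (-θ)).im| ≤ ‖z - z'‖ :=
      (Complex.abs_im_le_norm _).trans (by rw [norm_mul, norm_cis, mul_one])
    have h6 : |((z - z') * (cis (-θ) - cis (-t))).re| ≤ ‖z - z'‖ * (η / 2) := by
      refine (Complex.abs_re_le_norm _).trans ?_
      rw [norm_mul]
      refine mul_le_mul_of_nonneg_left ((norm_cis_sub _ _).trans ?_) (norm_nonneg _)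
      exact abs_le.2 ⟨by linarith [hθ.2.2], by linarith [hθ.2.1]⟩
    have h7 : ψ z - ψ z' - ((cis t).re * (z - z').re + (cis t).im * (z - z').im) =
        ((z - z') * (cis (-θ) - cis (-t))).re +
          (√(1 - ((w z).im - σ) ^ 2) - √(1 - ((w z').im - σ) ^ 2)) := by
      simp only [ψ, w, sub_mul, mul_sub, Complex.sub_re, Complex.sub_im, Complex.mul_re, cis_re,
        cis_im, Real.cos_neg, Real.sin_neg]
      ring
    rw [h4] at h3
    rw [h7]
    refine (abs_add_le _ _).trans ?_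
    have h8 : 2 * ((K + 1) * r) * |((z - z') * cis (-θ)).im| ≤ η / 2 * ‖z - z'‖ :=
      mul_le_mul (by linarith) h5 (abs_nonneg _) (by positivity)
    linarith
  · refine ENNReal.toReal_le_of_le_ofReal (by positivity) ?_
    have mW' : MeasurableSet {p : ℝ × ℝ | p.1 ∈ Ioo (-(K * r)) (K * r) ∧
        p.2 + (√(1 - (p.1 - σ) ^ 2) - 1) ∈ Bad} := (measurable_fst measurableSet_Ioo).inter
      ((by fun_prop : Measurable fun p : ℝ × ℝ => p.2 + (√(1 - (p.1 - σ) ^ 2) - 1)) mBad)
    rw [← hT.measure_preimage ((mψ mBad).inter measurableSet_ball).nullMeasurableSet]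
    refine (measure_mono (t := {p : ℝ × ℝ | p.1 ∈ Ioo (-(K * r)) (K * r) ∧
        p.2 + (√(1 - (p.1 - σ) ^ 2) - 1) ∈ Bad}) fun p hp => ?_).trans ?_
    · have h3 : w (x + cis θ * ⟨p.2, p.1⟩) = ⟨p.2, p.1⟩ := by
        simp only [w]
        linear_combination (⟨p.2, p.1⟩ : ℂ) * e1
      have h4 := nw _ hp.2
      have h5 : ψ (x + cis θ * ⟨p.2, p.1⟩) ∈ Bad := hp.1
      simp only [ψ, h3] at h4 h5
      exact ⟨abs_lt.1 ((Complex.abs_im_le_norm ⟨p.2, p.1⟩).trans_lt h4), h5⟩
    · rw [Measure.prod_apply mW']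
      refine (lintegral_mono (g := (Ioo (-(K * r)) (K * r)).indicator fun _ =>
        ENNReal.ofReal (η * r / (2 * K))) fun s => ?_).trans ?_
      · by_cases hs : s ∈ Ioo (-(K * r)) (K * r)
        · rw [indicator_of_mem hs]
          refine le_trans ?_ h2.le
          rw [← measure_preimage_add_right volume (√(1 - (s - σ) ^ 2) - 1) Bad]
          exact measure_mono fun _ hp => hp.2
        · rw [indicator_of_notMem hs]
          exact (measure_mono (t := ∅) fun _ hp => hs hp.1).trans (by simp)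
      · rw [lintegral_indicator_const measurableSet_Ioo, Real.volume_Ioo,
          ← ENNReal.ofReal_mul (by positivity)]
        refine le_of_eq (congrArg _ ?_)
        field_simp
        ring

end Crest.Agent.R040

end
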