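import Crest.Agent.R040.Defs2

/-! # Row 40, Step 2: basic facts on `cis`, `pr`, `av` -/

set_option autoImplicit false

open MeasureTheory Filter Topology Set Metric
open scoped Real

noncomputable section

namespace Crest.Agent.R040

theorem norm_cis (θ : ℝ) : ‖cis θ‖ = 1 := by
  simp only [cis]
  exact Complex.norm_exp_ofReal_mul_I θ

theorem cis_add (θ φ : ℝ) : cis (θ + φ) = cis θ * cis φ := by
  simp only [cis]
  rw [← Complex.exp_add]
  congr 1
  push_cast
  ring

theorem cis_re (θ : ℝ) : (cis θ).re = Real.cos θ := by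
  simp only [cis]
  exact Complex.exp_ofReal_mul_I_re θ

theorem cis_im (θ : ℝ) : (cis θ).im = Real.sin θ := by
  simp only [cis]
  exact Complex.exp_ofReal_mul_I_im θ

theorem cis_add_two_pi (θ : ℝ) : cis (θ + 2 * π) = cis θ := by
  apply Complex.ext
  · rw [cis_re, cis_re, Real.cos_add_two_pi]
  · rw [cis_im, cis_im, Real.sin_add_two_pi]

theorem cis_add_pi (θ : ℝ) : cis (θ + π) = -cis θ := by
  apply Complex.ext
  · rw [Complex.neg_re, cis_re, cis_re, Real.cos_add_pi]
  · rw [Complex.neg_im, cis_im, cis_im, Real.sin_add_pi]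

theorem continuous_cis : Continuous cis := by
  unfold cis
  fun_prop

theorem norm_cis_sub (θ φ : ℝ) : ‖cis θ - cis φ‖ ≤ |θ - φ| := by
  have h : cis θ - cis φ = cis φ * (cis (θ - φ) - 1) := by
    rw [mul_sub, ← cis_add, mul_one]
    congr 2
    ring
  rw [h, norm_mul, norm_cis, one_mul]
  have h2 := Real.norm_exp_I_mul_ofReal_sub_one_le (x := θ - φ)
  rw [Real.norm_eq_abs, mul_comm] at h2
  exact h2

theorem cis_hex (θ : ℝ) : cis (θ + π / 3) + cis (θ - π / 3) = cis θ := by
  apply Complex.ext
  · rw [Complex.add_re, cis_re, cis_re, cis_re, Real.cos_add, Real.cos_sub, Real.cos_pi_div_three]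
    ring
  · rw [Complex.add_im, cis_im, cis_im, cis_im, Real.sin_add, Real.sin_sub, Real.cos_pi_div_three]
    ring

theorem norm_cis_sub_hex (θ : ℝ) : ‖cis θ - cis (θ + π / 3)‖ = 1 := by
  have h : cis θ - cis (θ + π / 3) = cis (θ - π / 3) := by
    rw [← cis_hex θ]
    ring
  rw [h, norm_cis]

theorem exists_cis {u : ℂ} (hu : ‖u‖ = 1) : ∃ θ : ℝ, u = cis θ := by
  refine ⟨Complex.arg u, ?_⟩
  have h := Complex.norm_mul_exp_arg_mul_I u
  rw [hu] at h
  simp only [cis]
  simpa using h.symm

theorem cr_cis (a b : ℝ) : cr (cis a) (cis b) = Real.sin (b - a) := by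
  simp only [cr, cis_re, cis_im, Real.sin_sub]
  ring

theorem cr_cis_mul (θ : ℝ) (u w : ℂ) : cr (cis θ * u) (cis θ * w) = cr u w := by
  simp only [cr, Complex.mul_re, Complex.mul_im, cis_re, cis_im]
  have h := Real.cos_sq_add_sin_sq θ
  linear_combination (u.re * w.im - u.im * w.re) * h

theorem om_eq : om = ⟨1 / 2, √3 / 2⟩ := by
  apply Complex.ext
  · simp only [om, cis_re, Real.cos_pi_div_three]
  · simp only [om, cis_im, Real.sin_pi_div_three]

theorem volume_real_ball (x : ℂ) {r : ℝ} (hr : 0 ≤ r) : volume.real (ball x r) = π * r ^ 2 := by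
  rw [Measure.real, Complex.volume_ball, ENNReal.toReal_mul, ENNReal.toReal_pow,
    ENNReal.toReal_ofReal hr]
  simp [mul_comm]

theorem pr_nonneg (S : Set ℂ) (x : ℂ) (r : ℝ) : 0 ≤ pr S x r := by
  unfold pr
  positivity

theorem pr_le_one (S : Set ℂ) (x : ℂ) (r : ℝ) : pr S x r ≤ 1 := by
  unfold pr
  rcases le_or_gt r 0 with hr | hr
  · rw [ball_eq_empty.2 hr]
    simp
  · rw [div_le_one (by positivity), ← volume_real_ball x hr.le]
    exact measureReal_mono inter_subset_right measure_ball_lt_top.ne

theorem pr_mono {S T : Set ℂ} (x : ℂ) (r : ℝ) (h : S ∩ ball x r ⊆ T) : pr S x r ≤ pr T x r := by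
  unfold pr
  refine div_le_div_of_nonneg_right ?_ (by positivity)
  refine measureReal_mono (fun z hz => ⟨h hz, hz.2⟩) ?_
  exact ((measure_mono inter_subset_right).trans_lt measure_ball_lt_top).ne

theorem pr_congr {S T : Set ℂ} (x : ℂ) (r : ℝ) (h : S =ᵐ[volume] T) : pr S x r = pr T x r := by
  unfold pr
  rw [measureReal_congr (h.inter (ae_eq_refl (ball x r)))]

theorem pr_union_le (S T : Set ℂ) (x : ℂ) (r : ℝ) : pr (S ∪ T) x r ≤ pr S x r + pr T x r := by
  unfold pr
  rw [← add_div, union_inter_distrib_right]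
  exact div_le_div_of_nonneg_right (measureReal_union_le _ _) (by positivity)

theorem pr_union {S T : Set ℂ} (hT : MeasurableSet T) (h : Disjoint S T) (x : ℂ) (r : ℝ) :
    pr (S ∪ T) x r = pr S x r + pr T x r := by
  unfold pr
  rw [← add_div, union_inter_distrib_right]
  congr 1
  refine measureReal_union (h.mono inter_subset_left inter_subset_left)
    (hT.inter measurableSet_ball) ?_ ?_
  · exact ((measure_mono inter_subset_right).trans_lt measure_ball_lt_top).ne
  · exact ((measure_mono inter_subset_right).trans_lt measure_ball_lt_top).ne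

theorem pr_compl {S : Set ℂ} (hS : MeasurableSet S) (x : ℂ) {r : ℝ} (hr : 0 < r) :
    pr Sᶜ x r = 1 - pr S x r := by
  have h1 := pr_union (S := Sᶜ) hS disjoint_compl_left x r
  have h2 : pr (Sᶜ ∪ S) x r = 1 := by
    unfold pr
    rw [compl_union_self, univ_inter, volume_real_ball x hr.le]
    exact div_self (by positivity)
  linarith

theorem pr_sub (S : Set ℂ) {x x' : ℂ} {r r' : ℝ} (hr : 0 < r) (hr' : 0 < r') (h : ball x r ⊆ ball x' r') :
    r ^ 2 * pr S x r ≤ r' ^ 2 * pr S x' r' := by
  unfold pr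
  have h1 : volume.real (S ∩ ball x r) ≤ volume.real (S ∩ ball x' r') := by
    refine measureReal_mono (inter_subset_inter_right _ h) ?_
    exact ((measure_mono inter_subset_right).trans_lt measure_ball_lt_top).ne
  have e1 : r ^ 2 * (volume.real (S ∩ ball x r) / (π * r ^ 2)) = volume.real (S ∩ ball x r) / π := by
    field_simp
  have e2 : r' ^ 2 * (volume.real (S ∩ ball x' r') / (π * r' ^ 2))
      = volume.real (S ∩ ball x' r') / π := by
    field_simp
  rw [e1, e2]
  exact div_le_div_of_nonneg_right h1 Real.pi_pos.le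

theorem bas_intOn {f : ℂ → ℝ} (hf : Fr f) (x : ℂ) (r : ℝ) : IntegrableOn f (ball x r) := by
  refine Measure.integrableOn_of_bounded (M := 1) measure_ball_lt_top.ne
    hf.1.aestronglyMeasurable (Eventually.of_forall fun z => ?_)
  rw [Real.norm_eq_abs, abs_of_nonneg (hf.2 z).1]
  exact (hf.2 z).2

theorem bas_fr_ind {S : Set ℂ} (hS : MeasurableSet S) : Fr (S.indicator fun _ => (1 : ℝ)) := by
  refine ⟨measurable_const.indicator hS, fun z => ?_⟩
  by_cases h : z ∈ S <;> simp [h]

theorem bas_ball_ae (x : ℂ) (r : ℝ) : ball x r =ᵐ[volume] closedBall x r := by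
  refine ae_eq_of_subset_of_measure_ge ball_subset_closedBall ?_
    measurableSet_ball.nullMeasurableSet measure_closedBall_lt_top.ne
  exact (Measure.addHaar_closedBall_eq_addHaar_ball volume x r).le

theorem bas_cont {f : ℂ → ℝ} (hf : Fr f) :
    Continuous (fun w : ℂ × ℝ => ∫ z in ball w.1 w.2, f z) := by
  have e : (fun w : ℂ × ℝ => ∫ z in ball w.1 w.2, f z)
      = fun w : ℂ × ℝ => ∫ z, (ball w.1 w.2).indicator f z := by
    funext w
    rw [integral_indicator measurableSet_ball]
  rw [e, continuous_iff_continuousAt]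
  intro w₀
  refine continuousAt_of_dominated (bound := (ball w₀.1 (w₀.2 + 2)).indicator fun _ => (1 : ℝ))
    (Eventually.of_forall fun w => (hf.1.indicator measurableSet_ball).aestronglyMeasurable) ?_ ?_ ?_
  · filter_upwards [ball_mem_nhds w₀ one_pos] with w hw
    refine Eventually.of_forall fun z => ?_
    by_cases hz : z ∈ ball w.1 w.2
    · rw [mem_ball, Prod.dist_eq] at hw
      have h1 : dist w.1 w₀.1 < 1 := lt_of_le_of_lt (le_max_left _ _) hw
      have h2 : dist w.2 w₀.2 < 1 := lt_of_le_of_lt (le_max_right _ _) hw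
      have h3 : z ∈ ball w₀.1 (w₀.2 + 2) := by
        rw [mem_ball] at hz ⊢
        have := dist_triangle z w.1 w₀.1
        rw [Real.dist_eq, abs_lt] at h2
        linarith [h2.2]
      rw [indicator_of_mem hz, indicator_of_mem h3, Real.norm_eq_abs, abs_of_nonneg (hf.2 z).1]
      exact (hf.2 z).2
    · rw [indicator_of_notMem hz, norm_zero]
      exact indicator_nonneg (fun _ _ => zero_le_one) z
  · exact (integrable_indicator_iff measurableSet_ball).2
      (integrableOn_const measure_ball_lt_top.ne)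
  · have hs : volume (sphere w₀.1 w₀.2) = 0 := Measure.addHaar_sphere volume _ _
    filter_upwards [measure_eq_zero_iff_ae_notMem.1 hs] with z hz
    have hc : Continuous fun w : ℂ × ℝ => dist z w.1 - w.2 := by fun_prop
    rcases lt_or_gt_of_ne (show dist z w₀.1 ≠ w₀.2 from hz) with h | h
    · have h1 : ∀ᶠ w in 𝓝 w₀, dist z w.1 - w.2 < 0 :=
        hc.continuousAt.eventually_lt continuousAt_const (by simpa using h)
      refine (continuousAt_const (y := f z)).congr ?_
      filter_upwards [h1] with w hw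
      rw [indicator_of_mem (mem_ball.2 (by linarith))]
    · have h1 : ∀ᶠ w in 𝓝 w₀, 0 < dist z w.1 - w.2 :=
        continuousAt_const.eventually_lt hc.continuousAt (by simpa using h)
      refine (continuousAt_const (y := (0 : ℝ))).congr ?_
      filter_upwards [h1] with w hw
      rw [indicator_of_notMem (fun hh => by rw [mem_ball] at hh; linarith)]

theorem av_indicator {S : Set ℂ} (hS : MeasurableSet S) (x : ℂ) (r : ℝ) :
    av (S.indicator fun _ => (1 : ℝ)) x r = pr S x r := by
  unfold av pr
  rw [setIntegral_indicator hS, inter_comm]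
  simp

theorem av_nonneg {f : ℂ → ℝ} (hf : Fr f) (x : ℂ) (r : ℝ) : 0 ≤ av f x r := by
  unfold av
  exact div_nonneg (integral_nonneg fun z => (hf.2 z).1) (by positivity)

theorem av_le_one {f : ℂ → ℝ} (hf : Fr f) (x : ℂ) (r : ℝ) : av f x r ≤ 1 := by
  unfold av
  rcases le_or_gt r 0 with hr | hr
  · rw [ball_eq_empty.2 hr]
    simp
  · rw [div_le_one (by positivity), ← volume_real_ball x hr.le]
    have h1 : ∫ w in ball x r, f w ≤ ∫ _ in ball x r, (1 : ℝ) :=
      setIntegral_mono (bas_intOn hf x r) (integrableOn_const measure_ball_lt_top.ne)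
        fun z => (hf.2 z).2
    simpa using h1

/-- if `f` vanishes a.e. outside `S` -/
theorem av_le_pr {f : ℂ → ℝ} (hf : Fr f) {S : Set ℂ} (x : ℂ) (r : ℝ)
    (h : ∀ᵐ z : ℂ, z ∈ ball x r → z ∉ S → f z = 0) : av f x r ≤ pr S x r := by
  unfold av pr
  refine div_le_div_of_nonneg_right ?_ (by positivity)
  have hfin : volume (S ∩ ball x r) ≠ ⊤ :=
    ((measure_mono inter_subset_right).trans_lt measure_ball_lt_top).ne
  set T := toMeasurable volume (S ∩ ball x r) with hT
  have hTm : MeasurableSet T := measurableSet_toMeasurable _ _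
  have hTv : volume T = volume (S ∩ ball x r) := measure_toMeasurable _
  have h1 : ∫ w in ball x r, f w ≤ ∫ w in ball x r, T.indicator (fun _ => (1 : ℝ)) w := by
    refine setIntegral_mono_on_ae (bas_intOn hf x r) ?_ measurableSet_ball ?_
    · exact (integrableOn_const measure_ball_lt_top.ne).indicator hTm
    · filter_upwards [h] with z hz hzb
      by_cases hzS : z ∈ S
      · have hzT : z ∈ T := subset_toMeasurable volume (S ∩ ball x r) ⟨hzS, hzb⟩
        rw [indicator_of_mem hzT]
        exact (hf.2 z).2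
      · rw [hz hzb hzS]
        exact indicator_nonneg (fun _ _ => zero_le_one) z
  refine h1.trans ?_
  rw [setIntegral_indicator hTm]
  simp only [integral_const, MeasurableSet.univ, measureReal_restrict_apply, univ_inter,
    smul_eq_mul, mul_one]
  have h2 : volume.real (ball x r ∩ T) ≤ volume.real T :=
    measureReal_mono inter_subset_right (by rw [hTv]; exact hfin)
  refine h2.trans (le_of_eq ?_)
  simp only [Measure.real, hTv]

theorem av_sub {f : ℂ → ℝ} (hf : Fr f) {x x' : ℂ} {r r' : ℝ} (hr : 0 < r) (hr' : 0 < r')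
    (h : ball x r ⊆ ball x' r') : r ^ 2 * av f x r ≤ r' ^ 2 * av f x' r' := by
  unfold av
  have h1 : ∫ w in ball x r, f w ≤ ∫ w in ball x' r', f w :=
    setIntegral_mono_set (bas_intOn hf x' r') (Eventually.of_forall fun z => (hf.2 z).1)
      h.eventuallyLE
  have e1 : r ^ 2 * ((∫ w in ball x r, f w) / (π * r ^ 2)) = (∫ w in ball x r, f w) / π := by
    field_simp
  have e2 : r' ^ 2 * ((∫ w in ball x' r', f w) / (π * r' ^ 2)) = (∫ w in ball x' r', f w) / π := by
    field_simp
  rw [e1, e2]
  exact div_le_div_of_nonneg_right h1 Real.pi_pos.le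

/-- squeeze with `av_sub` for `f` and `1 - f`, or bound the symmetric difference of two discs by an annulus -/
theorem continuousOn_av {f : ℂ → ℝ} (hf : Fr f) :
    ContinuousOn (fun w : ℂ × ℝ => av f w.1 w.2) {w | 0 < w.2} := by
  unfold av
  refine ContinuousOn.div (bas_cont hf).continuousOn (by fun_prop) ?_
  intro w hw
  have : 0 < w.2 := hw
  positivity

theorem continuousOn_pr {S : Set ℂ} (hS : MeasurableSet S) :
    ContinuousOn (fun w : ℂ × ℝ => pr S w.1 w.2) {w | 0 < w.2} := by
  have h := continuousOn_av (bas_fr_ind hS)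
  simpa only [av_indicator hS] using h

/-- Lebesgue differentiation (`Besicovitch`/`IsUnifLocDoublingMeasure.ae_tendsto_average`; spheres are null) -/
theorem ae_tendsto_av {f : ℂ → ℝ} (hf : Fr f) : ∀ᵐ z : ℂ, Tendsto (av f z) (𝓝[>] 0) (𝓝 (f z)) := by
  have hl : LocallyIntegrable f volume := by
    intro x
    exact ⟨ball x 1, ball_mem_nhds x one_pos, bas_intOn hf x 1⟩
  filter_upwards [IsUnifLocDoublingMeasure.ae_tendsto_average volume hl 1] with z hz
  have h1 := hz (l := 𝓝[>] (0 : ℝ)) (fun _ => z) id tendsto_id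
    (by
      filter_upwards [self_mem_nhdsWithin] with r hr
      exact mem_closedBall_self (by simpa using le_of_lt hr))
  refine h1.congr' ?_
  filter_upwards [self_mem_nhdsWithin] with r hr
  have hr' : (0 : ℝ) < r := hr
  simp only [id]
  rw [← setAverage_congr (bas_ball_ae z r), setAverage_eq, volume_real_ball z hr'.le, av,
    smul_eq_mul, div_eq_inv_mul]

theorem ae_tendsto_pr {S : Set ℂ} (hS : MeasurableSet S) :
    ∀ᵐ z : ℂ, (z ∈ S → Tendsto (pr S z) (𝓝[>] 0) (𝓝 1)) ∧ (z ∉ S → Tendsto (pr S z) (𝓝[>] 0) (𝓝 0)) := by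
  filter_upwards [ae_tendsto_av (bas_fr_ind hS)] with z hz
  have e : av (S.indicator fun _ => (1 : ℝ)) z = pr S z := funext fun r => av_indicator hS z r
  rw [e] at hz
  exact ⟨fun h => by simpa [h] using hz, fun h => by simpa [h] using hz⟩

theorem ae_dens {U : Set ℝ} (hU : MeasurableSet U) : ∀ᵐ t : ℝ, t ∈ U → Dens U t := by
  have h := IsUnifLocDoublingMeasure.ae_tendsto_measure_inter_div (volume : Measure ℝ) U 1
  rw [ae_restrict_iff' hU] at h
  filter_upwards [h] with t ht htU
  have h1 := ht htU (l := 𝓝[>] (0 : ℝ)) (fun _ => t) id tendsto_id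
    (by
      filter_upwards [self_mem_nhdsWithin] with r hr
      exact mem_closedBall_self (by simpa using le_of_lt hr))
  have h2 := (ENNReal.tendsto_toReal ENNReal.one_ne_top).comp h1
  rw [ENNReal.toReal_one] at h2
  refine h2.congr' ?_
  filter_upwards [self_mem_nhdsWithin] with s hs
  have hs' : (0 : ℝ) < s := hs
  simp only [Function.comp, id]
  rw [ENNReal.toReal_div, Real.volume_closedBall, ENNReal.toReal_ofReal (by positivity),
    Real.closedBall_eq_Icc, Measure.real]
  congr 2
  exact measure_congr ((ae_eq_refl U).inter Ioo_ae_eq_Icc.symm)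

/-- a.e. statements are invariant under translation of the angle -/
theorem ae_shift {p : ℝ → Prop} (h : ∀ᵐ θ : ℝ, p θ) (t : ℝ) : ∀ᵐ θ : ℝ, p (θ + t) := by
  exact (measurePreserving_add_right volume t).quasiMeasurePreserving.ae h

end Crest.Agent.R040

end
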