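import Crest.Agent.R040.Bas

/-! # Row 40, Step 2: basic facts on `MCol` -/

set_option autoImplicit false

open MeasureTheory Filter Topology Set Metric
open scoped Real

noncomputable section

namespace Crest.Agent.R040

/-- Fubini: for each `γ` the set of `x` with `x + cis γ ∈ Z` is null (replace `Z` by `toMeasurable`) -/
theorem ae_circle {Z : Set ℂ} (hZ : volume Z = 0) : ∀ᵐ x : ℂ, ∀ᵐ γ : ℝ, x + cis γ ∉ Z := by
  have hm : MeasurableSet {p : ℂ × ℝ | p.1 + cis p.2 ∉ toMeasurable volume Z} :=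
    ((measurableSet_toMeasurable volume Z).preimage
      (continuous_fst.add (continuous_cis.comp continuous_snd)).measurable).compl
  have h1 : ∀ᵐ γ : ℝ, ∀ᵐ x : ℂ, x + cis γ ∉ toMeasurable volume Z := by
    refine Eventually.of_forall fun γ => ?_
    have h2 : ∀ᵐ x : ℂ, x ∉ toMeasurable volume Z :=
      measure_eq_zero_iff_ae_notMem.1 (by rw [measure_toMeasurable, hZ])
    exact (measurePreserving_add_right volume (cis γ)).quasiMeasurePreserving.ae h2
  have h3 := (Measure.ae_ae_comm (μ := (volume : Measure ℂ)) (ν := (volume : Measure ℝ))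
    (p := fun x γ => x + cis γ ∉ toMeasurable volume Z) hm).2 h1
  filter_upwards [h3] with x hx
  filter_upwards [hx] with γ hγ h using hγ (subset_toMeasurable _ _ h)

namespace MCol

variable (c : MCol)

theorem sum_p (x : ℂ) {r : ℝ} (hr : 0 < r) : ∑ i, c.p x r i = 1 := by
  have hb : volume (ball x r) ≠ ⊤ := measure_ball_lt_top.ne
  have h1 : ∑ i, volume.real (c.D i ∩ ball x r) = volume.real (⋃ i, c.D i ∩ ball x r) :=
    (measureReal_iUnion_fintype
      (fun i j hij => (c.disj i j hij).mono inter_subset_left inter_subset_left)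
      (fun i => (c.meas i).inter measurableSet_ball)
      (fun i => ne_top_of_le_ne_top hb (measure_mono inter_subset_right))).symm
  have h2 : volume.real (⋃ i, c.D i ∩ ball x r) = volume.real (ball x r) := by
    refine measureReal_congr ?_
    filter_upwards [c.cover] with z hz
    obtain ⟨i, hi⟩ := hz
    refine propext ⟨fun h => ?_, fun h => mem_iUnion.2 ⟨i, hi, h⟩⟩
    obtain ⟨j, hj⟩ := mem_iUnion.1 h
    exact hj.2
  simp only [p, pr]
  rw [← Finset.sum_div, h1, h2, volume_real_ball x hr.le]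
  exact div_self (by positivity)

theorem simp_p (x : ℂ) {r : ℝ} (hr : 0 < r) : Simp (c.p x r) := by
  exact ⟨fun i => pr_nonneg _ _ _, c.sum_p x hr⟩

theorem continuousOn_p : ContinuousOn (fun w : ℂ × ℝ => c.p w.1 w.2) {w | 0 < w.2} := by
  exact continuousOn_pi.2 fun i => continuousOn_pr (c.meas i)

theorem measurableSet_N (k : Fin 5) : MeasurableSet {y : ℂ | c.N y k} := by
  have hm : MeasurableSet {p : ℂ × ℝ | p.1 + cis p.2 ∈ c.D k} :=
    (c.meas k).preimage (continuous_fst.add (continuous_cis.comp continuous_snd)).measurable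
  have h1 := measurable_measure_prodMk_left (ν := (volume : Measure ℝ)) hm
  have h2 : {y : ℂ | c.N y k} = (fun y : ℂ => volume
      (Prod.mk y ⁻¹' {p : ℂ × ℝ | p.1 + cis p.2 ∈ c.D k})) ⁻¹' {0} := by
    ext y
    exact measure_eq_zero_iff_ae_notMem.symm
  rw [h2]
  exact h1 (measurableSet_singleton 0)

theorem measurableSet_N_cis (v : ℂ) (k : Fin 5) : MeasurableSet {θ : ℝ | c.N (v + cis θ) k} := by
  exact (c.measurableSet_N k).preimage (continuous_const.add continuous_cis).measurable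

theorem measurableSet_U (v : ℂ) (j k : Fin 5) : MeasurableSet (c.U v j k) := by
  have h : c.U v j k = ⋂ l, {θ : ℝ | c.N (v + cis θ) l}ᶜ ∪ {_θ | l = j ∨ l = k} := by
    ext θ
    simp only [U, mem_ofPred_eq, mem_iInter, mem_union, mem_compl_iff, imp_iff_not_or]
  rw [h]
  exact MeasurableSet.iInter fun l => (c.measurableSet_N_cis v l).compl.union
    (MeasurableSet.const _)

theorem U_comm (v : ℂ) (j k : Fin 5) : c.U v j k = c.U v k j := by
  ext θ
  simp only [U, mem_ofPred_eq, or_comm]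

theorem N_of_mem {y : ℂ} {k : Fin 5} (h : y ∈ c.D k) (γ : ℝ) : y + cis γ ∉ c.D k := by
  intro h'
  refine c.avoid k _ h' _ h ?_
  rw [add_sub_cancel_left, norm_cis]

theorem ae_circle_cover : ∀ᵐ x : ℂ, ∀ᵐ γ : ℝ, ∃ k, x + cis γ ∈ c.D k := by
  have h := ae_circle (Z := {z | ¬ ∃ i, z ∈ c.D i}) (ae_iff.1 c.cover)
  filter_upwards [h] with x hx
  filter_upwards [hx] with γ hγ using not_not.1 hγ

/-- near a point of `D j` the set `D j` has positive measure -/
theorem exists_good {v : ℂ} {j : Fin 5} (h : c.P v j) {δ : ℝ} (hδ : 0 < δ) :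
    ∃ x ∈ c.D j, ‖x - v‖ < δ ∧ ∀ᵐ γ : ℝ, ∃ k, x + cis γ ∈ c.D k := by
  obtain ⟨z, hz, hzv⟩ := Metric.mem_closure_iff.1 h (δ / 2) (by positivity)
  have h1 : ∀ᶠ r in 𝓝[>] (0 : ℝ), 0 < pr (c.D j) z r :=
    (c.dens j z hz).eventually (lt_mem_nhds one_pos)
  have h2 : ∀ᶠ r in 𝓝[>] (0 : ℝ), r < δ / 2 :=
    nhdsWithin_le_nhds (gt_mem_nhds (by positivity))
  obtain ⟨r, hr, hr'⟩ := (h1.and h2).exists
  have h3 : volume (c.D j ∩ ball z r) ≠ 0 := by
    intro h0
    simp [pr, Measure.real, h0] at hr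
  obtain ⟨x, hx, hx'⟩ := Measure.exists_mem_of_measure_ne_zero_of_ae h3
    (ae_restrict_of_ae c.ae_circle_cover)
  refine ⟨x, hx.1, ?_, hx'⟩
  have h4 := dist_triangle_right x v z
  rw [← dist_eq_norm]
  have h5 := mem_ball.1 hx.2
  linarith

theorem not_P {v : ℂ} {e : Fin 5} (h : ¬ c.P v e) :
    ∃ δ > (0 : ℝ), (∀ z, ‖z - v‖ < 2 * δ → z ∉ c.D e) ∧
      ∀ (x : ℂ) (r : ℝ), ‖x - v‖ < δ → r < δ → c.p x r e = 0 := by
  obtain ⟨ε, hε, h1⟩ : ∃ ε > (0 : ℝ), ∀ z ∈ c.D e, ε ≤ dist v z := by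
    simpa only [P, Metric.mem_closure_iff, not_forall, not_exists, not_and, not_lt, exists_prop]
      using h
  have h2 : ∀ z, ‖z - v‖ < 2 * (ε / 2) → z ∉ c.D e := by
    intro z hz hz'
    have := h1 z hz'
    rw [dist_comm, dist_eq_norm] at this
    linarith
  refine ⟨ε / 2, by positivity, h2, fun x r hx hr => ?_⟩
  have h3 : c.D e ∩ ball x r = ∅ := by
    refine eq_empty_of_forall_notMem fun z hz => h2 z ?_ hz.1
    have h4 := mem_ball.1 hz.2
    have h5 := dist_triangle z x v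
    rw [dist_eq_norm x v, dist_eq_norm z v] at h5
    linarith
  simp [p, pr, h3]

theorem P_of_windows {v : ℂ} {j : Fin 5}
    (h : ∀ δ > (0 : ℝ), ∃ (x : ℂ) (r : ℝ), ‖x - v‖ < δ ∧ r < δ ∧ 0 < c.p x r j) : c.P v j := by
  by_contra hc
  obtain ⟨δ, hδ, -, h1⟩ := c.not_P hc
  obtain ⟨x, r, hx, hr, h2⟩ := h δ hδ
  exact h2.ne' (h1 x r hx hr)

variable {c}

theorem BasM_isClosed_simp : IsClosed {q : Fin 5 → ℝ | Simp q} :=
  isClosed_stdSimplex ℝ (Fin 5)

theorem BasM_isCompact_simp : IsCompact {q : Fin 5 → ℝ | Simp q} :=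
  isCompact_stdSimplex ℝ (Fin 5)

theorem BasM_seq {v : ℂ} {q : Fin 5 → ℝ} (h : c.Lim v q) :
    ∃ (x : ℕ → ℂ) (r : ℕ → ℝ), (∀ n, 0 < r n) ∧ Tendsto x atTop (𝓝 v) ∧ Tendsto r atTop (𝓝 0) ∧
      Tendsto (fun n => c.p (x n) (r n)) atTop (𝓝 q) := by
  choose x r hx hr hr' hq using fun n : ℕ => h (1 / ((n : ℝ) + 1)) Nat.one_div_pos_of_nat
  have h0 : Tendsto (fun n : ℕ => 1 / ((n : ℝ) + 1)) atTop (𝓝 0) :=
    tendsto_one_div_add_atTop_nhds_zero_nat
  refine ⟨x, r, hr, tendsto_iff_norm_sub_tendsto_zero.2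
    (squeeze_zero (fun _ => norm_nonneg _) (fun n => (hx n).le) h0),
    squeeze_zero (fun n => (hr n).le) (fun n => (hr' n).le) h0, tendsto_pi_nhds.2 fun i => ?_⟩
  exact tendsto_iff_norm_sub_tendsto_zero.2
    (squeeze_zero (fun _ => norm_nonneg _) (fun n => (hq n i).le) h0)

theorem Lim.simp {v : ℂ} {q : Fin 5 → ℝ} (h : c.Lim v q) : Simp q := by
  obtain ⟨x, r, hr, -, -, hq⟩ := BasM_seq h
  exact BasM_isClosed_simp.mem_of_tendsto hq (Eventually.of_forall fun n => c.simp_p _ (hr n))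

theorem Lim.P {v : ℂ} {q : Fin 5 → ℝ} (h : c.Lim v q) {i : Fin 5} (hi : 0 < q i) : c.P v i := by
  refine c.P_of_windows fun δ hδ => ?_
  obtain ⟨x, r, hx, -, hr, h1⟩ := h (min δ (q i)) (lt_min hδ hi)
  refine ⟨x, r, hx.trans_le (min_le_left _ _), hr.trans_le (min_le_left _ _), ?_⟩
  have h2 := (abs_lt.1 ((h1 i).trans_le (min_le_right _ _))).1
  linarith

theorem Lim.eq_zero {v : ℂ} {q : Fin 5 → ℝ} (h : c.Lim v q) {e : Fin 5} (he : ¬ c.P v e) : q e = 0 := by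
  by_contra hc
  exact he (h.P (lt_of_le_of_ne (h.simp.1 e) (Ne.symm hc)))

theorem Lim.seq {v : ℂ} {q : Fin 5 → ℝ} (h : c.Lim v q) : ∃ (x : ℕ → ℂ) (r : ℕ → ℝ), (∀ n, 0 < r n) ∧
    Tendsto x atTop (𝓝 v) ∧ Tendsto r atTop (𝓝 0) ∧ Tendsto (fun n => c.p (x n) (r n)) atTop (𝓝 q) := by
  exact BasM_seq h

theorem lim_of_seq {v : ℂ} {q : Fin 5 → ℝ} {x : ℕ → ℂ} {r : ℕ → ℝ} (hr : ∀ n, 0 < r n)
    (hx : Tendsto x atTop (𝓝 v)) (hr0 : Tendsto r atTop (𝓝 0))
    (hq : Tendsto (fun n => c.p (x n) (r n)) atTop (𝓝 q)) : c.Lim v q := by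
  intro δ hδ
  have h1 := Metric.tendsto_nhds.1 hx δ hδ
  have h2 := hr0.eventually (gt_mem_nhds hδ)
  have h3 := Metric.tendsto_nhds.1 hq δ hδ
  obtain ⟨n, h1, h2, h3⟩ := (h1.and (h2.and h3)).exists
  refine ⟨x n, r n, by rwa [dist_eq_norm] at h1, hr n, h2, fun i => ?_⟩
  exact (dist_le_pi_dist _ _ i).trans_lt h3

theorem isClosed_lim : IsClosed {w : ℂ × (Fin 5 → ℝ) | c.Lim w.1 w.2} := by
  refine isClosed_of_closure_subset fun w hw δ hδ => ?_
  obtain ⟨w', hw', hd⟩ := Metric.mem_closure_iff.1 hw (δ / 2) (by positivity)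
  obtain ⟨x, r, hx, hr, hr', h1⟩ := hw' (δ / 2) (by positivity)
  have h2 : dist w.1 w'.1 < δ / 2 := (le_max_left _ _).trans_lt hd
  have h3 : dist w.2 w'.2 < δ / 2 := (le_max_right _ _).trans_lt hd
  refine ⟨x, r, ?_, hr, by linarith, fun i => ?_⟩
  · have h4 := dist_triangle_right x w.1 w'.1
    rw [dist_eq_norm x, dist_eq_norm x] at h4
    linarith
  · have h4 := (dist_le_pi_dist _ _ i).trans_lt h3
    have h5 := dist_triangle_right (c.p x r i) (w.2 i) (w'.2 i)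
    rw [Real.dist_eq (c.p x r i), Real.dist_eq (c.p x r i)] at h5
    have := h1 i
    linarith

theorem isCompact_lim (v : ℂ) : IsCompact {q | c.Lim v q} := by
  exact BasM_isCompact_simp.of_isClosed_subset
    (isClosed_lim.preimage (Continuous.prodMk_right v)) fun q hq => Lim.simp hq

/-- sequential compactness of windows with centres in a compact set -/
theorem exists_subseq {C : Set ℂ} (hC : IsCompact C) {x : ℕ → ℂ} {r : ℕ → ℝ} (hx : ∀ n, x n ∈ C)
    (hr : ∀ n, 0 < r n) (hr0 : Tendsto r atTop (𝓝 0)) :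
    ∃ v ∈ C, ∃ (q : Fin 5 → ℝ) (φ : ℕ → ℕ), StrictMono φ ∧ c.Lim v q ∧
      Tendsto (fun n => x (φ n)) atTop (𝓝 v) ∧
      Tendsto (fun n => c.p (x (φ n)) (r (φ n))) atTop (𝓝 q) := by
  obtain ⟨w, hw, φ, hφ, h⟩ := (hC.prod BasM_isCompact_simp).tendsto_subseq
    (x := fun n => (x n, c.p (x n) (r n))) fun n => ⟨hx n, c.simp_p _ (hr n)⟩
  have h1 := (continuous_fst.tendsto w).comp h
  have h2 := (continuous_snd.tendsto w).comp h
  exact ⟨w.1, hw.1, w.2, φ, hφ,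
    lim_of_seq (fun n => hr (φ n)) h1 (hr0.comp hφ.tendsto_atTop) h2, h1, h2⟩

/-- a closed set of vectors that contains no limit vector is avoided by all small windows -/
theorem lim_principle {v : ℂ} {F : Set (Fin 5 → ℝ)} (hF : IsClosed F) (h : ∀ q, c.Lim v q → q ∉ F) :
    ∃ δ > (0 : ℝ), ∀ (x : ℂ) (r : ℝ), ‖x - v‖ < δ → 0 < r → r < δ → c.p x r ∉ F := by
  by_contra hc
  push Not at hc
  choose x r hx hr hr' hF' using fun n : ℕ => hc (1 / ((n : ℝ) + 1)) Nat.one_div_pos_of_nat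
  have h0 : Tendsto (fun n : ℕ => 1 / ((n : ℝ) + 1)) atTop (𝓝 0) :=
    tendsto_one_div_add_atTop_nhds_zero_nat
  have h1 : Tendsto x atTop (𝓝 v) :=
    tendsto_iff_norm_sub_tendsto_zero.2
      (squeeze_zero (fun _ => norm_nonneg _) (fun n => (hx n).le) h0)
  have h2 : Tendsto r atTop (𝓝 0) := squeeze_zero (fun n => (hr n).le) (fun n => (hr' n).le) h0
  obtain ⟨q, -, φ, hφ, h3⟩ := BasM_isCompact_simp.tendsto_subseq
    (x := fun n => c.p (x n) (r n)) fun n => c.simp_p _ (hr n)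
  exact h q (lim_of_seq (fun n => hr (φ n)) (h1.comp hφ.tendsto_atTop) (h2.comp hφ.tendsto_atTop)
    h3) (hF.mem_of_tendsto h3 (Eventually.of_forall fun n => hF' (φ n)))

theorem Adj.symm {v : ℂ} {i j : Fin 5} (h : c.Adj v i j) : c.Adj v j i := by
  obtain ⟨h0, q, h1, h2, h3, h4⟩ := h
  exact ⟨h0.symm, q, h1, h3, h2, by rw [add_comm, h4]⟩

theorem Adj.P {v : ℂ} {i j : Fin 5} (h : c.Adj v i j) : c.P v i := by
  obtain ⟨-, q, h1, h2, -⟩ := h
  exact h1.P h2

end MCol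

end Crest.Agent.R040

end
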