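import Crest.Agent.R040.Defs1

/-! # Row 40, Step 1: Bochner's theorem for countable discrete abelian groups -/

set_option autoImplicit false

open MeasureTheory Filter Topology Set

noncomputable section

namespace Crest.Agent.R040

section aux
open ComplexConjugate
variable {G : Type} [AddCommGroup G]

/-- positive definite functions -/
def bPD (ψ : G → ℂ) : Prop := (∀ a, ψ (-a) = conj (ψ a)) ∧
  ∀ (ι : Type) [Fintype ι] (x : ι → G) (c : ι → ℂ), 0 ≤ (∑ i, ∑ j, conj (c i) * c j * ψ (x j - x i)).re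

theorem bPD.add {ψ ψ' : G → ℂ} (h : bPD ψ) (h' : bPD ψ') : bPD (ψ + ψ') := by
  refine ⟨fun a => by simp [h.1, h'.1], fun ι _ x c => ?_⟩
  simpa only [Pi.add_apply, mul_add, Finset.sum_add_distrib, Complex.add_re] using
    add_nonneg (h.2 ι x c) (h'.2 ι x c)

theorem bPD.smul {ψ : G → ℂ} (h : bPD ψ) {t : ℝ} (ht : 0 ≤ t) : bPD (t • ψ) := by
  refine ⟨fun a => by simp [h.1], fun ι _ x c => ?_⟩
  have := mul_nonneg ht (h.2 ι x c)
  rw [← Complex.re_ofReal_mul] at this
  simpa only [Pi.smul_apply, Complex.real_smul, Finset.mul_sum, mul_left_comm (t : ℂ)] using this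

theorem bPD.zero {ψ : G → ℂ} (h : bPD ψ) : 0 ≤ (ψ 0).re ∧ ψ 0 = (ψ 0).re := by
  refine ⟨by simpa using h.2 Unit (fun _ => 0) (fun _ => 1), ?_⟩
  have := h.1 0
  rw [neg_zero] at this
  exact (Complex.conj_eq_iff_re.1 this.symm).symm

/-- the function of the vector `ξ + ζ U_b ξ` -/
def bShift (ψ : G → ℂ) (ζ : ℂ) (b a : G) : ℂ :=
  (1 + conj ζ * ζ) * ψ a + ζ * ψ (a + b) + conj ζ * ψ (a - b)

theorem bPD.shift {ψ : G → ℂ} (h : bPD ψ) (ζ : ℂ) (b : G) : bPD (bShift ψ ζ b) := by
  refine ⟨fun a => ?_, fun ι _ x c => ?_⟩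
  · simp only [bShift, map_add, map_mul, map_one, Complex.conj_conj, ← h.1]
    rw [show -(a + b) = -a - b by abel, show -(a - b) = -a + b by abel]
    ring
  · refine (h.2 (ι ⊕ ι) (Sum.elim x fun i => x i + b) (Sum.elim c fun i => ζ * c i)).trans_eq ?_
    congr 1
    simp only [Fintype.sum_sum_type, Sum.elim_inl, Sum.elim_inr, ← Finset.sum_add_distrib]
    refine Finset.sum_congr rfl fun i _ => Finset.sum_congr rfl fun j _ => ?_
    rw [show x j + b - x i = x j - x i + b by abel, show x j - (x i + b) = x j - x i - b by abel,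
      show x j + b - (x i + b) = x j - x i by abel, bShift, map_mul]
    ring

theorem bPD.re_shift {ψ : G → ℂ} (h : bPD ψ) (ζ : ℂ) (b : G) :
    (bShift ψ ζ b 0).re = (1 + ‖ζ‖ ^ 2) * (ψ 0).re + 2 * (ζ * ψ b).re := by
  rw [bShift, zero_add, zero_sub, h.1, ← map_mul, Complex.conj_mul', h.zero.2, add_assoc, Complex.add_conj]
  norm_cast

theorem bPD.bound {ψ : G → ℂ} (h : bPD ψ) (b : G) :
    2 * ‖ψ b‖ ^ 2 ≤ (1 + ‖ψ b‖ ^ 2) * (ψ 0).re := by
  have h1 := (h.shift (-conj (ψ b)) b).zero.1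
  rw [h.re_shift, neg_mul, Complex.conj_mul', norm_neg, Complex.norm_conj] at h1
  norm_cast at h1
  linarith

/-- normalised positive definite functions -/
def bSet (G : Type) [AddCommGroup G] : Set (G → ℂ) := {ψ | ψ 0 = 1 ∧ bPD ψ}

theorem bSet_norm {ψ : G → ℂ} (h : ψ ∈ bSet G) (b : G) : ‖ψ b‖ ≤ 1 := by
  have := h.2.bound b
  rw [h.1, Complex.one_re] at this
  nlinarith [norm_nonneg (ψ b)]

theorem bSet_convex : Convex ℝ (bSet G) := fun ψ h ψ' h' a b ha hb hab =>
  ⟨by simp only [Pi.add_apply, Pi.smul_apply, h.1, h'.1, ← add_smul, hab, one_smul],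
    (h.2.smul ha).add (h'.2.smul hb)⟩

theorem bSet_compact : IsCompact (bSet G) := by
  refine (isCompact_univ_pi fun _ : G => isCompact_closedBall (0 : ℂ) 1).of_isClosed_subset ?_
    fun ψ h a _ => by simpa using bSet_norm h a
  simp only [bSet, bPD, setOf_and, setOf_forall]
  exact (isClosed_eq (by fun_prop) continuous_const).inter
    ((isClosed_iInter fun a => isClosed_eq (by fun_prop) (by fun_prop)).inter
      (isClosed_iInter fun ι => isClosed_iInter fun _ => isClosed_iInter fun x => isClosed_iInter fun c =>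
        isClosed_le continuous_const (by fun_prop)))

theorem bSet_extreme {ψ : G → ℂ} (h : ψ ∈ (bSet G).extremePoints ℝ) :
    (∀ a, ‖ψ a‖ = 1) ∧ ∀ a b, ψ (a + b) = ψ a * ψ b := by
  obtain ⟨h0, h⟩ := mem_extremePoints_iff_left.1 h
  have pos : ∀ (ζ : ℂ) (b : G), ‖ζ‖ = 1 / 2 → 0 < (bShift ψ ζ b 0).re := fun ζ b hζ => by
    have a1 := (Complex.abs_re_le_norm (ζ * ψ b)).trans ((norm_mul _ _).le.trans
      (mul_le_of_le_one_right (norm_nonneg _) (bSet_norm h0 b)))
    rw [h0.2.re_shift, h0.1, hζ, Complex.one_re]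
    linarith [(abs_le.1 a1).1]
  have mem : ∀ (ζ : ℂ) (b : G), ‖ζ‖ = 1 / 2 → ((bShift ψ ζ b 0).re)⁻¹ • bShift ψ ζ b ∈ bSet G :=
    fun ζ b hζ => ⟨by
      rw [Pi.smul_apply, Complex.real_smul]
      nth_rewrite 2 [(h0.2.shift ζ b).zero.2]
      exact_mod_cast inv_mul_cancel₀ (pos ζ b hζ).ne', (h0.2.shift ζ b).smul (inv_nonneg.2 (pos ζ b hζ).le)⟩
  have key : ∀ (ζ : ℂ) (a b : G), ‖ζ‖ = 1 / 2 →
      ζ * ψ (a + b) + conj ζ * ψ (a - b) = (ζ * ψ b + conj ζ * ψ (-b)) * ψ a := fun ζ a b hζ => by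
    have hζ' : ‖-ζ‖ = 1 / 2 := by rwa [norm_neg]
    have p1 := pos ζ b hζ
    have p2 := pos _ b hζ'
    have e := h _ (mem ζ b hζ) _ (mem _ b hζ') ⟨2 / 5 * (bShift ψ ζ b 0).re, 2 / 5 * (bShift ψ (-ζ) b 0).re,
      by positivity, by positivity, by
        rw [h0.2.re_shift, h0.2.re_shift, h0.1, hζ, hζ', neg_mul, Complex.neg_re, Complex.one_re]
        ring, by
        rw [smul_smul, smul_smul, mul_inv_cancel_right₀ p1.ne', mul_inv_cancel_right₀ p2.ne']
        funext x
        simp only [Pi.add_apply, Pi.smul_apply, Complex.real_smul, bShift, map_neg, neg_mul_neg,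
          Complex.conj_mul', hζ]
        push_cast
        ring⟩
    have e1 := congrFun e a
    rw [Pi.smul_apply, inv_smul_eq_iff₀ p1.ne', Complex.real_smul, ← (h0.2.shift ζ b).zero.2] at e1
    simp only [bShift, zero_add, zero_sub, h0.1] at e1
    linear_combination e1
  have hm : ∀ a b, ψ (a + b) = ψ a * ψ b := fun a b => by
    have k1 := key (1 / 2) a b (by simp)
    have k2 := key (Complex.I / 2) a b (by simp)
    simp only [map_div₀, map_one, Complex.conj_ofNat, Complex.conj_I] at k1 k2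
    linear_combination k1 - Complex.I * k2 +
      (ψ (a + b) - ψ (a - b) - (ψ b - ψ (-b)) * ψ a) / 2 * Complex.I_sq
  refine ⟨fun a => ?_, hm⟩
  have := hm a (-a)
  rw [add_neg_cancel, h0.1, h0.2.1, Complex.mul_conj'] at this
  have h2 : ‖ψ a‖ ^ 2 = 1 := by exact_mod_cast this.symm
  exact (pow_eq_one_iff_of_nonneg (norm_nonneg _) two_ne_zero).1 h2

theorem bSet_repr [Countable G] {ψ : G → ℂ} (h : ψ ∈ bSet G) :
    ∃ μ : ProbabilityMeasure (Ch G), (fun a => ∫ χ : Ch G, χ.1 a ∂μ) = ψ := by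
  have hi : ∀ (μ : Measure (Ch G)) [IsFiniteMeasure μ] (a : G), Integrable (fun χ : Ch G => χ.1 a) μ :=
    fun μ _ a => Integrable.of_bound (ch_measurable a).aestronglyMeasurable 1
      (Eventually.of_forall fun χ => (χ.2.1 a).le)
  rw [← closure_convexHull_extremePoints bSet_compact bSet_convex] at h
  refine closure_minimal (t := range fun (μ : ProbabilityMeasure (Ch G)) a => ∫ χ : Ch G, χ.1 a ∂μ)
    (convexHull_min (fun ψ hψ => ⟨⟨Measure.dirac ⟨ψ, bSet_extreme hψ⟩, inferInstance⟩, ?_⟩) ?_)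
    (isCompact_range (continuous_pi fun a => continuous_iff_continuousAt.2 fun μ => ?_)).isClosed h
  · funext a
    simp
  · rintro _ ⟨μ, rfl⟩ _ ⟨ν, rfl⟩ a b ha hb hab
    lift a to NNReal using ha
    lift b to NNReal using hb
    refine ⟨⟨a • (μ : Measure (Ch G)) + b • (ν : Measure (Ch G)), ⟨?_⟩⟩, ?_⟩
    · simp only [Measure.coe_add, Measure.coe_smul, Pi.add_apply, Pi.smul_apply, measure_univ,
        ENNReal.smul_def, smul_eq_mul, mul_one]
      exact_mod_cast hab
    · funext x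
      simp only [ProbabilityMeasure.coe_mk, Pi.add_apply, Pi.smul_apply]
      rw [integral_add_measure (hi _ x) (hi _ x), integral_smul_nnreal_measure,
        integral_smul_nnreal_measure]
      rfl
  · exact (ProbabilityMeasure.tendsto_iff_forall_integral_rclike_tendsto ℂ).1 tendsto_id
      (BoundedContinuousFunction.mkOfCompact ⟨_, ch_continuous a⟩)

theorem bPD_real (φ : G → ℝ) (hsymm : ∀ a, φ (-a) = φ a)
    (hpd : ∀ (s : Finset G) (c : G → ℝ), 0 ≤ ∑ a ∈ s, ∑ b ∈ s, c a * c b * φ (a - b)) :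
    bPD fun a => (φ a : ℂ) := by
  classical
  refine ⟨fun a => by simp [hsymm], fun ι _ x c => ?_⟩
  have key : ∀ u : ι → ℝ, 0 ≤ ∑ i, ∑ j, u i * u j * φ (x j - x i) := fun u => by
    refine (hpd (Finset.univ.image x) fun a => ∑ i with x i = a, u i).trans_eq ?_
    have e : ∀ F : G → ℝ, ∑ a ∈ Finset.univ.image x, (∑ i with x i = a, u i) * F a =
        ∑ i, u i * F (x i) := fun F => by
      rw [← Finset.sum_fiberwise_of_maps_to (fun i hi => Finset.mem_image_of_mem x hi)]
      refine Finset.sum_congr rfl fun a _ => ?_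
      rw [Finset.sum_mul]
      exact Finset.sum_congr rfl fun i hi => by rw [(Finset.mem_filter.1 hi).2]
    simp only [mul_assoc, ← Finset.mul_sum, e]
    refine Finset.sum_congr rfl fun i _ => congrArg _ (Finset.sum_congr rfl fun j _ => ?_)
    rw [← hsymm, neg_sub]
  have := add_nonneg (key fun i => (c i).re) (key fun i => (c i).im)
  refine this.trans_eq ?_
  simp only [Complex.re_sum, ← Finset.sum_add_distrib]
  refine Finset.sum_congr rfl fun i _ => Finset.sum_congr rfl fun j _ => ?_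
  simp
  ring

end aux

/-- One route.  A real symmetric positive semidefinite kernel is positive for complex coefficients.  Enumerate `G ∋ g 0, g 1, …`.  For `k` and `N` let `φ_k(n) = φ(∑ n_i g_i)` on `ℤ^k`, and put on the finite set
`(ZMod M)^k` (characters `t ↦ e(n·t/M)`, `M ≥ 2N`... or on the torus with Haar measure) the Fejér weights `N^{-k} M^{-k} ∑_{n,n' ∈ [0,N)^k} φ_k(n - n') e(-(n - n')·t/M) ≥ 0`; total mass `φ 0`, and the `n`-th
Fourier coefficient is `∏ (1 - |n_i|/N)₊ φ_k(n)` for `|n_i| < N`.  Push forward to the compact space `G → closedBall 0 1` (or `G → ℂ` restricted to the compact product of circles) by `t ↦ (g ↦ e(n(g)·t/M))`, where `n(g)` is a fixed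
finitely supported representation of `g` (value `1` while `n(g)` does not live in the first `k` coordinates).  A cluster point `μ` (`CompactSpace (ProbabilityMeasure _)`, after normalising; `φ 0 = 0` forces `φ = 0`)
has `∫ χ g = φ g` and `∫ ‖χ(g+h) - χ g χ h‖² = 2φ 0 - 2φ(0) = 0`, so it is carried by the closed set of characters; pull it back to `Ch G` (`Measure.comap Subtype.val`).
Any other proof (Haar measure and Følner sets, Gelfand + Riesz–Markov) is fine. -/
theorem bochner {G : Type} [AddCommGroup G] [Countable G] (φ : G → ℝ) (hsymm : ∀ a, φ (-a) = φ a)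
    (hpd : ∀ (s : Finset G) (c : G → ℝ), 0 ≤ ∑ a ∈ s, ∑ b ∈ s, c a * c b * φ (a - b)) :
    ∃ μ : Measure (Ch G), IsFiniteMeasure μ ∧ ∀ a, ∫ χ : Ch G, χ.1 a ∂μ = (φ a : ℂ) := by
  have h := bPD_real φ hsymm hpd
  rcases (show 0 ≤ φ 0 by simpa using h.zero.1).eq_or_lt with h0 | h0
  · refine ⟨0, inferInstance, fun a => ?_⟩
    have := h.bound a
    rw [Complex.ofReal_re, ← h0, mul_zero] at this
    rw [integral_zero_measure, eq_comm, ← norm_eq_zero]
    nlinarith [norm_nonneg (φ a : ℂ)]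
  obtain ⟨μ, hμ⟩ := bSet_repr (ψ := (φ 0)⁻¹ • fun a => (φ a : ℂ)) ⟨by
    rw [Pi.smul_apply, Complex.real_smul]
    exact_mod_cast inv_mul_cancel₀ h0.ne', h.smul (inv_nonneg.2 h0.le)⟩
  refine ⟨(φ 0).toNNReal • (μ : Measure (Ch G)), inferInstance, fun a => ?_⟩
  rw [integral_smul_nnreal_measure, congrFun hμ a, NNReal.smul_def, Real.coe_toNNReal _ h0.le,
    Pi.smul_apply, smul_inv_smul₀ h0.ne']

end Crest.Agent.R040

end
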