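import Crest.Agent.R040.FrameApi

/-! # Row 40, Step 1: zero entropy coding -/

set_option autoImplicit false

open MeasureTheory Filter Topology Set

noncomputable section

namespace Crest.Agent.R040

theorem code_cells {δ : ℝ} (hδ : 0 < δ) : ∃ (t : Finset ℂ) (cell : ℂ → ℂ), ∀ z, ‖z‖ = 1 →
    cell z ∈ t ∧ ∀ w, ‖w‖ = 1 → cell z = cell w → ‖w - z‖ ≤ δ := by
  obtain ⟨t, -, ht, hc⟩ := finite_cover_balls_of_compact (isCompact_sphere (0 : ℂ) 1) (half_pos hδ)
  have h : ∀ z : ℂ, ‖z‖ = 1 → ∃ x ∈ ht.toFinset, ‖z - x‖ < δ / 2 := fun z hz => by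
    have := hc (show z ∈ Metric.sphere (0 : ℂ) 1 by simpa using hz)
    simp only [mem_iUnion, Metric.mem_ball, dist_eq_norm] at this
    obtain ⟨x, h1, h2⟩ := this
    exact ⟨x, by simpa using h1, h2⟩
  choose! cell h1 h2 using h
  refine ⟨_, cell, fun z hz => ⟨h1 z hz, fun w hw e => ?_⟩⟩
  have a1 := h2 z hz
  have a2 := h2 w hw
  rw [← e] at a2
  have a3 := norm_sub_le_norm_sub_add_norm_sub w (cell z) z
  rw [norm_sub_rev] at a1
  linarith

theorem code_count {ι : Type} [Fintype ι] [DecidableEq ι] (t : Finset ℂ) {s m : ℝ} (hs : 0 ≤ s) :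
    ((((Fintype.piFinset fun _ : ι => Finset.insertNone t).filter fun f =>
      ((Finset.univ.filter fun p => f p ≠ none).card : ℝ) ≤ m).card : ℕ) : ℝ) ≤
      Real.exp (s * m + Fintype.card ι * (t.card * Real.exp (-s))) := by
  classical
  have h1 := Finset.prod_univ_sum (fun _ : ι => Finset.insertNone t)
    (fun _ o => if o ≠ none then Real.exp (-s) else 1)
  rw [Finset.sum_insertNone] at h1
  simp only [ne_eq, not_true_eq_false, if_false, reduceCtorEq, not_false_eq_true, if_true,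
    Finset.sum_const, nsmul_eq_mul, Finset.prod_const, Finset.card_univ] at h1
  have h2 : (1 + t.card * Real.exp (-s)) ^ Fintype.card ι ≤
      Real.exp (Fintype.card ι * (t.card * Real.exp (-s))) := by
    rw [Real.exp_nat_mul]
    exact pow_le_pow_left₀ (by positivity) (by linarith [Real.add_one_le_exp (t.card * Real.exp (-s))]) _
  rw [Real.exp_add, mul_comm (Real.exp _), ← div_le_iff₀ (Real.exp_pos _)]
  refine le_trans ?_ (h1.symm.le.trans h2)
  refine le_trans ?_ (Finset.sum_le_sum_of_subset_of_nonneg (Finset.filter_subset (fun f =>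
    ((Finset.univ.filter fun p => f p ≠ none).card : ℝ) ≤ m) _)
    fun f _ _ => Finset.prod_nonneg fun p _ => by split_ifs <;> positivity)
  rw [div_eq_mul_inv, ← nsmul_eq_mul]
  refine Finset.card_nsmul_le_sum _ _ _ fun f hf => ?_
  rw [← Finset.prod_filter, Finset.prod_const, ← Real.exp_nat_mul, ← Real.exp_neg, Real.exp_le_exp]
  nlinarith [mul_le_mul_of_nonneg_left (Finset.mem_filter.1 hf).2 hs]

theorem code_five {z : ℂ} (h1 : ‖z‖ = 1) (h5 : z ^ 5 = 1) (h : ‖z - 1‖ < 1 / 2) : z = 1 := by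
  by_contra hne
  have h0 : 1 + z + z ^ 2 + z ^ 3 + z ^ 4 = 0 :=
    mul_left_cancel₀ (sub_ne_zero.2 hne) (by linear_combination h5)
  have e : (5 : ℂ) = -((z - 1) * (4 + 3 * z + 2 * z ^ 2 + z ^ 3)) := by linear_combination h0
  have h2 : ‖4 + 3 * z + 2 * z ^ 2 + z ^ 3‖ ≤ 10 := by
    refine norm_add₃_le.trans ((add_le_add (add_le_add (norm_add_le _ _) le_rfl) le_rfl).trans ?_)
    simp only [norm_mul, norm_pow, h1, Complex.norm_ofNat]
    norm_num
  have h3 := congrArg norm e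
  rw [norm_neg, norm_mul, Complex.norm_ofNat] at h3
  nlinarith [norm_nonneg (z - 1)]

theorem code_pi_ne : piK ≠ 0 := left_ne_zero_of_mul (piK_mul_pibK ▸ by norm_num : piK * pibK ≠ 0)

theorem code_pib : pibK = -1 + piK * ((1 : ℤ) + (-1 : ℤ) * iK) := by
  apply Subtype.ext
  simp only [pibK, piK]
  push_cast
  rw [show ((2 : K) : ℂ) = 2 from rfl, coe_iK]
  linear_combination Complex.I_sq

theorem code_ee_zero : ee 0 = 1 := by simp [ee]

/-- the points where `χ' = χ e(ξ)` -/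
def codeS (χ χ' : X) (ξ : K →+ ℝ) : AddSubgroup K where
  carrier := {z | χ'.1 z = χ.1 z * ee (ξ z)}
  zero_mem' := by simp [ch_zero, code_ee_zero]
  add_mem' := fun {a b} ha hb => by
    simp only [mem_setOf_eq] at ha hb ⊢
    rw [χ.2.2, χ'.2.2, map_add, ee_add, ha, hb]
    ring
  neg_mem' := fun {a} ha => by
    simp only [mem_setOf_eq] at ha ⊢
    have h1 := χ.2.2 a (-a)
    have h2 := χ'.2.2 a (-a)
    have h3 := ee_add (ξ a) (ξ (-a))
    rw [add_neg_cancel, ch_zero] at h1 h2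
    rw [← map_add, add_neg_cancel, map_zero, code_ee_zero] at h3
    linear_combination χ'.1 (-a) * h1 + χ'.1 (-a) * χ.1 a * χ.1 (-a) * h3 -
      χ.1 (-a) * ee (ξ (-a)) * h2 - χ'.1 (-a) * χ.1 (-a) * ee (ξ (-a)) * ha

theorem code_mem {χ χ' : X} {ξ : K →+ ℝ} {z : K} : z ∈ codeS χ χ' ξ ↔ χ'.1 z = χ.1 z * ee (ξ z) :=
  Iff.rfl

theorem code_nsmul (χ : X) (z : K) (n : ℕ) : χ.1 (n • z) = χ.1 z ^ n := by
  induction n with
  | zero => simp [ch_zero]
  | succ n ih => rw [succ_nsmul, χ.2.2, ih, pow_succ]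

theorem code_root {χ χ' : X} {ξ : K →+ ℝ} {z : K} (h5 : (5 : ℕ) • z ∈ codeS χ χ' ξ)
    (h : ‖χ'.1 z - χ.1 z‖ ≤ 3 / 10) (hξ : |ξ z| ≤ 1 / 40) : z ∈ codeS χ χ' ξ := by
  have hn : ‖χ.1 z * ee (ξ z)‖ = 1 := by rw [norm_mul, χ.2.1, norm_ee, one_mul]
  have h0 : χ.1 z * ee (ξ z) ≠ 0 := fun h => by simp [h] at hn
  have e5 : ee (ξ ((5 : ℕ) • z)) = ee (ξ z) ^ 5 := by
    rw [map_nsmul, show (5 : ℕ) • ξ z = ξ z + ξ z + ξ z + ξ z + ξ z by simp; ring]
    simp only [ee_add]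
    ring
  rw [code_mem, code_nsmul, code_nsmul, e5, ← mul_pow] at h5
  refine (div_eq_one_iff_eq h0).1 (code_five (by rw [norm_div, hn, χ'.2.1, div_one])
    (by rw [div_pow, h5, div_self (pow_ne_zero _ h0)]) ?_)
  rw [div_sub_one h0, norm_div, hn, div_one]
  have a1 := norm_sub_le_norm_sub_add_norm_sub (χ'.1 z) (χ.1 z) (χ.1 z * ee (ξ z))
  have a2 : ‖χ.1 z - χ.1 z * ee (ξ z)‖ = ‖ee (ξ z) - 1‖ := by
    rw [← mul_one_sub, norm_mul, χ.2.1, one_mul, norm_sub_rev]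
  have a3 := norm_ee_sub_one (ξ z)
  have a4 := mul_le_mul Real.pi_lt_d2.le hξ (abs_nonneg _) (by norm_num)
  linarith

theorem code_xi {B : Finset K} (F : Frame B) {ξ : K →+ ℝ} {η : ℝ}
    (hξ : ∀ y h, Ht F.β y h → |ξ (y / F.c)| ≤ η * h) (k : ℕ) {y : K} {h : ℝ} (hy : Ht F.β y h) :
    √5 ^ k * |ξ (y / (F.c * piK ^ k))| ≤ η * h := by
  have h1 := hξ _ _ (hy.pi_pow_mul k).2
  have e : pibK ^ k * y / F.c = (5 ^ k : ℕ) • (y / (F.c * piK ^ k)) := by
    have := F.c_ne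
    have := code_pi_ne
    rw [nsmul_eq_mul, Nat.cast_pow, Nat.cast_ofNat, ← piK_mul_pibK, mul_pow]
    field_simp
  have h5 : (0 : ℝ) < √5 ^ k := by positivity
  rw [e, map_nsmul, nsmul_eq_mul, abs_mul, Nat.abs_cast, Nat.cast_pow, Nat.cast_ofNat,
    ← Real.mul_self_sqrt (show (0 : ℝ) ≤ 5 by norm_num), mul_pow, mul_assoc, mul_left_comm η] at h1
  rw [Real.sqrt_mul_self (by positivity)] at h1
  exact le_of_mul_le_mul_left h1 h5

/-- one step of the induction on the scale -/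
theorem code_step {B : Finset K} (F : Frame B) (S : AddSubgroup K) (k : ℕ)
    (h1 : ∀ y h, Ht F.β y h → y / (F.c * piK ^ k) ∈ S)
    (h2 : ∀ j, pibK ^ (k + 1) * (F.c * F.w j) / (F.c * piK ^ (k + 1)) ∈ S) :
    ∀ y h, Ht F.β y h → y / (F.c * piK ^ (k + 1)) ∈ S := by
  have hc := F.c_ne
  have hp := code_pi_ne
  have key : ∀ (m : ℕ) (y : K) (h : ℝ), Ht F.β y h → pibK ^ m * y / (F.c * piK ^ (k + 1)) ∈ S →
      y / (F.c * piK ^ (k + 1)) ∈ S := by
    intro m
    induction m with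
    | zero => intro y h _ hy; simpa using hy
    | succ m ih =>
      intro y h hy hm
      have a1 := ih _ _ (hy.pi_pow_mul 1).2 (by rwa [pow_one, ← mul_assoc, ← pow_succ])
      have a2 := S.sub_mem (h1 _ _ (hy.gauss_mul 1 (-1))) a1
      convert a2 using 1
      rw [pow_one, code_pib]
      field_simp
      ring
  intro y h hy
  obtain ⟨n, y', H', hy', rfl⟩ := F.span y h hy
  have a1 := S.add_mem (S.sum_mem (t := Finset.univ) fun j _ =>
    S.zsmul_mem (key _ _ _ (F.w_ht j) (h2 j)) (n j)) (h1 _ _ hy')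
  convert a1 using 1
  rw [add_div, Finset.sum_div]
  congr 1
  · exact Finset.sum_congr rfl fun j _ => by rw [zsmul_eq_mul, mul_div_assoc]
  · field_simp
    ring

/-- `A` = number of cells of a finite partition of the unit disc into sets of diameter `≤ 3/10` (e.g. `(⌊10 re⌋, ⌊10 im⌋)`).  Choose `t ∈ (0,1]` with `log(1 + A t) ≤ κ/2`, `θ` with `θ log(1/t) ≤ κ/2`.
Code of `χ` = (fine cells of the `2r` values `χ(β_j/c)`, `χ(iβ_j/c)`; the map `(k,j) ↦ none` if the prediction at `x_{k,j} = u₀^{-(k+1)} w_j` is right, `some (cell of χ x_{k,j})` otherwise).  The number of maps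
`[n] × [r] → Option (cells)` with at most `θ n r` values `≠ none` is at most `(1 + A t)^{nr} / t^{θ n r}` (`∑_f t^{#f} = (1 + At)^{nr}`, `Finset.prod_univ_sum`); number the possible codes.
Same code: `exists_ee_of_close`, `exists_addHom`, `addHom_bound` give `ξ` with `|ξ(y/c)| ≤ η' h`, `η'` tiny, and `ψ = χ' conj(χ) ee(-ξ)` is a character that is `1` on `M_0`, `M_k = R/(cπ^k)`.  Induction on `k`:
`x = π̄^{k+1}(c w_j)/(c π^{k+1})`, `5x ∈ M_k` so `ψ(x)^5 = 1`; `|ξ x| ≤ η' C` and `|ξ(x b)| ≤ √5 η' C`, `x b ∈ M_k` (write `1/π^k = π̄^k/5^k`, `ξ` is `ℚ`-linear); so `‖χ' x - χ x‖ ≤ 3/10` in both cases, `‖ψ x - 1‖ < 1/2`,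
and `ψ x = 1` (`1 + ψ + … + ψ⁴ = 0` is impossible).  `span` with `π̄^{k+1} ≡ ±1 mod π` (`π̄ = -1 + π(1 - i)`) shows `M_{k+1} ⊆ M_k + ∑ ℤ x_{k,j}`. -/
theorem code_lemma (κ : ℝ) (hκ : 0 < κ) : ∃ θ > (0 : ℝ), ∀ (B : Finset K) (F : Frame B) (G : X → ℂ) (η : ℝ),
    0 < η → (∀ χ χ' : X, (∀ b ∈ B, ‖χ.1 b - χ'.1 b‖ ≤ η) → ‖G χ - G χ'‖ ≤ 1 / 10) →
    ∃ C₀ : ℝ, F.CodeP G θ κ C₀ := by
  classical
  obtain ⟨t, cell, hcell⟩ := code_cells (δ := 3 / 10) (by norm_num)
  set s : ℝ := 2 * t.card / κ with hs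
  have hs0 : 0 ≤ s := by positivity
  refine ⟨κ / (2 * (s + 1)), by positivity, fun B F G η hη hG => ?_⟩
  have hC := F.one_le
  have hr : (0 : ℝ) < F.r := by exact_mod_cast F.r_pos
  obtain ⟨η', h0, h1, h2⟩ : ∃ η' : ℝ, 0 < η' ∧ η' * F.C ≤ 1 / 40 ∧ η' * F.C ≤ η / 30 := by
    refine ⟨min (1 / 40) (η / 30) / F.C, by positivity, ?_, ?_⟩ <;>
      rw [div_mul_cancel₀ _ (by positivity)]
    exacts [min_le_left _ _, min_le_right _ _]
  obtain ⟨t₁, cell₁, hcell₁⟩ := code_cells (δ := η' / (2 * F.r)) (by positivity)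
  refine ⟨((Fintype.piFinset fun _ : Fin F.r => t₁ ×ˢ t₁).card : ℝ), fun n => ?_⟩
  let x : ℕ → Fin F.r → K := fun k j => u0⁻¹ ^ (k + 1) * F.w j
  let cd : X → (Fin F.r → ℂ × ℂ) × (Fin n × Fin F.r → Option ℂ) := fun χ =>
    (fun j => (cell₁ (χ.1 (F.β j / F.c)), cell₁ (χ.1 (iK * F.β j / F.c))), fun p =>
      if 1 / 10 < ‖χ.1 (x p.1 p.2) - G (rot (x p.1 p.2) χ)‖ then some (cell (χ.1 (x p.1 p.2))) else none)
  let T := (Fintype.piFinset fun _ : Fin F.r => t₁ ×ˢ t₁) ×ˢ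
    ((Fintype.piFinset fun _ : Fin n × Fin F.r => Finset.insertNone t).filter fun f =>
      ((Finset.univ.filter fun p => f p ≠ none).card : ℝ) ≤ κ / (2 * (s + 1)) * n * F.r)
  have hT : ∀ χ, F.Good G (κ / (2 * (s + 1))) n χ → cd χ ∈ T := by
    intro χ hχ
    refine Finset.mem_product.2 ⟨Fintype.mem_piFinset.2 fun j => Finset.mem_product.2
      ⟨(hcell₁ _ (χ.2.1 _)).1, (hcell₁ _ (χ.2.1 _)).1⟩, Finset.mem_filter.2
      ⟨Fintype.mem_piFinset.2 fun p => ?_, le_of_eq_of_le ?_ hχ⟩⟩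
    · simp only [cd]
      split_ifs
      · exact Finset.some_mem_insertNone.2 (hcell _ (χ.2.1 _)).1
      · exact Finset.none_mem_insertNone
    · rw [← Set.ncard_coe_finset, ← Set.ncard_image_of_injective _
        (f := fun p : Fin n × Fin F.r => ((p.1 : ℕ), p.2)) fun p q h =>
          Prod.ext (Fin.ext (Prod.ext_iff.1 h).1) (Prod.ext_iff.1 h).2]
      congr 2
      ext p
      simp only [cd, x, ne_eq, ite_eq_right_iff, reduceCtorEq, imp_false, not_not, Finset.coe_filter,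
        Finset.mem_univ, true_and, mem_image, mem_setOf_eq]
      constructor
      · rintro ⟨q, hq, rfl⟩
        exact ⟨q.1.2, hq⟩
      · rintro ⟨a, b⟩
        exact ⟨(⟨p.1, a⟩, p.2), b, rfl⟩
  refine ⟨T.card, fun χ => if h : cd χ ∈ T then T.equivFin ⟨_, h⟩ else 0, ?_, fun χ hχ => ?_,
    fun χ χ' hχ hχ' he => ?_⟩
  · rw [Finset.card_product, Nat.cast_mul]
    refine mul_le_mul_of_nonneg_left ((code_count t hs0).trans (Real.exp_le_exp.2 ?_)) (by positivity)
    have a1 : s * (κ / (2 * (s + 1))) ≤ κ / 2 := by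
      rw [← mul_div_assoc, div_le_div_iff₀ (by positivity) (by norm_num)]
      nlinarith
    have a2 : t.card * Real.exp (-s) ≤ κ / 2 := by
      rw [Real.exp_neg, ← div_eq_mul_inv, div_le_iff₀ (Real.exp_pos _)]
      have e : κ / 2 * s = t.card := by rw [hs]; field_simp
      nlinarith [Real.add_one_le_exp s]
    have a3 : (0 : ℝ) ≤ n * F.r := by positivity
    simp only [Fintype.card_prod, Fintype.card_fin, Nat.cast_mul]
    nlinarith [mul_le_mul_of_nonneg_left a1 a3, mul_le_mul_of_nonneg_left a2 a3]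
  · simp only [dif_pos (hT χ hχ)]
    exact Fin.is_lt _
  simp only [dif_pos (hT χ hχ), dif_pos (hT χ' hχ')] at he
  have hcd : cd χ = cd χ' := congrArg Subtype.val (T.equivFin.injective (Fin.ext he))
  have c1 := fun j => Prod.ext_iff.1 (congrFun (congrArg Prod.fst hcd) j)
  have c2 := fun p => congrFun (congrArg Prod.snd hcd) p
  simp only [cd] at c1 c2
  choose a ha1 ha2 using fun j => exists_ee_of_close (χ.2.1 (F.β j / F.c)) (χ'.2.1 (F.β j / F.c))
  choose b hb1 hb2 using fun j => exists_ee_of_close (χ.2.1 (iK * F.β j / F.c)) (χ'.2.1 (iK * F.β j / F.c))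
  obtain ⟨ξ, hξ⟩ := F.exists_addHom F.c F.c_ne a b
  have hb : ∀ y h, Ht F.β y h → |ξ (y / F.c)| ≤ η' * h := fun y h hy => by
    refine (F.addHom_bound F.c ξ (η' / (2 * F.r)) (fun j => ?_) hy).trans (le_of_eq (by field_simp))
    rw [(hξ j).1, (hξ j).2]
    exact ⟨(ha1 j).trans ((hcell₁ _ (χ.2.1 _)).2 _ (χ'.2.1 _) (c1 j).1),
      (hb1 j).trans ((hcell₁ _ (χ.2.1 _)).2 _ (χ'.2.1 _) (c1 j).2)⟩
  refine ⟨ξ, fun y h hy => (hb y h hy).trans (mul_le_of_le_one_left (F.ht_nonneg hy) (by nlinarith)), ?_⟩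
  suffices H : ∀ k ≤ n, ∀ y h, Ht F.β y h → y / (F.c * piK ^ k) ∈ codeS χ χ' ξ from H n le_rfl
  have hc := F.c_ne
  have hp := code_pi_ne
  intro k
  induction k with
  | zero =>
    intro _ y h hy
    rw [pow_zero, mul_one]
    refine F.induction_on (fun y => y / F.c ∈ codeS χ χ' ξ) (by simp)
      (fun x y hx hy => by rw [add_div]; exact add_mem hx hy)
      (fun x hx => by rw [neg_div]; exact neg_mem hx) (fun j => ?_) hy
    rw [code_mem, code_mem, (hξ j).1, (hξ j).2]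
    exact ⟨ha2 j, hb2 j⟩
  | succ k ih =>
    intro hk
    have ih := ih (by omega)
    refine code_step F _ k ih fun j => ?_
    have e : pibK ^ (k + 1) * (F.c * F.w j) / (F.c * piK ^ (k + 1)) = x k j := by
      simp only [x, u0, inv_div, div_pow]
      field_simp
    have h5 : (0 : ℝ) < √5 := by positivity
    have h5' : √5 ≤ (3 : ℝ) := Real.sqrt_le_iff.2 ⟨by norm_num, by norm_num⟩
    have d1 := code_xi F hb (k + 1) ((F.w_ht j).pi_pow_mul (k + 1)).2
    rw [e, mul_left_comm] at d1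
    have d2 := (le_of_mul_le_mul_left d1 (by positivity)).trans h1
    rw [e]
    refine code_root ?_ ?_ d2
    · convert ih _ _ ((F.w_ht j).pi_pow_mul (k + 2)).2 using 1
      rw [← e, nsmul_eq_mul, Nat.cast_ofNat, ← piK_mul_pibK]
      field_simp
      ring
    have d3 : ‖G (rot (x k j) χ) - G (rot (x k j) χ')‖ ≤ 1 / 10 := by
      refine hG _ _ fun b hb' => ?_
      have e' : pibK ^ (k + 1) * (F.c * F.w j * b / piK) / (F.c * piK ^ k) = x k j * b := by
        rw [← e]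
        field_simp
        ring
      have f1 := ih _ _ ((F.wb_ht j b hb').pi_pow_mul (k + 1)).2
      have f2 := code_xi F hb k ((F.wb_ht j b hb').pi_pow_mul (k + 1)).2
      rw [e'] at f1 f2
      rw [pow_succ √5, mul_assoc (√5 ^ k), mul_left_comm η'] at f2
      have f3 := le_of_mul_le_mul_left f2 (by positivity)
      rw [rot_apply, rot_apply, code_mem.1 f1, ← mul_one_sub, norm_mul, χ.2.1, one_mul, norm_sub_rev]
      refine (norm_ee_sub_one _).trans ?_
      have f4 : |ξ (x k j * b)| ≤ η / 10 := by nlinarith [mul_pos h0 (zero_lt_one.trans_le hC)]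
      have f5 := mul_le_mul Real.pi_le_four f4 (abs_nonneg _) (by norm_num)
      linarith
    have c3 := c2 (⟨k, hk⟩, j)
    split_ifs at c3 with g1 g2 g2
    · exact (hcell _ (χ.2.1 _)).2 _ (χ'.2.1 _) (Option.some.inj c3)
    · have g3 := norm_sub_le_norm_sub_add_norm_sub (χ'.1 (x k j)) (G (rot (x k j) χ')) (χ.1 (x k j))
      have g4 := norm_sub_le_norm_sub_add_norm_sub (G (rot (x k j) χ')) (G (rot (x k j) χ)) (χ.1 (x k j))
      rw [norm_sub_rev] at d3 g1
      linarith [not_lt.1 g1, not_lt.1 g2]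

end Crest.Agent.R040

end
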