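import Crest.Agent.R040.Defs2

/-! # Row 40, Step 2: the Hardy–Littlewood weak type inequality -/

set_option autoImplicit false

open MeasureTheory Filter Topology Set Metric
open scoped Real

noncomputable section

namespace Crest.Agent.R040

/-- Vitali covering: `Vitali.exists_disjoint_subfamily_covering_enlargement_closedBall` (or `..._ball`), `Measure.addHaar_ball_mul`/`addHaar_closedBall_mul`.  The set on the left need not be measurable (outer measure). -/
theorem hl_weak {E : Type*} [NormedAddCommGroup E] [NormedSpace ℝ E] [FiniteDimensional ℝ E]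
    [MeasurableSpace E] [BorelSpace E] (μ : Measure E) [μ.IsAddHaarMeasure] {S : Set E}
    (hS : MeasurableSet S) (hfin : μ S ≠ ⊤) {lam : ℝ} (hlam : 0 < lam) (R : ℝ) :
    μ {x | ∃ ρ, 0 < ρ ∧ ρ ≤ R ∧ lam * μ.real (ball x ρ) < μ.real (S ∩ ball x ρ)} ≤
      ENNReal.ofReal (5 ^ Module.finrank ℝ E / lam * μ.real S) := by
  set t : Set (E × ℝ) := {a | 0 < a.2 ∧ a.2 ≤ R ∧
    lam * μ.real (ball a.1 a.2) < μ.real (S ∩ ball a.1 a.2)} with ht
  obtain ⟨u, hut, hd, hc⟩ := Vitali.exists_disjoint_subfamily_covering_enlargement_ball t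
    Prod.fst Prod.snd R (fun a ha => ha.2.1) 5 (by norm_num)
  have hu : u.Countable := hd.countable_of_isOpen (fun a _ => isOpen_ball)
    fun a ha => nonempty_ball.2 (hut ha).1
  set C : ℝ := 5 ^ Module.finrank ℝ E / lam with hC
  have hC0 : 0 ≤ C := by positivity
  calc _ ≤ μ (⋃ b ∈ u, ball b.1 (5 * b.2)) := by
        refine measure_mono ?_
        rintro x ⟨ρ, h1, h2, h3⟩
        obtain ⟨b, hb, hsub⟩ := hc (x, ρ) ⟨h1, h2, h3⟩
        exact mem_biUnion hb (hsub (mem_ball_self h1))
    _ ≤ ∑' b : u, μ (ball b.1.1 (5 * b.1.2)) := measure_biUnion_le μ hu _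
    _ ≤ ∑' b : u, ENNReal.ofReal C * μ (S ∩ ball b.1.1 b.1.2) := by
        refine ENNReal.tsum_le_tsum fun b => ?_
        obtain ⟨h1, -, h3⟩ := hut b.2
        rw [Measure.addHaar_ball_mul_of_pos μ _ (by norm_num : (0 : ℝ) < 5),
          ← Measure.addHaar_ball_center μ b.1.1,
          ← ofReal_measureReal (μ := μ) (s := ball b.1.1 b.1.2) measure_ball_lt_top.ne,
          ← ofReal_measureReal (μ := μ) (s := S ∩ ball b.1.1 b.1.2)
            (ne_top_of_le_ne_top hfin (measure_mono inter_subset_left)),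
          ← ENNReal.ofReal_mul (by positivity), ← ENNReal.ofReal_mul hC0]
        refine ENNReal.ofReal_le_ofReal ?_
        rw [hC, div_mul_eq_mul_div, le_div_iff₀ hlam, mul_assoc, mul_comm _ lam]
        gcongr
    _ = ENNReal.ofReal C * μ (⋃ b ∈ u, S ∩ ball b.1 b.2) := by
        rw [ENNReal.tsum_mul_left, measure_biUnion hu
          (hd.mono fun b => inter_subset_right) fun b _ => hS.inter measurableSet_ball]
    _ ≤ ENNReal.ofReal C * μ S := by
        gcongr
        exact iUnion₂_subset fun b _ => inter_subset_left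
    _ = _ := by rw [ENNReal.ofReal_mul hC0, ofReal_measureReal hfin]

end Crest.Agent.R040

end
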