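import Crest.Agent.R040.Bas
import Crest.Agent.R040.HL

/-! # Row 40, Step 2: windows with proportion one half -/

set_option autoImplicit false

open MeasureTheory Filter Topology Set Metric
open scoped Real

noncomputable section

namespace Crest.Agent.R040

theorem half_ball {x z : ℂ} {r s ρ : ℝ} (hz : z ∈ ball x (r - s)) (hρ : ρ ≤ s) :
    ball z ρ ⊆ ball x r := ball_subset_ball' (by linarith [mem_ball.1 hz])

theorem half_pt {c ε : ℝ} (hc : 0 < c) (hε : 0 < ε) {T R : Set ℂ} {x : ℂ} {r : ℝ}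
    (hT : MeasurableSet T) (hR : MeasurableSet R) (hr : 0 < r) (h1 : c ≤ pr T x r)
    (h2 : pr R x r ≤ ε * c / 100) {P : ℂ → Prop} (hP : ∀ᵐ z : ℂ, P z) :
    ∃ z ∈ ball x (r - c * r / 4), z ∈ T ∧ P z ∧ ∀ ρ, 0 < ρ → ρ ≤ c * r / 4 → pr R z ρ ≤ ε := by
  by_contra hcon
  have hc1 : c ≤ 1 := h1.trans (pr_le_one _ _ _)
  have hcr : 0 < c * r := mul_pos hc hr
  have hr' : 0 < r - c * r / 4 := by nlinarith
  have hπ := Real.pi_pos
  have hfin : ∀ (S : Set ℂ) (ρ : ℝ), volume (S ∩ ball x ρ) ≠ ⊤ := fun S ρ =>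
    ((measure_mono inter_subset_right).trans_lt measure_ball_lt_top).ne
  have hl := hl_weak volume (hR.inter measurableSet_ball) (hfin R r) hε (c * r / 4)
  have hsub : T ∩ ball x (r - c * r / 4) ⊆ {z | ∃ ρ, 0 < ρ ∧ ρ ≤ c * r / 4 ∧
      ε * volume.real (ball z ρ) < volume.real (R ∩ ball x r ∩ ball z ρ)} ∪ {z | ¬ P z} := by
    rintro z ⟨hz1, hz2⟩
    by_contra hz
    rw [mem_union, not_or] at hz
    refine hcon ⟨z, hz2, hz1, not_not.1 hz.2, fun ρ hρ hρ' => ?_⟩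
    have h3 := not_lt.1 fun h => hz.1 ⟨ρ, hρ, hρ', h⟩
    rw [inter_assoc, inter_eq_right.2 (half_ball hz2 hρ'), volume_real_ball _ hρ.le] at h3
    rwa [pr, div_le_iff₀ (by positivity)]
  have h4 := (measure_mono hsub).trans ((measure_union_le _ _).trans (add_le_add hl (ae_iff.1 hP).le))
  rw [add_zero, Complex.finrank_real_complex] at h4
  have h5 : volume.real (T ∩ ball x (r - c * r / 4)) ≤ 5 ^ 2 / ε * volume.real (R ∩ ball x r) :=
    ENNReal.toReal_le_of_le_ofReal (by positivity) h4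
  rw [pr, div_le_iff₀ (by positivity)] at h2
  have h6 : 5 ^ 2 / ε * volume.real (R ∩ ball x r) ≤ c / 4 * (π * r ^ 2) := by
    refine (mul_le_mul_of_nonneg_left h2 (by positivity)).trans_eq ?_
    field_simp
    norm_num
  have h7 := pr_sub Tᶜ hr' hr (ball_subset_ball (x := x) (by linarith))
  rw [pr_compl hT _ hr', pr_compl hT _ hr] at h7
  have h8 : volume.real (T ∩ ball x (r - c * r / 4)) =
      π * ((r - c * r / 4) ^ 2 * pr T x (r - c * r / 4)) := by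
    rw [pr, ← mul_assoc, mul_div_cancel₀ _ (by positivity)]
  have h9 := mul_le_mul_of_nonneg_left h1 (sq_nonneg r)
  have h10 : c / 2 * r ^ 2 ≤ (r - c * r / 4) ^ 2 * pr T x (r - c * r / 4) := by
    nlinarith [sq_nonneg (c * r)]
  have h11 := mul_le_mul_of_nonneg_left h10 hπ.le
  have h12 : 0 < c * (π * r ^ 2) := by positivity
  linarith

/-- `B' = ball x ((1 - c/4) r)` still contains measure `≥ (c/2) π r²` of `A` and of `Aᶜ`; `ρ₀ = c r/(4K)`.  By `hl_weak` for `R ∩ ball x r` (with `lam = ε`) and `ae_tendsto_pr` there are `z₁ ∈ A ∩ B'`, `z₂ ∈ B' \ A` of density one, zero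
with `pr R z_i ρ ≤ ε` for all `ρ ≤ c r/4`.  Intermediate value theorem (`continuousOn_pr`) along the radii at `z₁` if `pr A z₁ ρ₀ ≤ 1/2`, at `z₂` if `pr A z₂ ρ₀ ≥ 1/2`, otherwise along the segment from `z₁` to `z₂` at radius `ρ₀`,
where `pr R z (Kρ₀) ≤ 16 δ/c²` (`pr_sub`). -/
theorem half (c ε K : ℝ) (hc : 0 < c) (hε : 0 < ε) (hK : 1 ≤ K) : ∃ δ > (0 : ℝ),
    ∀ (A R : Set ℂ) (x : ℂ) (r : ℝ), MeasurableSet A → MeasurableSet R → 0 < r → c ≤ pr A x r →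
      pr A x r ≤ 1 - c → pr R x r ≤ δ →
      ∃ (z : ℂ) (ρ : ℝ), 0 < ρ ∧ ball z (K * ρ) ⊆ ball x r ∧ pr A z ρ = 1 / 2 ∧ pr R z (K * ρ) ≤ ε := by
  refine ⟨min (ε * c / 100) (ε * c ^ 2 / 16), by positivity, fun A R x r hA hR hr h1 h2 h3 => ?_⟩
  have hK0 : 0 < K := by linarith
  have hs : 0 < c * r / 4 := by positivity
  have hρ₀ : 0 < c * r / 4 / K := by positivity
  obtain ⟨z₁, hz₁, hA₁, hP₁, hR₁⟩ :=
    half_pt hc hε hA hR hr h1 (h3.trans (min_le_left _ _)) (ae_tendsto_pr hA)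
  obtain ⟨z₂, hz₂, hA₂, hP₂, hR₂⟩ := half_pt hc hε hA.compl hR hr
    (by rw [pr_compl hA _ hr]; linarith) (h3.trans (min_le_left _ _)) (ae_tendsto_pr hA)
  have rad : ∀ z ∈ ball x (r - c * r / 4), (∀ ρ, 0 < ρ → ρ ≤ c * r / 4 → pr R z ρ ≤ ε) →
      ∀ a ∈ Ioc 0 (c * r / 4 / K), ∀ b ∈ Ioc 0 (c * r / 4 / K), pr A z a ≤ 1 / 2 →
      1 / 2 ≤ pr A z b → ∃ (z : ℂ) (ρ : ℝ), 0 < ρ ∧ ball z (K * ρ) ⊆ ball x r ∧
        pr A z ρ = 1 / 2 ∧ pr R z (K * ρ) ≤ ε := fun z hz hRz a ha b hb h4 h5 => by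
    have hcont : ContinuousOn (pr A z) (Ioc 0 (c * r / 4 / K)) :=
      (continuousOn_pr hA).comp (f := fun ρ : ℝ => (z, ρ)) (by fun_prop) fun ρ hρ => hρ.1
    obtain ⟨ρ, hρ, e⟩ := isPreconnected_Ioc.intermediate_value ha hb hcont ⟨h4, h5⟩
    have h6 : K * ρ ≤ c * r / 4 := (le_div_iff₀' hK0).1 hρ.2
    exact ⟨z, ρ, hρ.1, half_ball hz h6, e, hRz _ (mul_pos hK0 hρ.1) h6⟩
  by_cases c1 : pr A z₁ (c * r / 4 / K) ≤ 1 / 2
  · obtain ⟨b, hb1, hb2⟩ := (((hP₁.1 hA₁).eventually_const_le (show (1 : ℝ) / 2 < 1 by norm_num)).and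
      (Ioc_mem_nhdsGT hρ₀)).exists
    exact rad z₁ hz₁ hR₁ _ ⟨hρ₀, le_rfl⟩ b hb2 c1 hb1
  by_cases c2 : 1 / 2 ≤ pr A z₂ (c * r / 4 / K)
  · obtain ⟨a, ha1, ha2⟩ := (((hP₂.2 hA₂).eventually_le_const (show (0 : ℝ) < 1 / 2 by norm_num)).and
      (Ioc_mem_nhdsGT hρ₀)).exists
    exact rad z₂ hz₂ hR₂ a ha2 _ ⟨hρ₀, le_rfl⟩ ha1 c2
  have hcont : ContinuousOn (fun z => pr A z (c * r / 4 / K)) (ball x (r - c * r / 4)) :=
    (continuousOn_pr hA).comp (f := fun z : ℂ => (z, c * r / 4 / K)) (by fun_prop) fun _ _ => hρ₀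
  obtain ⟨z, hz, e⟩ := (convex_ball x _).isPreconnected.intermediate_value hz₂ hz₁ hcont
    ⟨(not_le.1 c2).le, (not_le.1 c1).le⟩
  have e2 : K * (c * r / 4 / K) = c * r / 4 := mul_div_cancel₀ _ hK0.ne'
  refine ⟨z, _, hρ₀, half_ball hz e2.le, e, ?_⟩
  rw [e2]
  have h4 := pr_sub R hs hr (half_ball hz le_rfl)
  have h5 := mul_le_mul_of_nonneg_left (h3.trans (min_le_right _ _)) (sq_nonneg r)
  refine le_of_mul_le_mul_left (a := (c * r / 4) ^ 2) ?_ (by positivity)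
  linarith

end Crest.Agent.R040

end
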