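import Crest.Agent.R040.KerApi

/-! # Row 40, Step 2: pure lines -/

set_option autoImplicit false

open MeasureTheory Filter Topology Set Metric
open scoped Real

noncomputable section

namespace Crest.Agent.R040

/-- rotated coordinates -/
def pureT (φ : ℝ) : ℝ × ℝ ≃ᵐ ℂ :=
  Complex.measurableEquivRealProd.symm.trans (rotation (Circle.exp φ)).toHomeomorph.toMeasurableEquiv

theorem pureT_apply (φ s t : ℝ) : pureT φ (s, t) = cis φ * (s + t * Complex.I) := by
  rw [← Complex.mk_eq_add_mul_I, cis, ← Circle.coe_exp]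
  rfl

theorem pureT_mp (φ : ℝ) : MeasurePreserving (pureT φ) (volume.prod volume) volume :=
  (rotation (Circle.exp φ)).measurePreserving.comp Complex.volume_preserving_equiv_real_prod.symm

theorem pureT_add (φ s t ρ : ℝ) :
    pureT φ (s, t) + ρ * Complex.I * cis φ = pureT φ (s, t + ρ) := by
  rw [pureT_apply, pureT_apply]; push_cast; ring

theorem pureT_ae (φ : ℝ) {P : ℂ → Prop} (h : ∀ᵐ z : ℂ, P z) :
    ∀ᵐ s : ℝ, ∀ᵐ t : ℝ, P (pureT φ (s, t)) :=
  Measure.ae_ae_of_ae_prod ((pureT_mp φ).quasiMeasurePreserving.ae h)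

theorem pureT_ae' (φ : ℝ) {P : ℂ → Prop} (hP : MeasurableSet {z | P z})
    (h : ∀ᵐ s : ℝ, ∀ᵐ t : ℝ, P (pureT φ (s, t))) : ∀ᵐ z : ℂ, P z := by
  rw [← (pureT_mp φ).map_eq, ae_map_iff (pureT φ).measurable.aemeasurable hP]
  exact (Measure.ae_prod_iff_ae_ae ((pureT φ).measurable hP)).2 h

theorem pure_or {f g : ℂ → ℝ} {φ : ℝ}
    (h : ∀ᵐ p : ℂ × ℝ, f p.1 * g (p.1 + p.2 * Complex.I * cis φ) = 0) :
    ∀ᵐ s : ℝ, (∀ᵐ t : ℝ, f (pureT φ (s, t)) = 0) ∨ ∀ᵐ t : ℝ, g (pureT φ (s, t)) = 0 := by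
  filter_upwards [pureT_ae φ (Measure.ae_ae_of_ae_prod h)] with s hs
  rw [or_iff_not_imp_left]
  intro h1
  obtain ⟨t, h2, h3⟩ := ((not_eventually.1 h1).and_eventually hs).exists
  filter_upwards [ae_shift h3 (-t)] with ρ hρ
  rw [pureT_add, mul_eq_zero, or_iff_right h2] at hρ
  simpa using hρ

theorem pure_strip {f : ℂ → ℝ} (hf : Fr f) {φ : ℝ} {B : Set ℝ} (hB : MeasurableSet B)
    (h : ∀ᵐ s : ℝ, s ∈ B → ∀ᵐ t : ℝ, f (pureT φ (s, t)) = 0) (s t : ℝ) {ρ : ℝ} (hρ : 0 < ρ) :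
    av f (pureT φ (s, t)) ρ ≤ 4 / π * (1 - volume.real (B ∩ Ioo (s - ρ) (s + ρ)) / (2 * ρ)) := by
  have hm : MeasurableSet ((pureT φ).symm ⁻¹' (Bᶜ ×ˢ univ)) :=
    (pureT φ).symm.measurable (hB.compl.prod MeasurableSet.univ)
  refine (av_le_pr hf (S := (pureT φ).symm ⁻¹' (Bᶜ ×ˢ univ)) _ _ ?_).trans ?_
  · have := pureT_ae' φ (P := fun z => z ∉ (pureT φ).symm ⁻¹' (Bᶜ ×ˢ univ) → f z = 0)
      (hm.compl.imp (hf.1 (measurableSet_singleton 0))) (by
        filter_upwards [h] with s hs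
        by_cases hsB : s ∈ B
        · filter_upwards [hs hsB] with t ht _ using ht
        · exact Eventually.of_forall fun t ht => absurd (by simpa using hsB) ht)
    filter_upwards [this] with z hz _ using hz
  · have h1 : volume.real ((pureT φ).symm ⁻¹' (Bᶜ ×ˢ univ) ∩ ball (pureT φ (s, t)) ρ) ≤
        volume.real (Bᶜ ∩ Ioo (s - ρ) (s + ρ)) * (2 * ρ) := by
      rw [← (pureT_mp φ).measureReal_preimage (hm.inter measurableSet_ball).nullMeasurableSet]
      have e : volume.real (Ioo (t - ρ) (t + ρ)) = 2 * ρ := by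
        rw [Real.volume_real_Ioo_of_le (by linarith)]; ring
      rw [← e, ← measureReal_prod_prod]
      refine measureReal_mono ?_ ?_
      · rintro ⟨a, b⟩ ⟨h1, h2⟩
        rw [mem_ball, dist_eq_norm, pureT_apply, pureT_apply, ← mul_sub, norm_mul, norm_cis,
          one_mul] at h2
        have h3 := (Complex.abs_re_le_norm _).trans_lt h2
        have h4 := (Complex.abs_im_le_norm _).trans_lt h2
        simp only [Complex.sub_re, Complex.add_re, Complex.ofReal_re, Complex.mul_re, Complex.I_re,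
          mul_zero, Complex.ofReal_im, Complex.I_im, mul_one, sub_self, add_zero, Complex.sub_im,
          Complex.add_im, Complex.mul_im, zero_add, abs_lt] at h3 h4
        exact ⟨⟨by simpa using h1, by linarith, by linarith⟩, by linarith, by linarith⟩
      · rw [Measure.prod_prod]
        exact ENNReal.mul_ne_top ((measure_mono inter_subset_right).trans_lt
          measure_Ioo_lt_top).ne measure_Ioo_lt_top.ne
    have h2 := measureReal_inter_add_sdiff (μ := volume) (s := Ioo (s - ρ) (s + ρ)) hB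
      measure_Ioo_lt_top.ne
    rw [Real.volume_real_Ioo_of_le (by linarith), Set.sdiff_eq, inter_comm, inter_comm _ Bᶜ] at h2
    rw [pr, div_le_iff₀ (by positivity)]
    refine h1.trans_eq ?_
    rw [eq_sub_of_add_eq' h2]
    field_simp
    ring

theorem pure_small {f : ℂ → ℝ} (hf : Fr f) {φ : ℝ} {B : Set ℝ} (hB : MeasurableSet B)
    (h : ∀ᵐ s : ℝ, s ∈ B → ∀ᵐ t : ℝ, f (pureT φ (s, t)) = 0) {s : ℝ} (hs : Dens B s) {c₀ : ℝ}
    (hc : 0 < c₀) : ∀ᶠ ρ in 𝓝[>] (0 : ℝ), ∀ t, av f (pureT φ (s, t)) ρ < c₀ := by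
  have h1 := (hs.const_sub 1).const_mul (4 / π)
  rw [sub_self, mul_zero] at h1
  filter_upwards [h1.eventually (gt_mem_nhds hc), self_mem_nhdsWithin] with ρ h2 hρ t
  exact (pure_strip hf hB h s t hρ).trans_lt h2

theorem pure_line {Z : Set ℂ} (hZ : MeasurableSet Z) {f g : ℂ → ℝ} (hf : Fr f) (hg : Fr g) {φ : ℝ}
    (hk : ∀ᵐ p : ℂ × ℝ, f p.1 * g (p.1 + p.2 * Complex.I * cis φ) = 0) {c₀ : ℝ} (hc : 0 < c₀)
    (h : ∀ (z : ℂ) (ρ : ℝ), 0 < ρ → pr Z z ρ = 1 / 2 → c₀ ≤ av f z ρ ∧ c₀ ≤ av g z ρ) :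
    ∀ᵐ z : ℂ, ∀ᵐ ρ : ℝ, (z ∈ Z ↔ z + ρ * Complex.I * cis φ ∈ Z) := by
  have hB : MeasurableSet {s : ℝ | ∀ᵐ t : ℝ, f (pureT φ (s, t)) = 0} :=
    measurable_measure_prodMk_left (ν := volume)
      ((hf.1.comp (pureT φ).measurable) (measurableSet_singleton 0)).compl (measurableSet_singleton 0)
  have h1 : ∀ᵐ s : ℝ, (∀ᵐ t : ℝ, pureT φ (s, t) ∈ Z) ∨ ∀ᵐ t : ℝ, pureT φ (s, t) ∉ Z := by
    filter_upwards [ae_dens hB, ae_dens hB.compl, pureT_ae φ (ae_tendsto_pr hZ)] with s d1 d2 hs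
    by_contra h0
    rw [not_or] at h0
    obtain ⟨t₁, a1, a2⟩ := ((not_eventually.1 h0.1).and_eventually hs).exists
    obtain ⟨t₂, b1, b2⟩ := ((not_eventually.1 h0.2).and_eventually hs).exists
    have h2 : ∀ᶠ ρ in 𝓝[>] (0 : ℝ), ∀ t,
        av f (pureT φ (s, t)) ρ < c₀ ∨ av g (pureT φ (s, t)) ρ < c₀ := by
      by_cases hsB : s ∈ {s : ℝ | ∀ᵐ t : ℝ, f (pureT φ (s, t)) = 0}
      · exact (pure_small hf hB (Eventually.of_forall fun _ => id) (d1 hsB) hc).mono
          fun ρ hρ t => Or.inl (hρ t)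
      · exact (pure_small hg hB.compl ((pure_or hk).mono fun _ h => h.resolve_left) (d2 hsB) hc).mono
          fun ρ hρ t => Or.inr (hρ t)
    obtain ⟨ρ, h3, h4, h5, hρ⟩ := (h2.and (((a2.2 a1).eventually (gt_mem_nhds one_half_pos)).and
      (((b2.1 (not_not.1 b1)).eventually (lt_mem_nhds one_half_lt_one)).and
        self_mem_nhdsWithin))).exists
    have hcont : Continuous fun t : ℝ => pr Z (pureT φ (s, t)) ρ := by
      refine (continuousOn_pr hZ).comp_continuous (f := fun t : ℝ => (pureT φ (s, t), ρ)) ?_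
        fun _ => hρ
      simp only [pureT_apply]
      fun_prop
    obtain ⟨t, ht⟩ := intermediate_value_univ t₁ t₂ hcont ⟨h4.le, h5.le⟩
    have := h _ ρ hρ ht
    rcases h3 t with h6 | h6 <;> linarith [this.1, this.2]
  have hm : MeasurableSet {p : ℂ × ℝ | p.1 ∈ Z ↔ p.1 + p.2 * Complex.I * cis φ ∈ Z} :=
    (measurable_fst hZ).iff
      ((by fun_prop : Measurable fun p : ℂ × ℝ => p.1 + p.2 * Complex.I * cis φ) hZ)
  refine pureT_ae' φ (measurable_measure_prodMk_left (ν := volume) hm.compl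
    (measurableSet_singleton 0)) ?_
  filter_upwards [h1] with s hs
  rcases hs with hs | hs
  · filter_upwards [hs] with t ht
    filter_upwards [ae_shift hs t] with ρ hρ
    rw [pureT_add, add_comm t]
    exact iff_of_true ht hρ
  · filter_upwards [hs] with t ht
    filter_upwards [ae_shift hs t] with ρ hρ
    rw [pureT_add, add_comm t]
    exact iff_of_false ht hρ

theorem pure_shift {P : ℂ → Prop} (h : ∀ᵐ z : ℂ, P z) (u : ℂ) :
    ∀ᵐ z : ℂ, ∀ᵐ ρ : ℝ, P (z + ρ * u) := by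
  obtain ⟨N, h1, h2, h3⟩ := exists_measurable_superset_of_null h
  have h4 : ∀ᵐ z : ℂ, ∀ᵐ ρ : ℝ, z + ρ * u ∉ N := by
    refine (Measure.ae_ae_comm (p := fun (z : ℂ) (ρ : ℝ) => z + ρ * u ∉ N)
      ((by fun_prop : Measurable fun p : ℂ × ℝ => p.1 + p.2 * u) h2.compl)).2
      (Eventually.of_forall fun ρ => ?_)
    exact (measurePreserving_add_right volume (ρ * u)).quasiMeasurePreserving.ae
      (measure_eq_zero_iff_ae_notMem.1 h3)
  filter_upwards [h4] with z hz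
  filter_upwards [hz] with ρ hρ
  by_contra h5
  exact hρ (h1 h5)

theorem pure_two {Z : Set ℂ} (hZ : MeasurableSet Z) {u v : ℂ} (huv : cr u v ≠ 0)
    (hu : ∀ᵐ z : ℂ, ∀ᵐ ρ : ℝ, (z ∈ Z ↔ z + ρ * u ∈ Z))
    (hv : ∀ᵐ z : ℂ, ∀ᵐ ρ : ℝ, (z ∈ Z ↔ z + ρ * v ∈ Z)) : ∃ z, ∀ᵐ w : ℂ, (z ∈ Z ↔ w ∈ Z) := by
  obtain ⟨z, h1, h2⟩ := (hu.and (pure_shift hv u)).exists
  let L₀ : (ℝ × ℝ) →ₗ[ℝ] ℂ := (LinearMap.toSpanSingleton ℝ ℂ u).coprod (LinearMap.toSpanSingleton ℝ ℂ v)
  have hL₀ : Function.Injective L₀ := by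
    rw [injective_iff_map_eq_zero]
    rintro ⟨a, b⟩ h
    have h3 := congrArg Complex.re h
    have h4 := congrArg Complex.im h
    simp only [L₀, LinearMap.coprod_apply, LinearMap.toSpanSingleton_apply, Complex.add_re,
      Complex.smul_re, smul_eq_mul, Complex.zero_re, Complex.add_im, Complex.smul_im,
      Complex.zero_im] at h3 h4
    rw [cr] at huv
    refine Prod.ext (mul_right_cancel₀ huv ?_) (mul_right_cancel₀ huv ?_)
    · simp only [Prod.fst_zero]; linear_combination v.im * h3 - v.re * h4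
    · simp only [Prod.snd_zero]; linear_combination u.re * h4 - u.im * h3
  let L := (L₀.linearEquivOfInjective hL₀ (by simp)).toContinuousLinearEquiv
  have hL : ∀ p : ℝ × ℝ, L p = p.1 * u + p.2 * v := fun p => by simp [L, L₀]
  have hm : MeasurableSet {w : ℂ | z ∈ Z ↔ z + w ∈ Z} :=
    (MeasurableSet.const _).iff (measurable_const_add z hZ)
  have h3 : ∀ᵐ w ∂(volume.prod volume).map L, (z ∈ Z ↔ z + w ∈ Z) := by
    rw [ae_map_iff L.continuous.measurable.aemeasurable hm]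
    refine (Measure.ae_prod_iff_ae_ae (L.continuous.measurable hm)).2 ?_
    filter_upwards [h1, h2] with a h4 h5
    filter_upwards [h5] with b h6
    rw [hL, ← add_assoc]
    exact h4.trans h6
  have h4 := (Measure.absolutelyContinuous_isAddHaarMeasure volume _).ae_le h3
  refine ⟨z, ?_⟩
  filter_upwards [(measurePreserving_add_left volume (-z)).quasiMeasurePreserving.ae h4] with w hw
  simpa using hw

/-- For `φ` good for `Ker.lines` use coordinates `z = cis φ (s + i t)` (measure preserving).  For a.e. `s` the line misses `f` or `g`; `ℬ = {s | f(s, ·) = 0 a.e.}`; a.e. `s` is a density point of `ℬ` or of `ℬᶜ` (`ae_dens`), and a.e. point of the line is a density point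
of `Z` or `Zᶜ` (`ae_tendsto_pr`).  If both kinds occur, at a small radius `ρ` the intermediate value theorem along the line gives a disc with `pr Z = 1/2` and `av f` or `av g ≤ 2ρ |ℬᶜ ∩ (s ± ρ)|/(πρ²) < c₀`.  So `1_Z(z + ρ i cis φ) = 1_Z z` for a.e. `(z, ρ)`.
Two good directions with `sin(φ₁ - φ₂) ≠ 0` make `1_Z` a.e. constant. -/
theorem pure_lines {Z : Set ℂ} (hZ : MeasurableSet Z) {f g : ℂ → ℝ} (hf : Fr f) (hg : Fr g) {U : Set ℝ}
    (hU : MeasurableSet U) (hU0 : volume U ≠ 0) (hk : Ker f g U) {c₀ : ℝ} (hc : 0 < c₀)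
    (h : ∀ (z : ℂ) (ρ : ℝ), 0 < ρ → pr Z z ρ = 1 / 2 → c₀ ≤ av f z ρ ∧ c₀ ≤ av g z ρ) (z : ℂ) {ρ : ℝ}
    (hρ : 0 < ρ) : pr Z z ρ ≠ 1 / 2 := by
  have h1 := hk.lines hf.1 hg.1 hU
  obtain ⟨φ, hφ, h2⟩ := Measure.exists_mem_of_measure_ne_zero_of_ae hU0 (ae_restrict_of_ae h1)
  have h3 : ∀ᵐ ψ : ℝ, ψ ∉ range fun n : ℤ => n * π + φ := (countable_range _).ae_notMem volume
  obtain ⟨ψ, hψ, h4, h5⟩ :=
    Measure.exists_mem_of_measure_ne_zero_of_ae hU0 (ae_restrict_of_ae (h1.and h3))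
  have h6 : cr (Complex.I * cis φ) (Complex.I * cis ψ) ≠ 0 := by
    have : cr (Complex.I * cis φ) (Complex.I * cis ψ) = cr (cis φ) (cis ψ) := by
      simp [cr]; ring
    rw [this, cr_cis]
    intro h7
    obtain ⟨n, hn⟩ := Real.sin_eq_zero_iff.1 h7
    exact h5 ⟨n, by linarith⟩
  obtain ⟨w, hw⟩ := pure_two hZ h6 (by simpa only [mul_assoc] using pure_line hZ hf hg (h2 hφ) hc h)
    (by simpa only [mul_assoc] using pure_line hZ hf hg (h4 hψ) hc h)
  have h0 : pr ∅ z ρ = 0 := by simp [pr]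
  by_cases hwZ : w ∈ Z
  · rw [pr_congr z ρ (S := Z) (T := (∅ : Set ℂ)ᶜ) (hw.mono fun x hx => propext
      ⟨fun _ => notMem_empty x, fun _ => hx.1 hwZ⟩), pr_compl MeasurableSet.empty z hρ, h0]
    norm_num
  · rw [pr_congr z ρ (S := Z) (T := ∅) (hw.mono fun x hx => propext
      ⟨fun h => hwZ (hx.2 h), fun h => h.elim⟩), h0]
    norm_num

/-- no point carries both: on a.e. line in a good direction one of `f`, `g` vanishes a.e. -/
theorem Ker.mul_self {f g : ℂ → ℝ} (hf : Fr f) (hg : Fr g) {U : Set ℝ} (hU : MeasurableSet U)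
    (hU0 : volume U ≠ 0) (hk : Ker f g U) : ∀ᵐ z : ℂ, f z * g z = 0 := by
  obtain ⟨φ, hφ, h⟩ := Measure.exists_mem_of_measure_ne_zero_of_ae hU0
    (ae_restrict_of_ae (hk.lines hf.1 hg.1 hU))
  refine pureT_ae' φ ((hf.1.mul hg.1) (measurableSet_singleton 0)) ?_
  filter_upwards [pure_or (h hφ)] with s hs
  rcases hs with hs | hs
  · filter_upwards [hs] with t ht
    rw [ht, zero_mul]
  · filter_upwards [hs] with t ht
    rw [ht, mul_zero]

end Crest.Agent.R040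

end
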