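import Crest.Agent.R040.Bas

/-! # Row 40, Step 2: cones and polar coordinates -/

set_option autoImplicit false

open MeasureTheory Filter Topology Set Metric
open scoped Real

noncomputable section

namespace Crest.Agent.R040

/-- `w ≠ 0` lies in the cone iff `arg(-i w) + kπ ∈ U` for some `k ∈ ℤ` -/
theorem measurableSet_cone {U : Set ℝ} (hU : MeasurableSet U) : MeasurableSet (cone U) := by
  rcases U.eq_empty_or_nonempty with rfl | ⟨φ₀, h₀⟩
  · have : cone ∅ = ∅ := by simp [cone]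
    rw [this]
    exact MeasurableSet.empty
  have e : cone U = {0} ∪ ⋃ k : ℤ, (fun w : ℂ => Complex.arg (-Complex.I * w) + k * π) ⁻¹' U := by
    ext w
    simp only [cone, mem_setOf_eq, mem_union, mem_singleton_iff, mem_iUnion, mem_preimage]
    have hw : w = (‖w‖ : ℝ) * Complex.I * cis (Complex.arg (-Complex.I * w)) := by
      have h1 := Complex.norm_mul_exp_arg_mul_I (-Complex.I * w)
      rw [norm_mul, norm_neg, Complex.norm_I, one_mul] at h1
      rw [mul_right_comm, cis, h1]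
      linear_combination w * Complex.I_mul_I
    constructor
    · rintro ⟨φ, hφ, ρ, h⟩
      by_cases h0 : w = 0
      · exact Or.inl h0
      right
      have hn : ‖w‖ = |ρ| := by
        rw [h, norm_mul, norm_mul, norm_cis, Complex.norm_I, Complex.norm_real, Real.norm_eq_abs]
        ring
      have hρ : (ρ : ℂ) ≠ 0 := by
        rintro h1
        exact h0 (by rw [h, h1]; ring)
      have h2 : ((‖w‖ : ℝ) : ℂ) ^ 2 = (ρ : ℂ) ^ 2 := by
        rw [hn]; exact_mod_cast sq_abs ρ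
      set a := Complex.arg (-Complex.I * w) with ha
      have h3 : cis φ ^ 2 = cis a ^ 2 := by
        have h4 : w ^ 2 = -((ρ : ℂ) ^ 2 * cis φ ^ 2) := by
          rw [h]; linear_combination (ρ : ℂ) ^ 2 * cis φ ^ 2 * Complex.I_mul_I
        have h5 : w ^ 2 = -((ρ : ℂ) ^ 2 * cis a ^ 2) := by
          rw [← h2]
          conv_lhs => rw [hw]
          linear_combination ((‖w‖ : ℝ) : ℂ) ^ 2 * cis a ^ 2 * Complex.I_mul_I
        exact mul_left_cancel₀ (pow_ne_zero 2 hρ) (neg_injective (h4.symm.trans h5))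
      rw [sq, sq, cis, cis, ← Complex.exp_add, ← Complex.exp_add,
        Complex.exp_eq_exp_iff_exists_int] at h3
      obtain ⟨n, hn⟩ := h3
      refine ⟨n, ?_⟩
      have h6 := congrArg Complex.im hn
      simp at h6
      have h7 : a + n * π = φ := by linarith
      rwa [h7]
    · rintro (rfl | ⟨k, hk⟩)
      · exact ⟨φ₀, h₀, 0, by simp⟩
      · refine ⟨_, hk, (-1) ^ k * ‖w‖, ?_⟩
        have h1 : cis (k * π) = (-1) ^ k := by
          rw [cis, ← Complex.exp_pi_mul_I, ← Complex.exp_int_mul]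
          congr 1
          push_cast
          ring
        have h2 : ((-1 : ℂ) ^ k) * (-1) ^ k = 1 := by
          rw [← mul_zpow]; simp
        rw [cis_add, h1]
        push_cast
        conv_lhs => rw [hw]
        linear_combination -((‖w‖ : ℝ) : ℂ) * Complex.I * cis (Complex.arg (-Complex.I * w)) * h2
  rw [e]
  exact (measurableSet_singleton 0).union (MeasurableSet.iUnion fun k =>
    ((Complex.measurable_arg.comp (measurable_const_mul _)).add_const _) hU)

theorem neg_mem_cone {U : Set ℝ} {w : ℂ} (h : w ∈ cone U) : -w ∈ cone U := by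
  obtain ⟨φ, hφ, ρ, rfl⟩ := h
  exact ⟨φ, hφ, -ρ, by push_cast; ring⟩

theorem smul_mem_cone {U : Set ℝ} {w : ℂ} (h : w ∈ cone U) (r : ℝ) : (r : ℂ) * w ∈ cone U := by
  obtain ⟨φ, hφ, ρ, rfl⟩ := h
  exact ⟨φ, hφ, r * ρ, by push_cast; ring⟩

theorem Ker.symm {f g : ℂ → ℝ} {U : Set ℝ} (h : Ker f g U) : Ker g f U := by
  have h1 := (Measure.measurePreserving_swap (μ := (volume : Measure ℂ))
    (ν := (volume : Measure ℂ))).quasiMeasurePreserving.ae h
  refine h1.mono fun p hp h2 => ?_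
  rw [mul_comm]
  exact hp (by simpa using neg_mem_cone h2)

/-- polar coordinates: `Complex.lintegral_comp_polarCoord_symm` after a rotation, or `lintegral_image_eq_lintegral_abs_det_fderiv_mul` -/
theorem vol_polar {T : Set (ℝ × ℝ)} (hT : MeasurableSet T) (φ₀ : ℝ)
    (h : T ⊆ Ioo (φ₀ - π) (φ₀ + π) ×ˢ Ioi 0) (z : ℂ) (σ : ℝ) (hσ : σ = 1 ∨ σ = -1) :
    volume ((fun p : ℝ × ℝ => z + (σ * p.2 : ℝ) * Complex.I * cis p.1) '' T) =
      ∫⁻ p in T, ENNReal.ofReal p.2 := by
  have hσ2 : σ ^ 2 = 1 := by rcases hσ with rfl | rfl <;> norm_num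
  have hσ0 : σ ≠ 0 := by rintro rfl; norm_num at hσ2
  let F : ℝ × ℝ → ℝ × ℝ := fun p =>
    (z.re - σ * (p.2 * Real.sin p.1), z.im + σ * (p.2 * Real.cos p.1))
  let F' : ℝ × ℝ → (ℝ × ℝ →L[ℝ] ℝ × ℝ) := fun p =>
    LinearMap.toContinuousLinearMap (Matrix.toLin (Module.Basis.finTwoProd ℝ)
      (Module.Basis.finTwoProd ℝ)
      !![-(σ * (p.2 * Real.cos p.1)), -(σ * Real.sin p.1);
        -(σ * (p.2 * Real.sin p.1)), σ * Real.cos p.1])
  have hF : ∀ p, HasFDerivAt F (F' p) p := fun p => by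
    unfold F'
    rw [Matrix.toLin_finTwoProd_toContinuousLinearMap]
    convert! HasFDerivAt.prodMk (𝕜 := ℝ)
      (((hasFDerivAt_snd.mul ((Real.hasDerivAt_sin p.1).comp_hasFDerivAt p
        hasFDerivAt_fst)).const_mul σ).const_sub z.re)
      (((hasFDerivAt_snd.mul ((Real.hasDerivAt_cos p.1).comp_hasFDerivAt p
        hasFDerivAt_fst)).const_mul σ).const_add z.im) using 2
    · ext <;> simp
    · ext <;> simp
  have hdet : ∀ p, (F' p).det = -p.2 := fun p => by
    simp only [F', LinearMap.det_toContinuousLinearMap, LinearMap.det_toLin,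
      Matrix.det_fin_two_of]
    linear_combination (-p.2 * σ ^ 2) * Real.sin_sq_add_cos_sq p.1 - p.2 * hσ2
  have hE : ∀ p : ℝ × ℝ, Complex.measurableEquivRealProd
      (z + (σ * p.2 : ℝ) * Complex.I * cis p.1) = F p := fun p => by
    rw [Complex.measurableEquivRealProd_apply]
    refine Prod.ext ?_ ?_
    · simp [F, cis_re, cis_im]; ring
    · simp [F, cis_re, cis_im]; ring
  have hinj : InjOn F T := fun p hp q hq hpq => by
    rw [← hE, ← hE] at hpq
    have h1 := add_left_cancel (Complex.measurableEquivRealProd.injective hpq)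
    have hp' := h hp
    have hq' := h hq
    have h2 := congrArg norm h1
    simp only [norm_mul, norm_cis, Complex.norm_I, Complex.norm_real, Real.norm_eq_abs, mul_one,
      abs_of_pos (mem_Ioi.1 hp'.2), abs_of_pos (mem_Ioi.1 hq'.2)] at h2
    have h3 : p.2 = q.2 := mul_left_cancel₀ (abs_ne_zero.2 hσ0) h2
    rw [h3] at h1
    have h4 : cis p.1 = cis q.1 := mul_left_cancel₀ (mul_ne_zero (Complex.ofReal_ne_zero.2
      (mul_ne_zero hσ0 (mem_Ioi.1 hq'.2).ne')) Complex.I_ne_zero) h1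
    rw [cis, cis, Complex.exp_eq_exp_iff_exists_int] at h4
    obtain ⟨n, hn⟩ := h4
    have h6 := congrArg Complex.im hn
    simp at h6
    have h7 : (n : ℝ) < 1 := by
      refine lt_of_mul_lt_mul_right (a := 2 * π) ?_ (by positivity)
      linarith [hp'.1.2, hq'.1.1]
    have h8 : (-1 : ℝ) < n := by
      refine lt_of_mul_lt_mul_right (a := 2 * π) ?_ (by positivity)
      linarith [hp'.1.1, hq'.1.2]
    have h9 : n = 0 := by
      have a1 : n < 1 := by exact_mod_cast h7
      have a2 : -1 < n := by exact_mod_cast h8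
      omega
    rw [h9] at h6
    exact Prod.ext (by simpa using h6) h3
  have e : (fun p : ℝ × ℝ => z + (σ * p.2 : ℝ) * Complex.I * cis p.1) '' T =
      Complex.measurableEquivRealProd ⁻¹' (F '' T) := by
    ext w
    simp only [mem_image, mem_preimage, ← hE, Complex.measurableEquivRealProd.injective.eq_iff]
  rw [e, Complex.volume_preserving_equiv_real_prod.measure_preimage_equiv,
    ← lintegral_abs_det_fderiv_eq_addHaar_image volume hT
      (fun p _ => (hF p).hasFDerivWithinAt) hinj]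
  refine setLIntegral_congr_fun hT fun p hp => ?_
  simp only [hdet, abs_neg, abs_of_pos (mem_Ioi.1 (h hp).2)]

/-- a sector: angles in `V`, radii in `(a, b)` -/
theorem vol_sector {V : Set ℝ} (hV : MeasurableSet V) (φ₀ : ℝ) (h : V ⊆ Ioo (φ₀ - π) (φ₀ + π)) {a b : ℝ}
    (ha : 0 ≤ a) (hab : a ≤ b) (z : ℂ) (σ : ℝ) (hσ : σ = 1 ∨ σ = -1) :
    volume.real ((fun p : ℝ × ℝ => z + (σ * p.2 : ℝ) * Complex.I * cis p.1) '' (V ×ˢ Ioo a b)) =
      volume.real V * ((b ^ 2 - a ^ 2) / 2) := by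
  have h1 : ∫⁻ r in Ioo a b, ENNReal.ofReal r = ENNReal.ofReal ((b ^ 2 - a ^ 2) / 2) := by
    rw [← ofReal_integral_eq_lintegral_ofReal (f := fun r : ℝ => r)
      ((continuous_id.integrableOn_Icc (a := a) (b := b)).mono_set Ioo_subset_Icc_self)
      ((ae_restrict_mem measurableSet_Ioo).mono fun r hr => ha.trans hr.1.le),
      ← integral_Ioc_eq_integral_Ioo, ← intervalIntegral.integral_of_le hab]
    congr 1
    exact integral_id
  rw [Measure.real, vol_polar (hV.prod measurableSet_Ioo) φ₀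
    (prod_mono h fun r hr => ha.trans_lt hr.1) z σ hσ, Measure.volume_eq_prod,
    ← Measure.prod_restrict, lintegral_prod _ (by fun_prop)]
  simp only [h1, lintegral_const, Measure.restrict_apply_univ]
  rw [ENNReal.toReal_mul, ENNReal.toReal_ofReal (by nlinarith), mul_comm, Measure.real]

theorem Ker.ae_cone {f g : ℂ → ℝ} {U : Set ℝ} (h : Ker f g U) :
    ∀ᵐ z : ℂ, f z ≠ 0 → ∀ᵐ w : ℂ, w - z ∈ cone U → g w = 0 := by
  refine (Measure.ae_ae_of_ae_prod h).mono fun z hz h0 => hz.mono fun w hw h1 => ?_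
  exact (mul_eq_zero.1 (hw h1)).resolve_left h0

/-- for a.e. `z` the bad set of `w` is null, hence (`vol_polar`) null in `(φ, ρ)`; Fubini for the measurable set `{(z, φ, ρ)}` -/
theorem Ker.lines {f g : ℂ → ℝ} {U : Set ℝ} (hf : Measurable f) (hg : Measurable g) (hU : MeasurableSet U)
    (h : Ker f g U) :
    ∀ᵐ φ : ℝ, φ ∈ U → ∀ᵐ p : ℂ × ℝ, f p.1 * g (p.1 + p.2 * Complex.I * cis φ) = 0 := by
  have hc := continuous_cis.measurable
  have key : ∀ᵐ z : ℂ, ∀ᵐ φ : ℝ, ∀ᵐ ρ : ℝ,
      φ ∈ U → f z * g (z + ρ * Complex.I * cis φ) = 0 := by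
    refine (Measure.ae_ae_of_ae_prod h).mono fun z hz => ?_
    have h1 : ∀ (q : ℤ) (σ : ℝ), σ = 1 ∨ σ = -1 → ∀ᵐ φ : ℝ, ∀ᵐ ρ : ℝ,
        φ ∈ Ioo (q - π) (q + π) → 0 < ρ → φ ∈ U →
          f z * g (z + (σ * ρ : ℝ) * Complex.I * cis φ) = 0 := by
      intro q σ hσ
      set T : Set (ℝ × ℝ) := (Ioo (q - π) (q + π) ×ˢ Ioi 0) ∩ (Prod.fst ⁻¹' U ∩
        {p | f z * g (z + (σ * p.2 : ℝ) * Complex.I * cis p.1) = 0}ᶜ) with hT
      have hTm : MeasurableSet T := (measurableSet_Ioo.prod measurableSet_Ioi).inter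
        ((measurable_fst hU).inter
          (measurableSet_eq_fun (by fun_prop) measurable_const).compl)
      have h2 := vol_polar hTm q inter_subset_left z σ hσ
      have h3 : volume ((fun p : ℝ × ℝ => z + (σ * p.2 : ℝ) * Complex.I * cis p.1) '' T) = 0 := by
        refine measure_mono_null ?_ hz
        rintro _ ⟨p, hp, rfl⟩ h4
        exact hp.2.2 (h4 ⟨p.1, hp.2.1, σ * p.2, by ring⟩)
      rw [h3, eq_comm, setLIntegral_eq_zero_iff hTm (by fun_prop)] at h2
      refine (Measure.ae_ae_of_ae_prod h2).mono fun φ hφ => hφ.mono fun ρ hρ a1 a2 a3 => ?_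
      by_contra a4
      have := hρ ⟨⟨a1, a2⟩, a3, a4⟩
      rw [ENNReal.ofReal_eq_zero] at this
      exact absurd a2 (not_lt.2 this)
    have h4 := ae_all_iff.2 fun q : ℤ => (h1 q 1 (Or.inl rfl)).and (h1 q (-1) (Or.inr rfl))
    refine h4.mono fun φ hφ => ?_
    obtain ⟨a1, a2⟩ := hφ ⌊φ⌋
    have a3 : φ ∈ Ioo ((⌊φ⌋ : ℝ) - π) (⌊φ⌋ + π) :=
      ⟨by linarith [Int.floor_le φ, Real.pi_pos], by linarith [Int.lt_floor_add_one φ, Real.pi_gt_three]⟩
    have a4 := (Measure.measurePreserving_neg (volume : Measure ℝ)).quasiMeasurePreserving.ae a2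
    have a5 : ∀ᵐ ρ : ℝ, ρ ≠ 0 := by simp [ae_iff]
    filter_upwards [a1, a4, a5] with ρ b1 b2 b3 hu
    rcases lt_or_gt_of_ne b3 with b4 | b4
    · simpa using b2 a3 (neg_pos.2 b4) hu
    · simpa using b1 a3 b4 hu
  have hm : MeasurableSet {p : (ℂ × ℝ) × ℝ |
      p.1.2 ∈ U → f p.1.1 * g (p.1.1 + p.2 * Complex.I * cis p.1.2) = 0} :=
    (measurable_fst.snd hU).imp (measurableSet_eq_fun (by fun_prop) measurable_const)
  have hm2 : MeasurableSet {p : ℂ × ℝ | ∀ᵐ ρ : ℝ,
      p.2 ∈ U → f p.1 * g (p.1 + ρ * Complex.I * cis p.2) = 0} :=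
    measurable_measure_prodMk_left (ν := (volume : Measure ℝ)) hm.compl
      (measurableSet_singleton 0)
  refine ((Measure.ae_ae_comm hm2).1 key).mono fun φ hφ hu => ?_
  refine (Measure.ae_prod_iff_ae_ae (measurableSet_eq_fun (by fun_prop) measurable_const)).2 ?_
  exact hφ.mono fun z hz => hz.mono fun ρ hρ => hρ hu

end Crest.Agent.R040

end
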