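import Crest.Agent.R040.Ann
import Crest.Agent.R040.Pert
import Crest.Agent.R040.KerApi

/-! # Row 40, Step 2: pairs of points on a common circle -/

set_option autoImplicit false

open MeasureTheory Filter Topology Set Metric
open scoped Real

noncomputable section

namespace Crest.Agent.R040

theorem pairEst_chord (φ t : ℝ) :
    cis (φ + t) - cis (φ - t) = (2 * Real.sin t : ℝ) * Complex.I * cis φ := by
  apply Complex.ext <;>
    simp [cis_re, cis_im, Real.cos_add, Real.cos_sub, Real.sin_add, Real.sin_sub,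
      -Complex.ofReal_sin] <;> ring

/-- the angles for a fixed signed radius -/
theorem MCol.pairEst_angle (c : MCol) (v : ℂ) (j k : Fin 5) {ε : ℝ} (hε : 0 < ε) :
    ∃ δ > (0 : ℝ), ∀ z ∈ c.D j, ‖z - v‖ < δ → (∀ᵐ γ : ℝ, ∃ l, z + cis γ ∈ c.D l) → ∀ ρ : ℝ, |ρ| < δ →
      volume {φ : ℝ | φ ∈ Ioc (-π) (2 * π) ∧ φ ∈ c.U v j k ∧ z + ρ * Complex.I * cis φ ∈ c.D k} ≤
        ENNReal.ofReal ε := by
  obtain ⟨δ₀, hδ₀, h0⟩ := c.ann v (-π - π) (2 * π + π) (half_pos hε)
  obtain ⟨η, hη, h1⟩ := shift_small (c.measurableSet_U v j k) (-π) (2 * π) (half_pos hε)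
  obtain ⟨δ₁, hδ₁, h2⟩ := Metric.continuous_iff.1 Real.continuous_arcsin 0 η hη
  refine ⟨min δ₀ (min δ₁ 1), by positivity, fun z hz hzv hcov ρ hρ => ?_⟩
  have r1 : |ρ| < δ₁ := hρ.trans_le ((min_le_right _ _).trans (min_le_left _ _))
  have r2 : |ρ| < 1 := hρ.trans_le ((min_le_right _ _).trans (min_le_right _ _))
  set t := Real.arcsin (ρ / 2) with ht
  have t1 : |t| ≤ η := by
    have := h2 (ρ / 2) (by rw [Real.dist_eq, sub_zero, abs_div, abs_two]; linarith [abs_nonneg ρ])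
    rw [Real.arcsin_zero, Real.dist_eq, sub_zero] at this
    exact this.le
  have t2 : 2 * Real.sin t = ρ := by
    rw [abs_lt] at r2
    rw [ht, Real.sin_arcsin (by linarith) (by linarith)]; ring
  have t3 := Real.arcsin_le_pi_div_two (ρ / 2)
  have t4 := Real.neg_pi_div_two_le_arcsin (ρ / 2)
  have hπ := Real.pi_pos
  set A := {θ | θ ∈ Ioc (-π) (2 * π) ∧ ¬ (θ ∈ c.U v j k ↔ θ + t ∈ c.U v j k)} with hA
  set C := {θ | θ ∈ Ioc (-π - π) (2 * π + π) ∧ ∃ k, z + cis θ ∈ c.D k ∧ ¬ c.N (v + cis θ) k} with hC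
  have fin : ∀ {a b : ℝ} {S : Set ℝ}, S ⊆ Ioc a b → volume.real S < ε / 2 →
      volume S ≤ ENNReal.ofReal (ε / 2) := fun {a b S} hS h => by
    rw [← ofReal_measureReal (ne_top_of_le_ne_top (by simp) (measure_mono hS))]
    exact ENNReal.ofReal_le_ofReal h.le
  have vA : volume A ≤ ENNReal.ofReal (ε / 2) := fin (fun _ h => h.1) (h1 t t1)
  have vC : volume ((fun θ => θ + t) ⁻¹' C) ≤ ENNReal.ofReal (ε / 2) := by
    rw [measure_preimage_add_right]
    exact fin (fun _ h => h.1) (h0 z (hzv.trans_le (min_le_left _ _)))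
  calc _ ≤ volume (A ∪ (fun θ => θ + t) ⁻¹' C) := by
        refine measure_mono_ae ?_
        filter_upwards [ae_shift hcov t] with φ hφ h
        obtain ⟨a1, a2, a3⟩ := h
        obtain ⟨l, hl⟩ := hφ
        by_cases hU : φ + t ∈ c.U v j k
        · refine Or.inr ⟨⟨by linarith [a1.1], by linarith [a1.2]⟩, l, hl, fun hN => ?_⟩
          rcases hU l hN with rfl | rfl
          · exact c.avoid _ _ hl _ hz (by rw [add_sub_cancel_left, norm_cis])
          · refine c.avoid _ _ hl _ a3 ?_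
            rw [← t2, ← pairEst_chord]
            have : z + cis (φ + t) - (z + (cis (φ + t) - cis (φ - t))) = cis (φ - t) := by ring
            rw [this, norm_cis]
        · exact Or.inl ⟨a1, fun h => hU (h.1 a2)⟩
    _ ≤ ENNReal.ofReal (ε / 2) + ENNReal.ofReal (ε / 2) :=
        (measure_union_le _ _).trans (add_le_add vA vC)
    _ = _ := by rw [← ENNReal.ofReal_add (by positivity) (by positivity), add_halves]

/-- the slice over a fixed first point -/
theorem MCol.pairEst_slice (c : MCol) (v : ℂ) (j k : Fin 5) {ε : ℝ} (hε : 0 < ε) :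
    ∃ δ > (0 : ℝ), ∀ z ∈ c.D j, ‖z - v‖ < δ → (∀ᵐ γ : ℝ, ∃ l, z + cis γ ∈ c.D l) →
      ∀ R : ℝ, 0 < R → R < δ →
      volume {w : ℂ | w ∈ c.D k ∧ ‖w - z‖ < R ∧ w - z ∈ cone (c.U v j k)} ≤
        ENNReal.ofReal (4 * ε * R ^ 2) := by
  obtain ⟨δ, hδ, h⟩ := c.pairEst_angle v j k hε
  refine ⟨δ, hδ, fun z hz hzv hcov R hR hRδ => ?_⟩
  have hπ := Real.pi_pos
  let T : ℝ → ℝ → Set (ℝ × ℝ) := fun φ₀ σ => {p | p ∈ Ioo (φ₀ - π) (φ₀ + π) ×ˢ Ioo 0 R ∧
    p.1 ∈ c.U v j k ∧ z + (σ * p.2 : ℝ) * Complex.I * cis p.1 ∈ c.D k}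
  let F : ℝ → ℝ × ℝ → ℂ := fun σ p => z + (σ * p.2 : ℝ) * Complex.I * cis p.1
  have mT : ∀ φ₀ σ, MeasurableSet (T φ₀ σ) := fun φ₀ σ => by
    have := continuous_cis
    refine (measurableSet_Ioo.prod measurableSet_Ioo).inter
      ((measurable_fst (c.measurableSet_U v j k)).inter ?_)
    exact (show Continuous (F σ) by simp only [F]; fun_prop).measurable (c.meas k)
  have key : ∀ φ₀ σ, 0 ≤ φ₀ → φ₀ ≤ π → (σ = 1 ∨ σ = -1) →
      volume (F σ '' T φ₀ σ) ≤ ENNReal.ofReal (ε * R ^ 2) := by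
    intro φ₀ σ h0 h1 hσ
    rw [vol_polar (mT φ₀ σ) φ₀ (fun p hp => ⟨hp.1.1, hp.1.2.1⟩) z σ hσ]
    have v1 : volume (T φ₀ σ) ≤ ENNReal.ofReal ε * ENNReal.ofReal R := by
      rw [Measure.volume_eq_prod, Measure.prod_apply_symm (mT φ₀ σ)]
      calc _ ≤ ∫⁻ ρ, (Ioo 0 R).indicator (fun _ => ENNReal.ofReal ε) ρ := by
            refine lintegral_mono fun ρ => ?_
            by_cases hρ : ρ ∈ Ioo 0 R
            · rw [indicator_of_mem hρ]
              refine le_trans (measure_mono ?_) (h z hz hzv hcov (σ * ρ) ?_)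
              · rintro φ ⟨⟨a1, -⟩, a2, a3⟩
                exact ⟨⟨by linarith [a1.1], by linarith [a1.2]⟩, a2, a3⟩
              · have : |σ| = 1 := by rcases hσ with rfl | rfl <;> simp
                rw [abs_mul, this, one_mul, abs_of_pos hρ.1]
                exact hρ.2.trans hRδ
            · have : (fun φ => (φ, ρ)) ⁻¹' T φ₀ σ = ∅ :=
                eq_empty_of_forall_notMem fun φ hφ => hρ hφ.1.2
              simp [this]
        _ = _ := by rw [lintegral_indicator_const measurableSet_Ioo, Real.volume_Ioo, sub_zero]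
    calc _ ≤ ∫⁻ _ in T φ₀ σ, ENNReal.ofReal R :=
          setLIntegral_mono' (mT φ₀ σ) fun p hp => ENNReal.ofReal_le_ofReal hp.1.2.2.le
      _ ≤ ENNReal.ofReal R * (ENNReal.ofReal ε * ENNReal.ofReal R) := by
          rw [setLIntegral_const]; gcongr
      _ = _ := by
          rw [← ENNReal.ofReal_mul hε.le, ← ENNReal.ofReal_mul hR.le]
          congr 1; ring
  have hsub : {w : ℂ | w ∈ c.D k ∧ ‖w - z‖ < R ∧ w - z ∈ cone (c.U v j k)} ⊆
      {z} ∪ ((F 1 '' T 0 1 ∪ F 1 '' T π 1) ∪ (F (-1) '' T 0 (-1) ∪ F (-1) '' T π (-1))) := by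
    rintro w ⟨a1, a2, φ, hφ, ρ, a3⟩
    obtain ⟨φ', b1, b2⟩ : ∃ φ' ∈ Ioc (-π) π, cis φ' = cis φ := by
      refine ⟨toIocMod Real.two_pi_pos (-π) φ, ?_, ?_⟩
      · have := toIocMod_mem_Ioc Real.two_pi_pos (-π) φ
        rwa [show -π + 2 * π = π by ring] at this
      · exact Function.Periodic.sub_zsmul_eq (f := cis) cis_add_two_pi _
    have b3 : φ' ∈ c.U v j k := by
      simpa only [MCol.U, mem_ofPred_eq, b2] using hφ
    have hw : w = z + ρ * Complex.I * cis φ' := by rw [b2, ← a3]; ring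
    have hρ : |ρ| < R := by
      rwa [a3, norm_mul, norm_mul, norm_cis, Complex.norm_I, Complex.norm_real, mul_one, mul_one,
        Real.norm_eq_abs] at a2
    have gen : ∀ σ ρ' : ℝ, 0 < ρ' → ρ' < R → σ * ρ' = ρ → w ∈ F σ '' T 0 σ ∪ F σ '' T π σ := by
      intro σ ρ' c1 c2 c3
      have e : F σ (φ', ρ') = w := by simp only [F, c3, hw]
      rcases b1.2.lt_or_eq with c4 | c4
      · exact Or.inl ⟨(φ', ρ'), ⟨⟨⟨by linarith [b1.1], by linarith⟩, c1, c2⟩, b3,
          show F σ (φ', ρ') ∈ _ from e ▸ a1⟩, e⟩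
      · exact Or.inr ⟨(φ', ρ'), ⟨⟨⟨by linarith, by linarith⟩, c1, c2⟩, b3,
          show F σ (φ', ρ') ∈ _ from e ▸ a1⟩, e⟩
    rcases lt_trichotomy ρ 0 with h0 | h0 | h0
    · exact Or.inr (Or.inr (gen (-1) (-ρ) (by linarith) (by linarith [(abs_lt.1 hρ).1]) (by ring)))
    · exact Or.inl (by simp [hw, h0])
    · exact Or.inr (Or.inl (gen 1 ρ h0 (abs_lt.1 hρ).2 (by ring)))
  refine (measure_mono hsub).trans ((measure_union_le _ _).trans ?_)
  rw [measure_singleton, zero_add]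
  refine (measure_union_le _ _).trans ((add_le_add
    ((measure_union_le _ _).trans (add_le_add (key 0 1 le_rfl hπ.le (Or.inl rfl))
      (key π 1 hπ.le le_rfl (Or.inl rfl))))
    ((measure_union_le _ _).trans (add_le_add (key 0 (-1) le_rfl hπ.le (Or.inr rfl))
      (key π (-1) hπ.le le_rfl (Or.inr rfl))))).trans (le_of_eq ?_))
  rw [← ENNReal.ofReal_add (by positivity) (by positivity),
    ← ENNReal.ofReal_add (by positivity) (by positivity)]
  congr 1; ring

/-- Fix `z ∈ D j` with a.e. coloured circle.  If `z' = z + ρ i cis φ ∈ D k`, `φ ∈ U`, `|ρ| < 2Kr`, write `ρ = -2 sin(τ/2)`, `θ = φ - τ/2`, `y = z + cis θ`; then `z' = y - cis (θ + τ)`, so `y` is at distance one from `z` and `z'`.  Hence `θ ∉ U`, or `y` is uncoloured,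
or its colour is not in `N (v + cis θ)`.  For fixed `ρ` these `φ ∈ (-π, π)` have small measure (`shift_small`, `ann`; `U` is `2π`-periodic); `vol_polar` (both signs `σ`) and Fubini. -/
theorem MCol.pair_est (c : MCol) (v : ℂ) (j k : Fin 5) {K ε : ℝ} (hK : 0 < K) (hε : 0 < ε) :
    ∃ δ > (0 : ℝ), ∀ (x : ℂ) (r : ℝ), ‖x - v‖ < δ → 0 < r → r < δ →
      volume.real {p : ℂ × ℂ | p.1 ∈ c.D j ∩ ball x (K * r) ∧ p.2 ∈ c.D k ∩ ball x (K * r) ∧
        p.2 - p.1 ∈ cone (c.U v j k)} ≤ ε * r ^ 4 := by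
  have hπ := Real.pi_pos
  obtain ⟨δ, hδ, h⟩ := c.pairEst_slice v j k (ε := ε / (16 * π * K ^ 4)) (by positivity)
  refine ⟨δ / (2 * K + 1), by positivity, fun x r hx hr hrδ => ?_⟩
  rw [lt_div_iff₀ (by positivity)] at hx hrδ
  have hKr : 0 < K * r := by positivity
  set S := {p : ℂ × ℂ | p.1 ∈ c.D j ∩ ball x (K * r) ∧ p.2 ∈ c.D k ∩ ball x (K * r) ∧
        p.2 - p.1 ∈ cone (c.U v j k)} with hS
  have mS : MeasurableSet S :=
    (measurable_fst ((c.meas j).inter measurableSet_ball)).inter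
      ((measurable_snd ((c.meas k).inter measurableSet_ball)).inter
        ((measurable_snd.sub measurable_fst) (measurableSet_cone (c.measurableSet_U v j k))))
  refine ENNReal.toReal_le_of_le_ofReal (by positivity) ?_
  rw [Measure.volume_eq_prod, Measure.prod_apply mS]
  calc _ ≤ ∫⁻ z, (ball x (K * r)).indicator
        (fun _ => ENNReal.ofReal (4 * (ε / (16 * π * K ^ 4)) * (2 * (K * r)) ^ 2)) z := by
        refine lintegral_mono_ae ?_
        filter_upwards [c.ae_circle_cover] with z hz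
        by_cases hj : z ∈ c.D j ∩ ball x (K * r)
        · rw [indicator_of_mem hj.2]
          have h1 : ‖z - x‖ < K * r := mem_ball_iff_norm.1 hj.2
          have h2 : ‖z - v‖ < δ := by
            have := norm_sub_le_norm_sub_add_norm_sub z x v
            have h3 : (K * r + ‖x - v‖) * (2 * K + 1) < δ * (2 * K + 1) := by nlinarith
            have := lt_of_mul_lt_mul_right h3 (by positivity)
            linarith
          refine le_trans (measure_mono ?_) (h z hj.1 h2 hz (2 * (K * r)) (by positivity)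
            (by nlinarith))
          rintro w ⟨-, a2, a3⟩
          refine ⟨a2.1, ?_, a3⟩
          have h4 : ‖w - x‖ < K * r := mem_ball_iff_norm.1 a2.2
          have := norm_sub_le_norm_sub_add_norm_sub w x z
          rw [norm_sub_rev x z] at this
          linarith
        · have : Prod.mk z ⁻¹' S = ∅ := eq_empty_of_forall_notMem fun w hw => hj hw.1
          simp [this]
    _ = _ := by
        rw [lintegral_indicator_const measurableSet_ball,
          ← ofReal_measureReal (μ := volume) (s := ball x (K * r)) measure_ball_lt_top.ne,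
          volume_real_ball x hKr.le, ← ENNReal.ofReal_mul (by positivity)]
        congr 1
        field_simp
        ring

end Crest.Agent.R040

end
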