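import Crest.Agent.R040.WeakStar
import Crest.Agent.R040.PairEst

/-! # Row 40, Step 2: existence of blow-ups -/

set_option autoImplicit false

open MeasureTheory Filter Topology Set Metric
open scoped Real

noncomputable section

namespace Crest.Agent.R040

lemma TangentEx_scale {E : Type*} [NormedAddCommGroup E] [NormedSpace ℝ E] [MeasurableSpace E]
    [BorelSpace E] [FiniteDimensional ℝ E] (μ : Measure E) [μ.IsAddHaarMeasure] (x : E) {r : ℝ}
    (hr : 0 < r) (A : Set E) :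
    μ.real ((fun z => x + r • z) ⁻¹' A) = μ.real A / r ^ Module.finrank ℝ E := by
  have h1 : (fun z => x + r • z) ⁻¹' A = (fun z : E => r • z) ⁻¹' ((fun z => x + z) ⁻¹' A) := rfl
  rw [h1, Measure.real, Measure.addHaar_preimage_smul μ hr.ne', measure_preimage_add,
    ENNReal.toReal_mul, ENNReal.toReal_ofReal (abs_nonneg _), abs_of_pos (by positivity),
    Measure.real, div_eq_inv_mul]

lemma TangentEx_mem_ball (x z w : ℂ) {r : ℝ} (hr : 0 < r) (ρ : ℝ) :
    x + r • w ∈ ball (x + r * z) (r * ρ) ↔ w ∈ ball z ρ := by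
  rw [mem_ball, mem_ball, dist_add_left, dist_eq_norm, dist_eq_norm, Complex.real_smul, ← mul_sub,
    norm_mul, Complex.norm_real, Real.norm_of_nonneg hr.le, mul_lt_mul_iff_right₀ hr]

lemma TangentEx_pr (S : Set ℂ) (x z : ℂ) {r : ℝ} (hr : 0 < r) (ρ : ℝ) :
    pr S (x + r * z) (r * ρ) = pr ((fun w => x + r • w) ⁻¹' S) z ρ := by
  have h1 : (fun w => x + r • w) ⁻¹' S ∩ ball z ρ =
      (fun w => x + r • w) ⁻¹' (S ∩ ball (x + r * z) (r * ρ)) := by
    ext w
    simp only [mem_inter_iff, mem_preimage, TangentEx_mem_ball x z w hr]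
  unfold pr
  rw [h1, TangentEx_scale volume x hr, Complex.finrank_real_complex, div_div]
  congr 1
  ring

lemma TangentEx_int {α : Type*} [MeasurableSpace α] {μ : Measure α} {G a : α → ℝ}
    (hG : Integrable G μ) (ha : Measurable a) (h : ∀ z, 0 ≤ a z ∧ a z ≤ 1) :
    Integrable (fun z => G z * a z) μ :=
  hG.mul_bdd ha.aestronglyMeasurable (c := 1) (Eventually.of_forall fun z => by
    rw [Real.norm_of_nonneg (h z).1]; exact (h z).2)

lemma TangentEx_m1 {a : ℂ → ℝ} (ha : Measurable a) : Measurable fun p : ℂ × ℂ => a p.1 :=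
  ha.comp measurable_fst

lemma TangentEx_m2 {a : ℂ → ℝ} (ha : Measurable a) : Measurable fun p : ℂ × ℂ => a p.2 :=
  ha.comp measurable_snd

lemma TangentEx_ind {α β : Type*} {A T : Set α} {B C : Set β} {p : α} {q q' : β}
    (h : p ∈ T ↔ p ∈ A ∧ q ∈ B ∧ q' ∈ C) :
    A.indicator (fun _ => (1 : ℝ)) p * B.indicator (fun _ => (1 : ℝ)) q *
      C.indicator (fun _ => (1 : ℝ)) q' = T.indicator 1 p := by
  by_cases h1 : p ∈ A <;> by_cases h2 : q ∈ B <;> by_cases h3 : q' ∈ C <;>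
    simp [indicator, h, h1, h2, h3]

lemma TangentEx_int2 {G : ℂ × ℂ → ℝ} (hG : Integrable G) {a b : ℂ → ℝ} (ha : Fr a) (hb : Fr b) :
    Integrable fun p : ℂ × ℂ => G p * b p.2 * a p.1 :=
  TangentEx_int (TangentEx_int hG (a := fun p => b p.2) (TangentEx_m2 hb.1)
    fun p => hb.2 p.2) (a := fun p => a p.1) (TangentEx_m1 ha.1) fun p => ha.2 p.1

lemma TangentEx_fub {G : ℂ × ℂ → ℝ} (hG : Integrable G) {a b : ℂ → ℝ} (ha : Fr a) (hb : Fr b) :
    ∫ p, G p * b p.2 * a p.1 = ∫ z, (∫ w, G (z, w) * b w) * a z := by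
  have h1 := TangentEx_int2 hG ha hb
  rw [Measure.volume_eq_prod] at h1 ⊢
  rw [integral_prod _ h1]
  exact integral_congr_ae (Eventually.of_forall fun z =>
    integral_mul_const (a z) fun w => G (z, w) * b w)

lemma TangentEx_prod {G : ℂ × ℂ → ℝ} (hG : Integrable G) {a b : ℕ → ℂ → ℝ} {a' b' : ℂ → ℝ}
    (ha : ∀ n, Fr (a n)) (hb : ∀ n, Fr (b n)) (ha' : Fr a') (hb' : Fr b')
    (h1 : ∀ g : ℂ → ℝ, Integrable g → Tendsto (fun n => ∫ z, g z * a n z) atTop (𝓝 (∫ z, g z * a' z)))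
    (h2 : ∀ g : ℂ → ℝ, Integrable g → Tendsto (fun n => ∫ z, g z * b n z) atTop (𝓝 (∫ z, g z * b' z))) :
    Tendsto (fun n => ∫ p, G p * b n p.2 * a n p.1) atTop (𝓝 (∫ p, G p * b' p.2 * a' p.1)) := by
  have hG' : Integrable G (volume.prod volume) := hG
  have hint : ∀ {b : ℂ → ℝ}, Fr b → Integrable fun z => ∫ w, G (z, w) * b w := fun {b} hb =>
    (TangentEx_int hG' (a := fun p => b p.2) (TangentEx_m2 hb.1)
      fun p => hb.2 p.2).integral_prod_left
  have hbd : ∀ {b : ℂ → ℝ}, Fr b → ∀ᵐ z : ℂ, ‖∫ w, G (z, w) * b w‖ ≤ ∫ w, ‖G (z, w)‖ := fun {b} hb => by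
    filter_upwards [hG'.prod_right_ae] with z hz
    refine norm_integral_le_of_norm_le hz.norm (Eventually.of_forall fun w => ?_)
    rw [norm_mul, Real.norm_of_nonneg (hb.2 w).1]
    exact mul_le_of_le_one_right (norm_nonneg _) (hb.2 w).2
  have h3 : Tendsto (fun n => ∫ z, ((∫ w, G (z, w) * b n w) - ∫ w, G (z, w) * b' w) * a n z) atTop
      (𝓝 (∫ _ : ℂ, (0 : ℝ))) := by
    refine tendsto_integral_of_dominated_convergence (fun z => 2 * ∫ w, ‖G (z, w)‖)
      (fun n => (TangentEx_int ((hint (hb n)).sub (hint hb')) (ha n).1 (ha n).2).aestronglyMeasurable)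
      (hG'.integral_norm_prod_left.const_mul 2) (fun n => ?_) ?_
    · filter_upwards [hbd (hb n), hbd hb'] with z e1 e2
      rw [norm_mul, Real.norm_of_nonneg ((ha n).2 z).1]
      refine (mul_le_of_le_one_right (norm_nonneg _) ((ha n).2 z).2).trans
        ((norm_sub_le _ _).trans ?_)
      linarith
    · filter_upwards [hG'.prod_right_ae] with z hz
      have e := (tendsto_sub_nhds_zero_iff.2 (h2 _ hz)).norm
      rw [norm_zero] at e
      refine squeeze_zero_norm (fun n => ?_) e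
      rw [norm_mul, Real.norm_of_nonneg ((ha n).2 z).1]
      exact mul_le_of_le_one_right (norm_nonneg _) ((ha n).2 z).2
  have h4 := h3.add (h1 _ (hint hb'))
  rw [integral_zero, zero_add] at h4
  rw [TangentEx_fub hG ha' hb']
  refine h4.congr fun n => ?_
  rw [TangentEx_fub hG (ha n) (hb n)]
  refine (integral_add
    (TangentEx_int ((hint (hb n)).sub (hint hb')) (ha n).1 (ha n).2)
    (TangentEx_int (hint hb') (ha n).1 (ha n).2)).symm.trans ?_
  congr 1
  ext z
  simp only [Pi.sub_apply]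
  ring

lemma TangentEx_fr {S : Set ℂ} (hS : MeasurableSet S) : Fr (S.indicator fun _ => (1 : ℝ)) :=
  ⟨measurable_const.indicator hS, fun z => by
    by_cases h : z ∈ S <;> simp [h]⟩

lemma TangentEx_av (f : ℂ → ℝ) (z : ℂ) (ρ : ℝ) :
    av f z ρ = (∫ w, (ball z ρ).indicator (fun _ => (1 : ℝ)) w * f w) / (π * ρ ^ 2) := by
  unfold av
  rw [← integral_indicator measurableSet_ball]
  congr 2
  ext w
  by_cases h : w ∈ ball z ρ <;> simp [h]

lemma TangentEx_meas (x : ℂ) (r : ℝ) : Measurable fun w : ℂ => x + r • w := by fun_prop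

lemma TangentEx_pair (c : MCol) (v : ℂ) (j k : Fin 5) (K : ℝ) (x : ℂ) {r : ℝ} (hr : 0 < r) :
    ∫ p : ℂ × ℂ, {p : ℂ × ℂ | p.1 ∈ ball 0 K ∧ p.2 ∈ ball 0 K ∧
        p.2 - p.1 ∈ cone (c.U v j k)}.indicator (fun _ => (1 : ℝ)) p *
      ((fun w => x + r • w) ⁻¹' c.D k).indicator (fun _ => (1 : ℝ)) p.2 *
      ((fun w => x + r • w) ⁻¹' c.D j).indicator (fun _ => (1 : ℝ)) p.1 =
    volume.real {p : ℂ × ℂ | p.1 ∈ c.D j ∩ ball x (K * r) ∧ p.2 ∈ c.D k ∩ ball x (K * r) ∧
        p.2 - p.1 ∈ cone (c.U v j k)} / r ^ 4 := by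
  have hC := measurableSet_cone (c.measurableSet_U v j k)
  have hS : MeasurableSet {p : ℂ × ℂ | p.1 ∈ c.D j ∩ ball x (K * r) ∧
      p.2 ∈ c.D k ∩ ball x (K * r) ∧ p.2 - p.1 ∈ cone (c.U v j k)} :=
    (measurable_fst ((c.meas j).inter measurableSet_ball)).inter
      ((measurable_snd ((c.meas k).inter measurableSet_ball)).inter
        ((measurable_snd.sub measurable_fst) hC))
  have h4 : Module.finrank ℝ (ℂ × ℂ) = 4 := by
    rw [Module.finrank_prod, Complex.finrank_real_complex]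
  have hm : Measurable fun p : ℂ × ℂ => (x, x) + r • p := by fun_prop
  have : (volume : Measure (ℂ × ℂ)).IsAddHaarMeasure := Measure.prod.instIsAddHaarMeasure _ _
  rw [← h4, ← TangentEx_scale volume (x, x) hr, ← integral_indicator_one (hm hS)]
  congr 1
  ext p
  have hb : ∀ w : ℂ, x + r • w ∈ ball x (K * r) ↔ w ∈ ball 0 K := fun w => by
    have := TangentEx_mem_ball x 0 w hr K
    rwa [mul_zero, add_zero, mul_comm] at this
  have hc : x + r • p.2 - (x + r • p.1) ∈ cone (c.U v j k) ↔ p.2 - p.1 ∈ cone (c.U v j k) := by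
    rw [add_sub_add_left_eq_sub, ← smul_sub, Complex.real_smul]
    refine ⟨fun h => ?_, fun h => smul_mem_cone h r⟩
    have := smul_mem_cone h r⁻¹
    rwa [← mul_assoc, ← Complex.ofReal_mul, inv_mul_cancel₀ hr.ne', Complex.ofReal_one,
      one_mul] at this
  refine TangentEx_ind ?_
  simp only [mem_setOf_eq, mem_preimage, mem_inter_iff, Prod.fst_add, Prod.snd_add,
    Prod.smul_fst, Prod.smul_snd, hb, hc]
  tauto

/-- `f n i z = 1{x n + r n z ∈ D i}`; `weak_star`.  Scaling: `pr (D i) (x + r z) (r ρ) = av (f n i) z ρ` (`Measure.addHaar_preimage_smul`, `finrank ℝ ℂ = 2`).  `sum`: `∫_E (∑ μ i - 1) = 0` for all `E` of finite measure.  `ker`: with `C = cone U`, `B = ball 0 K`,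
`h_n z = ∫ 1_B(w) 1_C(w - z) f_n k w dw → h z` pointwise and boundedly, so in `L¹(B)`; `∫_B f_n j h_n → ∫_B μ j h`, and the left side is the rescaled quantity of `pair_est` (the cone is scale invariant). -/
theorem MCol.exists_tangent (c : MCol) (v : ℂ) (x : ℕ → ℂ) (r : ℕ → ℝ) (hr : ∀ n, 0 < r n)
    (hx : Tendsto x atTop (𝓝 v)) (hr0 : Tendsto r atTop (𝓝 0)) :
    ∃ φ : ℕ → ℕ, StrictMono φ ∧ ∃ μ : Fin 5 → ℂ → ℝ, c.Tangent v μ ∧
      ∀ (i : Fin 5) (z : ℂ) (ρ : ℝ), 0 < ρ →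
        Tendsto (fun n => pr (c.D i) (x (φ n) + r (φ n) * z) (r (φ n) * ρ)) atTop (𝓝 (av (μ i) z ρ)) := by
  have hfr : ∀ n i, Fr (((fun w => x n + r n • w) ⁻¹' c.D i).indicator fun _ => (1 : ℝ)) :=
    fun n i => TangentEx_fr (TangentEx_meas _ _ (c.meas i))
  obtain ⟨φ, hφ, μ, hμ, hw⟩ := weak_star _ hfr
  have hx' := hx.comp hφ.tendsto_atTop
  have hr' := hr0.comp hφ.tendsto_atTop
  have hmain : ∀ (i : Fin 5) (z : ℂ) (ρ : ℝ), 0 < ρ →
      Tendsto (fun n => pr (c.D i) (x (φ n) + r (φ n) * z) (r (φ n) * ρ)) atTop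
        (𝓝 (av (μ i) z ρ)) := by
    intro i z ρ _
    have h1 := (hw i ((ball z ρ).indicator fun _ => (1 : ℝ))
      ((integrable_indicator_iff measurableSet_ball).2
        (integrableOn_const measure_ball_lt_top.ne))).div_const (π * ρ ^ 2)
    rw [← TangentEx_av] at h1
    refine h1.congr fun n => ?_
    rw [← TangentEx_av, av_indicator (TangentEx_meas _ _ (c.meas i)), TangentEx_pr _ _ _ (hr _)]
  have hlim : ∀ (z : ℂ) (ρ : ℝ), 0 < ρ → c.Lim v fun i => av (μ i) z ρ := by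
    intro z ρ hρ
    refine MCol.lim_of_seq (x := fun n => x (φ n) + r (φ n) * z) (r := fun n => r (φ n) * ρ)
      (fun n => mul_pos (hr _) hρ) ?_ ?_ (tendsto_pi_nhds.2 fun i => hmain i z ρ hρ)
    · have := hx'.add (((Complex.continuous_ofReal.tendsto 0).comp hr').mul_const z)
      simpa using this
    · simpa using hr'.mul_const ρ
  refine ⟨φ, hφ, μ, ⟨hμ, ?_, hlim, fun j k => ?_⟩, hmain⟩
  · filter_upwards [ae_all_iff.2 fun i => ae_tendsto_av (hμ i)] with z hz
    refine tendsto_nhds_unique (tendsto_finset_sum Finset.univ fun i _ => hz i) ?_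
    refine tendsto_const_nhds.congr' ?_
    filter_upwards [self_mem_nhdsWithin] with ρ hρ
    exact (hlim z ρ hρ).simp.2.symm
  · have hC := measurableSet_cone (c.measurableSet_U v j k)
    have key : ∀ K : ℕ, ∀ᵐ p : ℂ × ℂ, p.1 ∈ ball 0 (K + 1 : ℝ) ∧ p.2 ∈ ball 0 (K + 1 : ℝ) ∧
        p.2 - p.1 ∈ cone (c.U v j k) → μ j p.1 * μ k p.2 = 0 := by
      intro K
      have hK : (0 : ℝ) < K + 1 := by positivity
      set S : Set (ℂ × ℂ) := {p : ℂ × ℂ | p.1 ∈ ball 0 (K + 1 : ℝ) ∧ p.2 ∈ ball 0 (K + 1 : ℝ) ∧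
        p.2 - p.1 ∈ cone (c.U v j k)} with hSdef
      have hS : MeasurableSet S := (measurable_fst measurableSet_ball).inter
        ((measurable_snd measurableSet_ball).inter ((measurable_snd.sub measurable_fst) hC))
      have hfin : volume S ≠ ⊤ := by
        have h1 : S ⊆ ball (0 : ℂ × ℂ) (K + 1 : ℝ) := fun p hp => by
          rw [← Prod.mk_zero_zero, ← ball_prod_same]; exact ⟨hp.1, hp.2.1⟩
        exact ((measure_mono h1).trans_lt measure_ball_lt_top).ne
      have hG : Integrable (S.indicator fun _ => (1 : ℝ)) :=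
        (integrable_indicator_iff hS).2 (integrableOn_const hfin)
      have h1 := TangentEx_prod hG (fun n => hfr (φ n) j) (fun n => hfr (φ n) k) (hμ j) (hμ k)
        (hw j) (hw k)
      have hnn : 0 ≤ fun p : ℂ × ℂ => S.indicator (fun _ => (1 : ℝ)) p * μ k p.2 * μ j p.1 :=
        fun p => mul_nonneg (mul_nonneg (indicator_nonneg (fun _ _ => zero_le_one) p)
          ((hμ k).2 _).1) ((hμ j).2 _).1
      have h2 : ∫ p : ℂ × ℂ, S.indicator (fun _ => (1 : ℝ)) p * μ k p.2 * μ j p.1 = 0 := by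
        refine le_antisymm (le_of_forall_pos_le_add fun ε hε => ?_) (integral_nonneg hnn)
        rw [zero_add]
        obtain ⟨δ, hδ, h⟩ := c.pair_est v j k hK hε
        refine le_of_tendsto h1 ?_
        filter_upwards [hx'.eventually (ball_mem_nhds v hδ), hr'.eventually (gt_mem_nhds hδ)]
          with n e1 e2
        rw [hSdef, TangentEx_pair c v j k _ _ (hr _), div_le_iff₀ (pow_pos (hr _) 4)]
        exact h _ _ (by rwa [← dist_eq_norm]) (hr _) e2
      have h3 := (integral_eq_zero_iff_of_nonneg hnn (TangentEx_int2 hG (hμ j) (hμ k))).1 h2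
      filter_upwards [h3] with p hp hp'
      have hpS : p ∈ S := hp'
      rw [indicator_of_mem hpS, one_mul, mul_comm] at hp
      exact hp
    filter_upwards [ae_all_iff.2 key] with p hp hc
    obtain ⟨K, hK⟩ := exists_nat_gt (‖p.1‖ + ‖p.2‖)
    have e1 := norm_nonneg p.1
    have e2 := norm_nonneg p.2
    exact hp K ⟨by rw [mem_ball_zero_iff]; linarith, by rw [mem_ball_zero_iff]; linarith, hc⟩

end Crest.Agent.R040

end
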