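import Crest.Agent.R040.Rules
import Crest.Agent.R040.Two
import Crest.Agent.R040.Half
import Crest.Agent.R040.TangentEx
import Crest.Agent.R040.Pure

/-! # Row 40, Step 2: four-coloured limit windows are connected -/

set_option autoImplicit false

open MeasureTheory Filter Topology Set Metric
open scoped Real

noncomputable section

namespace Crest.Agent.R040

theorem conn4_pr_biUnion (c : MCol) (S : Finset (Fin 5)) (x : ℂ) (r : ℝ) :
    pr (⋃ i ∈ S, c.D i) x r = ∑ i ∈ S, c.p x r i := by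
  classical
  induction S using Finset.induction_on with
  | empty => simp [pr]
  | insert a S ha ih =>
    rw [Finset.set_biUnion_insert, Finset.sum_insert ha, ← ih,
      pr_union (Finset.measurableSet_biUnion _ fun i _ => c.meas i)]
    · rfl
    · simp only [disjoint_iUnion_right]
      exact fun i hi => c.disj _ _ fun h => ha (h ▸ hi)

theorem conn4_pr_eq {Z : Set ℂ} (hZ : MeasurableSet Z) {μ : Fin 5 → ℂ → ℝ} (hμ : ∀ i, Fr (μ i))
    (S : Finset (Fin 5)) (h : ∀ᵐ z : ℂ, Z.indicator (fun _ => (1 : ℝ)) z = ∑ i ∈ S, μ i z) (x : ℂ)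
    (r : ℝ) : pr Z x r = ∑ i ∈ S, av (μ i) x r := by
  rw [← av_indicator hZ]
  unfold av
  rw [← Finset.sum_div, ← integral_finsetSum, integral_congr_ae (ae_restrict_of_ae h)]
  intro i _
  refine Measure.integrableOn_of_bounded (M := 1) measure_ball_lt_top.ne
    (hμ i).1.aestronglyMeasurable (Eventually.of_forall fun z => ?_)
  rw [Real.norm_of_nonneg ((hμ i).2 z).1]
  exact ((hμ i).2 z).2

theorem conn4_third : ∀ j e : Fin 5, ∃ k, j ≠ k ∧ k ≠ e := by decide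

theorem conn4_pair {N : Fin 5 → Prop} (h : ∀ i j k, i ≠ j → i ≠ k → j ≠ k → N i → N j → N k → False)
    (j e : Fin 5) (hj : N j) : ∃ k, j ≠ k ∧ (¬ N e → k ≠ e) ∧ ∀ l, N l → l = k ∨ l = j := by
  by_cases h1 : ∃ k, j ≠ k ∧ N k
  · obtain ⟨k, hk, hk'⟩ := h1
    refine ⟨k, hk, fun h2 h3 => h2 (h3 ▸ hk'), fun l hl => ?_⟩
    by_contra h2
    exact h j k l hk (fun h3 => h2 (Or.inr h3.symm)) (fun h3 => h2 (Or.inl h3.symm)) hj hk' hl
  · obtain ⟨k, hk, hk'⟩ := conn4_third j e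
    refine ⟨k, hk, fun _ => hk', fun l hl => Or.inr ?_⟩
    by_contra h2
    exact h1 ⟨l, fun h3 => h2 h3.symm, hl⟩

theorem conn4_U (c : MCol) (v : ℂ) {e : Fin 5} (hP : ∀ i, i ≠ e → c.P v i) :
    ∃ j k, j ≠ e ∧ k ≠ e ∧ volume (c.U v j k) ≠ 0 := by
  by_contra hcon
  have h0 : ∀ j k, ∀ᵐ θ : ℝ, j ≠ e → k ≠ e → θ ∉ c.U v j k := fun j k => by
    by_cases h : j ≠ e ∧ k ≠ e
    · have h1 : volume (c.U v j k) = 0 := by
        by_contra h2
        exact hcon ⟨j, k, h.1, h.2, h2⟩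
      filter_upwards [measure_eq_zero_iff_ae_notMem.1 h1] with θ hθ _ _ using hθ
    · exact Eventually.of_forall fun θ h1 h2 => absurd ⟨h1, h2⟩ h
  have h1 : ∀ᵐ θ : ℝ, ∃ j, j ≠ e ∧ θ ∈ c.U v j e := by
    filter_upwards [ae_all_iff.2 fun j => ae_all_iff.2 (h0 j), c.two v] with θ a1 a2
    by_cases he : c.N (v + cis θ) e
    · obtain ⟨k, hk, -, hk'⟩ := conn4_pair a2 e e he
      exact ⟨k, hk.symm, hk'⟩
    · by_cases h2 : ∃ j, c.N (v + cis θ) j
      · obtain ⟨j, hj⟩ := h2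
        obtain ⟨k, -, hk, hk'⟩ := conn4_pair a2 j e hj
        exact (a1 k j (hk he) (fun h3 => he (h3 ▸ hj)) hk').elim
      · obtain ⟨k, -, hk⟩ := conn4_third e e
        exact (a1 k k hk hk fun l hl => (h2 ⟨l, hl⟩).elim).elim
  obtain ⟨θ, ⟨j, hj, hj'⟩, ⟨l, hl, hl'⟩, h2⟩ :=
    (h1.and ((ae_shift h1 (π / 3)).and (c.rule2 v))).exists
  exact h2 j l e (hP j hj) (hP l hl) hj' hl'

/-- Suppose `j₀, k₀` are not joined; `S₁` = colours reachable from `j₀`, `S₂` = the other colours `≠ e`.  A limit vector with mass on both `S₁` and `S₂` is positive on all colours `≠ e` (`h3`); by compactness (`isCompact_lim`) it is `≥ c₀` there when the mass of `S₁` is `1/2`.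
`half` (`A = ⋃_{S₁} D i`, `R = ∅`) gives windows shrinking to `v` with mass `1/2`; `exists_tangent`.  Some `U v j k`, `j ≠ k`, both `≠ e`, has positive measure: where `N e` fails `N` lies in such a pair (`two`), and `N e` cannot hold at both `θ` and `θ + π/3`
(`two`, `rule2` with `k = e`; all colours `≠ e` are in `P`).  `Ker.mul_self`, `ae_tendsto_av`, `isClosed_lim`: for a.e. `z` the vector `μ · z` is a limit vector vanishing at `j` or `k`, so `∑_{S₁} μ i z ∈ {0, 1}`; `Z = {∑_{S₁} μ i = 1}`; `pure_lines`. -/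
theorem MCol.conn_four (c : MCol) (v : ℂ) {q : Fin 5 → ℝ} (hq : c.Lim v q) {e : Fin 5} (he : ¬ c.P v e)
    (hpos : ∀ i, i ≠ e → 0 < q i)
    (h3 : ∀ q', c.Lim v q' → (∃ l, l ≠ e ∧ q' l = 0) → Conn (c.Adj v) q') : Conn (c.Adj v) q := by
  classical
  intro j₀ k₀ hj₀ hk₀
  by_contra hcon
  obtain ⟨S, hS⟩ : ∃ S : Finset (Fin 5), ∀ i, i ∈ S ↔
      Relation.ReflTransGen (fun a b => c.Adj v a b ∧ 0 < q a ∧ 0 < q b) j₀ i :=
    ⟨Finset.univ.filter _, fun i => Finset.mem_filter.trans (and_iff_right (Finset.mem_univ i))⟩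
  have hm : ∀ q', c.Lim v q' → ∑ i ∈ S, q' i + ∑ i ∈ Sᶜ, q' i = 1 := fun q' h => by
    rw [Finset.sum_add_sum_compl, h.simp.2]
  have hA : ∀ q', c.Lim v q' → ∑ i ∈ S, q' i ≠ 0 → ∑ i ∈ S, q' i ≠ 1 → ∀ l, l ≠ e → 0 < q' l := by
    intro q' h h0 h1 l hl
    obtain ⟨a, ha, ha'⟩ := Finset.exists_ne_zero_of_sum_ne_zero h0
    obtain ⟨b, hb, hb'⟩ := Finset.exists_ne_zero_of_sum_ne_zero (s := Sᶜ) (f := q') fun h2 => by
      have := hm q' h
      rw [h2, add_zero] at this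
      exact h1 this
    refine lt_of_le_of_ne (h.simp.1 l) fun h2 => ?_
    have h4 := h3 q' h ⟨l, hl, h2.symm⟩ a b (lt_of_le_of_ne (h.simp.1 a) ha'.symm)
      (lt_of_le_of_ne (h.simp.1 b) hb'.symm)
    have h5 : ∀ i, 0 < q' i → 0 < q i := fun i hi => hpos i fun h6 => by
      rw [h6, h.eq_zero he] at hi
      exact lt_irrefl _ hi
    exact Finset.mem_compl.1 hb ((hS b).2 (((hS a).1 ha).trans
      (Relation.ReflTransGen.mono (fun s t hst => ⟨hst.1, h5 s hst.2.1, h5 t hst.2.2⟩) _ _ h4)))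
  obtain ⟨j, k, hj, hk, hU⟩ := conn4_U c v (e := e) fun i hi => hq.P (hpos i hi)
  have hK : IsCompact ({q' | c.Lim v q'} ∩ {q' | ∑ i ∈ S, q' i = 1 / 2}) :=
    (MCol.isCompact_lim v).inter_right (isClosed_eq (by fun_prop) continuous_const)
  obtain ⟨c₀, hc₀, hc⟩ := hK.exists_forall_le' (f := fun q' => min (q' j) (q' k)) (a := 0)
    (by fun_prop) fun q' h => by
      have h1 : ∑ i ∈ S, q' i = 1 / 2 := h.2
      have h2 := hA q' h.1 (by rw [h1]; norm_num) (by rw [h1]; norm_num)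
      exact lt_min (h2 j hj) (h2 k hk)
  have m0 : 0 < ∑ i ∈ S, q i :=
    hj₀.trans_le (Finset.single_le_sum (fun i _ => hq.simp.1 i) ((hS j₀).2 .refl))
  have m1 : ∑ i ∈ S, q i < 1 := by
    have := Finset.single_le_sum (s := Sᶜ) (fun i _ => hq.simp.1 i)
      (Finset.mem_compl.2 fun h => hcon ((hS k₀).1 h))
    linarith [hm q hq]
  obtain ⟨x, r, hr, hx, hr0, hp⟩ := hq.seq
  obtain ⟨κ, hκ, hκ0, hκ1⟩ : ∃ κ : ℝ, 0 < κ ∧ κ < ∑ i ∈ S, q i ∧ ∑ i ∈ S, q i < 1 - κ := by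
    refine ⟨min (∑ i ∈ S, q i) (1 - ∑ i ∈ S, q i) / 2, half_pos (lt_min m0 (by linarith)), ?_, ?_⟩
    · linarith [min_le_left (∑ i ∈ S, q i) (1 - ∑ i ∈ S, q i)]
    · linarith [min_le_right (∑ i ∈ S, q i) (1 - ∑ i ∈ S, q i)]
  have hp' : Tendsto (fun n => ∑ i ∈ S, c.p (x n) (r n) i) atTop (𝓝 (∑ i ∈ S, q i)) :=
    tendsto_finsetSum _ fun i _ => tendsto_pi_nhds.1 hp i
  obtain ⟨N, hN⟩ := eventually_atTop.1 (hp'.eventually (Icc_mem_nhds hκ0 hκ1))
  obtain ⟨δ, hδ, hh⟩ := half κ 1 1 hκ one_pos le_rfl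
  have hw : ∀ n, ∃ (z : ℂ) (ρ : ℝ), 0 < ρ ∧ ‖z - x (n + N)‖ ≤ r (n + N) ∧ ρ ≤ 2 * r (n + N) ∧
      ∑ i ∈ S, c.p z ρ i = 1 / 2 := by
    intro n
    have h1 := hN (n + N) (Nat.le_add_left _ _)
    rw [← conn4_pr_biUnion] at h1
    obtain ⟨z, ρ, hρ, h2, h4, -⟩ := hh _ ∅ _ _ (Finset.measurableSet_biUnion _ fun i _ => c.meas i)
      MeasurableSet.empty (hr _) h1.1 h1.2 (by simp [pr, hδ.le])
    rw [one_mul] at h2
    have h5 := pr_sub (⋃ i ∈ S, c.D i) hρ (hr _) h2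
    have h6 := mul_le_of_le_one_right (sq_nonneg (r (n + N))) (pr_le_one (⋃ i ∈ S, c.D i) (x (n + N))
      (r (n + N)))
    refine ⟨z, ρ, hρ, ?_, ?_, by rw [← conn4_pr_biUnion, h4]⟩
    · exact (mem_ball_iff_norm.1 (h2 (mem_ball_self hρ))).le
    · rw [h4] at h5
      nlinarith [hr (n + N)]
  choose z ρ hρ hz hρr hzρ using hw
  have hr0' : Tendsto (fun n => r (n + N)) atTop (𝓝 0) := (tendsto_add_atTop_iff_nat N).2 hr0
  have hz' : Tendsto z atTop (𝓝 v) := by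
    have h1 := (squeeze_zero_norm hz hr0').add ((tendsto_add_atTop_iff_nat N).2 hx)
    simpa using h1
  have hρ' : Tendsto ρ atTop (𝓝 0) :=
    squeeze_zero (fun n => (hρ n).le) hρr (by simpa using hr0'.const_mul 2)
  obtain ⟨φ, -, μ, hT, hlim⟩ := c.exists_tangent v z ρ hρ hz' hρ'
  have h12 : ∑ i ∈ S, av (μ i) 0 1 = 1 / 2 := by
    have h1 := tendsto_finsetSum S fun i _ => hlim i 0 1 one_pos
    simp only [mul_zero, add_zero, mul_one] at h1
    exact tendsto_nhds_unique h1 (tendsto_const_nhds.congr fun n => (hzρ (φ n)).symm)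
  have hZ : MeasurableSet {w : ℂ | ∑ i ∈ S, μ i w = 1} :=
    measurableSet_eq_fun (Finset.measurable_sum _ fun i _ => (hT.fr i).1) measurable_const
  have hae : ∀ᵐ w : ℂ, {w : ℂ | ∑ i ∈ S, μ i w = 1}.indicator (fun _ => (1 : ℝ)) w =
      ∑ i ∈ S, μ i w := by
    filter_upwards [ae_all_iff.2 fun i => ae_tendsto_av (hT.fr i),
      Ker.mul_self (hT.fr j) (hT.fr k) (c.measurableSet_U v j k) hU (hT.ker j k)] with w h1 h2
    have h4 : c.Lim v fun i => μ i w :=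
      (MCol.isCompact_lim v).isClosed.mem_of_tendsto (tendsto_pi_nhds.2 h1)
        (eventually_nhdsWithin_of_forall fun ρ hρ => hT.lim w ρ hρ)
    by_cases h5 : ∑ i ∈ S, μ i w = 1
    · rw [indicator_of_mem (by exact h5), h5]
    · rw [indicator_of_notMem (by exact h5)]
      by_contra h6
      have h7 := hA _ h4 (Ne.symm h6) h5
      exact (mul_pos (h7 j hj) (h7 k hk)).ne' h2
  refine pure_lines hZ (hT.fr j) (hT.fr k) (c.measurableSet_U v j k) hU (hT.ker j k) hc₀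
    (fun w s hs h => ?_) 0 one_pos ((conn4_pr_eq hZ hT.fr S hae 0 1).trans h12)
  rw [conn4_pr_eq hZ hT.fr S hae] at h
  exact le_min_iff.1 (hc (fun i => av (μ i) w s) ⟨hT.lim w s hs, h⟩)

end Crest.Agent.R040

end
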