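import Crest.Agent.R040.MinNorm
import Crest.Agent.R040.Arith

/-! # Row 40, Step 1: approximate continuity on deep subgroups gives continuity -/

set_option autoImplicit false

open MeasureTheory Filter Topology Set

noncomputable section

namespace Crest.Agent.R040

namespace ContApprox

/-- the defect `‖1 - ψ z‖²` -/
def ff (z : K) (ψ : X) : ℝ := ‖1 - ψ.1 z‖ ^ 2

theorem ff_nonneg (z : K) (ψ : X) : 0 ≤ ff z ψ := sq_nonneg _

theorem ff_le (z : K) (ψ : X) : ff z ψ ≤ 4 := by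
  have h : ‖1 - ψ.1 z‖ ≤ 2 := (norm_sub_le _ _).trans (by rw [norm_one, ψ.2.1]; norm_num)
  have := pow_le_pow_left₀ (norm_nonneg _) h 2
  rw [ff]; linarith

theorem ff_meas (z : K) : Measurable (ff z) :=
  ((measurable_const.sub (ch_measurable z)).norm).pow_const 2

theorem ff_int (z : K) (μ : Measure X) [IsFiniteMeasure μ] : Integrable (ff z) μ :=
  Integrable.of_bound (ff_meas z).aestronglyMeasurable 4 (.of_forall fun ψ => by
    rw [Real.norm_eq_abs, abs_of_nonneg (ff_nonneg z ψ)]; exact ff_le z ψ)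

theorem ff_add (y z : K) (ψ : X) : ff (y + z) ψ ≤ 2 * ff y ψ + 2 * ff z ψ := by
  have h : ‖1 - ψ.1 (y + z)‖ ≤ ‖1 - ψ.1 y‖ + ‖1 - ψ.1 z‖ := by
    rw [ψ.2.2, show 1 - ψ.1 y * ψ.1 z = (1 - ψ.1 y) + ψ.1 y * (1 - ψ.1 z) by ring]
    refine (norm_add_le _ _).trans ?_
    rw [norm_mul, ψ.2.1, one_mul]
  have := pow_le_pow_left₀ (norm_nonneg _) h 2
  simp only [ff]
  nlinarith [sq_nonneg (‖1 - ψ.1 y‖ - ‖1 - ψ.1 z‖)]

theorem int_add (y z : K) (μ : Measure X) [IsFiniteMeasure μ] :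
    ∫ ψ, ff (y + z) ψ ∂μ ≤ 2 * ∫ ψ, ff y ψ ∂μ + 2 * ∫ ψ, ff z ψ ∂μ := by
  rw [← integral_const_mul, ← integral_const_mul,
    ← integral_add ((ff_int y μ).const_mul 2) ((ff_int z μ).const_mul 2)]
  exact integral_mono (ff_int _ μ) (((ff_int y μ).const_mul 2).add ((ff_int z μ).const_mul 2))
    (ff_add y z)

/-- continuity along `S` on the set `E` -/
def Cont (μ : Measure X) (S : Set K) (E : Set X) : Prop :=
  ∀ ε > (0 : ℝ), ∃ r > (0 : ℝ), ∀ z ∈ S, ‖z‖ < r → ∫ ψ in E, ff z ψ ∂μ ≤ ε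

variable {μ : Measure X} [IsFiniteMeasure μ] {S : Set K} {E E' : Set X}

theorem int_mono (z : K) (h : E ≤ᵐ[μ] E') : ∫ ψ in E, ff z ψ ∂μ ≤ ∫ ψ in E', ff z ψ ∂μ :=
  setIntegral_mono_set (ff_int z _) (.of_forall (ff_nonneg z)) h

theorem int_union (z : K) (E E' : Set X) :
    ∫ ψ in E ∪ E', ff z ψ ∂μ ≤ ∫ ψ in E, ff z ψ ∂μ + ∫ ψ in E', ff z ψ ∂μ := by
  rw [← integral_add_measure (ff_int z _) (ff_int z _)]
  exact integral_mono_measure (Measure.restrict_union_le E E') (.of_forall (ff_nonneg z))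
    (ff_int z _)

theorem int_le (z : K) (E : Set X) : ∫ ψ in E, ff z ψ ∂μ ≤ 4 * μ.real E :=
  (le_abs_self _).trans (norm_setIntegral_le_of_norm_le_const (measure_lt_top μ E) fun ψ _ => by
    rw [Real.norm_eq_abs, abs_of_nonneg (ff_nonneg z ψ)]; exact ff_le z ψ)

theorem Cont.mono (h : Cont μ S E') (hE : E ≤ᵐ[μ] E') : Cont μ S E := fun ε hε => by
  obtain ⟨r, hr, H⟩ := h ε hε
  exact ⟨r, hr, fun z hz hz' => (int_mono z hE).trans (H z hz hz')⟩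

theorem Cont.union (h : Cont μ S E) (h' : Cont μ S E') : Cont μ S (E ∪ E') := fun ε hε => by
  obtain ⟨r, hr, H⟩ := h (ε / 2) (half_pos hε)
  obtain ⟨r', hr', H'⟩ := h' (ε / 2) (half_pos hε)
  refine ⟨min r r', lt_min hr hr', fun z hz hz' => (int_union z E E').trans ?_⟩
  linarith [H z hz (hz'.trans_le (min_le_left _ _)), H' z hz (hz'.trans_le (min_le_right _ _))]

theorem cont_iUnion {F : ℕ → Set X} (hm : ∀ n, MeasurableSet (F n)) (h : ∀ n, Cont μ S (F n)) :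
    Cont μ S (⋃ n, F n) := by
  have hA : ∀ N, Cont μ S (accumulate F N) := by
    intro N
    induction N with
    | zero => simpa using h 0
    | succ N ih => rw [accumulate_succ]; exact ih.union (h _)
  intro ε hε
  have hT : Tendsto (fun N => μ.real (accumulate F N)) atTop (𝓝 (μ.real (⋃ n, F n))) :=
    (ENNReal.tendsto_toReal (measure_ne_top μ _)).comp tendsto_measure_iUnion_accumulate
  obtain ⟨N, hN⟩ := (hT.eventually (lt_mem_nhds
    (show μ.real (⋃ n, F n) - ε / 8 < μ.real (⋃ n, F n) by linarith))).exists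
  obtain ⟨r, hr, H⟩ := hA N (ε / 2) (half_pos hε)
  refine ⟨r, hr, fun z hz hz' => ?_⟩
  have hsub : accumulate F N ⊆ ⋃ n, F n := accumulate_subset_iUnion N
  have h1 := int_union (μ := μ) z (accumulate F N) ((⋃ n, F n) \ accumulate F N)
  rw [union_sdiff_cancel hsub] at h1
  have h2 := int_le (μ := μ) z ((⋃ n, F n) \ accumulate F N)
  rw [measureReal_sdiff hsub (MeasurableSet.iUnion fun n => MeasurableSet.iUnion fun _ => hm n)] at h2
  linarith [H z hz hz']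

omit [IsFiniteMeasure μ] in
theorem int_rot (hU : UInv μ) {u : K} (hu : ‖u‖ = 1) (hE : MeasurableSet E) (w : K) :
    ∫ ψ in rot u ⁻¹' E, ff (u * w) ψ ∂μ = ∫ ψ in E, ff w ψ ∂μ := by
  rw [← ((hU u hu).restrict_preimage hE).map_eq,
    integral_map (rot_measurable u).aemeasurable (ff_meas w).aestronglyMeasurable]
  rfl

theorem rot_iterate (u : K) (n : ℕ) (ψ : X) : (rot u)^[n] ψ = rot (u ^ n) ψ := by
  induction n with
  | zero => simp
  | succ n ih => rw [Function.iterate_succ_apply', ih, rot_rot, pow_succ']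

/-- the lattice `5^{-s} · a 5^M Λ₅` -/
def LL (a : K) (M s : ℕ) : Set K := {z | 5 ^ s * (z / a / 5 ^ M) ∈ Lam5}

theorem five_ne : (5 : K) ≠ 0 := by norm_num

theorem five_mem (n : ℕ) : (5 : K) ^ n ∈ Lam5 :=
  lam5_of_isIntegral (by exact_mod_cast isIntegral_algebraMap (R := ℤ) (A := K) (x := 5 ^ n))

theorem cont_piece (hU : UInv μ) {a : K} (ha : a ≠ 0) {M : ℕ} (hE : MeasurableSet E)
    (h : Cont μ (LL a M 0) E) {s n n' : ℕ} (hn : s ≤ n) (hn' : s ≤ n') :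
    Cont μ (LL a M s) (rot (u0 ^ n) ⁻¹' E ∩ rot (u0⁻¹ ^ n') ⁻¹' E) := by
  intro ε hε
  obtain ⟨r, hr, H⟩ := h (ε / 4) (by positivity)
  refine ⟨r / 2, half_pos hr, fun z hz hz' => ?_⟩
  have hu : ‖u0 ^ n‖ = 1 := by rw [norm_pow, norm_u0, one_pow]
  have hu' : ‖u0⁻¹ ^ n'‖ = 1 := by rw [norm_pow, norm_inv, norm_u0, inv_one, one_pow]
  have hu0 : u0 ^ n ≠ 0 := norm_ne_zero_iff.1 (by rw [hu]; norm_num)
  have hu0' : u0⁻¹ ^ n' ≠ 0 := norm_ne_zero_iff.1 (by rw [hu']; norm_num)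
  have h5 : (5 : K) ^ M ≠ 0 := pow_ne_zero _ five_ne
  obtain ⟨z₁, hz₁, z₂, hz₂, e⟩ := split_sum s n n' hn hn' _ hz
  obtain ⟨y, hy, hy'⟩ := lam5_dense a ha (M + (n + n')) (u0 ^ n * (z₁ * (a * 5 ^ M)) : K) (r / 2)
    (half_pos hr)
  rw [pow_add, ← div_div] at hy
  obtain ⟨hy1, hy2⟩ := lam5_div_u0 n n' hy
  generalize u0 ^ n = v at *
  generalize u0⁻¹ ^ n' = v' at *
  obtain ⟨w₁, hw₁⟩ : ∃ w₁, w₁ = z₁ * (a * 5 ^ M) - y / v := ⟨_, rfl⟩
  obtain ⟨w₂, hw₂⟩ : ∃ w₂, w₂ = z₂ * (a * 5 ^ M) + y / v' := ⟨_, rfl⟩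
  have ez : z = v * w₁ + v' * w₂ := by
    rw [div_div, div_eq_iff (mul_ne_zero ha h5)] at e
    rw [e, hw₁, hw₂]
    field_simp
    ring
  have m1 : w₁ ∈ LL a M 0 := by
    have := lam5_add hz₁ (lam5_neg hy1)
    change 5 ^ 0 * (w₁ / a / 5 ^ M) ∈ Lam5
    convert this using 1
    rw [hw₁]
    field_simp
    ring
  have m2 : w₂ ∈ LL a M 0 := by
    have := lam5_add hz₂ hy2
    change 5 ^ 0 * (w₂ / a / 5 ^ M) ∈ Lam5
    convert this using 1
    rw [hw₂]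
    field_simp
  have n1 : ‖v * w₁‖ < r / 2 := by
    have : v * w₁ = -(y - v * (z₁ * (a * 5 ^ M))) := by
      rw [hw₁]; field_simp; ring
    rw [this, norm_neg]
    exact hy'
  have n2 : ‖v' * w₂‖ < r := by
    have : v' * w₂ = z - v * w₁ := by rw [ez]; ring
    rw [this]
    linarith [norm_sub_le z (v * w₁)]
  rw [norm_mul, hu, one_mul] at n1
  rw [norm_mul, hu', one_mul] at n2
  have b1 := (int_mono (μ := μ) (v * w₁)
    (inter_subset_left (s := rot v ⁻¹' E) (t := rot v' ⁻¹' E)).eventuallyLE).trans_eq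
    (int_rot hU hu hE w₁)
  have b2 := (int_mono (μ := μ) (v' * w₂)
    (inter_subset_right (s := rot v ⁻¹' E) (t := rot v' ⁻¹' E)).eventuallyLE).trans_eq
    (int_rot hU hu' hE w₂)
  rw [ez]
  linarith [int_add (v * w₁) (v' * w₂) (μ.restrict (rot v ⁻¹' E ∩ rot v' ⁻¹' E)),
    H w₁ m1 (by linarith), H w₂ m2 n2]

theorem cont_all (hU : UInv μ) {a : K} (ha : a ≠ 0) {M : ℕ} (hE : MeasurableSet E)
    (h : Cont μ (LL a M 0) E) (s : ℕ) : Cont μ (LL a M s) E := by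
  have hm : ∀ n n', MeasurableSet (rot (u0 ^ (n + s)) ⁻¹' E ∩ rot (u0⁻¹ ^ (n' + s)) ⁻¹' E) :=
    fun n n' => (rot_measurable _ hE).inter (rot_measurable _ hE)
  refine (cont_iUnion (fun n => MeasurableSet.iUnion (hm n)) fun n => cont_iUnion (hm n)
    fun n' => cont_piece hU ha hE h (Nat.le_add_left s n) (Nat.le_add_left s n')).mono ?_
  have c1 := (hU u0 norm_u0).conservative.ae_mem_imp_frequently_image_mem hE.nullMeasurableSet
  have c2 := (hU u0⁻¹ (by rw [norm_inv, norm_u0, inv_one])).conservative.ae_mem_imp_frequently_image_mem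
    hE.nullMeasurableSet
  filter_upwards [c1, c2] with ψ h1 h2 hψ
  obtain ⟨n, hn, hn'⟩ := frequently_atTop.1 (h1 hψ) s
  obtain ⟨n', hm, hm'⟩ := frequently_atTop.1 (h2 hψ) s
  rw [rot_iterate] at hn' hm'
  refine mem_iUnion.2 ⟨n - s, mem_iUnion.2 ⟨n' - s, ?_⟩⟩
  rw [Nat.sub_add_cancel hn, Nat.sub_add_cancel hm]
  exact ⟨hn', hm'⟩

theorem cont_univ (hU : UInv μ) {a : K} (ha : a ≠ 0) {M : ℕ} (hE : MeasurableSet E)
    (h : Cont μ (LL a M 0) E) : Cont μ univ E := by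
  intro ε hε
  obtain ⟨r, hr, H⟩ := h (ε / 4) (by positivity)
  refine ⟨r / 2, half_pos hr, fun z _ hz => ?_⟩
  obtain ⟨s, hs⟩ := exists_pow_lam5 (z / a / 5 ^ M)
  obtain ⟨r', hr', H'⟩ := cont_all hU ha hE h s (ε / 4) (by positivity)
  obtain ⟨y, hy, hy'⟩ := lam5_dense a ha M z (min r' (r / 2)) (lt_min hr' (half_pos hr))
  have hyz : ‖z - y‖ < min r' (r / 2) := by rw [norm_sub_rev]; exact hy'
  have m1 : y ∈ LL a M 0 := by
    change 5 ^ 0 * (y / a / 5 ^ M) ∈ Lam5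
    rwa [pow_zero, one_mul]
  have m2 : z - y ∈ LL a M s := by
    have := lam5_add hs (lam5_neg (lam5_mul (five_mem s) hy))
    change 5 ^ s * ((z - y) / a / 5 ^ M) ∈ Lam5
    convert this using 1
    ring
  have n1 : ‖y‖ < r := by
    have : y = z - (z - y) := by ring
    rw [this]
    linarith [norm_sub_le z (z - y), hyz.trans_le (min_le_right _ _)]
  have := int_add y (z - y) (μ.restrict E)
  rw [add_sub_cancel] at this
  linarith [H y m1 n1, H' _ m2 (hyz.trans_le (min_le_left _ _))]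

/-! ### The minimal norm element -/

omit [IsFiniteMeasure μ] in
theorem memLp_mul (z : K) (x : Lp ℂ 2 μ) : MemLp (fun ψ : X => ψ.1 z * x ψ) 2 μ :=
  (Lp.memLp x).of_le ((ch_measurable z).aestronglyMeasurable.mul (Lp.aestronglyMeasurable x))
    (.of_forall fun ψ => by rw [norm_mul, ψ.2.1, one_mul])

/-- multiplication by `ψ z` -/
def TT (μ : Measure X) [IsFiniteMeasure μ] (z : K) : Lp ℂ 2 μ →ₗ[ℝ] Lp ℂ 2 μ where
  toFun x := (memLp_mul z x).toLp _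
  map_add' x y := by
    refine Lp.ext ?_
    filter_upwards [(memLp_mul z (x + y)).coeFn_toLp, (memLp_mul z x).coeFn_toLp,
      (memLp_mul z y).coeFn_toLp, Lp.coeFn_add x y,
      Lp.coeFn_add ((memLp_mul z x).toLp _) ((memLp_mul z y).toLp _)] with ψ h1 h2 h3 h4 h5
    rw [h1, h5, Pi.add_apply, h2, h3, h4, Pi.add_apply, mul_add]
  map_smul' t x := by
    refine Lp.ext ?_
    filter_upwards [(memLp_mul z (t • x)).coeFn_toLp, (memLp_mul z x).coeFn_toLp,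
      Lp.coeFn_smul t x, Lp.coeFn_smul t ((memLp_mul z x).toLp _)] with ψ h1 h2 h3 h4
    rw [RingHom.id_apply, h1, h4, Pi.smul_apply, h2, h3, Pi.smul_apply, mul_smul_comm]

theorem TT_coe (z : K) (x : Lp ℂ 2 μ) : TT μ z x =ᵐ[μ] fun ψ : X => ψ.1 z * x ψ :=
  (memLp_mul z x).coeFn_toLp

omit [IsFiniteMeasure μ] in
theorem norm_sq_eq (x : Lp ℂ 2 μ) : ‖x‖ ^ 2 = ∫ ψ, ‖x ψ‖ ^ 2 ∂μ := by
  rw [← real_inner_self_eq_norm_sq, L2.inner_def]
  simp only [real_inner_self_eq_norm_sq]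

theorem TT_norm (z : K) (x : Lp ℂ 2 μ) : ‖TT μ z x‖ = ‖x‖ := by
  rw [← sq_eq_sq₀ (norm_nonneg _) (norm_nonneg _), norm_sq_eq, norm_sq_eq]
  refine integral_congr_ae ((TT_coe z x).mono fun ψ h => ?_)
  simp only [h, norm_mul, ψ.2.1, one_mul]

theorem TT_add (y z : K) (x : Lp ℂ 2 μ) : TT μ (y + z) x = TT μ y (TT μ z x) := by
  refine Lp.ext ?_
  filter_upwards [TT_coe (y + z) x, TT_coe y (TT μ z x), TT_coe z x] with ψ h1 h2 h3
  rw [h1, h2, h3, ψ.2.2, mul_assoc]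

theorem TT_sub (z : K) (x : Lp ℂ 2 μ) : ‖TT μ z x - x‖ ^ 2 = ∫ ψ, ‖x ψ‖ ^ 2 * ff z ψ ∂μ := by
  rw [norm_sq_eq]
  refine integral_congr_ae ?_
  filter_upwards [TT_coe z x, Lp.coeFn_sub (TT μ z x) x] with ψ h1 h2
  rw [h2, Pi.sub_apply, h1, ff, ← mul_pow, ← norm_mul, ← norm_neg]
  congr 2
  ring

theorem exists_min (μ : Measure X) [IsFiniteMeasure μ] (a : K) (M : ℕ) {r δ : ℝ} (hr : 0 < r)
    (hδ : 0 ≤ δ) (h : ∀ z : K, z / a / 5 ^ M ∈ Lam5 → ‖z‖ < r → ∫ ψ, ff z ψ ∂μ ≤ δ) :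
    ∃ x : X → ℂ, Measurable x ∧ Integrable (fun ψ => ‖x ψ‖ ^ 2) μ ∧
      Integrable (fun ψ => ‖x ψ - 1‖ ^ 2) μ ∧ ∫ ψ, ‖x ψ - 1‖ ^ 2 ∂μ ≤ δ ∧
      ∀ ε > (0 : ℝ), ∃ r > (0 : ℝ), ∀ z ∈ LL a M 0, ‖z‖ < r → ∫ ψ, ‖x ψ‖ ^ 2 * ff z ψ ∂μ ≤ ε := by
  let L : AddSubgroup K :=
    { carrier := {z | z / a / 5 ^ M ∈ Lam5}
      add_mem' := fun {y z} hy hz => by
        have := lam5_add hy hz
        rwa [← add_div, ← add_div] at this
      zero_mem' := by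
        change (0 : K) / a / 5 ^ M ∈ Lam5
        rw [zero_div, zero_div]
        exact lam5_of_isIntegral isIntegral_zero
      neg_mem' := fun {z} hz => by
        have := lam5_neg hz
        rwa [← neg_div, ← neg_div] at this }
  let f : Lp ℂ 2 μ := (memLp_const (1 : ℂ)).toLp _
  have hf : f =ᵐ[μ] fun _ => 1 := (memLp_const (1 : ℂ)).coeFn_toLp
  obtain ⟨x₀, h1, h2⟩ := minnorm (H := Lp ℂ 2 μ)
    (fun x y => by simpa only [sq] using parallelogram_law_with_norm ℝ x y)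
    (fun z : L => ‖(z : K)‖) (by simp) (fun y z => norm_add_le (y : K) z)
    (fun z => TT μ z) (fun z => TT_norm z) (fun y z => TT_add y z) f
  have h3 : x₀ ∈ Metric.closedBall f √δ := by
    refine closure_minimal (convexHull_min ?_ (convex_closedBall _ _)) Metric.isClosed_closedBall
      (h1 r hr)
    rintro _ ⟨z, hz, rfl⟩
    rw [mem_closedBall_iff_norm]
    refine Real.le_sqrt_of_sq_le ?_
    rw [TT_sub]
    refine le_of_eq_of_le (integral_congr_ae (hf.mono fun ψ hψ => ?_)) (h z z.2 hz)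
    simp only [hψ, norm_one, one_pow, one_mul]
  have e : (fun ψ => ‖(x₀ - f) ψ‖ ^ 2) =ᵐ[μ] fun ψ => ‖x₀ ψ - 1‖ ^ 2 := by
    filter_upwards [hf, Lp.coeFn_sub x₀ f] with ψ g1 g2
    rw [g2, Pi.sub_apply, g1]
  refine ⟨x₀, (Lp.stronglyMeasurable x₀).measurable,
    (memLp_two_iff_integrable_sq_norm (Lp.aestronglyMeasurable x₀)).1 (Lp.memLp x₀),
    ((memLp_two_iff_integrable_sq_norm (Lp.aestronglyMeasurable _)).1 (Lp.memLp (x₀ - f))).congr e,
    ?_, fun ε hε => ?_⟩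
  · rw [← integral_congr_ae e, ← norm_sq_eq]
    rw [mem_closedBall_iff_norm] at h3
    exact (pow_le_pow_left₀ (norm_nonneg _) h3 2).trans_eq (Real.sq_sqrt hδ)
  · obtain ⟨r', hr', H⟩ := h2 √ε (Real.sqrt_pos.2 hε)
    refine ⟨r', hr', fun z hz hz' => ?_⟩
    have hzL : z ∈ L := by
      have : 5 ^ 0 * (z / a / 5 ^ M) ∈ Lam5 := hz
      rwa [pow_zero, one_mul] at this
    rw [← TT_sub]
    exact (pow_le_pow_left₀ (norm_nonneg _) (H ⟨z, hzL⟩ hz').le 2).trans_eq (Real.sq_sqrt hε.le)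

end ContApprox

open ContApprox in
/-- Fix `δ`, with `M, r`; `L = {z | z / a / 5^M ∈ Lam5}` (an additive subgroup).  Call a measurable `E` `L'`-continuous if `d_E(h)² = ∫_E ‖1 - ψ h‖² dν₁ → 0` as `h → 0` in `L'`; `d_E` is subadditive, even.  The family is closed under
measurable subsets, null modifications and countable unions, so it has a largest member `E_L` up to null sets (take a sequence approaching the sup of the measures).
(1) `ν(E_Lᶜ) ≤ δ`: `minnorm` in `Lp ℂ 2 ν` for multiplication by `ψ h`, `h ∈ L`, `f = 1` gives `x₀` with `‖x₀ - 1‖² ≤ δ` and `∫ ‖x₀‖² ‖1 - ψ h‖² dν → 0`; with `ρ = dν/dν₁` the sets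
`{‖x₀‖² ρ ≥ 1/k}` are `L`-continuous.
(2) `E_L` is `5^{-s}L`-continuous for each `s`: `rot v ⁻¹' E` is `vL`-continuous; by Poincaré recurrence (`MeasurePreserving.conservative`, `Conservative.ae_mem_imp_frequently_image_mem`) for `rot u0` and `rot u0⁻¹`, `E_L` is a.e. covered by the sets
`E_L ∩ rot (u0^n) ⁻¹' E_L ∩ rot (u0⁻¹^n') ⁻¹' E_L`, `n, n' ≥ s`; on these use `split_sum`, and move a `y ∈ 5^{n+n'}L` close to the first summand (`lam5_dense`, `lam5_div_u0`).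
(3) uniform modulus: `z ∈ K` lies in some `5^{-s}L` (`exists_pow_lam5`); approximate it by `y ∈ L`: `d(z) ≤ d(y) + d(z - y)`.  Finally `∫ ‖1 - ψ z‖² dν ≤ d(z)² + 4δ`. -/
theorem cont_of_approx (ν ν₁ : Measure X) [IsFiniteMeasure ν₁] (hle : ν ≤ ν₁) (hU : UInv ν₁) (a : K)
    (ha : a ≠ 0)
    (h : ∀ δ > (0 : ℝ), ∃ (M : ℕ) (r : ℝ), 0 < r ∧ ∀ z : K, z / a / 5 ^ M ∈ Lam5 → ‖z‖ < r →
      ∫ ψ : X, ‖1 - ψ.1 z‖ ^ 2 ∂ν ≤ δ) :
    ∀ δ > (0 : ℝ), ∃ r > (0 : ℝ), ∀ z : K, ‖z‖ < r → ∫ ψ : X, ‖1 - ψ.1 z‖ ^ 2 ∂ν ≤ δ := by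
  intro δ hδ
  have : IsFiniteMeasure ν := isFiniteMeasure_of_le ν₁ hle
  have hac : ν ≪ ν₁ := Measure.absolutelyContinuous_of_le hle
  obtain ⟨M, r, hr, hM⟩ := h (δ / 8) (by positivity)
  obtain ⟨x, hx, ix, ix', hx1, hx2⟩ := exists_min ν a M hr (by positivity) hM
  obtain ⟨ρ, hρ⟩ : ∃ ρ : X → ℝ, ρ = fun ψ => (ν.rnDeriv ν₁ ψ).toReal := ⟨_, rfl⟩
  have hρm : Measurable ρ := hρ ▸ (ν.measurable_rnDeriv ν₁).ennreal_toReal
  have hρ0 : ∀ ψ, 0 ≤ ρ ψ := fun ψ => hρ ▸ ENNReal.toReal_nonneg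
  have hρ1 : ∀ᵐ ψ ∂ν₁, ρ ψ ≤ 1 := (Measure.rnDeriv_le_one_of_le hle).mono fun ψ h => by
    rw [hρ]
    exact ENNReal.toReal_le_of_le_ofReal zero_le_one (by simpa using h)
  have hI : ∀ f : X → ℝ, ∫ ψ, ρ ψ * f ψ ∂ν₁ = ∫ ψ, f ψ ∂ν := fun f => by
    rw [hρ]; exact integral_toReal_rnDeriv_mul hac
  have hI' : ∀ f : X → ℝ, Integrable f ν → Integrable (fun ψ => ρ ψ * f ψ) ν₁ := fun f hf => by
    rw [hρ]; exact (integrable_toReal_rnDeriv_mul_iff hac).2 hf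
  let F : ℕ → Set X := fun k => {ψ | 1 ≤ (k : ℝ) * (ρ ψ * ‖x ψ‖ ^ 2)}
  have hF : ∀ k, MeasurableSet (F k) := fun k =>
    measurableSet_le measurable_const (measurable_const.mul (hρm.mul (hx.norm.pow_const 2)))
  have hC : ∀ k, Cont ν₁ (LL a M 0) (F k) := fun k ε hε => by
    obtain ⟨r', hr', H⟩ := hx2 (ε / (k + 1)) (by positivity)
    refine ⟨r', hr', fun z hz hz' => ?_⟩
    have i1 : Integrable (fun ψ => ‖x ψ‖ ^ 2 * ff z ψ) ν :=
      ix.mul_bdd (c := 4) (ff_meas z).aestronglyMeasurable (.of_forall fun ψ => by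
        rw [Real.norm_eq_abs, abs_of_nonneg (ff_nonneg z ψ)]; exact ff_le z ψ)
    have b1 : ∫ ψ in F k, ff z ψ ∂ν₁ ≤ ∫ ψ, (k + 1 : ℝ) * (ρ ψ * (‖x ψ‖ ^ 2 * ff z ψ)) ∂ν₁ := by
      rw [← integral_indicator (hF k)]
      refine integral_mono ((ff_int z ν₁).indicator (hF k)) ((hI' _ i1).const_mul _) fun ψ => ?_
      have g1 := ff_nonneg z ψ
      have g2 : 0 ≤ ρ ψ * (‖x ψ‖ ^ 2 * ff z ψ) := mul_nonneg (hρ0 ψ) (by positivity)
      by_cases hψ : ψ ∈ F k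
      · rw [indicator_of_mem hψ]
        have g3 := mul_le_mul_of_nonneg_right (show 1 ≤ (k : ℝ) * (ρ ψ * ‖x ψ‖ ^ 2) from hψ) g1
        nlinarith
      · rw [indicator_of_notMem hψ]
        positivity
    rw [integral_const_mul, hI] at b1
    refine b1.trans ((mul_le_mul_of_nonneg_left (H z hz hz') (by positivity)).trans_eq ?_)
    field_simp
  have hE := MeasurableSet.iUnion hF
  obtain ⟨r', hr', H⟩ := cont_univ hU ha hE (cont_iUnion hF hC) (δ / 2) (half_pos hδ)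
  refine ⟨r', hr', fun z hz => ?_⟩
  have b2 : ∫ ψ, ρ ψ * ff z ψ ∂ν₁ ≤
      ∫ ψ, ((⋃ k, F k).indicator (ff z) ψ + 4 * (ρ ψ * ‖x ψ - 1‖ ^ 2)) ∂ν₁ := by
    refine integral_mono_ae (hI' _ (ff_int z ν))
      (((ff_int z ν₁).indicator hE).add ((hI' _ ix').const_mul 4)) (hρ1.mono fun ψ h1 => ?_)
    have g1 := ff_nonneg z ψ
    have g2 : 0 ≤ ρ ψ * ‖x ψ - 1‖ ^ 2 := mul_nonneg (hρ0 ψ) (by positivity)
    by_cases hψ : ψ ∈ ⋃ k, F k
    · simp only [indicator_of_mem hψ]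
      nlinarith
    · simp only [indicator_of_notMem hψ, zero_add]
      rcases (hρ0 ψ).eq_or_lt with g3 | g3
      · rw [← g3]; simp
      · have g4 : x ψ = 0 := by
          by_contra g5
          have g6 : 0 < ρ ψ * ‖x ψ‖ ^ 2 := mul_pos g3 (pow_pos (norm_pos_iff.2 g5) 2)
          obtain ⟨k, hk⟩ := exists_nat_ge (1 / (ρ ψ * ‖x ψ‖ ^ 2))
          exact hψ (mem_iUnion.2 ⟨k, (div_le_iff₀ g6).1 hk⟩)
        rw [g4, zero_sub, norm_neg, norm_one, one_pow, mul_one, mul_comm]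
        exact mul_le_mul_of_nonneg_right (ff_le z ψ) g3.le
  rw [integral_add ((ff_int z ν₁).indicator hE) ((hI' _ ix').const_mul 4), integral_const_mul, hI,
    hI, integral_indicator hE] at b2
  have b3 := H z (mem_univ z) hz
  change ∫ ψ, ff z ψ ∂ν ≤ δ
  linarith

end Crest.Agent.R040

end
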