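import Crest.Agent.R040.Defs2

/-! # Row 40, Step 2: centroids in forests -/

set_option autoImplicit false

open MeasureTheory Filter Topology Set Metric
open scoped Real

noncomputable section

namespace Crest.Agent.R040

/-- reachability in `Γ - i` -/
abbrev GraphR (Γ : Fin 5 → Fin 5 → Prop) (i : Fin 5) : Fin 5 → Fin 5 → Prop :=
  Relation.ReflTransGen (fun a b => Γ a b ∧ a ≠ i ∧ b ≠ i)

section aux

variable {Γ : Fin 5 → Fin 5 → Prop}

theorem graph_mono {r s : Fin 5 → Fin 5 → Prop} {x y : Fin 5} (h : Relation.ReflTransGen r x y)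
    (hle : ∀ a b, r a b → s a b) : Relation.ReflTransGen s x y := by
  induction h with
  | refl => exact .refl
  | tail _ h ih => exact ih.tail (hle _ _ h)

theorem GraphR.ne {i x y : Fin 5} (h : GraphR Γ i x y) (hx : x ≠ i) : y ≠ i := by
  induction h with
  | refl => exact hx
  | tail _ h _ => exact h.2.2

theorem GraphR.ne' {i x y : Fin 5} (h : GraphR Γ i x y) (hy : y ≠ i) : x ≠ i := by
  induction h using Relation.ReflTransGen.head_induction_on with
  | refl => exact hy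
  | head h _ _ => exact h.2.1

theorem GraphR.symm (hs : ∀ a b, Γ a b → Γ b a) {i x y : Fin 5} (h : GraphR Γ i x y) :
    GraphR Γ i y x := by
  induction h with
  | refl => exact .refl
  | tail _ h ih => exact .head ⟨hs _ _ h.1, h.2.2, h.2.1⟩ ih

theorem GraphR.mono {F : Fin 5 → Fin 5 → Prop} (hle : ∀ a b, Γ a b → F a b) {i x y : Fin 5}
    (h : GraphR Γ i x y) : GraphR F i x y :=
  graph_mono h fun a b hab => ⟨hle a b hab.1, hab.2⟩

theorem graph_first {i x y : Fin 5} (h : Relation.ReflTransGen Γ x y) (hx : x ≠ i) :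
    GraphR Γ i x y ∨ ∃ a, GraphR Γ i x a ∧ Γ a i := by
  induction h with
  | refl => exact Or.inl .refl
  | @tail z y _ h ih =>
    rcases ih with ih | ih
    · by_cases hy : y = i
      · exact Or.inr ⟨z, ih, hy ▸ h⟩
      · exact Or.inl (ih.tail ⟨h, ih.ne hx, hy⟩)
    · exact Or.inr ih

theorem graph_last {i x y : Fin 5} (h : Relation.ReflTransGen Γ x y) (hy : y ≠ i) :
    GraphR Γ i x y ∨ ∃ b, Γ i b ∧ GraphR Γ i b y := by
  induction h using Relation.ReflTransGen.head_induction_on with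
  | refl => exact Or.inl .refl
  | @head x z h _ ih =>
    rcases ih with ih | ih
    · by_cases hx : x = i
      · exact Or.inr ⟨z, hx ▸ h, ih⟩
      · exact Or.inl (ih.head ⟨h, hx, ih.ne' hy⟩)
    · exact Or.inr ih

theorem graph_five : ∀ i c e a y b : Fin 5, i ≠ c → i ≠ e → i ≠ a → c ≠ e → c ≠ a → e ≠ a →
    y ≠ i → y ≠ c → y ≠ e → y ≠ a → b ≠ i → b ≠ c → b ≠ e → b ≠ a → y = b := by
  intro i c e a y b
  omega

/-- a forest is acyclic -/
theorem graph_acyc (hF : Forest Γ) {i a b : Fin 5} (ha : Γ i a) (hb : Γ i b)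
    (h : GraphR Γ i a b) : a = b := by
  obtain ⟨e, he⟩ := hF.1.iso
  have ne : ∀ {x y}, Γ x y → x ≠ y := fun {x y} h e => hF.1.irrefl x (e ▸ h)
  have ne1 : ∀ {x y}, Γ x y → x ≠ e := fun {x y} h e => he y (e ▸ h)
  have ne2 : ∀ {x y}, Γ x y → y ≠ e := fun {x y} h => ne1 (hF.1.symm _ _ h)
  by_contra hab
  have key : ∀ x, GraphR Γ i a x → x = a ∨ Γ a x := by
    intro x hx
    induction hx with
    | refl => exact Or.inl rfl
    | @tail c y _ h' ih =>
      rcases ih with ih | ih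
      · exact Or.inr (ih ▸ h'.1)
      · by_cases hy : y = a
        · exact Or.inl hy
        · have hbc : b ≠ c := fun e => hF.1.notri i a c ha ih (e ▸ hb)
          have := graph_five i c e a y b h'.2.1.symm (ne1 ha) (ne ha) (ne1 h'.1) (ne ih).symm
            (ne2 ha).symm h'.2.2 (ne h'.1).symm (ne2 h'.1) hy (ne hb).symm hbc (ne2 hb)
            (Ne.symm hab)
          exact absurd ⟨i, a, c, b, h'.2.1.symm, hab, ha, ih, this ▸ h'.1, hF.1.symm _ _ hb⟩ hF.2
  rcases key b h with h1 | h1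
  · exact hab h1.symm
  · exact hF.1.notri i a b ha h1 hb

theorem graph_walk {p : Fin 5 → ℝ} (hc : Conn Γ p) {j k : Fin 5} (hj : 0 < p j) (hk : 0 < p k) :
    Relation.ReflTransGen Γ j k := graph_mono (hc j k hj hk) fun _ _ h => h.1

theorem graph_mm_nonneg {p : Fin 5 → ℝ} (hp : Simp p) (i j : Fin 5) : 0 ≤ mm Γ p i j :=
  Finset.sum_nonneg fun k _ => by
    split_ifs
    exacts [hp.1 k, le_rfl]

/-- a vertex separating `j` from `k` is not separated from `k` by `j` -/
theorem graph_sep {i j k : Fin 5} (hij : i ≠ j) (hki : k ≠ i) (hkj : k ≠ j)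
    (h : Relation.ReflTransGen Γ k i) (hn : ¬ GraphR Γ i k j) : GraphR Γ j k i := by
  have key : ∀ x, Relation.ReflTransGen Γ k x →
      (GraphR Γ i k x ∧ GraphR Γ j k x) ∨ GraphR Γ j k i := by
    intro x hx
    induction hx with
    | refl => exact Or.inl ⟨.refl, .refl⟩
    | @tail x y _ h ih =>
      rcases ih with ⟨h1, h2⟩ | ih
      · by_cases hy : y = i
        · exact Or.inr (h2.tail ⟨hy ▸ h, h2.ne hkj, hij⟩)
        · have h3 : GraphR Γ i k y := h1.tail ⟨h, h1.ne hki, hy⟩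
          exact Or.inl ⟨h3, h2.tail ⟨h, h2.ne hkj, fun e => hn (e ▸ h3)⟩⟩
      · exact Or.inr ih
  exact (key i h).resolve_left fun h1 => h1.1.ne hki rfl

theorem graph_two {p : Fin 5 → ℝ} (hp : Simp p) (hc : Conn Γ p) {i j k : Fin 5} (hji : j ≠ i)
    (hjk : j ≠ k) (hj : 0 < p j) (h1 : GraphR Γ i j k) (h2 : GraphR Γ k j i) :
    1 < mm Γ p i j + mm Γ p k j := by
  have key : ∀ x, Relation.ReflTransGen Γ j x → GraphR Γ i j x ∨ GraphR Γ k j x := by
    intro x hx
    induction hx with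
    | refl => exact Or.inl .refl
    | @tail x y _ h ih =>
      rcases ih with ih | ih
      · by_cases hy : y = i
        · exact Or.inr (hy ▸ h2)
        · exact Or.inl (ih.tail ⟨h, ih.ne hji, hy⟩)
      · by_cases hy : y = k
        · exact Or.inl (hy ▸ h1)
        · exact Or.inr (ih.tail ⟨h, ih.ne hjk, hy⟩)
  rw [← hp.2, mm, mm, ← Finset.sum_add_distrib]
  refine Finset.sum_lt_sum (fun x _ => ?_) ⟨j, Finset.mem_univ _, ?_⟩
  · have h0 := hp.1 x
    rcases h0.eq_or_lt with h3 | h3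
    · rw [← h3]
      simp
    · rcases key x (graph_walk hc hj h3) with h4 | h4 <;> rw [if_pos h4] <;> split_ifs <;> linarith
  · rw [if_pos .refl, if_pos .refl]
    linarith

end aux

theorem continuous_mm (Γ : Fin 5 → Fin 5 → Prop) (i j : Fin 5) : Continuous fun p => mm Γ p i j := by
  unfold mm
  refine continuous_finsetSum _ fun k _ => ?_
  split_ifs
  exacts [continuous_apply k, continuous_const]

theorem Conn.mono {Γ F : Fin 5 → Fin 5 → Prop} {p : Fin 5 → ℝ} (h : Conn Γ p) (hle : ∀ a b, Γ a b → F a b) :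
    Conn F p := by
  exact fun j k hj hk => graph_mono (h j k hj hk) fun a b hab => ⟨hle a b hab.1, hab.2⟩

theorem Conn.del {Γ : Fin 5 → Fin 5 → Prop} {p : Fin 5 → ℝ} (h : Conn Γ p) {l : Fin 5} (hl : p l = 0) :
    Conn (del Γ l) p := by
  refine fun j k hj hk => graph_mono (h j k hj hk) fun a b hab => ⟨⟨hab.1, ?_, ?_⟩, hab.2⟩
  · rintro rfl
    exact hab.2.1.ne' hl
  · rintro rfl
    exact hab.2.2.ne' hl

/-- normal form of a triangle-free graph with an isolated vertex that contains a 4-cycle: it is the 4-cycle -/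
theorem Tf.cyc_perm {Γ : Fin 5 → Fin 5 → Prop} (h : Tf Γ) (hc : Cyc Γ) : ∃ σ : Equiv.Perm (Fin 5),
    Γ (σ 0) (σ 1) ∧ Γ (σ 1) (σ 2) ∧ Γ (σ 2) (σ 3) ∧ Γ (σ 3) (σ 0) ∧ ¬ Γ (σ 0) (σ 2) ∧ ¬ Γ (σ 1) (σ 3) ∧
      ∀ j, ¬ Γ (σ 4) j := by
  obtain ⟨a, b, c, d, hac, hbd, hab, hbc, hcd, hda⟩ := hc
  obtain ⟨e, he⟩ := h.iso
  have ne : ∀ {x y}, Γ x y → x ≠ y := fun {x y} h' e => h.irrefl x (e ▸ h')
  have ne1 : ∀ {x y}, Γ x y → x ≠ e := fun {x y} h' e => he y (e ▸ h')
  have n1 := ne hab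
  have n2 := ne hbc
  have n3 := ne hcd
  have n4 := ne hda
  have n5 := ne1 hab
  have n6 := ne1 hbc
  have n7 := ne1 hcd
  have n8 := ne1 hda
  have hinj : Function.Injective ![a, b, c, d, e] := by
    intro x y
    fin_cases x <;> fin_cases y <;> simp <;> omega
  exact ⟨Equiv.ofBijective _ hinj.bijective_of_finite, hab, hbc, hcd, hda,
    h.notri a b c hab hbc, h.notri b c d hbc hcd, he⟩

theorem Tf.cyc_four {Γ : Fin 5 → Fin 5 → Prop} (h : Tf Γ) (hc : Cyc Γ) :
    ∃ e, ∀ l, l ≠ e → ∃ j, Γ l j := by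
  obtain ⟨σ, h1, h2, h3, h4, -⟩ := h.cyc_perm hc
  refine ⟨σ 4, fun l hl => ?_⟩
  obtain ⟨m, rfl⟩ := σ.surjective l
  fin_cases m
  exacts [⟨_, h1⟩, ⟨_, h2⟩, ⟨_, h3⟩, ⟨_, h4⟩, absurd rfl hl]

theorem Tf.cyc_max {Γ F : Fin 5 → Fin 5 → Prop} (hΓ : Tf Γ) (hF : Tf F) (hc : Cyc Γ)
    (hle : ∀ a b, Γ a b → F a b) : F = Γ := by
  obtain ⟨σ, h1, h2, h3, h4, -⟩ := hΓ.cyc_perm hc
  have he : ∀ j, ¬ F (σ 4) j := by
    obtain ⟨e, he⟩ := hF.iso
    obtain ⟨m, rfl⟩ := σ.surjective e
    fin_cases m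
    exacts [absurd (hle _ _ h1) (he _), absurd (hle _ _ h2) (he _), absurd (hle _ _ h3) (he _),
      absurd (hle _ _ h4) (he _), he]
  have he' : ∀ j, ¬ F j (σ 4) := fun j h => he j (hF.symm _ _ h)
  have n1 := hF.notri _ _ _ (hle _ _ h1) (hle _ _ h2)
  have n2 := hF.notri _ _ _ (hle _ _ h2) (hle _ _ h3)
  have n3 := hF.notri _ _ _ (hle _ _ h3) (hle _ _ h4)
  have n4 := hF.notri _ _ _ (hle _ _ h4) (hle _ _ h1)
  have s1 := hΓ.symm _ _ h1
  have s2 := hΓ.symm _ _ h2
  have s3 := hΓ.symm _ _ h3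
  have s4 := hΓ.symm _ _ h4
  have ir := hF.irrefl
  funext a b
  refine propext ⟨fun h => ?_, hle a b⟩
  obtain ⟨x, rfl⟩ := σ.surjective a
  obtain ⟨y, rfl⟩ := σ.surjective b
  fin_cases x <;> fin_cases y <;> first
    | assumption
    | exact absurd h (ir _)
    | exact absurd h (he _)
    | exact absurd h (he' _)
    | exact absurd h n1
    | exact absurd h n2
    | exact absurd h n3
    | exact absurd h n4

theorem Tf.forest_del {Γ : Fin 5 → Fin 5 → Prop} (h : Tf Γ) (hc : Cyc Γ) {l : Fin 5} (hl : ∃ j, Γ l j) :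
    Forest (del Γ l) := by
  obtain ⟨e, he⟩ := h.iso
  have ht : Tf (del Γ l) :=
    ⟨fun a b hab => ⟨h.symm _ _ hab.1, hab.2.2, hab.2.1⟩, fun a hab => h.irrefl a hab.1,
      fun a b c h1 h2 h3 => h.notri a b c h1.1 h2.1 h3.1, e, fun j hj => he j hj.1⟩
  refine ⟨ht, fun hc' => ?_⟩
  obtain ⟨e', he'⟩ := ht.cyc_four hc'
  by_cases h1 : l = e'
  · obtain ⟨j, hj⟩ := hl
    obtain ⟨j', hj'⟩ := he' e fun h2 => he j (h2.trans h1.symm ▸ hj)
    exact he j' hj'.1
  · obtain ⟨j, hj⟩ := he' l h1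
    exact hj.2.1 rfl

/-- The combinatorial facts below concern at most `2^10` graphs; one way is to pass to a `Bool`-valued symmetric adjacency matrix, replace `ReflTransGen` by reachability in at most 4 steps (computable), prove the purely combinatorial cores by `decide` (`+kernel`), and finish with `linarith`.
Another way: a forest here is, up to a permutation, a subgraph of a path on four vertices or of the star `K_{1,3}`.
Centroid: take `i` minimising `max_j mm`, or walk towards the heavy component. -/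
theorem Forest.centroid {F : Fin 5 → Fin 5 → Prop} (hF : Forest F) {p : Fin 5 → ℝ} (hp : Simp p) :
    ∃ i, ∀ j, j ≠ i → mm F p i j ≤ 1 / 2 := by
  classical
  by_contra hn
  push Not at hn
  obtain ⟨q, hq, hmin⟩ := Finset.exists_min_image
    (Finset.univ.filter fun q : Fin 5 × Fin 5 => q.2 ≠ q.1 ∧ 1 / 2 < mm F p q.1 q.2)
    (fun q => (Finset.univ.filter (GraphR F q.1 q.2)).card) (by
      obtain ⟨j, hj⟩ := hn 0
      exact ⟨(0, j), Finset.mem_filter.2 ⟨Finset.mem_univ _, hj⟩⟩)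
  obtain ⟨i, j⟩ := q
  obtain ⟨hji, hm⟩ := (Finset.mem_filter.1 hq).2
  dsimp only at hji hm hmin
  obtain ⟨a, ha, ha'⟩ : ∃ a, GraphR F i j a ∧ ∀ x, GraphR F i j x → F x i → x = a := by
    by_cases h : ∃ a, GraphR F i j a ∧ F a i
    · obtain ⟨a, h1, h2⟩ := h
      exact ⟨a, h1, fun x h3 h4 => graph_acyc hF (hF.1.symm _ _ h4) (hF.1.symm _ _ h2)
        ((h3.symm hF.1.symm).trans h1)⟩
    · exact ⟨j, .refl, fun x h3 h4 => absurd ⟨x, h3, h4⟩ h⟩
  obtain ⟨j', hj', hm'⟩ := hn a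
  obtain ⟨k, hk, hk'⟩ : ∃ k, GraphR F i j k ∧ GraphR F a j' k := by
    by_contra h
    have : mm F p i j + mm F p a j' ≤ 1 := by
      rw [← hp.2, mm, mm, ← Finset.sum_add_distrib]
      refine Finset.sum_le_sum fun x _ => ?_
      have h0 := hp.1 x
      split_ifs with h1 h2
      · exact absurd ⟨x, h1, h2⟩ h
      all_goals linarith
    linarith
  have key : ∀ x, GraphR F a k x → GraphR F i j x := by
    intro x hx
    induction hx with
    | refl => exact hk
    | @tail x y _ h ih =>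
      exact ih.tail ⟨h.1, ih.ne hji, fun e => h.2.1 (ha' x ih (e ▸ h.1))⟩
  refine absurd (hmin (a, j') (Finset.mem_filter.2 ⟨Finset.mem_univ _, hj', hm'⟩))
    (not_le.2 (Finset.card_lt_card ⟨fun x hx => ?_, fun h => ?_⟩))
  · exact Finset.mem_filter.2 ⟨Finset.mem_univ _,
      key x ((hk'.symm hF.1.symm).trans (Finset.mem_filter.1 hx).2)⟩
  · exact GraphR.ne (Finset.mem_filter.1 (h (Finset.mem_filter.2 ⟨Finset.mem_univ a, ha⟩))).2
      hj' rfl

/-- support vertices joined in `F' - i` are joined in `Γ - i` inside the support (simple paths in a forest are unique), hence in `F - i` -/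
theorem mm_indep {Γ F F' : Fin 5 → Fin 5 → Prop} (hF' : Forest F') (h : ∀ a b, Γ a b → F a b)
    (h' : ∀ a b, Γ a b → F' a b) {p : Fin 5 → ℝ} (hp : Simp p) (hc : Conn Γ p) {i : Fin 5} {β : ℝ}
    (hβ : ∀ j, j ≠ i → mm F p i j ≤ β) : ∀ j, j ≠ i → mm F' p i j ≤ β := by
  intro j hj
  by_cases hex : ∃ j0, GraphR F' i j j0 ∧ 0 < p j0
  · obtain ⟨j0, h1, h2⟩ := hex
    refine le_trans (Finset.sum_le_sum fun k _ => ?_) (hβ j0 (h1.ne hj))
    have h0 := hp.1 k
    rcases h0.eq_or_lt with h3 | h3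
    · rw [← h3]
      simp
    by_cases h4 : GraphR F' i j k
    · have hw := graph_walk hc h2 h3
      have h5 : GraphR Γ i j0 k := by
        rcases graph_first hw (h1.ne hj) with h5 | ⟨a, ha, ha'⟩
        · exact h5
        rcases graph_last hw (h4.ne hj) with h5 | ⟨b, hb, hb'⟩
        · exact h5
        have hs := hF'.1.symm
        have : a = b := graph_acyc hF' (hs _ _ (h' _ _ ha')) (h' _ _ hb)
          (((((ha.mono h').symm hs).trans (h1.symm hs)).trans h4).trans ((hb'.mono h').symm hs))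
        exact ha.trans (this ▸ hb')
      rw [if_pos h4, if_pos (h5.mono h)]
    · rw [if_neg h4]
      split_ifs
      exacts [h0, le_rfl]
  · refine le_trans (Finset.sum_nonpos fun k _ => ?_) ((graph_mm_nonneg hp i j).trans (hβ j hj))
    split_ifs with h1
    · exact not_lt.1 fun h2 => hex ⟨k, h1, h2⟩
    · exact le_rfl

theorem pos_of_mm {F : Fin 5 → Fin 5 → Prop} {p : Fin 5 → ℝ} (hp : Simp p) (hc : Conn F p) {i : Fin 5}
    (h : ∀ j, j ≠ i → mm F p i j < 1) : 0 < p i := by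
  by_contra hi
  obtain ⟨j, -, hj⟩ : ∃ j ∈ Finset.univ, (0 : ℝ) < p j := by
    refine Finset.exists_lt_of_sum_lt ?_
    rw [hp.2]
    simp
  refine absurd (h j fun e => hi (e ▸ hj)) (not_lt.2 ?_)
  rw [← hp.2]
  refine Finset.sum_le_sum fun k _ => ?_
  rcases (hp.1 k).eq_or_lt with h3 | h3
  · rw [← h3]
    simp
  · rw [if_pos (graph_mono (hc j k hj h3) fun a b hab =>
      ⟨hab.1, fun e => hi (e ▸ hab.2.1), fun e => hi (e ▸ hab.2.2)⟩)]

/-- all three have positive mass (`pos_of_mm`); two of them, say `i, k`, do not separate the other two; the complements of the components of `F - i`, `F - k` containing the others are disjoint, miss `j`, and have mass `≥ 1/2` each -/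
theorem Forest.mult {F : Fin 5 → Fin 5 → Prop} (hF : Forest F) {p : Fin 5 → ℝ} (hp : Simp p)
    (hc : Conn F p) {i j k : Fin 5} (hij : i ≠ j) (hik : i ≠ k) (hjk : j ≠ k)
    (hi : ∀ l, l ≠ i → mm F p i l ≤ 1 / 2) (hj : ∀ l, l ≠ j → mm F p j l ≤ 1 / 2)
    (hk : ∀ l, l ≠ k → mm F p k l ≤ 1 / 2) : False := by
  have hs := hF.1.symm
  have pi := pos_of_mm hp hc fun l hl => (hi l hl).trans_lt (by norm_num)
  have pj := pos_of_mm hp hc fun l hl => (hj l hl).trans_lt (by norm_num)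
  have pk := pos_of_mm hp hc fun l hl => (hk l hl).trans_lt (by norm_num)
  by_cases h1 : GraphR F i j k
  · by_cases h2 : GraphR F j i k
    · have := graph_two hp hc hik.symm hjk.symm pk (h1.symm hs) (h2.symm hs)
      linarith [hi k hik.symm, hj k hjk.symm]
    · have h3 := graph_sep hjk hij hik (graph_walk hc pi pj) h2
      have := graph_two hp hc hij.symm hjk pj h1 (h3.symm hs)
      linarith [hi j hij.symm, hk j hjk]
  · have h2 := graph_sep hik hij.symm hjk (graph_walk hc pj pi) h1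
    have h3 := graph_sep hij hik.symm hjk.symm (graph_walk hc pk pi) fun h => h1 (h.symm hs)
    have := graph_two hp hc hij hik pi (h3.symm hs) (h2.symm hs)
    linarith [hj i hij, hk i hik]

end Crest.Agent.R040

end
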