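import Crest.Agent.R040.KerApi

/-! # Row 40, Step 2: rays and cones at infinity -/

set_option autoImplicit false

open MeasureTheory Filter Topology Set Metric
open scoped Real

noncomputable section

namespace Crest.Agent.R040

theorem Ray_dens {U : Set ℝ} {φ : ℝ} (hφ : Dens U φ) {ε : ℝ} (hε : 0 < ε) :
    ∃ s₀ > (0 : ℝ), s₀ ≤ 1 ∧ ∀ s : ℝ, 0 < s → s ≤ s₀ →
      2 * s * (1 - ε) ≤ volume.real (U ∩ Ioo (φ - s) (φ + s)) := by
  have h := (tendsto_order.1 hφ).1 (1 - ε) (by linarith)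
  obtain ⟨u, hu, hu'⟩ := mem_nhdsGT_iff_exists_Ioc_subset.1 h
  refine ⟨min u 1, lt_min hu one_pos, min_le_right _ _, fun s hs hs' => ?_⟩
  have h1 : 1 - ε < _ := hu' ⟨hs, hs'.trans (min_le_left _ _)⟩
  rw [lt_div_iff₀ (by positivity)] at h1
  linarith

theorem Ray_polar {u : ℂ} {R t : ℝ} (hR : 0 < R) (ht : t ≤ 1 / 2) (h : ‖u - R‖ < t * R) :
    ∃ α ρ : ℝ, |α| < 2 * t ∧ R * (1 - t) < ρ ∧ ρ < R * (1 + t) ∧ u = ρ * cis α := by
  have hR' : (R : ℂ) ≠ 0 := by exact_mod_cast hR.ne'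
  have h1 : ‖(u - R) / R‖ < t := by
    rw [norm_div, Complex.norm_real, Real.norm_of_nonneg hR.le, div_lt_iff₀ hR]
    exact h
  have h2 := Complex.norm_log_one_add_half_le_self (h1.le.trans ht)
  have h3 : 1 + (u - R) / R = ((R⁻¹ : ℝ) : ℂ) * u := by
    push_cast
    field_simp
    ring
  have h4 := (Complex.abs_im_le_norm _).trans h2
  rw [Complex.log_im, h3, Complex.arg_real_mul _ (inv_pos.2 hR)] at h4
  have h5 := abs_norm_sub_norm_le u R
  rw [Complex.norm_real, Real.norm_of_nonneg hR.le, abs_le] at h5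
  have h6 := norm_nonneg ((u - R) / R)
  exact ⟨u.arg, ‖u‖, by linarith, by linarith [h5.1], by linarith [h5.2],
    (Complex.norm_mul_exp_arg_mul_I u).symm⟩

theorem Ray_norm {σ : ℝ} (hσ : σ = 1 ∨ σ = -1) (φ : ℝ) : ‖(σ : ℂ) * Complex.I * cis φ‖ = 1 := by
  rcases hσ with rfl | rfl <;> simp [norm_cis]

/-- `z₀` with `f z₀ ≠ 0` from `Ker.ae_cone`.  For `R ≥ ‖z₀‖/η` the disc lies in the sector at `z₀` with radii in `(R(1 - 2η), R(1 + 2η))` and angles in `(φ ± 4η)`; `g` vanishes a.e. on the part with angle in `U`; `vol_sector` for `V = (φ ± 4η) \ U`, `av_le_pr`. -/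
theorem ray {f g : ℂ → ℝ} (hg : Fr g) {U : Set ℝ} (hU : MeasurableSet U) (hk : Ker f g U)
    (hf : ¬ ∀ᵐ z : ℂ, f z = 0) {φ : ℝ} (hφ : Dens U φ) (σ : ℝ) (hσ : σ = 1 ∨ σ = -1) {ε : ℝ} (hε : 0 < ε) :
    ∃ η₀ > (0 : ℝ), ∀ η : ℝ, 0 < η → η ≤ η₀ → ∃ R₀ > (0 : ℝ), ∀ R : ℝ, R₀ ≤ R →
      av g ((σ * R : ℝ) * Complex.I * cis φ) (η * R) ≤ ε := by
  obtain ⟨z₀, hz₀, hz⟩ : ∃ z₀, f z₀ ≠ 0 ∧ ∀ᵐ w : ℂ, w - z₀ ∈ cone U → g w = 0 := by
    by_contra hc
    refine hf ?_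
    filter_upwards [hk.ae_cone] with z hz
    by_contra h0
    exact hc ⟨z, h0, hz h0⟩
  obtain ⟨s₀, hs₀, hs1, hs⟩ := Ray_dens hφ (ε := ε / 16) (by positivity)
  refine ⟨s₀ / 4, by positivity, fun η hη hη' => ⟨‖z₀‖ / η + 1, by positivity, fun R hR => ?_⟩⟩
  have hR0 : 0 < R := lt_of_lt_of_le (by positivity) hR
  have hzR : ‖z₀‖ ≤ η * R := by
    rw [← div_le_iff₀' hη]
    linarith
  have hπ := Real.pi_gt_three
  set V := Ioo (φ - 4 * η) (φ + 4 * η) \ U with hV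
  have hVm : MeasurableSet V := measurableSet_Ioo.diff hU
  have hVs : V ⊆ Ioo (φ - π) (φ + π) := fun θ hθ => ⟨by linarith [hθ.1.1], by linarith [hθ.1.2]⟩
  have ha : 0 ≤ R * (1 - 2 * η) := mul_nonneg hR0.le (by linarith)
  have hvol := vol_sector hVm φ hVs ha (b := R * (1 + 2 * η)) (by nlinarith) z₀ σ hσ
  set S := (fun p : ℝ × ℝ => z₀ + (σ * p.2 : ℝ) * Complex.I * cis p.1) ''
    (V ×ˢ Ioo (R * (1 - 2 * η)) (R * (1 + 2 * η))) with hS
  have hVv : volume.real V ≤ η * ε / 2 := by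
    have h1 := measureReal_inter_add_sdiff (μ := volume) (s := Ioo (φ - 4 * η) (φ + 4 * η)) hU
      (by simp)
    have h2 := hs (4 * η) (by positivity) (by linarith)
    rw [Real.volume_real_Ioo_of_le (by linarith), inter_comm] at h1
    linarith
  have hSb : S ⊆ ball z₀ (R * (1 + 2 * η)) := by
    rintro _ ⟨⟨θ, ρ⟩, ⟨-, h1, h2⟩, rfl⟩
    have e : ((σ * ρ : ℝ) : ℂ) * Complex.I * cis θ = ρ * (σ * Complex.I * cis θ) := by
      push_cast
      ring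
    rw [mem_ball_iff_norm, add_sub_cancel_left, e, norm_mul, Ray_norm hσ, mul_one,
      Complex.norm_real, Real.norm_of_nonneg (ha.trans h1.le)]
    exact h2
  refine (av_le_pr hg (S := S) _ _ ?_).trans ?_
  · filter_upwards [hz] with w hw hb hS'
    refine hw ?_
    have hn := Ray_norm hσ φ
    have hn0 : (σ : ℂ) * Complex.I * cis φ ≠ 0 := by
      rw [← norm_ne_zero_iff, hn]
      exact one_ne_zero
    obtain ⟨α, ρ, h1, h2, h3, h4⟩ := Ray_polar (u := (w - z₀) / (σ * Complex.I * cis φ))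
      (t := 2 * η) hR0 (by linarith) (by
        have e : (w - z₀) / (σ * Complex.I * cis φ) - R =
            (w - (σ * R : ℝ) * Complex.I * cis φ - z₀) / (σ * Complex.I * cis φ) := by
          rw [eq_div_iff hn0, sub_mul, div_mul_cancel₀ _ hn0]
          push_cast
          ring
        rw [e, norm_div, hn, div_one]
        have := norm_sub_le (w - (σ * R : ℝ) * Complex.I * cis φ) z₀
        rw [mem_ball_iff_norm] at hb
        linarith)
    have h5 : w - z₀ = (σ * ρ : ℝ) * Complex.I * cis (φ + α) := by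
      rw [div_eq_iff hn0] at h4
      rw [h4, cis_add]
      push_cast
      ring
    refine ⟨φ + α, ?_, σ * ρ, h5⟩
    by_contra hc
    rw [abs_lt] at h1
    exact hS' ⟨(φ + α, ρ), ⟨⟨⟨by linarith [h1.1], by linarith [h1.2]⟩, hc⟩, h2, h3⟩,
      (sub_eq_iff_eq_add'.1 h5).symm⟩
  · rw [pr, div_le_iff₀ (by positivity)]
    refine (measureReal_mono inter_subset_left
      ((measure_mono hSb).trans_lt measure_ball_lt_top).ne).trans ?_
    rw [hvol]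
    have e : ((R * (1 + 2 * η)) ^ 2 - (R * (1 - 2 * η)) ^ 2) / 2 = 4 * η * R ^ 2 := by ring
    rw [e]
    calc volume.real V * (4 * η * R ^ 2) ≤ η * ε / 2 * (4 * η * R ^ 2) := by gcongr
      _ = ε * (2 * (η * R) ^ 2) := by ring
      _ ≤ ε * (π * (η * R) ^ 2) := by gcongr; linarith

/-- `ϑ₀ ≤ 1` with `|U ∩ (φ ± ϑ)| ≥ ϑ` for `ϑ ≤ ϑ₀`.  Let `g z ≠ 0` (`Ker.ae_cone`), `a = ηR`, `ℓ = |ρ|`, `σ = sign ρ`.  If `ℓ ≤ a/2` take the sector at `z` with radii `(a/4, a/2)`, angles `U ∩ (φ ± ϑ₀)`; otherwise radii `(ℓ - a/4, ℓ + a/4)` and angles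
`U ∩ (φ ± ϑ)`, `ϑ = min ϑ₀ (a/(4ℓ))`.  It lies in `ball (R e) a`, has area `≥ (3/32) ϑ₀ a²` (`vol_sector`), and `f` vanishes a.e. on it. -/
theorem cone_lemma {f g : ℂ → ℝ} (hf : Fr f) {U : Set ℝ} (hU : MeasurableSet U) (hk : Ker g f U) {φ : ℝ}
    (hφ : Dens U φ) : ∃ ξ > (0 : ℝ), ∀ (e : ℂ) (η R₀ : ℝ), 0 < η → 0 < R₀ →
      (∀ R : ℝ, R₀ ≤ R → 1 - ξ < av f (R * e) (η * R)) →
      ∀ᵐ z : ℂ, (∃ R : ℝ, R₀ ≤ R ∧ ∃ ρ : ℝ, R * e = z + ρ * Complex.I * cis φ) → g z = 0 := by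
  obtain ⟨s₀, hs₀, hs1, hs⟩ := Ray_dens hφ (ε := 1 / 2) (by positivity)
  have hπ := Real.pi_gt_three
  refine ⟨s₀ / (8 * π), by positivity, fun e η R₀ hη hR₀ h => ?_⟩
  filter_upwards [hk.ae_cone] with z hz
  rintro ⟨R, hR, ρ, hρ⟩
  by_contra h0
  have hz' := hz h0
  have ha : 0 < η * R := mul_pos hη (hR₀.trans_le hR)
  have h1 := h R hR
  generalize η * R = a at ha h1
  obtain ⟨σ, hσ, hσρ⟩ : ∃ σ : ℝ, (σ = 1 ∨ σ = -1) ∧ ρ = σ * |ρ| := by
    rcases le_total 0 ρ with h | h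
    · exact ⟨1, Or.inl rfl, by rw [abs_of_nonneg h, one_mul]⟩
    · exact ⟨-1, Or.inr rfl, by rw [abs_of_nonpos h]; ring⟩
  have hl0 := abs_nonneg ρ
  generalize |ρ| = l at hσρ hl0
  obtain ⟨m, hm1, hm2, hm3⟩ : ∃ m : ℝ, a / 2 ≤ m ∧ l ≤ m ∧ m ≤ l + a / 2 :=
    ⟨max l (a / 2), le_max_right _ _, le_max_left _ _, max_le (by linarith) (by linarith)⟩
  have hm0 : 0 < m := by linarith
  set ϑ := min s₀ (a / (4 * m)) with hϑ
  have hϑ0 : 0 < ϑ := lt_min hs₀ (by positivity)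
  have hϑ1 : ϑ ≤ s₀ := min_le_left _ _
  have hϑ2 : m * ϑ ≤ a / 4 := by
    have : ϑ ≤ a / (4 * m) := min_le_right _ _
    rw [le_div_iff₀ (by positivity)] at this
    linarith
  have hϑ3 : s₀ * a / 4 ≤ m * ϑ := by
    rcases min_choice s₀ (a / (4 * m)) with h | h <;> rw [hϑ, h]
    · nlinarith
    · have : m * (a / (4 * m)) = a / 4 := by field_simp
      rw [this]
      nlinarith
  set V := U ∩ Ioo (φ - ϑ) (φ + ϑ) with hV
  have hVm : MeasurableSet V := hU.inter measurableSet_Ioo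
  have hVs : V ⊆ Ioo (φ - π) (φ + π) := fun θ hθ => ⟨by linarith [hθ.2.1], by linarith [hθ.2.2]⟩
  have hvol := vol_sector hVm φ hVs (a := m - a / 4) (b := m + a / 4) (by linarith) (by linarith)
    z σ hσ
  have hT : MeasurableSet {w : ℂ | w - z ∈ cone U} :=
    (measurable_id.sub_const z) (measurableSet_cone hU)
  have h2 : av f (R * e) a ≤ pr {w : ℂ | w - z ∈ cone U}ᶜ (R * e) a := by
    refine av_le_pr hf _ _ ?_
    filter_upwards [hz'] with w hw _ hw'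
    exact hw (not_not.1 hw')
  rw [pr_compl hT _ ha] at h2
  have h3 : (fun p : ℝ × ℝ => z + (σ * p.2 : ℝ) * Complex.I * cis p.1) ''
      (V ×ˢ Ioo (m - a / 4) (m + a / 4)) ⊆ {w : ℂ | w - z ∈ cone U} ∩ ball (R * e) a := by
    rintro _ ⟨⟨θ, r⟩, ⟨⟨hθ, hθ1, hθ2⟩, hr1, hr2⟩, rfl⟩
    refine ⟨⟨θ, hθ, σ * r, by rw [add_sub_cancel_left]⟩, ?_⟩
    have e1 : z + ((σ * r : ℝ) : ℂ) * Complex.I * cis θ - R * e =
        ((r - l : ℝ) : ℂ) * (σ * Complex.I * cis θ) +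
          (l : ℂ) * (σ * Complex.I * cis 0) * (cis θ - cis φ) := by
      have : cis 0 = 1 := by simp [cis]
      rw [hρ, hσρ, this]
      push_cast
      ring
    rw [mem_ball_iff_norm, e1]
    refine (norm_add_le _ _).trans_lt ?_
    rw [norm_mul, norm_mul _ (cis θ - cis φ), norm_mul (l : ℂ), Ray_norm hσ, Ray_norm hσ,
      Complex.norm_real, Complex.norm_real, Real.norm_of_nonneg hl0, Real.norm_eq_abs, mul_one,
      mul_one]
    have h4 : ‖cis θ - cis φ‖ ≤ ϑ :=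
      (norm_cis_sub θ φ).trans (abs_le.2 ⟨by linarith, by linarith⟩)
    have h5 : l * ‖cis θ - cis φ‖ ≤ m * ϑ := by gcongr
    have h6 : |r - l| < 3 * a / 4 := abs_lt.2 ⟨by linarith, by linarith⟩
    linarith
  have h4 := measureReal_mono (μ := volume) h3
    ((measure_mono inter_subset_right).trans_lt measure_ball_lt_top).ne
  have h5 := hs ϑ hϑ0 hϑ1
  have h6 : s₀ / (8 * π) ≤ pr {w : ℂ | w - z ∈ cone U} (R * e) a := by
    rw [pr, le_div_iff₀ (by positivity)]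
    refine le_trans ?_ h4
    rw [hvol]
    calc s₀ / (8 * π) * (π * a ^ 2) = s₀ * a / 4 * (a / 2) := by field_simp; ring
      _ ≤ m * ϑ * (a / 2) := by gcongr
      _ = 2 * ϑ * (1 - 1 / 2) * (m * a / 2) := by ring
      _ ≤ volume.real V * (m * a / 2) := by gcongr
      _ = _ := by ring
  linarith

end Crest.Agent.R040

end
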