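import Crest.Agent.R040.BasM
import Crest.Agent.R040.Ray

/-! # Row 40, Step 2: types are not interlaced -/

set_option autoImplicit false

open MeasureTheory Filter Topology Set Metric
open scoped Real

noncomputable section

namespace Crest.Agent.R040

theorem nonint_ne {f : ℂ → ℝ} (h : Unb f) : ¬ ∀ᵐ z : ℂ, f z = 0 := fun h0 =>
  h 0 (h0.mono fun _ hz _ => hz)

theorem nonint_sum {c : MCol} {v : ℂ} {q : Fin 5 → ℝ} (h : c.Lim v q) (σ : Equiv.Perm (Fin 5))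
    (he : ¬ c.P v (σ 4)) : q (σ 0) + q (σ 1) + q (σ 2) + q (σ 3) = 1 := by
  have h1 := h.simp.2
  rw [← Equiv.sum_comp σ, Fin.sum_univ_five, h.eq_zero he, add_zero] at h1
  exact h1

/-- both colours of a pair are rare along a ray in a direction of density -/
theorem nonint_ray2 {c : MCol} {v : ℂ} {μ : Fin 5 → ℂ → ℝ} (hT : c.Tangent v μ) {j k : Fin 5}
    (hj : Unb (μ j)) (hk : Unb (μ k)) {φ : ℝ} (hφ : Dens (c.U v j k) φ) (s : ℝ)
    (hs : s = 1 ∨ s = -1) {ε : ℝ} (hε : 0 < ε) :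
    ∃ η₀ > (0 : ℝ), ∀ η : ℝ, 0 < η → η ≤ η₀ → ∃ R₀ > (0 : ℝ), ∀ R : ℝ, R₀ ≤ R →
      av (μ j) (R * (s * Complex.I * cis φ)) (η * R) ≤ ε ∧
      av (μ k) (R * (s * Complex.I * cis φ)) (η * R) ≤ ε := by
  obtain ⟨η₁, p1, h1⟩ := ray (hT.fr j) (c.measurableSet_U v j k) (hT.ker j k).symm (nonint_ne hk)
    hφ s hs hε
  obtain ⟨η₂, p2, h2⟩ := ray (hT.fr k) (c.measurableSet_U v j k) (hT.ker j k) (nonint_ne hj)
    hφ s hs hε
  refine ⟨min η₁ η₂, lt_min p1 p2, fun η h0 hη => ?_⟩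
  obtain ⟨R₁, q1, k1⟩ := h1 η h0 (hη.trans (min_le_left _ _))
  obtain ⟨R₂, q2, k2⟩ := h2 η h0 (hη.trans (min_le_right _ _))
  refine ⟨max R₁ R₂, lt_max_of_lt_left q1, fun R hR => ?_⟩
  have e : (R : ℂ) * (s * Complex.I * cis φ) = ((s * R : ℝ) : ℂ) * Complex.I * cis φ := by
    push_cast; ring
  rw [e]
  exact ⟨k1 R ((le_max_left _ _).trans hR), k2 R ((le_max_right _ _).trans hR)⟩

/-- `ray` four times with `ε = 1/5`; the averages sum to one and colour `σ 4` has average zero. -/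
theorem MCol.not_same_line {c : MCol} {v : ℂ} {μ : Fin 5 → ℂ → ℝ} (hT : c.Tangent v μ)
    (σ : Equiv.Perm (Fin 5)) (he : ¬ c.P v (σ 4)) (hu : ∀ i : Fin 5, i ≠ 4 → Unb (μ (σ i))) {φ₁ φ₂ : ℝ}
    (h₁ : Dens (c.U v (σ 1) (σ 3)) φ₁) (h₂ : Dens (c.U v (σ 0) (σ 2)) φ₂)
    (h : cis φ₂ = cis φ₁ ∨ cis φ₂ = -cis φ₁) : False := by
  obtain ⟨s, hs, hs'⟩ : ∃ s : ℝ, (s = 1 ∨ s = -1) ∧
      (s : ℂ) * Complex.I * cis φ₂ = ((1 : ℝ) : ℂ) * Complex.I * cis φ₁ := by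
    rcases h with h | h
    · exact ⟨1, Or.inl rfl, by rw [h]⟩
    · exact ⟨-1, Or.inr rfl, by rw [h]; push_cast; ring⟩
  obtain ⟨η₁, p1, h1⟩ := nonint_ray2 hT (hu 1 (by decide)) (hu 3 (by decide)) h₁ 1 (Or.inl rfl)
    (show (0 : ℝ) < 1 / 5 by norm_num)
  obtain ⟨η₂, p2, h2⟩ := nonint_ray2 hT (hu 0 (by decide)) (hu 2 (by decide)) h₂ s hs
    (show (0 : ℝ) < 1 / 5 by norm_num)
  have hη : 0 < min η₁ η₂ := lt_min p1 p2
  obtain ⟨R₁, q1, k1⟩ := h1 _ hη (min_le_left _ _)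
  obtain ⟨R₂, q2, k2⟩ := h2 _ hη (min_le_right _ _)
  have a1 := k1 _ (le_max_left R₁ R₂)
  have a2 := k2 _ (le_max_right R₁ R₂)
  rw [hs'] at a2
  have a3 := nonint_sum (hT.lim (((max R₁ R₂ : ℝ) : ℂ) * (((1 : ℝ) : ℂ) * Complex.I * cis φ₁))
    (min η₁ η₂ * max R₁ R₂) (mul_pos hη (lt_max_of_lt_left q1))) σ he
  linarith [a1.1, a1.2, a2.1, a2.2]

/-- `f` is dominant along the ray `ℝ₊ e` -/
def NIRay (f : ℂ → ℝ) (ξ : ℝ) (e : ℂ) : Prop :=
  ∃ η > (0 : ℝ), ∃ R₀ > (0 : ℝ), ∀ R : ℝ, R₀ ≤ R → 1 - ξ < av f (R * e) (η * R)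

theorem NIRay.mono {f : ℂ → ℝ} {ξ ξ' : ℝ} {e : ℂ} (h : NIRay f ξ e) (hξ : ξ ≤ ξ') :
    NIRay f ξ' e := by
  obtain ⟨η, a, R₀, b, h⟩ := h
  exact ⟨η, a, R₀, b, fun R hR => lt_of_le_of_lt (by linarith) (h R hR)⟩

theorem nonint_sq (φ : ℝ) : (cis φ).re ^ 2 + (cis φ).im ^ 2 = 1 := by
  rw [cis_re, cis_im, Real.cos_sq_add_sin_sq]

theorem nonint_line {φ R : ℝ} {e z : ℂ}
    (h : cr (Complex.I * cis φ) z = R * cr (Complex.I * cis φ) e) :
    ∃ ρ : ℝ, R * e = z + ρ * Complex.I * cis φ := by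
  have h1 := nonint_sq φ
  refine ⟨-(cis φ).im * (R * e.re - z.re) + (cis φ).re * (R * e.im - z.im), ?_⟩
  simp only [cr, Complex.mul_re, Complex.mul_im, Complex.I_re, Complex.I_im] at h
  apply Complex.ext
  · simp only [Complex.add_re, Complex.mul_re, Complex.mul_im, Complex.I_re, Complex.I_im,
      Complex.ofReal_re, Complex.ofReal_im]
    linear_combination (-(R * e.re - z.re)) * h1 + (cis φ).re * h
  · simp only [Complex.add_im, Complex.mul_re, Complex.mul_im, Complex.I_re, Complex.I_im,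
      Complex.ofReal_re, Complex.ofReal_im]
    linear_combination (-(R * e.im - z.im)) * h1 + (cis φ).im * h

theorem nonint_strip {f g : ℂ → ℝ} (hf : Fr f) {U : Set ℝ} (hU : MeasurableSet U) (hk : Ker g f U)
    {φ : ℝ} (hφ : Dens U φ) : ∃ ξ > (0 : ℝ), ∀ e e' : ℂ,
      cr (Complex.I * cis φ) e * cr (Complex.I * cis φ) e' < 0 → NIRay f ξ e → NIRay f ξ e' →
      ∃ C : ℝ, ∀ᵐ z : ℂ, C ≤ |cr (Complex.I * cis φ) z| → g z = 0 := by
  obtain ⟨ξ, hξ, H⟩ := cone_lemma hf hU hk hφ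
  refine ⟨ξ, hξ, ?_⟩
  have main : ∀ e e' : ℂ, 0 < cr (Complex.I * cis φ) e → cr (Complex.I * cis φ) e' < 0 →
      NIRay f ξ e → NIRay f ξ e' →
      ∃ C : ℝ, ∀ᵐ z : ℂ, C ≤ |cr (Complex.I * cis φ) z| → g z = 0 := by
    rintro e e' p n ⟨η, a, R₀, b, h⟩ ⟨η', a', R₀', b', h'⟩
    refine ⟨max (R₀ * cr (Complex.I * cis φ) e) (R₀' * -cr (Complex.I * cis φ) e'), ?_⟩
    filter_upwards [H e η R₀ a b h, H e' η' R₀' a' b' h'] with z h1 h2 hz
    rcases abs_cases (cr (Complex.I * cis φ) z) with c | c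
    · refine h1 ⟨cr (Complex.I * cis φ) z / cr (Complex.I * cis φ) e, ?_,
        nonint_line (div_mul_cancel₀ _ p.ne').symm⟩
      rw [le_div_iff₀ p]
      exact ((le_max_left _ _).trans hz).trans c.1.le
    · refine h2 ⟨cr (Complex.I * cis φ) z / cr (Complex.I * cis φ) e', ?_,
        nonint_line (div_mul_cancel₀ _ n.ne).symm⟩
      rw [le_div_iff_of_neg n]
      have := ((le_max_right _ _).trans hz).trans c.1.le
      linarith
  intro e e' h r r'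
  rcases mul_neg_iff.1 h with h | h
  · exact main e e' h.1 h.2 r r'
  · exact main e' e h.2 h.1 r' r

theorem nonint_near {U : Set ℝ} (hU : MeasurableSet U) {φ : ℝ} (hφ : Dens U φ) {P : ℝ → Prop}
    (hP : ∀ᶠ t in 𝓝 φ, P t) : ∃ t, P t ∧ Dens U t ∧ Real.sin (t - φ) ≠ 0 := by
  obtain ⟨δ, hδ, hb⟩ := Metric.eventually_nhds_iff.1 hP
  have e1 : ∀ᶠ s in 𝓝[>] (0 : ℝ), 0 < volume.real (U ∩ Ioo (φ - s) (φ + s)) / (2 * s) :=
    hφ.eventually (lt_mem_nhds one_pos)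
  have e2 : ∀ᶠ s in 𝓝[>] (0 : ℝ), s < min δ 1 :=
    mem_nhdsWithin_of_mem_nhds (gt_mem_nhds (lt_min hδ one_pos))
  obtain ⟨s, h1, h2⟩ := (e1.and e2).exists
  have h3 : volume (U ∩ Ioo (φ - s) (φ + s)) ≠ 0 := by
    intro h0
    rw [Measure.real, h0] at h1
    simp at h1
  have h4 : ∀ᵐ t : ℝ, (t ∈ U → Dens U t) ∧ t ≠ φ :=
    (ae_dens hU).and (compl_mem_ae_iff.2 (measure_singleton φ))
  obtain ⟨t, ht, h5⟩ := Measure.exists_mem_of_measure_ne_zero_of_ae h3 (ae_restrict_of_ae h4)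
  have h6 : |t - φ| < min δ 1 := by
    rw [abs_lt]
    constructor <;> linarith [ht.2.1, ht.2.2]
  refine ⟨t, hb (by rw [Real.dist_eq]; exact h6.trans_le (min_le_left _ _)), h5.1 ht.1, ?_⟩
  have h7 := abs_lt.1 (h6.trans_le (min_le_right _ _))
  have := Real.pi_gt_three
  rw [Ne, Real.sin_eq_zero_iff_of_lt_of_lt (by linarith) (by linarith), sub_eq_zero]
  exact h5.2

theorem nonint_box {f g : ℂ → ℝ} (hf : Fr f) (hg : Unb g) {U : Set ℝ} (hU : MeasurableSet U)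
    (hk : Ker g f U) {φ : ℝ} (hφ : Dens U φ) {e e' : ℂ}
    (h : cr (Complex.I * cis φ) e * cr (Complex.I * cis φ) e' < 0) :
    ∃ ξ > (0 : ℝ), NIRay f ξ e → NIRay f ξ e' → False := by
  have hc : Continuous fun t : ℝ => cr (Complex.I * cis t) e * cr (Complex.I * cis t) e' := by
    have := continuous_cis
    unfold cr
    fun_prop
  obtain ⟨t, h', ht, hs⟩ := nonint_near hU hφ (hc.continuousAt.eventually (gt_mem_nhds h))
  obtain ⟨ξ, p, H⟩ := nonint_strip hf hU hk hφ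
  obtain ⟨ξ', p', H'⟩ := nonint_strip hf hU hk ht
  refine ⟨min ξ ξ', lt_min p p', fun r r' => ?_⟩
  obtain ⟨C, hC⟩ := H e e' h (r.mono (min_le_left _ _)) (r'.mono (min_le_left _ _))
  obtain ⟨C', hC'⟩ := H' e e' h' (r.mono (min_le_right _ _)) (r'.mono (min_le_right _ _))
  apply hg ((C + C') / |Real.sin (t - φ)|)
  filter_upwards [hC, hC'] with z h1 h2 hz
  by_contra hne
  have a1 : |cr (Complex.I * cis φ) z| < C := lt_of_not_ge fun a => hne (h1 a)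
  have a2 : |cr (Complex.I * cis t) z| < C' := lt_of_not_ge fun a => hne (h2 a)
  have hp : 0 < |Real.sin (t - φ)| := abs_pos.2 hs
  rw [div_lt_iff₀ hp] at hz
  have id : ((Real.sin (t - φ) : ℝ) : ℂ) * z =
      (cr (Complex.I * cis φ) z : ℝ) * (Complex.I * cis t) -
        (cr (Complex.I * cis t) z : ℝ) * (Complex.I * cis φ) := by
    rw [← cr_cis]
    apply Complex.ext
    · simp only [cr, Complex.sub_re, Complex.mul_re, Complex.mul_im, Complex.I_re, Complex.I_im,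
        Complex.ofReal_re, Complex.ofReal_im]
      ring
    · simp only [cr, Complex.sub_im, Complex.mul_re, Complex.mul_im, Complex.I_re, Complex.I_im,
        Complex.ofReal_re, Complex.ofReal_im]
      ring
  have a3 := norm_sub_le ((cr (Complex.I * cis φ) z : ℝ) * (Complex.I * cis t))
    ((cr (Complex.I * cis t) z : ℝ) * (Complex.I * cis φ))
  rw [← id] at a3
  simp only [norm_mul, Complex.norm_real, Real.norm_eq_abs, Complex.norm_I, norm_cis,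
    mul_one] at a3
  linarith

theorem nonint_dich {c : MCol} {v : ℂ} {μ : Fin 5 → ℂ → ℝ} (hT : c.Tangent v μ)
    (σ : Equiv.Perm (Fin 5)) (he : ¬ c.P v (σ 4)) (hag : ¬ c.Adj v (σ 0) (σ 2))
    (hu : ∀ i : Fin 5, i ≠ 4 → Unb (μ (σ i))) {φ : ℝ} (hφ : Dens (c.U v (σ 1) (σ 3)) φ) (s : ℝ)
    (hs : s = 1 ∨ s = -1) {ξ : ℝ} (hξ : 0 < ξ) (hξ1 : ξ ≤ 1) :
    NIRay (μ (σ 0)) ξ (s * Complex.I * cis φ) ∨ NIRay (μ (σ 2)) ξ (s * Complex.I * cis φ) := by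
  have hK : IsCompact ({q | c.Lim v q} ∩ {q : Fin 5 → ℝ | q (σ 0) ∈ Icc (ξ / 2) (1 - ξ / 2)}) :=
    (MCol.isCompact_lim v).inter_right (isClosed_Icc.preimage (continuous_apply (σ 0)))
  obtain ⟨c₁, hc₁, hc⟩ := hK.exists_forall_le' (f := fun q => q (σ 1) + q (σ 3)) (a := 0)
    (by fun_prop) (by
      rintro q ⟨hq, h1, h2⟩
      by_contra hn
      have a0 := nonint_sum hq σ he
      have a1 := (MCol.Lim.simp hq).1 (σ 1)
      have a3 := (MCol.Lim.simp hq).1 (σ 3)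
      exact hag ⟨fun h => absurd (σ.injective h) (by decide), q, hq, by linarith, by linarith,
        by linarith⟩)
  have hm : 0 < min c₁ (ξ / 2) := lt_min hc₁ (by linarith)
  have m1 := min_le_left c₁ (ξ / 2)
  have m2 := min_le_right c₁ (ξ / 2)
  obtain ⟨η, hη, h1⟩ := nonint_ray2 hT (hu 1 (by decide)) (hu 3 (by decide)) hφ s hs
    (show 0 < min c₁ (ξ / 2) / 4 by linarith)
  obtain ⟨R₀, hR₀, h2⟩ := h1 η hη le_rfl
  set e : ℂ := s * Complex.I * cis φ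
  set h : ℝ → ℝ := fun R => av (μ (σ 0)) (R * e) (η * R) with hh
  have hcont : ContinuousOn h (Ici R₀) := by
    refine (continuousOn_av (hT.fr (σ 0))).comp (f := fun R : ℝ => ((R : ℂ) * e, η * R))
      (by fun_prop) fun R hR => ?_
    exact mul_pos hη (hR₀.trans_le hR)
  have lim : ∀ R, R₀ ≤ R → c.Lim v fun i => av (μ i) (R * e) (η * R) := fun R hR =>
    hT.lim _ _ (mul_pos hη (hR₀.trans_le hR))
  have out : ∀ R, R₀ ≤ R → h R ∉ Icc (ξ / 2) (1 - ξ / 2) := by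
    intro R hR hin
    have a1 := hc _ ⟨lim R hR, hin⟩
    have a2 := h2 R hR
    linarith [a2.1, a2.2]
  by_cases H : ∀ R, R₀ ≤ R → 1 / 2 < h R
  · refine Or.inl ⟨η, hη, R₀, hR₀, fun R hR => ?_⟩
    have a1 := H R hR
    have a2 := out R hR
    by_contra hn
    exact a2 ⟨by linarith, by simp only [hh]; linarith⟩
  · push Not at H
    obtain ⟨R₁, hR₁, H⟩ := H
    refine Or.inr ⟨η, hη, R₀, hR₀, fun R hR => ?_⟩
    have a1 : h R ≤ 1 / 2 := by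
      by_contra hn
      obtain ⟨R', hR', e'⟩ := isPreconnected_Ici.intermediate_value (a := R₁) (b := R) hR₁ hR hcont
        (show (1 / 2 : ℝ) ∈ Icc (h R₁) (h R) from ⟨H, (not_le.1 hn).le⟩)
      exact out R' hR' ⟨by linarith, by linarith⟩
    have a2 : h R < ξ / 2 := by
      by_contra hn
      exact out R hR ⟨not_lt.1 hn, by linarith⟩
    have a3 := nonint_sum (lim R hR) σ he
    have a4 := h2 R hR
    simp only [hh] at a2
    linarith [a4.1, a4.2]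

/-- `a = σ 0`, `g = σ 2`.  Rays `e₁, -e₁, e₃` (`e = i cis φ`); each pair lies on opposite sides of the line `ℝ i cis φ₂` or `ℝ i cis φ₄`.  Choose density points `φ₂'`, `φ₄'` of `U v a g` close to but different (mod `π`) from `φ₂`, `φ₄` (`ae_dens`; signs of `cr` persist).  `ξ` = minimum of the
constants of `cone_lemma` (four directions, both orders).  By compactness (`isCompact_lim`, `¬ Adj`) limit vectors with `q a ∈ [ξ/2, 1 - ξ/2]` have `q (σ 1) + q (σ 3) ≥ c₁ > 0`; `ray` with small `ε` and continuity in `R` (`continuousOn_av`) make each ray an `a`-ray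
(`av > 1 - ξ` for all `R ≥ R₀`) or a `g`-ray.  Two rays have the same colour, say `a`; `cone_lemma` for both rays confines `μ g` to a strip `|cr (i cis φ) z| < C` for two independent directions, a bounded set, against `Unb`. -/
theorem MCol.non_interlace {c : MCol} {v : ℂ} {μ : Fin 5 → ℂ → ℝ} (hT : c.Tangent v μ)
    (σ : Equiv.Perm (Fin 5)) (he : ¬ c.P v (σ 4)) (hag : ¬ c.Adj v (σ 0) (σ 2))
    (hu : ∀ i : Fin 5, i ≠ 4 → Unb (μ (σ i))) {φ₁ φ₂ φ₃ φ₄ : ℝ}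
    (h₁ : Dens (c.U v (σ 1) (σ 3)) φ₁) (h₂ : Dens (c.U v (σ 0) (σ 2)) φ₂)
    (h₃ : Dens (c.U v (σ 1) (σ 3)) φ₃) (h₄ : Dens (c.U v (σ 0) (σ 2)) φ₄) :
    0 ≤ cr (cis φ₂) (cis φ₁) * cr (cis φ₂) (cis φ₃) * cr (cis φ₄) (cis φ₁) * cr (cis φ₄) (cis φ₃) := by
  by_contra hneg
  push Not at hneg
  have hU := c.measurableSet_U v (σ 0) (σ 2)
  have pair : ∀ e e' : ℂ, (cr (Complex.I * cis φ₂) e * cr (Complex.I * cis φ₂) e' < 0 ∨
      cr (Complex.I * cis φ₄) e * cr (Complex.I * cis φ₄) e' < 0) → ∃ ξ₀ > (0 : ℝ), ∀ ξ ≤ ξ₀,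
      (NIRay (μ (σ 0)) ξ e → NIRay (μ (σ 0)) ξ e' → False) ∧
      (NIRay (μ (σ 2)) ξ e → NIRay (μ (σ 2)) ξ e' → False) := by
    intro e e' h
    obtain ⟨φ, hφ, h⟩ : ∃ φ, Dens (c.U v (σ 0) (σ 2)) φ ∧
        cr (Complex.I * cis φ) e * cr (Complex.I * cis φ) e' < 0 := by
      rcases h with h | h
      exacts [⟨_, h₂, h⟩, ⟨_, h₄, h⟩]
    obtain ⟨ξ₁, p1, k1⟩ := nonint_box (hT.fr (σ 0)) (hu 2 (by decide)) hU (hT.ker _ _).symm hφ h
    obtain ⟨ξ₂, p2, k2⟩ := nonint_box (hT.fr (σ 2)) (hu 0 (by decide)) hU (hT.ker _ _) hφ h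
    refine ⟨min ξ₁ ξ₂, lt_min p1 p2, fun ξ hξ => ⟨fun r r' => ?_, fun r r' => ?_⟩⟩
    · exact k1 (r.mono (hξ.trans (min_le_left _ _))) (r'.mono (hξ.trans (min_le_left _ _)))
    · exact k2 (r.mono (hξ.trans (min_le_right _ _))) (r'.mono (hξ.trans (min_le_right _ _)))
  have ev : ∀ (s a b : ℝ), cr (Complex.I * cis a) (s * Complex.I * cis b) =
      s * cr (cis a) (cis b) := by
    intro s a b
    simp only [cr, Complex.mul_re, Complex.mul_im, Complex.I_re, Complex.I_im,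
      Complex.ofReal_re, Complex.ofReal_im]
    ring
  obtain ⟨A, hA⟩ : ∃ A, A = cr (cis φ₂) (cis φ₁) := ⟨_, rfl⟩
  obtain ⟨B, hB⟩ : ∃ B, B = cr (cis φ₂) (cis φ₃) := ⟨_, rfl⟩
  obtain ⟨C, hC⟩ : ∃ C, C = cr (cis φ₄) (cis φ₁) := ⟨_, rfl⟩
  obtain ⟨D, hD⟩ : ∃ D, D = cr (cis φ₄) (cis φ₃) := ⟨_, rfl⟩
  rw [← hA, ← hB, ← hC, ← hD] at hneg
  have hs : (0 < A * B ∧ C * D < 0) ∨ (A * B < 0 ∧ 0 < C * D) := by
    rw [← mul_neg_iff]
    linarith [mul_assoc (A * B) C D]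
  have hA0 : A ≠ 0 := by
    rintro h0
    rw [h0] at hneg
    simp at hneg
  obtain ⟨ξ₁, p1, k1⟩ := pair (((1 : ℝ) : ℂ) * Complex.I * cis φ₁) (((-1 : ℝ) : ℂ) * Complex.I * cis φ₁)
    (Or.inl (by rw [ev, ev, ← hA]; nlinarith [mul_self_pos.2 hA0]))
  obtain ⟨ξ₂, p2, k2⟩ := pair (((1 : ℝ) : ℂ) * Complex.I * cis φ₁) (((1 : ℝ) : ℂ) * Complex.I * cis φ₃)
    (by
      rw [ev, ev, ev, ev, ← hA, ← hB, ← hC, ← hD]
      rcases hs with h | h
      · right; linarith [h.2]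
      · left; linarith [h.1])
  obtain ⟨ξ₃, p3, k3⟩ := pair (((-1 : ℝ) : ℂ) * Complex.I * cis φ₁) (((1 : ℝ) : ℂ) * Complex.I * cis φ₃)
    (by
      rw [ev, ev, ev, ev, ← hA, ← hB, ← hC, ← hD]
      rcases hs with h | h
      · left; linarith [h.1]
      · right; linarith [h.2])
  have hξ : 0 < min (min ξ₁ ξ₂) (min ξ₃ 1) := lt_min (lt_min p1 p2) (lt_min p3 one_pos)
  have hξ1 : min (min ξ₁ ξ₂) (min ξ₃ 1) ≤ 1 := (min_le_right _ _).trans (min_le_right _ _)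
  have l1 := k1 _ ((min_le_left (min ξ₁ ξ₂) (min ξ₃ 1)).trans (min_le_left _ _))
  have l2 := k2 _ ((min_le_left (min ξ₁ ξ₂) (min ξ₃ 1)).trans (min_le_right _ _))
  have l3 := k3 _ ((min_le_right (min ξ₁ ξ₂) (min ξ₃ 1)).trans (min_le_left _ _))
  have d1 := nonint_dich hT σ he hag hu h₁ 1 (Or.inl rfl) hξ hξ1
  have d2 := nonint_dich hT σ he hag hu h₁ (-1) (Or.inr rfl) hξ hξ1
  have d3 := nonint_dich hT σ he hag hu h₃ 1 (Or.inl rfl) hξ hξ1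
  rcases d1 with d1 | d1 <;> rcases d2 with d2 | d2 <;> rcases d3 with d3 | d3
  exacts [l1.1 d1 d2, l1.1 d1 d2, l2.1 d1 d3, l3.2 d2 d3, l3.1 d2 d3, l2.2 d1 d3, l1.2 d1 d2,
    l1.2 d1 d2]

end Crest.Agent.R040

end
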