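import Crest.Agent.R040.Sat2All

/-! # Row 40, Step 2: second finite certificate -/

set_option autoImplicit false

open MeasureTheory Filter Topology Set Metric
open scoped Real

noncomputable section

namespace Crest.Agent.R040

theorem sat2 : ∃ Θ Q : Finset ℂ, (∀ u ∈ Θ, ‖u‖ = 1) ∧ ∀ (ty : ℂ → Fin 3) (col : ℂ → Fin 5),
    (∀ u ∈ Θ, ty u ≠ ty (om * u)) → (∀ u ∈ Θ, ∀ u' ∈ Θ, u' = -u → ty u = 1 → ty u' ≠ 2) →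
    (∀ u₁ ∈ Θ, ∀ u₂ ∈ Θ, ∀ u₃ ∈ Θ, ∀ u₄ ∈ Θ, ty u₁ = 1 → ty u₂ = 2 → ty u₃ = 1 → ty u₄ = 2 →
      0 ≤ cr u₂ u₁ * cr u₂ u₃ * cr u₄ u₁ * cr u₄ u₃) →
    (∀ p ∈ Q, ∀ q ∈ Q, ‖p - q‖ = 1 → col p ≠ col q) →
    (∀ u ∈ Θ, ∀ u' ∈ Θ, u ≠ u' → u ≠ -u' → u + u' ∈ Q →
      (ty u = 0 → col (u + u') ≠ 4) ∧ (ty u = 1 → col (u + u') ≠ 1 ∧ col (u + u') ≠ 3) ∧
      (ty u = 2 → col (u + u') ≠ 0 ∧ col (u + u') ≠ 2)) → False := by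
  refine ⟨Chk.dirs Chk.s2DT 54, Chk.pnts Chk.s2DT Chk.s2PT 345,
    Chk.norm_dirs (by decide +kernel), fun ty col h1 h2 h3 h4 h5 => ?_⟩
  exact Chk.s2false (Chk.lit_zero _) (Chk.lit_xor _)
    (Chk.chk2_sound (by norm_num) (by norm_num) h1 h2 h3 h4 h5)

end Crest.Agent.R040

end
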