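import Crest.Agent.R040.Local
import Crest.Agent.R040.Graph
import Crest.Agent.R040.NonInt
import Crest.Agent.R040.Sat2

/-! # Row 40, Step 2: no towers of four-coloured windows at a 4-cycle -/

set_option autoImplicit false

open MeasureTheory Filter Topology Set Metric
open scoped Real

noncomputable section

namespace Crest.Agent.R040

open Classical in
/-- the type of the unit circle around `y` -/
def Cyc4_ty (c : MCol) (σ : Equiv.Perm (Fin 5)) (y : ℂ) : Fin 3 :=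
  if c.N y (σ 4) then 0 else if ∀ l, c.N y l → l = σ 1 ∨ l = σ 3 then 1 else 2

/-- good angles -/
structure Cyc4_good (c : MCol) (σ : Equiv.Perm (Fin 5)) (v : ℂ) (φ : ℝ) : Prop where
  h0 : Cyc4_ty c σ (v + cis φ) = 0 → c.N (v + cis φ) (σ 4) ∧ ∃ j, c.P v j ∧ φ ∈ c.U v j (σ 4)
  h1 : Cyc4_ty c σ (v + cis φ) = 1 → c.N (v + cis φ) (σ 1) ∧ c.N (v + cis φ) (σ 3) ∧
    φ ∈ c.U v (σ 1) (σ 3) ∧ Dens (c.U v (σ 1) (σ 3)) φ
  h2 : Cyc4_ty c σ (v + cis φ) = 2 → c.N (v + cis φ) (σ 0) ∧ c.N (v + cis φ) (σ 2) ∧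
    φ ∈ c.U v (σ 0) (σ 2) ∧ Dens (c.U v (σ 0) (σ 2)) φ

theorem Cyc4_ae_good {c : MCol} {v : ℂ} {σ : Equiv.Perm (Fin 5)} (h01 : c.Adj v (σ 0) (σ 1))
    (h12 : c.Adj v (σ 1) (σ 2)) (h23 : c.Adj v (σ 2) (σ 3)) (h30 : c.Adj v (σ 3) (σ 0))
    (hP : ∀ k, k ≠ σ 4 → c.P v k) : ∀ᵐ φ : ℝ, Cyc4_good c σ v φ := by
  have hE : ∀ᵐ φ : ℝ, ∀ a b, c.Adj v a b → φ ∉ c.U v a b := by
    refine ae_all_iff.2 fun a => ae_all_iff.2 fun b => ?_
    by_cases h : c.Adj v a b
    · filter_upwards [measure_eq_zero_iff_ae_notMem.1 (MCol.U_null h.link)] with φ hφ _ using hφ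
    · exact Eventually.of_forall fun φ h' => absurd h' h
  filter_upwards [hE, c.rule1 v, c.two v, ae_dens (c.measurableSet_U v (σ 1) (σ 3)),
    ae_dens (c.measurableSet_U v (σ 0) (σ 2))] with φ e1 r1 r2 d1 d2
  have pair : ∀ j k, j ≠ k → c.N (v + cis φ) j → c.N (v + cis φ) k → φ ∈ c.U v j k := by
    intro j k hjk hj hk l hl
    by_contra h
    rw [not_or] at h
    exact r2 j k l hjk (Ne.symm h.1) (Ne.symm h.2) hj hk hl
  have both : ∀ j k, c.P v j → c.P v k → φ ∈ c.U v j k → c.N (v + cis φ) j ∧ c.N (v + cis φ) k := by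
    intro j k hj hk h
    obtain ⟨a, ha, hNa⟩ := r1 j hj
    obtain ⟨b, hb, hNb⟩ := r1 k hk
    exact ⟨((h b hNb).resolve_right hb) ▸ hNb, ((h a hNa).resolve_left ha) ▸ hNa⟩
  have hP' : ∀ i : Fin 5, i ≠ 4 → c.P v (σ i) := fun i hi => hP _ (σ.injective.ne hi)
  refine ⟨fun h => ?_, fun h => ?_, fun h => ?_⟩ <;> unfold Cyc4_ty at h <;>
    split_ifs at h with a1 a2 <;> try (exact absurd h (by decide))
  · refine ⟨a1, ?_⟩
    by_cases h' : ∃ j, j ≠ σ 4 ∧ c.N (v + cis φ) j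
    · obtain ⟨j, hj, hN⟩ := h'
      exact ⟨j, hP j hj, pair j _ hj hN a1⟩
    · refine ⟨σ 0, hP' 0 (by decide), fun l hl => Or.inr ?_⟩
      by_contra hl'
      exact h' ⟨l, hl', hl⟩
  · obtain ⟨b1, b2⟩ := both _ _ (hP' 1 (by decide)) (hP' 3 (by decide)) a2
    exact ⟨b1, b2, a2, d1 a2⟩
  · have hU : φ ∈ c.U v (σ 0) (σ 2) := by
      obtain ⟨k, -, hk⟩ := r1 _ (hP' 0 (by decide))
      have hk4 : k ≠ σ 4 := fun e => a1 (e ▸ hk)
      obtain ⟨l, hlk, hl⟩ := r1 k (hP k hk4)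
      have hl4 : l ≠ σ 4 := fun e => a1 (e ▸ hl)
      have hm := pair k l hlk.symm hk hl
      have hna : ¬ c.Adj v k l := fun h' => e1 k l h' hm
      have a3 : φ ∉ c.U v (σ 1) (σ 3) := a2
      have a4 : φ ∉ c.U v (σ 3) (σ 1) := by rwa [c.U_comm]
      obtain ⟨a, rfl⟩ := σ.surjective k
      obtain ⟨b, rfl⟩ := σ.surjective l
      have h10 := h01.symm
      have h21 := h12.symm
      have h32 := h23.symm
      have h03 := h30.symm
      fin_cases a <;> fin_cases b <;>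
        first
        | exact absurd rfl hlk
        | exact absurd rfl hk4
        | exact absurd rfl hl4
        | exact absurd (by assumption) hna
        | exact absurd hm a3
        | exact absurd hm a4
        | exact hm
        | exact c.U_comm v _ _ ▸ hm
    obtain ⟨b1, b2⟩ := both _ _ (hP' 0 (by decide)) (hP' 2 (by decide)) hU
    exact ⟨b1, b2, hU, d2 hU⟩

/-- `σ` from `Tf.cyc_perm`; `σ 4` is the missing colour (`exists_missing`, `Adj.P`).  `ty u = 0` if `N (v + cis θ u) (σ 4)`, else `1` if the angle lies in `U v (σ 1) (σ 3)`, else `2`.  For a.e. angle: if `¬ N (σ 4)` then `N` is a pair (`rule1`, `two`) that is not an edge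
(`Adj.link`, `U_null`), so it is `{σ 1, σ 3}` or `{σ 0, σ 2}`; equal types at `θ`, `θ + π/3` contradict `rule2`; a.e. angle is a density point of its `U` (`ae_dens`).  `ae_shift` for the finitely many `u = cis α ∈ Θ` (and `om * u`), `fin_cfg`, `sat2` with the colouring
`σ.symm ∘ col`, `not_same_line`, `non_interlace`, `cr_cis_mul`. -/
theorem MCol.no_four_tangent {c : MCol} {v : ℂ} {μ : Fin 5 → ℂ → ℝ} (hT : c.Tangent v μ)
    (hc : Cyc (c.Adj v)) (hu : ∀ i, c.P v i → Unb (μ i)) : False := by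
  obtain ⟨σ, h01, h12, h23, h30, n02, -, -⟩ := (c.tf_adj v).cyc_perm hc
  have hP' : ∀ i : Fin 5, i ≠ 4 → c.P v (σ i) := fun i hi => by
    fin_cases i
    exacts [h01.P, h12.P, h23.P, h30.P, absurd rfl hi]
  have hP : ∀ k, k ≠ σ 4 → c.P v k := fun k hk => by
    obtain ⟨i, rfl⟩ := σ.surjective k
    exact hP' i fun e => hk (e ▸ rfl)
  have he : ¬ c.P v (σ 4) := by
    obtain ⟨e, he⟩ := c.exists_missing v
    by_cases h : e = σ 4
    · exact h ▸ he
    · exact absurd (hP e h) he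
  have hu' : ∀ i : Fin 5, i ≠ 4 → Unb (μ (σ i)) := fun i hi => hu _ (hP' i hi)
  have hg := Cyc4_ae_good h01 h12 h23 h30 hP
  have hG : ∀ᵐ φ : ℝ, Cyc4_good c σ v φ ∧
      Cyc4_ty c σ (v + cis φ) ≠ Cyc4_ty c σ (v + cis (φ + π / 3)) := by
    filter_upwards [hg, ae_shift hg (π / 3), c.rule2 v] with φ g1 g2 r2
    refine ⟨g1, fun h => ?_⟩
    have : ∀ t : Fin 3, t = 0 ∨ t = 1 ∨ t = 2 := by decide
    rcases this (Cyc4_ty c σ (v + cis φ)) with h' | h' | h'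
    · obtain ⟨-, j, hj, hj'⟩ := g1.h0 h'
      obtain ⟨-, l, hl, hl'⟩ := g2.h0 (h ▸ h')
      exact r2 j l _ hj hl hj' hl'
    · exact r2 _ _ _ (hP' 1 (by decide)) (hP' 1 (by decide)) (g1.h1 h').2.2.1
        (g2.h1 (h ▸ h')).2.2.1
    · exact r2 _ _ _ (hP' 0 (by decide)) (hP' 0 (by decide)) (g1.h2 h').2.2.1
        (g2.h2 (h ▸ h')).2.2.1
  obtain ⟨Θ, Q, hΘ, H⟩ := sat2
  have hα : ∀ u : ℂ, ∃ α : ℝ, u ∈ Θ → u = cis α := fun u => by
    by_cases h : u ∈ Θ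
    · obtain ⟨α, hα⟩ := exists_cis (hΘ u h)
      exact ⟨α, fun _ => hα⟩
    · exact ⟨0, fun h' => absurd h' h⟩
  choose α hα using hα
  obtain ⟨θ, hθ, col, hcol, hN⟩ := (((eventually_all_finset Θ).2 fun u _ => ae_shift hG (α u)).and
    (c.fin_cfg v Θ Q hΘ)).exists
  have e : ∀ u ∈ Θ, cis (θ + α u) = cis θ * u := fun u hu => by rw [cis_add, ← hα u hu]
  refine H (fun u => Cyc4_ty c σ (v + cis θ * u)) (fun z => σ.symm (col z)) (fun u hu => ?_)
    (fun u hu u' hw h t1 t2 => ?_) (fun u₁ m₁ u₂ m₂ u₃ m₃ u₄ m₄ t₁ t₂ t₃ t₄ => ?_)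
    (fun p hp q hq h => σ.symm.injective.ne (hcol p hp q hq h)) (fun u hu w hw a1 a2 a3 => ?_)
  · have := (hθ u hu).2
    rwa [cis_add (θ + α u), e u hu, mul_assoc, mul_comm u] at this
  · simp only [← e u hu] at t1
    simp only [← e u' hw] at t2
    refine MCol.not_same_line hT σ he hu' ((hθ u hu).1.h1 t1).2.2.2 ((hθ u' hw).1.h2 t2).2.2.2
      (Or.inr ?_)
    rw [e u hu, e u' hw, h, mul_neg]
  · simp only [← e u₁ m₁] at t₁
    simp only [← e u₂ m₂] at t₂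
    simp only [← e u₃ m₃] at t₃
    simp only [← e u₄ m₄] at t₄
    have := MCol.non_interlace hT σ he n02 hu' ((hθ _ m₁).1.h1 t₁).2.2.2 ((hθ _ m₂).1.h2 t₂).2.2.2
      ((hθ _ m₃).1.h1 t₃).2.2.2 ((hθ _ m₄).1.h2 t₄).2.2.2
    simpa only [e _ m₁, e _ m₂, e _ m₃, e _ m₄, cr_cis_mul] using this
  · have h1 := hN u hu w hw a1 a2 a3
    have g := (hθ u hu).1
    simp only [← e u hu] at h1 ⊢
    have key : ∀ i, c.N (v + cis (θ + α u)) (σ i) → σ.symm (col (u + w)) ≠ i := fun i hi h =>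
      h1 (by rw [← h, σ.apply_symm_apply] at hi; exact hi)
    exact ⟨fun t => key _ (g.h0 t).1, fun t => ⟨key _ (g.h1 t).1, key _ (g.h1 t).2.1⟩,
      fun t => ⟨key _ (g.h2 t).1, key _ (g.h2 t).2.1⟩⟩

/-- Otherwise take `δ = 1/(n+1)`, `M = n+1`, `exists_tangent`.  For fixed `t` the rescaled windows `(ζ_n, ρ_n)`, `ρ_n ≥ 1`, `‖ζ_n‖ + ρ_n = t`, converge along a subsequence to `(ζ, ρ)`; they lie in `ball ζ (ρ + ε')`, so (`pr_sub`) `av (μ i) ζ (ρ + ε') ≥ κ/2` for every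
colour `i` in `P v` (the excluded colour of `Four` is the missing one, `not_P`; four colours are in `P`).  If `ρ ≥ t/4` the mass `κ π ρ²/2` exceeds the area of `ball 0 M`; otherwise the disc lies outside `ball 0 (t/3)`. -/
theorem MCol.no_tower (c : MCol) {v : ℂ} (hc : Cyc (c.Adj v)) {κ : ℝ} (hκ : 0 < κ) :
    ∃ δ > (0 : ℝ), ∃ M ≥ (1 : ℝ), ∀ (x : ℂ) (r : ℝ), ‖x - v‖ < δ → 0 < r → r < δ →
      ¬ ∀ t ∈ Icc (1 : ℝ) M, ∃ (x' : ℂ) (r' : ℝ), r ≤ r' ∧ ‖x' - x‖ + r' = t * r ∧ c.Four κ x' r' := by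
  by_contra hcon
  have h1 : ∀ n : ℕ, ∃ (x : ℂ) (r : ℝ), ‖x - v‖ < 1 / ((n : ℝ) + 1) ∧ 0 < r ∧ r < 1 / ((n : ℝ) + 1) ∧
      ∀ t ∈ Icc (1 : ℝ) ((n : ℝ) + 1), ∃ (x' : ℂ) (r' : ℝ), r ≤ r' ∧ ‖x' - x‖ + r' = t * r ∧
        c.Four κ x' r' := fun n => by
    by_contra h
    refine hcon ⟨1 / ((n : ℝ) + 1), by positivity, (n : ℝ) + 1, ?_, fun x r a1 a2 a3 a4 =>
      h ⟨x, r, a1, a2, a3, a4⟩⟩
    have : (0 : ℝ) ≤ n := Nat.cast_nonneg n
    linarith
  choose x r hxv hr hr1 htw using h1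
  have hx : Tendsto x atTop (𝓝 v) := by
    rw [tendsto_iff_norm_sub_tendsto_zero]
    exact squeeze_zero (fun n => norm_nonneg _) (fun n => (hxv n).le)
      tendsto_one_div_add_atTop_nhds_zero_nat
  have hr0 : Tendsto r atTop (𝓝 0) :=
    squeeze_zero (fun n => (hr n).le) (fun n => (hr1 n).le) tendsto_one_div_add_atTop_nhds_zero_nat
  obtain ⟨φ, hφ, μ, hT, hlim⟩ := c.exists_tangent v x r hr hx hr0
  refine MCol.no_four_tangent hT hc fun i hi M₀ hM₀ => ?_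
  obtain ⟨e, he⟩ := c.exists_missing v
  obtain ⟨δ, hδ, -, hδ'⟩ := c.not_P he
  obtain ⟨M, hM, hMM⟩ : ∃ M : ℝ, 0 < M ∧ M₀ < M :=
    ⟨max M₀ 0 + 1, by linarith [le_max_right M₀ 0], by linarith [le_max_left M₀ 0]⟩
  obtain ⟨t, ht1, htM, htκ⟩ : ∃ t : ℝ, 1 ≤ t ∧ 2 * M ≤ t ∧ 16 * (M ^ 2 + κ) ≤ κ * t := by
    have h0 : 0 ≤ 16 * (M ^ 2 + κ) / κ := by positivity
    refine ⟨2 * M + 16 * (M ^ 2 + κ) / κ + 1, by linarith, by linarith, ?_⟩
    rw [← div_le_iff₀' hκ]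
    linarith
  have ht0 : 0 < t := by linarith
  have eq : t ^ 2 * av (μ i) 0 t = M ^ 2 * av (μ i) 0 M := by
    have : ∫ w in ball (0 : ℂ) t, μ i w = ∫ w in ball (0 : ℂ) M, μ i w := by
      refine setIntegral_eq_of_subset_of_ae_sdiff_eq_zero measurableSet_ball.nullMeasurableSet
        (ball_subset_ball (by linarith)) ?_
      filter_upwards [hM₀] with z hz hz'
      have := hz'.2
      rw [mem_ball_zero_iff, not_lt] at this
      exact hz (by linarith)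
    unfold av
    rw [this]
    field_simp
  have l1 := ((hlim i 0 t ht0).const_mul (t ^ 2)).sub ((hlim i 0 M hM).const_mul (M ^ 2))
  rw [eq, sub_self] at l1
  simp only [mul_zero, add_zero] at l1
  have l2 := (tendsto_iff_norm_sub_tendsto_zero.1 (hx.comp hφ.tendsto_atTop)).eventually
    (gt_mem_nhds (half_pos hδ))
  have l3 := ((hr0.comp hφ.tendsto_atTop).const_mul t).eventually
    (gt_mem_nhds (show t * 0 < δ / 2 by simpa using hδ))
  have l4 := ((tendsto_natCast_atTop_atTop (R := ℝ)).comp hφ.tendsto_atTop).eventually_ge_atTop t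
  obtain ⟨n, ⟨⟨b1, b2⟩, b3⟩, b4⟩ := ((((l1.eventually (gt_mem_nhds hκ)).and l2).and l3).and l4).exists
  simp only [Function.comp] at b2 b3 b4
  obtain ⟨x', r', c1, c2, e', c3⟩ := htw (φ n) t ⟨ht1, by linarith⟩
  have hρ := hr (φ n)
  generalize x (φ n) = y at *
  generalize r (φ n) = ρ at *
  have hr' : 0 < r' := by linarith
  have n0 := norm_nonneg (x' - y)
  have hee : e = e' := by
    by_contra h
    have a1 := c3 e h
    have a2 : ‖x' - v‖ ≤ ‖x' - y‖ + ‖y - v‖ := norm_sub_le_norm_sub_add_norm_sub _ _ _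
    rw [hδ' x' r' (by linarith) (by linarith)] at a1
    linarith
  have hκ' : κ ≤ pr (c.D i) x' r' := c3 i fun h => he (hee ▸ h ▸ hi)
  have hsub : ball x' r' ⊆ ball y (ρ * t) := ball_subset_ball' (by rw [dist_eq_norm]; linarith)
  have p1 := pr_le_one (c.D i) y (ρ * M)
  have hρ2 : 0 < ρ ^ 2 := by positivity
  have k1 : r' ^ 2 * κ ≤ r' ^ 2 * pr (c.D i) x' r' := by gcongr
  rcases le_or_gt (t * ρ / 4) r' with h | h
  · have a1 := pr_sub (c.D i) hr' (by positivity) hsub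
    have a2 : (t * ρ / 4) ^ 2 * κ ≤ r' ^ 2 * κ := by gcongr
    have a3 : M ^ 2 * pr (c.D i) y (ρ * M) ≤ M ^ 2 * 1 := by gcongr
    have a4 : ρ ^ 2 * (t ^ 2 * pr (c.D i) y (ρ * t)) < ρ ^ 2 * (M ^ 2 + κ) :=
      mul_lt_mul_of_pos_left (by linarith) hρ2
    have a5 : κ * t * 1 ≤ κ * t * t := by gcongr
    have a6 : ρ ^ 2 * (16 * (M ^ 2 + κ)) ≤ ρ ^ 2 * (κ * t * t) :=
      mul_le_mul_of_nonneg_left (by linarith) hρ2.le
    nlinarith
  · have a0 : ρ * (2 * M) ≤ ρ * t := by gcongr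
    have hdis : Disjoint (ball x' r') (ball y (ρ * M)) :=
      ball_disjoint_ball (by rw [dist_eq_norm]; linarith)
    have a1 : volume.real (c.D i ∩ ball x' r') + volume.real (c.D i ∩ ball y (ρ * M)) ≤
        volume.real (c.D i ∩ ball y (ρ * t)) := by
      rw [← measureReal_union (hdis.mono inter_subset_right inter_subset_right)
        ((c.meas i).inter measurableSet_ball)
        (measure_ne_top_of_subset inter_subset_right measure_ball_lt_top.ne)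
        (measure_ne_top_of_subset inter_subset_right measure_ball_lt_top.ne)]
      refine measureReal_mono (union_subset (inter_subset_inter_right _ hsub)
        (inter_subset_inter_right _ (ball_subset_ball (by nlinarith))))
        (measure_ne_top_of_subset inter_subset_right measure_ball_lt_top.ne)
    have a2 : ∀ (z : ℂ) (s : ℝ), 0 < s →
        volume.real (c.D i ∩ ball z s) = π * (s ^ 2 * pr (c.D i) z s) := fun z s hs => by
      unfold pr
      field_simp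
    rw [a2 _ _ hr', a2 _ _ (by positivity), a2 _ _ (by positivity), ← mul_add] at a1
    have a3 := le_of_mul_le_mul_left a1 Real.pi_pos
    have a4 : ρ ^ 2 * κ ≤ r' ^ 2 * κ := by gcongr
    have a5 := mul_lt_mul_of_pos_left b1 hρ2
    nlinarith

end Crest.Agent.R040

end
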