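import Mathlib

/-! # Row 40 (`χ(ℝ²) ≥ 6`), Step 1: definitions

Step 1 turns an arbitrary proper 5-colouring of `ℂ` into a measurable colouring that is proper almost everywhere
(`WeakProper`).  `K` is the field of algebraic numbers, `X` the compact dual of its additive group. -/

set_option autoImplicit false

open MeasureTheory Filter Topology Set

noncomputable section

namespace Crest.Agent.R040

/-- measurable colouring without monochromatic unit pairs, almost everywhere -/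
def WeakProper (A : ℂ → Fin 5) : Prop :=
  ∀ᵐ p : ℂ × ℝ, A p.1 ≠ A (p.1 + Complex.exp (p.2 * Complex.I))

/-- `e(x) = exp(2πix)` -/
def ee (x : ℝ) : ℂ := Complex.exp (2 * Real.pi * x * Complex.I)

/-- characters of a (discrete) abelian group, as functions to `ℂ` -/
abbrev Ch (G : Type) [AddCommGroup G] : Type :=
  {χ : G → ℂ // (∀ a, ‖χ a‖ = 1) ∧ ∀ a b, χ (a + b) = χ a * χ b}

theorem ch_isCompact (G : Type) [AddCommGroup G] :
    IsCompact {χ : G → ℂ | (∀ a, ‖χ a‖ = 1) ∧ ∀ a b, χ (a + b) = χ a * χ b} := by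
  have h1 : IsCompact (Set.pi Set.univ fun _ : G => Metric.sphere (0 : ℂ) 1) :=
    isCompact_univ_pi fun _ => isCompact_sphere 0 1
  refine h1.of_isClosed_subset ?_ ?_
  · have : {χ : G → ℂ | (∀ a, ‖χ a‖ = 1) ∧ ∀ a b, χ (a + b) = χ a * χ b} =
        (⋂ a, {χ : G → ℂ | ‖χ a‖ = 1}) ∩ ⋂ a, ⋂ b, {χ : G → ℂ | χ (a + b) = χ a * χ b} := by
      ext χ; simp
    rw [this]
    refine IsClosed.inter (isClosed_iInter fun a => isClosed_eq (by fun_prop) continuous_const)
      (isClosed_iInter fun a => isClosed_iInter fun b => isClosed_eq (by fun_prop) (by fun_prop))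
  · intro χ h a _
    simpa using h.1 a

instance (G : Type) [AddCommGroup G] : CompactSpace (Ch G) :=
  isCompact_iff_compactSpace.1 (ch_isCompact G)

instance (G : Type) [AddCommGroup G] [Countable G] : PolishSpace (Ch G) :=
  (ch_isCompact G).isClosed.polishSpace

instance (G : Type) [AddCommGroup G] [Countable G] : TopologicalSpace.MetrizableSpace (Ch G) :=
  inferInstance

instance (G : Type) [AddCommGroup G] [Countable G] : BorelSpace (Ch G) := inferInstance

instance (G : Type) [AddCommGroup G] [Countable G] : StandardBorelSpace (Ch G) := inferInstance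

theorem ch_zero {G : Type} [AddCommGroup G] (χ : Ch G) : χ.1 0 = 1 := by
  have h := χ.2.2 0 0
  have h0 : χ.1 0 ≠ 0 := by
    intro h0
    have := χ.2.1 0
    rw [h0] at this
    simp at this
  rw [add_zero] at h
  exact (mul_left_cancel₀ h0 (by rw [mul_one]; exact h)).symm

theorem ch_neg {G : Type} [AddCommGroup G] (χ : Ch G) (a : G) :
    χ.1 (-a) = (starRingEnd ℂ) (χ.1 a) := by
  have h := χ.2.2 a (-a)
  rw [add_neg_cancel, ch_zero] at h
  have h1 : χ.1 a * (starRingEnd ℂ) (χ.1 a) = 1 := by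
    rw [Complex.mul_conj, Complex.normSq_eq_norm_sq, χ.2.1 a]; simp
  have h0 : χ.1 a ≠ 0 := by
    intro h0
    have := χ.2.1 a
    rw [h0] at this
    simp at this
  exact mul_left_cancel₀ h0 (by rw [← h, h1])

theorem ch_continuous {G : Type} [AddCommGroup G] (a : G) : Continuous fun χ : Ch G => χ.1 a :=
  (continuous_apply a).comp continuous_subtype_val

theorem ch_measurable {G : Type} [AddCommGroup G] (a : G) : Measurable fun χ : Ch G => χ.1 a :=
  (measurable_pi_apply a).comp measurable_subtype_coe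

/-- the field of algebraic numbers inside `ℂ`; its norm is the norm of `ℂ` -/
abbrev K : IntermediateField ℚ ℂ := algebraicClosure ℚ ℂ

instance : Countable K := by
  have h : Set.Countable {x : ℂ | IsAlgebraic ℚ x} := Algebraic.countable ℚ ℂ
  have : ((K : Set ℂ)) = {x : ℂ | IsAlgebraic ℚ x} := by
    ext x; exact mem_algebraicClosure_iff
  have h2 : Set.Countable ((K : Set ℂ)) := this ▸ h
  exact h2.to_subtype

instance : IsAlgClosed K := (algebraicClosure.isAlgClosure ℚ ℂ).isAlgClosed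

theorem norm_K (z : K) : ‖z‖ = ‖(z : ℂ)‖ := rfl

/-- `i` -/
def iK : K := ⟨Complex.I, mem_algebraicClosure_iff.2 (by
  refine ⟨Polynomial.X ^ 2 + Polynomial.C 1, (Polynomial.monic_X_pow_add_C 1 (by norm_num)).ne_zero, ?_⟩
  simp)⟩

@[simp] theorem coe_iK : (iK : ℂ) = Complex.I := rfl

/-- `π = 2 + i` -/
def piK : K := 2 + iK

/-- `π̄ = 2 - i` -/
def pibK : K := 2 - iK

/-- `u₀ = π / π̄` -/
def u0 : K := piK / pibK

/-- complex conjugation on `K` -/
def cj (z : K) : K := ⟨(starRingEnd ℂ) (z : ℂ), mem_algebraicClosure_iff.2 (by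
  have h := mem_algebraicClosure_iff.1 z.2
  exact h.algHom ((Complex.conjAe.restrictScalars ℚ).toAlgHom))⟩

@[simp] theorem coe_cj (z : K) : (cj z : ℂ) = (starRingEnd ℂ) (z : ℂ) := rfl

/-- the dual of `K` -/
abbrev X : Type := Ch K

/-- `(rot u χ)(z) = χ(u z)` -/
def rot (u : K) (χ : X) : X :=
  ⟨fun z => χ.1 (u * z), fun _ => χ.2.1 _, fun a b => by
    show χ.1 (u * (a + b)) = χ.1 (u * a) * χ.1 (u * b)
    rw [mul_add]; exact χ.2.2 _ _⟩

@[simp] theorem rot_apply (u : K) (χ : X) (z : K) : (rot u χ).1 z = χ.1 (u * z) := rfl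

theorem rot_rot (u v : K) (χ : X) : rot u (rot v χ) = rot (u * v) χ := by
  apply Subtype.ext; funext z
  show χ.1 (v * (u * z)) = χ.1 (u * v * z)
  rw [show v * (u * z) = u * v * z by ring]

@[simp] theorem rot_one (χ : X) : rot 1 χ = χ := by
  apply Subtype.ext; funext z; simp

theorem rot_continuous (u : K) : Continuous (rot u) :=
  Continuous.subtype_mk (continuous_pi fun z => ch_continuous (u * z)) _

theorem rot_measurable (u : K) : Measurable (rot u) := (rot_continuous u).measurable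

/-- invariance under all algebraic rotations -/
def UInv (μ : Measure X) : Prop := ∀ u : K, ‖u‖ = 1 → MeasurePreserving (rot u) μ μ

/-- "purely discontinuous": averages over arbitrarily small discs have small `L²(μ)` norm -/
def PD (μ : Measure X) : Prop :=
  ∀ r > (0 : ℝ), ∀ ε > (0 : ℝ), ∃ (s : Finset K) (m : K → ℝ), (∀ y ∈ s, 0 ≤ m y ∧ ‖y‖ < r) ∧
    ∑ y ∈ s, m y = 1 ∧ ∫ χ : X, ‖∑ y ∈ s, (m y : ℂ) * χ.1 y‖ ^ 2 ∂μ < ε

/-- `Λ₅`: algebraic numbers that are integral after multiplication by an integer prime to 5 -/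
def Lam5 : Set K := {z | ∃ c : ℤ, ¬ (5 : ℤ) ∣ c ∧ IsIntegral ℤ ((c : K) * z)}

/-- `π^n Λ`, where `Λ = ⋃ₖ π̄^{-k} Λ₅` -/
def deep (n : ℕ) : Set K := {z | ∃ k : ℕ, pibK ^ k * z / piK ^ n ∈ Lam5}

/-- the σ-algebra generated by the evaluations at points of `S` -/
@[reducible] def sig (S : Set K) : MeasurableSpace X :=
  ⨆ z ∈ S, MeasurableSpace.comap (fun χ : X => χ.1 z) inferInstance

/-- the tail σ-algebra -/
@[reducible] def tail : MeasurableSpace X := ⨅ n, sig (deep n)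

/-- `ẽ_a = E(e_a | tail)` -/
def et (μ : Measure X) (a : K) : X → ℂ := μ[fun χ : X => χ.1 a | tail]

/-- `z = ∑ (a_j + i b_j) β_j` with Gaussian integers of modulus at most `H` -/
def Ht {r : ℕ} (β : Fin r → K) (z : K) (H : ℝ) : Prop :=
  ∃ a b : Fin r → ℤ, z = ∑ j, ((a j : K) + (b j : K) * iK) * β j ∧
    ∀ j, ‖((a j : K) + (b j : K) * iK)‖ ≤ H

/-- An order `R = ⊕ ℤ[i] β_j` (`β_j` real) adapted to a finite set `B ⊆ πΛ`. -/
structure Frame (B : Finset K) where
  r : ℕ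
  β : Fin r → K
  real : ∀ j, (β j : ℂ).im = 0
  li : LinearIndependent ℚ β
  C : ℝ
  one_le : 1 ≤ C
  one : Ht β 1 C
  mul : ∀ z w H H', Ht β z H → Ht β w H' → Ht β (z * w) (C * H * H')
  /-- common denominator, a nonzero Gaussian integer -/
  c : K
  c_ne : c ≠ 0
  c_gauss : ∃ a b : ℤ, c = (a : K) + (b : K) * iK
  /-- unit vectors whose classes span `c⁻¹R / π c⁻¹R` -/
  w : Fin r → K
  w_norm : ∀ j, ‖w j‖ = 1
  w_ht : ∀ j, Ht β (c * w j) C
  wb_ht : ∀ j, ∀ b ∈ B, Ht β (c * w j * b / piK) C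
  span : ∀ y H, Ht β y H → ∃ (n : Fin r → ℤ) (y' : K) (H' : ℝ), Ht β y' H' ∧
    y = ∑ j, (n j : K) * (c * w j) + piK * y'
  /-- a unit of `R` of modulus one and infinite order -/
  ε : K
  ε_norm : ‖ε‖ = 1
  ε_ht : Ht β ε C
  ε_inv_ht : Ht β ε⁻¹ C
  ε_pow : ∀ k : ℕ, 0 < k → ε ^ k ≠ 1

/-- at most a fraction `θ` of the predictions at the points `u₀^{-(k+1)} w_j`, `k < n`, are wrong -/
def Frame.Good {B : Finset K} (F : Frame B) (G : X → ℂ) (θ : ℝ) (n : ℕ) (χ : X) : Prop :=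
  (Set.ncard {p : ℕ × Fin F.r | p.1 < n ∧ 1 / 10 <
    ‖χ.1 (u0⁻¹ ^ (p.1 + 1) * F.w p.2) - G (rot (u0⁻¹ ^ (p.1 + 1) * F.w p.2) χ)‖} : ℝ) ≤ θ * n * F.r

/-- `χ = e ∘ ρ` on `q R / (c π^n)`, with `q` and the slope of size at most `H` -/
def Frame.Lin {B : Finset K} (F : Frame B) (χ : X) (ρ : K →+ ℝ) (n : ℕ) (H : ℝ) : Prop :=
  ∃ q : K, q ≠ 0 ∧ Ht F.β q H ∧ ∀ y h, Ht F.β y h →
    χ.1 (q * y / (F.c * piK ^ n)) = ee (ρ (q * y / (F.c * piK ^ n))) ∧
    |ρ (q * y / (F.c * piK ^ n))| ≤ H * h / √5 ^ n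

/-- Good characters fall into at most `C₀ e^{κ n r}` classes; two characters in one class differ on
`R / (c π^n)` by the exponential of a small additive map. -/
def Frame.CodeP {B : Finset K} (F : Frame B) (G : X → ℂ) (θ κ C₀ : ℝ) : Prop :=
  ∀ n : ℕ, ∃ (N : ℕ) (code : X → ℕ), (N : ℝ) ≤ C₀ * Real.exp (κ * n * F.r) ∧
    (∀ χ, F.Good G θ n χ → code χ < N) ∧
    ∀ χ χ' : X, F.Good G θ n χ → F.Good G θ n χ' → code χ = code χ' → ∃ ξ : K →+ ℝ,
      (∀ y h, Ht F.β y h → |ξ (y / F.c)| ≤ h) ∧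
      ∀ y h, Ht F.β y h →
        χ'.1 (y / (F.c * piK ^ n)) = χ.1 (y / (F.c * piK ^ n)) * ee (ξ (y / (F.c * piK ^ n)))

/-- `χ` is locally linear at every scale `2^j n₀` -/
def Frame.AllLin {B : Finset K} (F : Frame B) (A : ℝ) (n₀ : ℕ) (χ : X) : Prop :=
  ∀ j : ℕ, ∃ ρ : K →+ ℝ, F.Lin χ ρ (2 ^ j * n₀) (A ^ (j + 1) * Real.exp (6 / 100 * (2 ^ j * n₀)))

/-- colourings of `K` -/
abbrev Col : Type := K → Fin 5

/-- translation of a colouring -/
def sh (a : K) (ω : Col) : Col := fun z => ω (z + a)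

/-- rotation of a colouring -/
def rt (u : K) (ω : Col) : Col := fun z => ω (u * z)

/-- a probability on proper colourings of `K` invariant under translations and rotations -/
structure InvCol (P : Measure Col) : Prop where
  prob : IsProbabilityMeasure P
  sh : ∀ a, MeasurePreserving (sh a) P P
  rt : ∀ u, ‖u‖ = 1 → MeasurePreserving (rt u) P P
  proper : ∀ᵐ ω ∂P, ∀ x y : K, ‖x - y‖ = 1 → ω x ≠ ω y

/-- a random fractional colouring that is `L²`-continuous under translations -/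
structure ContCol (P : Measure Col) (F : Fin 5 → Col → ℝ) : Prop where
  meas : ∀ i, Measurable (F i)
  bdd : ∀ i ω, 0 ≤ F i ω ∧ F i ω ≤ 1
  sum : ∀ᵐ ω ∂P, ∑ i, F i ω = 1
  cont : ∀ i, ∀ ε > (0 : ℝ), ∃ r > (0 : ℝ), ∀ a : K, ‖a‖ < r →
    ∫ ω, (F i (sh a ω) - F i ω) ^ 2 ∂P < ε
  orth : ∀ i, ∀ u : K, ‖u‖ = 1 → ∫ ω, F i (sh u ω) * F i ω ∂P = 0

end Crest.Agent.R040

end
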