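import Crest.Agent.R040.Defs1

/-! # Row 40 (`χ(ℝ²) ≥ 6`), Step 2: definitions

Step 2 shows that no measurable 5-colouring of `ℂ` is proper almost everywhere.  `MCol` is the partial colouring by density points.
A *window* is a pair `(x, r)` (the disc `ball x r`), `c.p x r` its vector of colour proportions. -/

set_option autoImplicit false

open MeasureTheory Filter Topology Set Metric

noncomputable section

namespace Crest.Agent.R040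

/-- `e^{iθ}` -/
def cis (θ : ℝ) : ℂ := Complex.exp (θ * Complex.I)

/-- `ω = e^{iπ/3}` -/
def om : ℂ := cis (Real.pi / 3)

/-- cross product -/
def cr (u w : ℂ) : ℝ := u.re * w.im - u.im * w.re

/-- proportion of `S` in a disc -/
def pr (S : Set ℂ) (x : ℂ) (r : ℝ) : ℝ := volume.real (S ∩ ball x r) / (Real.pi * r ^ 2)

/-- average over a disc -/
def av (f : ℂ → ℝ) (x : ℂ) (r : ℝ) : ℝ := (∫ w in ball x r, f w) / (Real.pi * r ^ 2)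

/-- density point on the line -/
def Dens (U : Set ℝ) (t : ℝ) : Prop :=
  Tendsto (fun s : ℝ => volume.real (U ∩ Ioo (t - s) (t + s)) / (2 * s)) (𝓝[>] 0) (𝓝 1)

/-- vectors orthogonal to some `cis φ`, `φ ∈ U` -/
def cone (U : Set ℝ) : Set ℂ := {w | ∃ φ ∈ U, ∃ ρ : ℝ, w = ρ * Complex.I * cis φ}

/-- almost no segment orthogonal to a direction of `U` joins `{f ≠ 0}` to `{g ≠ 0}` -/
def Ker (f g : ℂ → ℝ) (U : Set ℝ) : Prop :=
  ∀ᵐ p : ℂ × ℂ, p.2 - p.1 ∈ cone U → f p.1 * g p.2 = 0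

/-- essentially unbounded support -/
def Unb (f : ℂ → ℝ) : Prop := ∀ M : ℝ, ¬ ∀ᵐ z : ℂ, M < ‖z‖ → f z = 0

/-- measurable with values in `[0,1]` -/
def Fr (f : ℂ → ℝ) : Prop := Measurable f ∧ ∀ z, 0 ≤ f z ∧ f z ≤ 1

/-- an almost everywhere defined proper colouring by sets of density points -/
structure MCol where
  D : Fin 5 → Set ℂ
  meas : ∀ i, MeasurableSet (D i)
  disj : ∀ i j, i ≠ j → Disjoint (D i) (D j)
  cover : ∀ᵐ z : ℂ, ∃ i, z ∈ D i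
  dens : ∀ i, ∀ z ∈ D i, Tendsto (pr (D i) z) (𝓝[>] 0) (𝓝 1)
  avoid : ∀ i, ∀ z ∈ D i, ∀ w ∈ D i, ‖z - w‖ ≠ 1

/-! ### graphs on the colours -/

/-- probability vector -/
def Simp (p : Fin 5 → ℝ) : Prop := (∀ i, 0 ≤ p i) ∧ ∑ i, p i = 1

/-- the support of `p` is connected in `Γ` -/
def Conn (Γ : Fin 5 → Fin 5 → Prop) (p : Fin 5 → ℝ) : Prop :=
  ∀ j k, 0 < p j → 0 < p k → Relation.ReflTransGen (fun a b => Γ a b ∧ 0 < p a ∧ 0 < p b) j k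

open Classical in
/-- mass of the component of `j` in `Γ - i` -/
def mm (Γ : Fin 5 → Fin 5 → Prop) (p : Fin 5 → ℝ) (i j : Fin 5) : ℝ :=
  ∑ k, if Relation.ReflTransGen (fun a b => Γ a b ∧ a ≠ i ∧ b ≠ i) j k then p k else 0

/-- `i` is a `β`-centroid -/
def Lab (Γ : Fin 5 → Fin 5 → Prop) (β : ℝ) (p : Fin 5 → ℝ) (i : Fin 5) : Prop :=
  ∀ j, j ≠ i → mm Γ p i j < β

/-- contains a 4-cycle -/
def Cyc (Γ : Fin 5 → Fin 5 → Prop) : Prop :=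
  ∃ a b c d, a ≠ c ∧ b ≠ d ∧ Γ a b ∧ Γ b c ∧ Γ c d ∧ Γ d a

/-- triangle-free graph with an isolated vertex -/
structure Tf (Γ : Fin 5 → Fin 5 → Prop) : Prop where
  symm : ∀ a b, Γ a b → Γ b a
  irrefl : ∀ a, ¬ Γ a a
  notri : ∀ a b c, Γ a b → Γ b c → Γ a c → False
  iso : ∃ e, ∀ j, ¬ Γ e j

/-- forest (on at most four non-isolated vertices) -/
def Forest (Γ : Fin 5 → Fin 5 → Prop) : Prop := Tf Γ ∧ ¬ Cyc Γ

/-- delete the edges at `l` -/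
def del (Γ : Fin 5 → Fin 5 → Prop) (l : Fin 5) : Fin 5 → Fin 5 → Prop :=
  fun a b => Γ a b ∧ a ≠ l ∧ b ≠ l

/-! ### the slab of windows -/

def box : Set ℂ := {z | |z.re| ≤ 8 ∧ |z.im| ≤ 8}

def slab (r₁ r₀ : ℝ) : Set (ℂ × ℝ) := box ×ˢ Icc r₁ r₀

/-- `G` is a relatively open subset of `S` -/
def RelOpen (S G : Set (ℂ × ℝ)) : Prop :=
  G ⊆ S ∧ ∀ w ∈ G, ∃ ε > (0 : ℝ), ∀ w' ∈ S, dist w' w < ε → w' ∈ G

namespace MCol

variable (c : MCol)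

/-- colour `k` is not seen by the unit circle around `y` -/
def N (y : ℂ) (k : Fin 5) : Prop := ∀ᵐ γ : ℝ, y + cis γ ∉ c.D k

/-- colour `k` occurs near `v` -/
def P (v : ℂ) (k : Fin 5) : Prop := v ∈ closure (c.D k)

/-- directions whose circle through `v` sees every colour but `j`, `k` -/
def U (v : ℂ) (j k : Fin 5) : Set ℝ := {θ | ∀ l, c.N (v + cis θ) l → l = j ∨ l = k}

/-- colour proportions in a window -/
def p (x : ℂ) (r : ℝ) : Fin 5 → ℝ := fun i => pr (c.D i) x r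

/-- limit of the proportions of windows shrinking to `v` -/
def Lim (v : ℂ) (q : Fin 5 → ℝ) : Prop :=
  ∀ δ > (0 : ℝ), ∃ (x : ℂ) (r : ℝ), ‖x - v‖ < δ ∧ 0 < r ∧ r < δ ∧ ∀ i, |c.p x r i - q i| < δ

/-- the graph `Γ_v` -/
def Adj (v : ℂ) (i j : Fin 5) : Prop :=
  i ≠ j ∧ ∃ q, c.Lim v q ∧ 0 < q i ∧ 0 < q j ∧ q i + q j = 1

/-- `a` cannot end near `v` without `b` appearing -/
def Link (v : ℂ) (a b : Fin 5) : Prop :=
  a ≠ b ∧ ∃ (R : Set ℂ) (c₀ : ℝ), MeasurableSet R ∧ 0 < c₀ ∧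
    (∀ K ≥ (1 : ℝ), ∀ δ > (0 : ℝ), ∃ (x : ℂ) (r : ℝ), ‖x - v‖ < δ ∧ 0 < r ∧ r < δ ∧
      pr (c.D a) x r = 1 / 2 ∧ pr R x (K * r) < δ) ∧
    ∃ δ₀ > (0 : ℝ), ∀ (x : ℂ) (r : ℝ), ‖x - v‖ < δ₀ → 0 < r → r < δ₀ → pr (c.D a) x r = 1 / 2 →
      c₀ ≤ pr (c.D b) x r + pr R x r

/-- near `v` the colours `a`, `b` are approximately separated by a function of a coordinate `ψ ≈ ⟪e, ·⟫` -/
def ASep (v : ℂ) (a b : Fin 5) (e : ℂ) : Prop :=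
  ∀ η > (0 : ℝ), ∀ K ≥ (1 : ℝ), ∃ δ > (0 : ℝ), ∀ (x : ℂ) (r : ℝ), ‖x - v‖ < δ → 0 < r → r < δ →
    ∃ (ψ : ℂ → ℝ) (B : Set ℝ) (E : Set ℂ), MeasurableSet B ∧ MeasurableSet E ∧
      (∀ z ∈ ball x (K * r), ∀ z' ∈ ball x (K * r),
        |ψ z - ψ z' - (e.re * (z - z').re + e.im * (z - z').im)| ≤ η * ‖z - z'‖) ∧
      volume.real (E ∩ ball x (K * r)) ≤ η * r ^ 2 ∧
      (∀ z ∈ ball x (K * r), z ∉ E → z ∈ c.D a → ψ z ∉ B) ∧
      (∀ z ∈ ball x (K * r), z ∉ E → z ∈ c.D b → ψ z ∈ B)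

/-- colour `k` is asymptotically absent on the arcs `x + cis θ`, `θ` near `t`, as `x → v` -/
def Abs (v : ℂ) (k : Fin 5) (t : ℝ) : Prop :=
  ∃ s > (0 : ℝ), ∀ ε > (0 : ℝ), ∃ δ > (0 : ℝ), ∀ x : ℂ, ‖x - v‖ < δ →
    volume.real {θ | θ ∈ Ioo (t - s) (t + s) ∧ x + cis θ ∈ c.D k} < ε

/-- three colours at `v`, and every circle through `v` misses one of the other two -/
structure TriHyp (v : ℂ) (a b g d e : Fin 5) : Prop where
  all : ∀ k, k = a ∨ k = b ∨ k = g ∨ k = d ∨ k = e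
  pa : c.P v a
  pb : c.P v b
  pg : c.P v g
  de : ∀ᵐ θ : ℝ, c.N (v + cis θ) d ∨ c.N (v + cis θ) e

/-- a blow-up of the colouring at `v` -/
structure Tangent (v : ℂ) (μ : Fin 5 → ℂ → ℝ) : Prop where
  fr : ∀ i, Fr (μ i)
  sum : ∀ᵐ z : ℂ, ∑ i, μ i z = 1
  lim : ∀ (z : ℂ) (ρ : ℝ), 0 < ρ → c.Lim v fun i => av (μ i) z ρ
  ker : ∀ j k, Ker (μ j) (μ k) (c.U v j k)

/-- four colours have proportion at least `κ` -/
def Four (κ : ℝ) (x : ℂ) (r : ℝ) : Prop := ∃ e, ∀ i, i ≠ e → κ ≤ c.p x r i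

/-- close to a point of the box whose graph is a 4-cycle -/
def Near (x : ℂ) (t : ℝ) : Prop := ∃ v ∈ box, Cyc (c.Adj v) ∧ ‖x - v‖ < t

/-- label from a 4-cycle with a rare colour deleted -/
def Lab4 (ε δ : ℝ) (x : ℂ) (r : ℝ) (i : Fin 5) : Prop :=
  ∃ v ∈ box, Cyc (c.Adj v) ∧ ‖x - v‖ < δ ∧ ∃ l, (∃ j, c.Adj v l j) ∧ c.p x r l < ε ∧
    Lab (del (c.Adj v) l) (1 / 2 + ε) (c.p x r) i

/-- label from a forest chart -/
def LabF (T : Finset (ℂ × ℝ)) (β : ℝ) (x : ℂ) (r : ℝ) (i : Fin 5) : Prop :=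
  ∃ q ∈ T, ‖x - q.1‖ < q.2 ∧ Lab (c.Adj q.1) β (c.p x r) i

end MCol

end Crest.Agent.R040

end
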