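import Crest.Agent.R040.FrameExAux

/-! # Row 40, Step 1: existence of frames -/

set_option autoImplicit false

open MeasureTheory Filter Topology Set

noncomputable section

namespace Crest.Agent.R040

/-- `a = √2 - 1`, `b = √(2√2 - 2)`, `ε = a + ib`.  Infinite order: `s_k = ε^k + ε^{-k} = p_k + q_k √2` with integers `p_k, q_k` (`s_{k+2} = 2a s_{k+1} - s_k`); the conjugates `s'_k = p_k - q_k √2` satisfy the recursion with
`a' = -√2 - 1`, so `|s'_k|` increases strictly from `2`; `s_k = 2` would give `q_k = 0`, `p_k = 2` (`irrational_sqrt_two`), `s'_k = 2`. -/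
theorem exists_salem : ∃ a b : K, (a : ℂ).im = 0 ∧ (b : ℂ).im = 0 ∧ IsIntegral ℤ a ∧ IsIntegral ℤ b ∧
    a ^ 2 + b ^ 2 = 1 ∧ ∀ k : ℕ, 0 < k → (a + b * iK) ^ k ≠ 1 := by
  exact fx_salem

/-- Common `k`, `m` (`5 ∤ m`) with `y_b = m π̄^k b / π` integral.  `R₀ = Algebra.adjoin ℤ {y_b + cj y_b, i(cj y_b - y_b), a, b}` consists of real numbers, is a finite torsion-free, hence free, `ℤ`-module: basis `β`
(`Module.finBasis`; `ℤ`-independent ⇒ `ℚ`-independent, `LinearIndependent.iff_fractionRing`).  `R = R₀ + iR₀ = {z | ∃ H, Ht β z H}` is a ring; `mul` from the structure constants.  `α_j = π(π - π̄) + π̄² β_j`,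
`cj α_j = 1 + π²(β_j - 1) ≠ 0` (`π^{-2}` is not real), `w_j = α_j / cj α_j`.  With `γ = π(β_j - 1)` integral, root of a monic `p`, `s = 1 + πγ`: `∑ p_l π^{d-l}(s - 1)^l = 0` gives a Gaussian integer `c_j ≡ ±1 mod π` with
`c_j / s ∈ R`.  `c = 2 m π̄^k ∏ c_j ≡ c₀ mod π` with `c₀ ∈ ℤ`, `5 ∤ c₀` (`i ≡ -2`, `π̄ ≡ -1 mod π`, `5 = π π̄`); `c w_j ≡ c α_j ≡ c₀ β_j mod πR`, which gives `span`. -/
theorem exists_frame (B : Finset K) (hB : ∀ b ∈ B, b ∈ deep 1) : Nonempty (Frame B) := by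
  exact fx_frame B hB

end Crest.Agent.R040

end
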