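import Crest.Agent.R040.Defs1

/-! # Row 40, Step 1: the maximal ergodic inequality -/

set_option autoImplicit false

open MeasureTheory Filter Topology Set

noncomputable section

namespace Crest.Agent.R040

/-- the truncated maximal function -/
def hopfM {Ω : Type*} (S : Ω → Ω) (g : Ω → ℝ) : ℕ → Ω → ℝ
  | 0 => fun _ => 0
  | n + 1 => fun x => max 0 (g x + hopfM S g n (S x))

theorem hopfM_nonneg {Ω : Type*} (S : Ω → Ω) (g : Ω → ℝ) (n : ℕ) (x : Ω) : 0 ≤ hopfM S g n x := by
  cases n with
  | zero => exact le_rfl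
  | succ n => exact le_max_left _ _

theorem hopfM_mono {Ω : Type*} (S : Ω → Ω) (g : Ω → ℝ) (n : ℕ) (x : Ω) :
    hopfM S g n x ≤ hopfM S g (n + 1) x := by
  induction n generalizing x with
  | zero => exact hopfM_nonneg S g 1 x
  | succ n ih => exact max_le_max le_rfl (by linarith [ih (S x)])

theorem hopfM_ge {Ω : Type*} (S : Ω → Ω) (g : Ω → ℝ) (n : ℕ) (x : Ω) :
    ∑ k ∈ Finset.range n, g (S^[k] x) ≤ hopfM S g n x := by
  induction n generalizing x with
  | zero => simp [hopfM]
  | succ n ih =>
    rw [Finset.sum_range_succ']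
    simp only [Function.iterate_succ_apply, Function.iterate_zero_apply]
    exact le_trans (by linarith [ih (S x)]) (le_max_right _ _)

theorem hopfM_meas {Ω : Type*} [MeasurableSpace Ω] {S : Ω → Ω} (hS : Measurable S) {g : Ω → ℝ}
    (hg : Measurable g) (n : ℕ) : Measurable (hopfM S g n) := by
  induction n with
  | zero => exact measurable_const
  | succ n ih => exact measurable_const.max (hg.add (ih.comp hS))

theorem hopfM_int {Ω : Type*} [MeasurableSpace Ω] {μ : Measure Ω} {S : Ω → Ω}
    (hS : MeasurePreserving S μ μ) {g : Ω → ℝ} (hg : Integrable g μ) (n : ℕ) :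
    Integrable (hopfM S g n) μ := by
  induction n with
  | zero => exact integrable_zero _ _ _
  | succ n ih => exact (integrable_zero _ _ _).sup (hg.add (hS.integrable_comp_of_integrable ih))

/-- Garsia: `g = f - lam`, `M_0 = 0`, `M_{n+1} x = max 0 (g x + M_n (S x))`; on `{M_{N+1} > 0}`: `g = M_{N+1} - M_N ∘ S ≥ M_{N+1} - M_{N+1} ∘ S`, so `∫_{M_{N+1} > 0} g ≥ 0`.  (Crest/Agent/R072/Max.lean has the finite version.) -/
theorem hopf {Ω : Type*} [MeasurableSpace Ω] (μ : Measure Ω) [IsFiniteMeasure μ] (S : Ω → Ω)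
    (hS : MeasurePreserving S μ μ) (f : Ω → ℝ) (hf : Measurable f) (hi : Integrable f μ)
    (h0 : ∀ x, 0 ≤ f x) (lam : ℝ) (hlam : 0 < lam) :
    μ.real {x | ∃ n : ℕ, lam * n < ∑ k ∈ Finset.range n, f (S^[k] x)} ≤ (∫ x, f x ∂μ) / lam := by
  set g : Ω → ℝ := fun x => f x - lam with hg
  have hgm : Measurable g := hf.sub_const lam
  have hgi : Integrable g μ := hi.sub (integrable_const lam)
  set E : ℕ → Set Ω := fun n => {x | 0 < hopfM S g (n + 1) x} with hE
  have hEm : ∀ n, MeasurableSet (E n) := fun n =>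
    measurableSet_lt measurable_const (hopfM_meas hS.measurable hgm _)
  have hmono : Monotone E := monotone_nat_of_le_succ fun n x hx =>
    lt_of_lt_of_le hx (hopfM_mono S g _ x)
  have h1 : ∀ n, μ.real (E n) ≤ (∫ x, f x ∂μ) / lam := by
    intro n
    have i1 := hopfM_int hS hgi (n + 1)
    have i2 : Integrable (fun x => hopfM S g (n + 1) (S x)) μ := hS.integrable_comp_of_integrable i1
    have e1 : ∫ x, hopfM S g (n + 1) (S x) ∂μ = ∫ x, hopfM S g (n + 1) x ∂μ := by
      have := integral_map (μ := μ) hS.measurable.aemeasurable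
        (hopfM_meas hS.measurable hgm (n + 1)).aestronglyMeasurable
      rw [hS.map_eq] at this
      exact this.symm
    have h2 : ∫ x, (E n).indicator (fun _ => lam) x ∂μ ≤
        ∫ x, (f x - hopfM S g (n + 1) x + hopfM S g (n + 1) (S x)) ∂μ := by
      refine integral_mono ((integrable_const lam).indicator (hEm n)) ((hi.sub i1).add i2) fun x => ?_
      have a1 := hopfM_mono S g n (S x)
      have a2 := hopfM_nonneg S g (n + 1) (S x)
      have a3 := h0 x
      by_cases hx : x ∈ E n
      · rw [indicator_of_mem hx]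
        have a4 : hopfM S g (n + 1) x = f x - lam + hopfM S g n (S x) := by
          have a5 : 0 < max 0 (g x + hopfM S g n (S x)) := hx
          exact max_eq_right (by simpa using (lt_max_iff.1 a5).resolve_left (lt_irrefl _) |>.le)
        linarith
      · rw [indicator_of_notMem hx]
        have a4 : hopfM S g (n + 1) x ≤ 0 := not_lt.1 hx
        linarith
    have i3 : Integrable (fun x => f x - hopfM S g (n + 1) x) μ := hi.sub i1
    rw [integral_indicator_const _ (hEm n), integral_add i3 i2, integral_sub hi i1, e1,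
      smul_eq_mul] at h2
    rw [le_div_iff₀ hlam]
    linarith
  have hsub : {x | ∃ n : ℕ, lam * n < ∑ k ∈ Finset.range n, f (S^[k] x)} ⊆ ⋃ n, E n := by
    rintro x ⟨n, hn⟩
    refine mem_iUnion.2 ⟨n, lt_of_lt_of_le ?_ ((hopfM_ge S g n x).trans (hopfM_mono S g n x))⟩
    simp only [hg, Finset.sum_sub_distrib, Finset.sum_const, Finset.card_range, nsmul_eq_mul]
    linarith
  refine (measureReal_mono hsub).trans ?_
  have h3 := (ENNReal.tendsto_toReal (measure_ne_top μ _)).comp (tendsto_measure_iUnion_atTop hmono)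
  exact le_of_tendsto' h3 h1

end Crest.Agent.R040

end
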