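import Crest.Agent.R040.FrameApi

/-! # Row 40, Step 1: patching the slopes -/

set_option autoImplicit false

open MeasureTheory Filter Topology Set

noncomputable section

namespace Crest.Agent.R040

section Aux

variable {B : Finset K} (F : Frame B)

/-- membership in the order `R` -/
def PatchR (z : K) : Prop := ∃ h, Ht F.β z h

/-- membership in the field of fractions `L` -/
def PatchL (z : K) : Prop := ∃ a : ℤ, a ≠ 0 ∧ PatchR F ((a : K) * z)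

variable {F}

theorem PatchR.mul {z w : K} (hz : PatchR F z) (hw : PatchR F w) : PatchR F (z * w) := by
  obtain ⟨h, hz⟩ := hz
  obtain ⟨h', hw⟩ := hw
  exact ⟨_, F.mul _ _ _ _ hz hw⟩

theorem patch_int_mul {z : K} {h : ℝ} (hz : Ht F.β z h) (a : ℤ) :
    Ht F.β ((a : K) * z) (‖(a : K)‖ * h) := by
  simpa using hz.gauss_mul a 0

theorem patchR_den (n : ℕ) : PatchR F (F.c * piK ^ n) := by
  obtain ⟨a, b, hc⟩ := F.c_gauss
  have := ((F.one.pi_pow_mul n).1).gauss_mul a b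
  rw [← hc, mul_one] at this
  exact ⟨_, this⟩

theorem patchR_pow {v : K} (hv : PatchR F v) (k : ℕ) : PatchR F (v ^ k) := by
  induction k with
  | zero => exact ⟨_, by simpa using F.one⟩
  | succ k ih => rw [pow_succ]; exact ih.mul hv

theorem patch_piK_ne : piK ≠ 0 := by
  intro h
  have := norm_piK
  rw [h, norm_zero] at this
  exact (Real.sqrt_pos.2 (by norm_num : (0 : ℝ) < 5)).ne this

theorem PatchL.mul {v z : K} (hv : PatchR F v) (hz : PatchL F z) : PatchL F (v * z) := by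
  obtain ⟨a, ha, hz⟩ := hz
  exact ⟨a, ha, by rw [mul_left_comm]; exact hv.mul hz⟩

theorem patch_key {χ : X} {ρ ρ' : K →+ ℝ} {n n' : ℕ} {H H' : ℝ} (h : F.Lin χ ρ n H)
    (h' : F.Lin χ ρ' n' H') (hn : n ≤ n') (hH : 2 * F.C * H * H' < √5 ^ n) {z : K}
    (hz : PatchL F z) : ρ z = ρ' z := by
  obtain ⟨q, hq0, hq, h⟩ := h
  obtain ⟨q', hq0', hq', h'⟩ := h'
  obtain ⟨d, rfl⟩ := Nat.exists_eq_add_of_le hn
  have hπ := patch_piK_ne
  have hc := F.c_ne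
  have h5 : (0 : ℝ) < √5 := Real.sqrt_pos.2 (by norm_num)
  have h1 : ∀ y, Ht F.β y 1 →
      ρ (q * q' * y / (F.c * piK ^ n)) = ρ' (q * q' * y / (F.c * piK ^ n)) := by
    intro y hy
    obtain ⟨a1, a2⟩ := h _ _ (F.mul _ _ _ _ hq' hy)
    obtain ⟨b1, b2⟩ := h' _ _ ((F.mul _ _ _ _ hq hy).pi_pow_mul d).1
    have e : q' * (piK ^ d * (q * y)) / (F.c * piK ^ (n + d)) = q * q' * y / (F.c * piK ^ n) := by
      rw [pow_add]
      field_simp
    rw [e] at b1 b2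
    rw [← mul_assoc] at a1 a2
    refine eq_of_ee_eq (a1.symm.trans b1) ((abs_sub _ _).trans_lt ((add_le_add a2 b2).trans_lt ?_))
    have e2 : H * (F.C * H' * 1) / √5 ^ n + H' * (√5 ^ d * (F.C * H * 1)) / √5 ^ (n + d) =
        2 * F.C * H * H' / √5 ^ n := by
      rw [pow_add]
      field_simp
      ring
    rw [e2, div_lt_one (by positivity)]
    exact hH
  have h2 : ∀ y, PatchR F y →
      ρ (q * q' * y / (F.c * piK ^ n)) = ρ' (q * q' * y / (F.c * piK ^ n)) := by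
    rintro y ⟨hy, hy'⟩
    refine F.induction_on (fun y => ρ (q * q' * y / (F.c * piK ^ n)) =
      ρ' (q * q' * y / (F.c * piK ^ n))) (by simp) (fun x y hx hy => ?_) (fun x hx => ?_)
      (fun j => ⟨h1 _ (ht_beta F.β j).1, h1 _ (ht_beta F.β j).2⟩) hy'
    · simp only [mul_add, add_div, map_add, hx, hy]
    · simp only [mul_neg, neg_div, map_neg, hx]
  obtain ⟨a, ha, hz⟩ := hz
  obtain ⟨a', y', h'', ha', hy', e⟩ :=
    F.exists_int_mul (F.mul _ _ _ _ hq hq') (mul_ne_zero hq0 hq0')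
  have h3 := h2 _ ((PatchR.mul ⟨_, hy'⟩ hz).mul (patchR_den n))
  have e3 : q * q' * (y' * ((a : K) * z) * (F.c * piK ^ n)) / (F.c * piK ^ n) = (a' * a) • z := by
    rw [zsmul_eq_mul, Int.cast_mul, e]
    field_simp
  rw [e3, map_zsmul, map_zsmul, zsmul_eq_mul, zsmul_eq_mul] at h3
  exact mul_left_cancel₀ (by exact_mod_cast mul_ne_zero ha' ha) h3

theorem patch_rot {χ : X} {ρ : K →+ ℝ} {n : ℕ} {H : ℝ} (h : F.Lin χ ρ n H) {v : K} {hv C' : ℝ}
    (hv' : Ht F.β v hv) (h1 : 1 ≤ C') (h2 : F.C * hv ≤ C') :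
    F.Lin (rot v χ) (ρ.comp (AddMonoidHom.mulLeft v)) n (H * C') := by
  obtain ⟨q, hq0, hq, h⟩ := h
  have hH := F.ht_nonneg hq
  refine ⟨q, hq0, hq.mono (le_mul_of_one_le_right hH h1), fun y hy hy' => ?_⟩
  obtain ⟨a1, a2⟩ := h _ _ (F.mul _ _ _ _ hv' hy')
  have e : v * (q * y / (F.c * piK ^ n)) = q * (v * y) / (F.c * piK ^ n) := by ring
  simp only [rot_apply, AddMonoidHom.comp_apply, AddMonoidHom.coe_mulLeft, e]
  refine ⟨a1, a2.trans (div_le_div_of_nonneg_right ?_ (by positivity))⟩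
  rw [mul_assoc H]
  exact mul_le_mul_of_nonneg_left (mul_le_mul_of_nonneg_right h2 (F.ht_nonneg hy')) hH

theorem patch_common (S : Finset K) (hS : ∀ q ∈ S, q ≠ 0 ∧ PatchR F q) :
    ∃ (Q : ℤ) (h₀ : ℝ), Q ≠ 0 ∧ ∀ q ∈ S, ∃ y, Ht F.β y h₀ ∧ (Q : K) = q * y := by
  classical
  induction S using Finset.induction_on with
  | empty => exact ⟨1, 0, one_ne_zero, by simp⟩
  | insert q S _ ih =>
    obtain ⟨Q, h₀, hQ, h⟩ := ih fun q hq => hS q (Finset.mem_insert_of_mem hq)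
    obtain ⟨hq0, H, hq⟩ := hS q (Finset.mem_insert_self q S)
    obtain ⟨a, y, hy, ha, hy', e⟩ := F.exists_int_mul hq hq0
    refine ⟨a * Q, max (‖(Q : K)‖ * hy) (‖(a : K)‖ * h₀), mul_ne_zero ha hQ, fun q' hq' => ?_⟩
    rcases Finset.mem_insert.1 hq' with rfl | hq'
    · exact ⟨Q * y, (patch_int_mul hy' Q).mono (le_max_left _ _), by rw [Int.cast_mul, e]; ring⟩
    · obtain ⟨y', h1, h2⟩ := h q' hq'
      exact ⟨a * y', (patch_int_mul h1 a).mono (le_max_right _ _), by rw [Int.cast_mul, h2]; ring⟩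

theorem patch_num {C A : ℝ} (hC : 1 ≤ C) (hA : 1 ≤ A) {n₀ : ℕ}
    (h : 2 * C * A ^ 3 < Real.exp (42 / 100 * n₀)) (j : ℕ) :
    2 * C * (A ^ (j + 1) * Real.exp (6 / 100 * (2 ^ j * n₀))) *
      (A ^ (j + 1 + 1) * Real.exp (6 / 100 * (2 ^ (j + 1) * n₀))) < √5 ^ (2 ^ j * n₀) := by
  have hj : j + 1 ≤ 2 ^ j := Nat.lt_two_pow_self
  have h1 : 2 * C * A ^ (2 * j + 3) ≤ (2 * C * A ^ 3) ^ (2 ^ j) := by
    rw [mul_pow, ← pow_mul]
    exact mul_le_mul (le_self_pow₀ (by linarith) (by positivity))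
      (pow_le_pow_right₀ hA (by omega)) (by positivity) (by positivity)
  have h2 : (2 * C * A ^ 3) ^ (2 ^ j) < Real.exp (42 / 100 * (2 ^ j * n₀)) := by
    refine (pow_lt_pow_left₀ h (by positivity) (by positivity)).trans_eq ?_
    rw [← Real.exp_nat_mul]
    congr 1
    push_cast
    ring
  have h3 : Real.exp (60 / 100) ≤ √5 := by
    rw [Real.le_sqrt (Real.exp_pos _).le (by norm_num), ← Real.exp_nat_mul]
    have e1 := Real.exp_one_lt_d9
    have e2 : Real.exp (1 / 5) ≤ 1 / (1 - 1 / 5) :=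
      Real.exp_bound_div_one_sub_of_interval (by norm_num) (by norm_num)
    rw [show ((2 : ℕ) : ℝ) * (60 / 100) = 1 + 1 / 5 by norm_num, Real.exp_add]
    nlinarith [Real.exp_pos 1, Real.exp_pos (1 / 5)]
  have h4 : Real.exp (60 / 100 * (2 ^ j * n₀)) ≤ √5 ^ (2 ^ j * n₀) := by
    refine le_trans (le_of_eq ?_) (pow_le_pow_left₀ (Real.exp_pos _).le h3 _)
    rw [← Real.exp_nat_mul]
    congr 1
    push_cast
    ring
  calc _ = 2 * C * A ^ (2 * j + 3) * (Real.exp (6 / 100 * (2 ^ j * n₀)) *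
        Real.exp (6 / 100 * (2 ^ (j + 1) * n₀))) := by ring
    _ < Real.exp (42 / 100 * (2 ^ j * n₀)) * (Real.exp (6 / 100 * (2 ^ j * n₀)) *
        Real.exp (6 / 100 * (2 ^ (j + 1) * n₀))) :=
      mul_lt_mul_of_pos_right (h1.trans_lt h2) (by positivity)
    _ = Real.exp (60 / 100 * (2 ^ j * n₀)) := by
      rw [← Real.exp_add, ← Real.exp_add]
      congr 1
      ring
    _ ≤ _ := h4

end Aux

/-- Key lemma: `Lin χ ρ n H`, `Lin χ ρ' n' H'`, `n ≤ n'`, `2 C H H' < √5^n` ⇒ `ρ = ρ'` on `L = {y / a | y ∈ R, a ∈ ℤ}`: test on `x = q q' y/(cπ^n) = q'(q y π^{n'-n})/(cπ^{n'})` for `y = β_j, iβ_j` (`eq_of_ee_eq`), extend additively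
(`induction_on`), then `exists_int_mul` and `ℚ`-linearity (`1/c`, `1/π` lie in `L`).  For `n₀` large consecutive slopes agree, so one `ρ` works at all scales.  If `ρ` works for `χ` at scale `n` with `H`, then `ρ ∘ (v ·)` works for `rot v χ` with `C' H` when `v ∈ R`
(`v = ε^k`, same `q`; `C'` depends on `k`); at a scale `j` large (depending on `k`) the key lemma shows that the slope `ρ₁` of `rot (ε^k) χ` is `ρ(ε^k ·)` on `L`.  `Q ≠ 0` an integer with `Q = q y_q`, `Ht y_q h₀`, for all of the finitely many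
`q ≠ 0` of height `≤ H₀` (scale `j = 0`); `z₀ = Q/(cπ^{n₀})`, `|ρ z₀|, |ρ₁ z₀| ≤ H₀ h₀`; `ε^k - 1 = m y` (`eps_pow`, `m` large), `b = y z₀ ≠ 0`, `χ b = ee(ρ b)`, `m ρ b = ρ₁ z₀ - ρ z₀`. -/
theorem patch {B : Finset K} (F : Frame B) (A : ℝ) (hA : 1 ≤ A) : ∃ n₀ : ℕ, ∀ δ > (0 : ℝ),
    ∃ (k : ℕ) (b : K), b ≠ 0 ∧ ∀ χ : X, F.AllLin A n₀ χ → F.AllLin A n₀ (rot (F.ε ^ k) χ) →
      ‖1 - χ.1 b‖ ≤ δ := by
  classical
  obtain ⟨n₀, hn₀⟩ := exists_nat_gt (3 * (2 * F.C * A ^ 3))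
  have hC := F.one_le
  have hpos : 0 < 2 * F.C * A ^ 3 := by positivity
  have hnum : 2 * F.C * A ^ 3 < Real.exp (42 / 100 * n₀) := by
    have := Real.add_one_le_exp (42 / 100 * (n₀ : ℝ))
    linarith
  have hn1 : (1 : ℝ) ≤ n₀ := by
    have : 0 < n₀ := by exact_mod_cast (show (0 : ℝ) < n₀ by linarith)
    exact_mod_cast this
  refine ⟨n₀, fun δ hδ => ?_⟩
  set H : ℕ → ℝ := fun j => A ^ (j + 1) * Real.exp (6 / 100 * (2 ^ j * n₀)) with hH
  have hH0 : ∀ j, 0 < H j := fun j => by positivity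
  have hall : ∀ (χ : X) (ρ : ℕ → K →+ ℝ), (∀ j, F.Lin χ (ρ j) (2 ^ j * n₀) (H j)) →
      ∀ j z, PatchL F z → ρ 0 z = ρ j z := by
    intro χ ρ hρ j z hz
    induction j with
    | zero => rfl
    | succ j ih =>
      rw [ih]
      exact patch_key (hρ j) (hρ (j + 1)) (Nat.mul_le_mul_right _ (Nat.pow_le_pow_right two_pos
        (Nat.le_succ j))) (patch_num hC hA hnum j) hz
  obtain ⟨Q, h₀, hQ, hQ'⟩ := patch_common (F := F)
    ((ht_finite F.β (H 0)).toFinset.filter (· ≠ 0)) fun q hq => by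
      rw [Finset.mem_filter, Set.Finite.mem_toFinset] at hq
      exact ⟨hq.2, _, hq.1⟩
  set z₀ : K := Q / (F.c * piK ^ (2 ^ 0 * n₀)) with hz₀
  have hden : F.c * piK ^ (2 ^ 0 * n₀) ≠ 0 := mul_ne_zero F.c_ne (pow_ne_zero _ patch_piK_ne)
  have hz0 : z₀ ≠ 0 := div_ne_zero (by exact_mod_cast hQ) hden
  have hzL : PatchL F z₀ := by
    obtain ⟨h, hh⟩ := patchR_den (F := F) (2 ^ 0 * n₀)
    obtain ⟨a, y, hy, ha, hy', e⟩ := F.exists_int_mul hh hden
    have e' : (a : K) * z₀ = Q * y := by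
      rw [e, hz₀, mul_right_comm, mul_div_cancel₀ _ hden]
    refine ⟨a, ha, ?_⟩
    rw [e']
    exact ⟨_, patch_int_mul hy' Q⟩
  have hbase : ∀ (χ : X) (ρ : K →+ ℝ), F.Lin χ ρ (2 ^ 0 * n₀) (H 0) →
      |ρ z₀| ≤ H 0 * |h₀| ∧ ∀ y, PatchR F y → χ.1 (y * z₀) = ee (ρ (y * z₀)) := by
    rintro χ ρ ⟨q, hq0, hq, h⟩
    obtain ⟨y, hy, e⟩ := hQ' q (by
      rw [Finset.mem_filter, Set.Finite.mem_toFinset]
      exact ⟨hq, hq0⟩)
    constructor
    · have h1 := (h y h₀ hy).2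
      rw [← e] at h1
      refine h1.trans ((div_le_self (mul_nonneg (hH0 0).le (F.ht_nonneg hy))
        (one_le_pow₀ (Real.one_le_sqrt.2 (by norm_num)))).trans ?_)
      exact mul_le_mul_of_nonneg_left (le_abs_self _) (hH0 0).le
    · rintro y' ⟨h', hy'⟩
      have h1 := (h _ _ (F.mul _ _ _ _ hy hy')).1
      have e' : y' * z₀ = q * (y * y') / (F.c * piK ^ (2 ^ 0 * n₀)) := by
        rw [hz₀, e]
        ring
      rw [e']
      exact h1
  obtain ⟨m, hm⟩ := exists_nat_gt (2 * Real.pi * (2 * (H 0 * |h₀|)) / δ)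
  have hM : 0 ≤ H 0 * |h₀| := mul_nonneg (hH0 0).le (abs_nonneg _)
  have hm0 : (0 : ℝ) < m := lt_of_le_of_lt (by positivity) hm
  obtain ⟨k, y, hy, hk, hy', e⟩ := F.eps_pow m (by exact_mod_cast hm0)
  have hy0 : y ≠ 0 := by
    rintro rfl
    exact F.ε_pow k hk (by rwa [mul_zero, sub_eq_zero] at e)
  refine ⟨k, y * z₀, mul_ne_zero hy0 hz0, fun χ h1 h2 => ?_⟩
  choose ρ hρ using h1
  choose ρ' hρ' using h2
  obtain ⟨hv, hv'⟩ := patchR_pow (F := F) ⟨_, F.ε_ht⟩ k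
  obtain ⟨j, hj⟩ := exists_nat_gt (100 * max 1 (F.C * hv))
  have hC' : H j * max 1 (F.C * hv) ≤ H (j + 1) := by
    have e1 : H (j + 1) = H j * (A * Real.exp (6 / 100 * (2 ^ j * n₀))) := by
      simp only [hH]
      rw [show (6 : ℝ) / 100 * (2 ^ (j + 1) * n₀) = 6 / 100 * (2 ^ j * n₀) + 6 / 100 * (2 ^ j * n₀)
        by ring, Real.exp_add]
      ring
    rw [e1]
    refine mul_le_mul_of_nonneg_left (le_trans ?_ (le_mul_of_one_le_left (Real.exp_pos _).le hA))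
      (hH0 j).le
    have e2 := Real.add_one_le_exp (6 / 100 * (2 ^ j * (n₀ : ℝ)))
    have e3 : (j : ℝ) ≤ 2 ^ j := by exact_mod_cast Nat.lt_two_pow_self.le
    have e4 : (2 : ℝ) ^ j ≤ 2 ^ j * n₀ := le_mul_of_one_le_right (by positivity) hn1
    have e5 : (0 : ℝ) ≤ j := Nat.cast_nonneg j
    linarith
  have h3 : ρ' j z₀ = ρ j (F.ε ^ k * z₀) :=
    patch_key (hρ' j) (patch_rot (hρ j) hv' (le_max_left _ _) (le_max_right _ _)) le_rfl
      (lt_of_le_of_lt (mul_le_mul_of_nonneg_left hC' (by have := hH0 j; positivity))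
        (patch_num hC hA hnum j)) hzL
  rw [← hall _ ρ' hρ' j z₀ hzL, ← hall _ ρ hρ j _ (hzL.mul ⟨_, hv'⟩)] at h3
  obtain ⟨a1, a2⟩ := hbase χ (ρ 0) (hρ 0)
  obtain ⟨b1, -⟩ := hbase _ (ρ' 0) (hρ' 0)
  have h4 : (m : ℝ) * ρ 0 (y * z₀) = ρ' 0 z₀ - ρ 0 z₀ := by
    rw [h3, ← map_sub, ← nsmul_eq_mul, ← map_nsmul, nsmul_eq_mul, ← mul_assoc, ← e]
    congr 1
    ring
  have h5 : (m : ℝ) * |ρ 0 (y * z₀)| ≤ 2 * (H 0 * |h₀|) := by
    have := abs_sub (ρ' 0 z₀) (ρ 0 z₀)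
    rw [← h4, abs_mul, abs_of_pos hm0] at this
    linarith
  rw [a2 y ⟨_, hy'⟩, norm_sub_rev]
  refine (norm_ee_sub_one _).trans ?_
  rw [div_lt_iff₀ hδ] at hm
  have h6 := mul_le_mul_of_nonneg_left h5 (show 0 ≤ 2 * Real.pi by positivity)
  refine le_of_mul_le_mul_left ?_ hm0
  linarith

end Crest.Agent.R040

end
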