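import Crest.Agent.R040.Defs1

/-! # Row 40, Step 1: Rota's maximal inequality -/

set_option autoImplicit false

open MeasureTheory Filter Topology Set

noncomputable section

namespace Crest.Agent.R040

/-- Averages over rotations. -/
def rotaAv (s : Finset K) (τ : K → K) (f : X → ℝ) (χ : X) : ℝ :=
  (∑ v ∈ s, f (rot (τ v) χ)) / s.card

/-- Measurable functions with values in `[0, 1]`. -/
def rotaB (f : X → ℝ) : Prop := Measurable f ∧ ∀ χ, 0 ≤ f χ ∧ f χ ≤ 1

section
variable {s : Finset K} {τ : K → K} {f g : X → ℝ}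

theorem rotaAv_meas (hf : Measurable f) : Measurable (rotaAv s τ f) :=
  (Finset.measurable_sum s fun v _ => hf.comp (rot_measurable (τ v))).div_const _

theorem rotaAv_mono (h : ∀ χ, f χ ≤ g χ) (χ : X) : rotaAv s τ f χ ≤ rotaAv s τ g χ :=
  div_le_div_of_nonneg_right (Finset.sum_le_sum fun _ _ => h _) (Nat.cast_nonneg _)

theorem rotaAv_add_const (hs : s.Nonempty) (c : ℝ) (χ : X) :
    rotaAv s τ (fun x => f x + c) χ = rotaAv s τ f χ + c := by
  have : (s.card : ℝ) ≠ 0 := Nat.cast_ne_zero.2 hs.card_pos.ne'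
  rw [rotaAv, rotaAv, Finset.sum_add_distrib, Finset.sum_const, nsmul_eq_mul]
  field_simp

theorem rotaB.av (hf : rotaB f) : rotaB (rotaAv s τ f) :=
  ⟨rotaAv_meas hf.1, fun _ => ⟨div_nonneg (Finset.sum_nonneg fun _ _ => (hf.2 _).1)
    (Nat.cast_nonneg _), div_le_one_of_le₀ (by
      simpa using Finset.sum_le_card_nsmul s _ 1 fun _ _ => (hf.2 _).2) (Nat.cast_nonneg _)⟩⟩

theorem rota_int (μ : Measure X) [IsFiniteMeasure μ] (hf : rotaB f) (hg : rotaB g) (c : ℝ) :
    Integrable (fun χ => (f χ + c) * g χ) μ :=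
  Integrable.of_bound ((hf.1.add_const c).mul hg.1).aestronglyMeasurable (1 + |c|)
    (.of_forall fun χ => by
      rw [Real.norm_eq_abs, abs_mul, abs_of_nonneg (hg.2 χ).1]
      refine (mul_le_of_le_one_right (abs_nonneg _) (hg.2 χ).2).trans ((abs_add_le _ _).trans ?_)
      rw [abs_of_nonneg (hf.2 χ).1]
      linarith [(hf.2 χ).2])

theorem rotaB.rot (hf : rotaB f) (v : K) : rotaB fun χ => f (rot v χ) :=
  ⟨hf.1.comp (rot_measurable v), fun _ => hf.2 _⟩

theorem rota_adj (μ : Measure X) [IsFiniteMeasure μ] (hU : UInv μ) (hs : s.Nonempty)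
    (h1 : ∀ v ∈ s, ‖v‖ = 1) (hf : rotaB f) (hg : rotaB g) (c : ℝ) :
    ∫ χ, (f χ + c) * rotaAv s id g χ ∂μ = ∫ χ, (rotaAv s Inv.inv f χ + c) * g χ ∂μ := by
  simp only [← rotaAv_add_const hs c]
  simp only [rotaAv, ← mul_div_assoc, div_mul_eq_mul_div, Finset.mul_sum, Finset.sum_mul,
    integral_div]
  rw [integral_finsetSum _ fun v _ => rota_int μ hf (hg.rot _) c,
    integral_finsetSum _ fun v _ => rota_int μ (hf.rot _) hg c]
  congr 1
  refine Finset.sum_congr rfl fun v hv => ?_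
  have hv0 : v ≠ 0 := norm_ne_zero_iff.1 (by rw [h1 v hv]; exact one_ne_zero)
  have h2 := (hU v (h1 v hv)).map_eq
  conv_rhs => rw [← h2]
  rw [integral_map (f := fun a => (f (rot v⁻¹ a) + c) * g a) (rot_measurable v).aemeasurable
    (((hf.rot v⁻¹).1.add_const c).mul hg.1).aestronglyMeasurable]
  simp only [rot_rot, inv_mul_cancel₀ hv0, rot_one, id]

theorem rota_exists (hs : s.Nonempty) (F : K → ℝ) : ∃ w ∈ s, F w ≤ (∑ v ∈ s, F v) / s.card := by
  have : (s.card : ℝ) ≠ 0 := Nat.cast_ne_zero.2 hs.card_pos.ne'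
  refine Finset.exists_le_of_sum_le hs (le_of_eq ?_)
  rw [Finset.sum_const, nsmul_eq_mul]
  field_simp

end

section
variable (W : ℕ → Finset K) (b : X → ℝ)

/-- `a_{j-1}* ⋯ a_0* b` -/
def rotaG : ℕ → X → ℝ
  | 0 => b
  | j + 1 => rotaAv (W j) Inv.inv (rotaG j)

/-- `a_0 ⋯ a_{j-1}` -/
def rotaT : ℕ → (X → ℝ) → X → ℝ
  | 0, f => f
  | j + 1, f => rotaT j (rotaAv (W j) id f)

/-- The backward recursion, with horizon `j + m`. -/
def rotaH : ℕ → ℕ → X → ℝ
  | 0, j => fun χ => if 1 / 2 ≤ rotaG W b j χ then 1 else 0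
  | m + 1, j => fun χ => if 1 / 2 ≤ rotaG W b j χ then 1 else rotaAv (W j) id (rotaH m (j + 1)) χ

variable {W b}

theorem rotaG_B (hb : rotaB b) (j : ℕ) : rotaB (rotaG W b j) := by
  induction j with
  | zero => exact hb
  | succ j ih => exact ih.av

theorem rotaT_meas (j : ℕ) {f : X → ℝ} (hf : Measurable f) : Measurable (rotaT W j f) := by
  induction j generalizing f with
  | zero => exact hf
  | succ j ih => exact ih (rotaAv_meas hf)

theorem rotaT_mono (j : ℕ) {f g : X → ℝ} (h : ∀ χ, f χ ≤ g χ) (χ : X) :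
    rotaT W j f χ ≤ rotaT W j g χ := by
  induction j generalizing f g with
  | zero => exact h χ
  | succ j ih => exact ih (rotaAv_mono h)

theorem rotaT_add_const (hW : ∀ i, (W i).Nonempty) (j : ℕ) (f : X → ℝ) (c : ℝ) (χ : X) :
    rotaT W j (fun x => f x + c) χ = rotaT W j f χ + c := by
  induction j generalizing f with
  | zero => rfl
  | succ j ih =>
    rw [rotaT, rotaT, ← ih]
    congr 1
    exact funext (rotaAv_add_const (hW j) c)

theorem rotaH_B (hb : rotaB b) (m j : ℕ) : rotaB (rotaH W b m j) := by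
  have hm : ∀ j, MeasurableSet {χ | 1 / 2 ≤ rotaG W b j χ} := fun j =>
    measurableSet_le measurable_const (rotaG_B hb j).1
  induction m generalizing j with
  | zero =>
    refine ⟨Measurable.ite (hm j) measurable_const measurable_const, fun χ => ?_⟩
    simp only [rotaH]
    split_ifs <;> simp
  | succ m ih =>
    refine ⟨Measurable.ite (hm j) measurable_const (ih _).av.1, fun χ => ?_⟩
    simp only [rotaH]
    split_ifs
    exacts [⟨zero_le_one, le_rfl⟩, (ih _).av.2 χ]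

theorem rotaG_le (hb : rotaB b) (m j : ℕ) (χ : X) : rotaG W b j χ ≤ rotaH W b m j χ + 1 / 2 := by
  have h1 := ((rotaG_B (W := W) hb j).2 χ).2
  have h2 := ((rotaH_B (W := W) hb m j).2 χ).1
  by_cases h : 1 / 2 ≤ rotaG W b j χ
  · have : rotaH W b m j χ = 1 := by cases m <;> exact if_pos h
    linarith
  · linarith [not_le.1 h]

theorem rotaT_H (hb : rotaB b) (j m : ℕ) (χ : X) :
    rotaT W j (rotaH W b m j) χ ≤ rotaH W b (j + m) 0 χ := by
  induction j generalizing m with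
  | zero => rw [zero_add]; exact le_rfl
  | succ j ih =>
    rw [show j + 1 + m = j + (m + 1) by ring]
    refine (rotaT_mono j (fun x => ?_) χ).trans (ih (m + 1))
    simp only [rotaH]
    split_ifs
    exacts [((rotaH_B hb m (j + 1)).av.2 x).2, le_rfl]

theorem rota_nonneg (μ : Measure X) [IsFiniteMeasure μ] (hU : UInv μ) (hW : ∀ i, (W i).Nonempty)
    (hW1 : ∀ i, ∀ v ∈ W i, ‖v‖ = 1) (hb : rotaB b) (m j : ℕ) :
    0 ≤ ∫ χ, (rotaG W b j χ + -(1 / 2)) * rotaH W b m j χ ∂μ := by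
  induction m generalizing j with
  | zero =>
    refine integral_nonneg fun χ => ?_
    simp only [rotaH]
    split_ifs with h
    · simpa using h
    · simp
  | succ m ih =>
    refine (ih (j + 1)).trans ?_
    rw [rotaG, ← rota_adj μ hU (hW j) (hW1 j) (rotaG_B hb j) (rotaH_B hb m (j + 1))]
    refine integral_mono (rota_int μ (rotaG_B hb j) (rotaH_B hb m (j + 1)).av _)
      (rota_int μ (rotaG_B hb j) (rotaH_B hb (m + 1) j) _) fun χ => ?_
    simp only [rotaH]
    split_ifs with h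
    · exact mul_le_mul_of_nonneg_left ((rotaH_B hb m (j + 1)).av.2 χ).2 (by linarith)
    · exact le_rfl

theorem rota_upd {v : ℕ → K} (hv : ∀ i, v i ∈ W i) {j : ℕ} {w : K} (hw : w ∈ W j) :
    ∃ v' : ℕ → K, (∀ i, v' i ∈ W i) ∧
      ∏ i ∈ Finset.range (j + 1), v' i = (∏ i ∈ Finset.range j, v i) * w := by
  refine ⟨Function.update v j w, fun i => ?_, ?_⟩
  · rcases eq_or_ne i j with rfl | h
    · rwa [Function.update_self]
    · rw [Function.update_of_ne h]
      exact hv i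
  · rw [Finset.prod_range_succ, Function.update_self]
    congr 1
    exact Finset.prod_congr rfl fun i hi =>
      Function.update_of_ne (Finset.mem_range.1 hi).ne _ _

theorem rotaT_pick (hW : ∀ i, (W i).Nonempty) (j : ℕ) (f : X → ℝ) (χ : X) :
    ∃ v : ℕ → K, (∀ i, v i ∈ W i) ∧ f (rot (∏ i ∈ Finset.range j, v i) χ) ≤ rotaT W j f χ := by
  induction j generalizing f with
  | zero => exact ⟨fun i => (hW i).choose, fun i => (hW i).choose_spec, by simp [rotaT]⟩
  | succ j ih =>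
    obtain ⟨v, hv, h⟩ := ih (rotaAv (W j) id f)
    obtain ⟨w, hw, h'⟩ := rota_exists (hW j) fun w => f (rot w (rot (∏ i ∈ Finset.range j, v i) χ))
    obtain ⟨v', hv', e⟩ := rota_upd hv hw
    refine ⟨v', hv', le_trans ?_ (h'.trans h)⟩
    rw [e, rot_rot, mul_comm]

theorem rotaG_pick (hW : ∀ i, (W i).Nonempty) (s : Finset K) (k : ℕ) (x : K → X) :
    ∃ v : ℕ → K, (∀ i, v i ∈ W i) ∧
      ∑ g ∈ s, b (rot (∏ i ∈ Finset.range k, v i)⁻¹ (x g)) ≤ ∑ g ∈ s, rotaG W b k (x g) := by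
  induction k generalizing x with
  | zero => exact ⟨fun i => (hW i).choose, fun i => (hW i).choose_spec, by simp [rotaG]⟩
  | succ k ih =>
    obtain ⟨w, hw, h'⟩ := rota_exists (hW k) fun w => ∑ g ∈ s, rotaG W b k (rot w⁻¹ (x g))
    obtain ⟨v, hv, h⟩ := ih fun g => rot w⁻¹ (x g)
    obtain ⟨v', hv', e⟩ := rota_upd hv hw
    refine ⟨v', hv', ?_⟩
    simp only [rot_rot, ← mul_inv] at h
    rw [e]
    refine h.trans (h'.trans (le_of_eq ?_))
    simp only [rotaG, rotaAv]
    rw [Finset.sum_comm, Finset.sum_div]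

end

open Classical in
/-- `a_i f = avg_{v ∈ W i} f ∘ rot v`, `a_i* f = avg f ∘ rot v⁻¹` (adjoint), `g_j = a_j* ⋯ a_0* 1_Bad`, `P_j = a_0 ⋯ a_j g_j` = average of `1_Bad (rot (∏ v / ∏ v') χ)` over all tuples.  Fix `J`, `λ = 1/2`; backwards
`h_J = 1{g_J ≥ λ}`, `h_j = 1{g_j ≥ λ} + 1{g_j < λ} a_{j+1} h_{j+1}` (values in `[0,1]`, `h_j ≥ a_{j+1} h_{j+1}`).  `∫ (g_j - λ) h_j ≥ ∫ (g_j - λ) a_{j+1} h_{j+1} = ∫ (g_{j+1} - λ) h_{j+1} ≥ … ≥ 0`, so `∫ a_0 h_0 ≤ 2 μ Bad`, while
`P_j ≤ λ + a_0 ⋯ a_j h_j ≤ λ + a_0 h_0` for `j ≤ J`.  `G = ⋂_j {P_j ≤ 3/4}`; Markov and monotone union.  On `G` fix all coordinates but `v j` (some choice does at least as well as the average). -/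
theorem rota (μ : Measure X) [IsFiniteMeasure μ] (hU : UInv μ) (W : ℕ → Finset K)
    (hW : ∀ i, (W i).Nonempty) (hW1 : ∀ i, ∀ v ∈ W i, ‖v‖ = 1) (Bad : Set X) (hB : MeasurableSet Bad) :
    ∃ G : Set X, MeasurableSet G ∧ μ.real Gᶜ ≤ 8 * μ.real Bad ∧ ∀ χ ∈ G, ∀ j : ℕ, ∃ v v' : ℕ → K,
      (∀ i, v i ∈ W i ∧ v' i ∈ W i) ∧ (W j).card ≤ 4 * ((W j).filter fun g =>
        rot (g * (∏ i ∈ Finset.range j, v i) / ∏ i ∈ Finset.range (j + 1), v' i) χ ∉ Bad).card := by
  set b : X → ℝ := Bad.indicator 1 with hbd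
  have hb : rotaB b := ⟨measurable_one.indicator hB, fun χ => by
    by_cases h : χ ∈ Bad <;> simp [hbd, h]⟩
  set E : ℕ → Set X := fun j => {χ | 3 / 4 < rotaT W j (rotaG W b j) χ} with hE
  have hm : ∀ j, MeasurableSet (E j) := fun j =>
    measurableSet_lt measurable_const (rotaT_meas j (rotaG_B hb j).1)
  refine ⟨(⋃ j, E j)ᶜ, (MeasurableSet.iUnion hm).compl, ?_, fun χ hχ j => ?_⟩
  · rw [compl_compl, measureReal_def, measure_iUnion_eq_iSup_accumulate]
    refine ENNReal.toReal_le_of_le_ofReal (by positivity) (iSup_le fun J => ?_)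
    have hH := rotaH_B (W := W) hb J 0
    have hI : Integrable (rotaH W b J 0) μ := by
      simpa using rota_int μ (f := fun _ => 0) ⟨measurable_const, fun _ => by simp⟩ hH 1
    have h1 : accumulate E J ⊆ {χ | 1 / 4 ≤ rotaH W b J 0 χ} := fun χ hχ => by
      obtain ⟨j, hj, hχ⟩ := mem_accumulate.1 hχ
      have h2 := rotaT_mono (W := W) j (rotaG_le (W := W) hb (J - j) j) χ
      have h3 := rotaT_H (W := W) hb j (J - j) χ
      rw [rotaT_add_const hW] at h2
      rw [Nat.add_sub_cancel' hj] at h3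
      have h4 : 3 / 4 < rotaT W j (rotaG W b j) χ := hχ
      rw [mem_setOf_eq]
      linarith
    have h2 := mul_meas_ge_le_integral_of_nonneg (μ := μ) (.of_forall fun χ => (hH.2 χ).1) hI (1 / 4)
    have h3 := rota_nonneg μ hU hW hW1 hb J 0
    have h4 : ∫ χ, (rotaG W b 0 χ + -(1 / 2)) * rotaH W b J 0 χ ∂μ ≤
        ∫ χ, (b χ - 1 / 2 * rotaH W b J 0 χ) ∂μ :=
      integral_mono (rota_int μ hb hH _)
        (((integrable_const (1 : ℝ)).indicator hB).sub (hI.const_mul _)) fun χ => by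
          have := mul_le_mul_of_nonneg_left (hH.2 χ).2 (hb.2 χ).1
          simp only [rotaG]
          linarith
    rw [integral_sub (f := b) ((integrable_const (1 : ℝ)).indicator hB) (hI.const_mul _),
      integral_const_mul,
      hbd, integral_indicator_one hB] at h4
    refine (measure_mono h1).trans ?_
    rw [← ofReal_measureReal (measure_ne_top _ _)]
    exact ENNReal.ofReal_le_ofReal (by linarith)
  · have h1 : rotaT W j (rotaAv (W j) id (rotaG W b (j + 1))) χ ≤ 3 / 4 :=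
      not_lt.1 fun h => hχ (mem_iUnion.2 ⟨j + 1, h⟩)
    obtain ⟨v, hv, h2⟩ := rotaT_pick hW j (rotaAv (W j) id (rotaG W b (j + 1))) χ
    obtain ⟨v', hv', h3⟩ := rotaG_pick (b := b) hW (W j) (j + 1)
      fun g => rot g (rot (∏ i ∈ Finset.range j, v i) χ)
    refine ⟨v, v', fun i => ⟨hv i, hv' i⟩, ?_⟩
    have h0 : (0 : ℝ) < (W j).card := Nat.cast_pos.2 (hW j).card_pos
    have h4 := (div_le_iff₀ h0).1 (h2.trans h1)
    have h5 : ∑ g ∈ W j, b (rot (∏ i ∈ Finset.range (j + 1), v' i)⁻¹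
        (rot g (rot (∏ i ∈ Finset.range j, v i) χ))) = ((W j).filter fun g =>
        ¬ rot (g * (∏ i ∈ Finset.range j, v i) / ∏ i ∈ Finset.range (j + 1), v' i) χ ∉ Bad).card := by
      rw [Finset.card_filter]
      push_cast
      refine Finset.sum_congr rfl fun g _ => ?_
      rw [rot_rot, rot_rot, div_eq_inv_mul, mul_assoc, hbd, Set.indicator_apply]
      simp
    have h6 := Finset.card_filter_add_card_filter_not (s := W j) fun g =>
      rot (g * (∏ i ∈ Finset.range j, v i) / ∏ i ∈ Finset.range (j + 1), v' i) χ ∉ Bad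
    have h7 := h5.symm.le.trans (h3.trans h4)
    rw [← Nat.cast_inj (R := ℝ), Nat.cast_add] at h6
    rw [← Nat.cast_le (α := ℝ), Nat.cast_mul, Nat.cast_ofNat]
    linarith

end Crest.Agent.R040

end
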