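import Crest.Agent.R040.FrameApi

/-! # Row 40, Step 1: pigeonhole at one scale -/

set_option autoImplicit false

open MeasureTheory Filter Topology Set

noncomputable section

namespace Crest.Agent.R040

theorem scale_ne {t : K} (ht : (t : ℂ).im = 0) : t + iK ≠ 0 ∧ t - iK ≠ 0 := by
  constructor
  · intro h
    have h1 := congrArg (fun z : K => (z : ℂ).im) h
    simp [ht] at h1
  · intro h
    have h1 := congrArg (fun z : K => (z : ℂ).im) h
    simp [ht] at h1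

theorem scale_norm {t : K} (ht : (t : ℂ).im = 0) : ‖(t + iK) / (t - iK)‖ = 1 := by
  have h1 : ‖t + iK‖ = ‖t - iK‖ := by
    rw [norm_K, norm_K, ← Complex.norm_conj]
    congr 1
    apply Complex.ext <;> simp [ht]
  rw [norm_div, h1, div_self (norm_ne_zero_iff.2 (scale_ne ht).2)]

theorem scale_inj {t t' : K} (ht : (t : ℂ).im = 0) (ht' : (t' : ℂ).im = 0)
    (h : (t + iK) / (t - iK) = (t' + iK) / (t' - iK)) : t = t' := by
  rw [div_eq_div_iff (scale_ne ht).2 (scale_ne ht').2] at h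
  have hi : iK ≠ 0 := by
    intro h0
    have h1 := congrArg (fun z : K => (z : ℂ).im) h0
    simp at h1
  have h2 : (2 * iK) * (t - t') = 0 := by linear_combination -h
  rcases mul_eq_zero.1 h2 with h3 | h3
  · exact absurd h3 (mul_ne_zero two_ne_zero hi)
  · exact sub_eq_zero.1 h3

theorem scale_ht_i {B : Finset K} (F : Frame B) : Ht F.β iK F.C := by
  have h := F.one.gauss_mul 0 1
  have h1 : ‖iK‖ = 1 := by rw [norm_K]; simp
  simpa [h1] using h

theorem scale_prod {B : Finset K} (F : Frame B) {D : ℝ} (hD : 0 ≤ D) (n₀ m : ℕ) (z : ℕ → K)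
    (hz : ∀ i, Ht F.β (z i) (D * Real.exp (1 / 100 * ((2 ^ i * n₀ : ℕ) : ℝ)))) :
    Ht F.β (∏ i ∈ Finset.range m, z i)
      (F.C ^ (m + 1) * D ^ m * Real.exp (1 / 100 * ((2 ^ m * n₀ : ℕ) : ℝ))) := by
  refine (F.ht_prod _ z _ (fun i _ => hz i)).mono ?_
  have hC := F.one_le
  rw [Finset.card_range, Finset.prod_mul_distrib, Finset.prod_const, Finset.card_range,
    ← Real.exp_sum, mul_assoc, ← Finset.mul_sum]
  have h1 : ∑ i ∈ Finset.range m, ((2 ^ i * n₀ : ℕ) : ℝ) ≤ ((2 ^ m * n₀ : ℕ) : ℝ) := by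
    rw [← Nat.cast_sum, ← Finset.sum_mul]
    exact_mod_cast Nat.mul_le_mul_right n₀ (Nat.geomSum_lt (m := 2) le_rfl
      (fun k hk => Finset.mem_range.1 hk)).le
  gcongr

theorem scale_ch_sub (χ : X) {a b : K} {w : ℂ} (h : χ.1 a = χ.1 b * w) : χ.1 (a - b) = w := by
  have h1 := χ.2.2 b (a - b)
  rw [add_sub_cancel, h] at h1
  have h0 : χ.1 b ≠ 0 := by
    intro h0
    have := χ.2.1 b
    rw [h0] at this
    simp at this
  exact (mul_left_cancel₀ h0 h1).symm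

theorem scale_xi (ξ : K →+ ℝ) (n : ℕ) (y c : K) :
    ξ (pibK ^ n * y / c) = 5 ^ n * ξ (y / (c * piK ^ n)) := by
  have hpi : piK ≠ 0 := by
    intro h
    have := piK_mul_pibK
    rw [h, zero_mul] at this
    norm_num at this
  have e : pibK ^ n * y / c = (5 ^ n : ℕ) • (y / (c * piK ^ n)) := by
    rw [nsmul_eq_mul]
    push_cast
    rw [← piK_mul_pibK, mul_pow]
    by_cases hc : c = 0
    · simp [hc]
    · field_simp
  rw [e, map_nsmul, nsmul_eq_mul]
  push_cast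
  ring

open Classical in
/-- `n_j = 2^j n₀`, `T_j = ⌈(4C₀ + 1) e^{n_j/100}⌉₊` (`C₀ ≥ 0` by `CodeP` at `n = 0`), `W j = {(t + i)/(t - i)}` over the `T_j^r` real `t` of `real_count` (injective).  `|W j| > 4N`, so two `g ≠ g'` give good characters `rot (g s) χ`, `rot (g' s) χ` with the same code,
`s = ∏ v / ∏ v'`.  `σ = (t - i)(t' - i) ∏_{i<j} (t_i - i) ∏_{i ≤ j} (t'_i + i)`; `σ g s`, `σ g' s` are similar products; `q = σ g' s - σ g s ≠ 0`; `ρ x = ξ (x / (g' s - g s))`.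
`ht_prod` with `2j + 3` factors of height `≤ D e^{n_i/100}`, `∑_{i<j} n_i ≤ n_j`; `ξ(σ y/(cπ^n)) = 5^{-n} ξ(π̄^n σ y / c)`. -/
theorem scale_lemma {B : Finset K} (F : Frame B) (G : X → ℂ) (θ C₀ : ℝ) (hc : F.CodeP G θ (1 / 100) C₀) :
    ∃ A : ℝ, 1 ≤ A ∧ ∀ n₀ : ℕ, ∃ W : ℕ → Finset K, (∀ i, (W i).Nonempty) ∧ (∀ i, ∀ v ∈ W i, ‖v‖ = 1) ∧
      ∀ χ : X, (∀ j : ℕ, ∃ v v' : ℕ → K, (∀ i, v i ∈ W i ∧ v' i ∈ W i) ∧
        (W j).card ≤ 4 * ((W j).filter fun g =>
          rot (g * (∏ i ∈ Finset.range j, v i) / ∏ i ∈ Finset.range (j + 1), v' i) χ ∉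
            {χ : X | ¬ ∀ n, F.Good G θ n χ}).card) →
        F.AllLin A n₀ χ := by
  have hC := F.one_le
  have hC₀ : 0 ≤ C₀ := by
    obtain ⟨N, code, h1, -⟩ := hc 0
    have h2 : (0 : ℝ) ≤ N := Nat.cast_nonneg _
    simp at h1
    linarith
  set D : ℝ := 4 * C₀ + 2 + F.C with hD
  have hD1 : 1 ≤ D := by linarith
  refine ⟨2 * F.C ^ 7 * D ^ 3, ?_, fun n₀ => ?_⟩
  · have h1 : 1 ≤ F.C ^ 7 := one_le_pow₀ hC
    have h2 : 1 ≤ D ^ 3 := one_le_pow₀ hD1
    nlinarith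
  set E : ℕ → ℝ := fun i => Real.exp (1 / 100 * ((2 ^ i * n₀ : ℕ) : ℝ)) with hE
  have hE1 : ∀ i, 1 ≤ E i := fun i => Real.one_le_exp (by positivity)
  set T : ℕ → ℕ := fun i => ⌈(4 * C₀ + 1) * E i⌉₊ with hT
  have hT1 : ∀ i, (4 * C₀ + 1) * E i ≤ T i := fun i => Nat.le_ceil _
  have hT2 : ∀ i, (T i : ℝ) ≤ (4 * C₀ + 2) * E i := fun i => by
    have h1 := Nat.ceil_lt_add_one (a := (4 * C₀ + 1) * E i)
      (mul_nonneg (by linarith) (by linarith [hE1 i]))
    have h2 := hE1 i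
    simp only [hT]
    linarith
  choose S hS hS' using fun i => F.real_count (T i)
  set W : ℕ → Finset K := fun i => (S i).image fun t => (t + iK) / (t - iK) with hW
  have hWc : ∀ i, (W i).card = T i ^ F.r := fun i => by
    rw [← hS i]
    exact Finset.card_image_of_injOn fun a ha b hb hab =>
      scale_inj (hS' i a ha).1 (hS' i b hb).1 hab
  have hWm : ∀ i, ∀ g ∈ W i, ∃ t : K, (t : ℂ).im = 0 ∧ Ht F.β (t + iK) (D * E i) ∧
      Ht F.β (t - iK) (D * E i) ∧ g = (t + iK) / (t - iK) := by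
    intro i g hg
    obtain ⟨t, ht, rfl⟩ := Finset.mem_image.1 hg
    have h1 : (T i : ℝ) + F.C ≤ D * E i := by
      have := hT2 i
      have := hE1 i
      rw [hD]; nlinarith
    exact ⟨t, (hS' i t ht).1, ((hS' i t ht).2.add (scale_ht_i F)).mono h1,
      ((hS' i t ht).2.sub (scale_ht_i F)).mono h1, rfl⟩
  refine ⟨W, fun i => ?_, fun i v hv => ?_, fun χ hχ j => ?_⟩
  · rw [← Finset.card_pos, hWc]
    have h1 : (0 : ℝ) < T i := lt_of_lt_of_le (mul_pos (by linarith) (by linarith [hE1 i])) (hT1 i)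
    exact pow_pos (by exact_mod_cast h1) _
  · obtain ⟨t, ht, -, -, rfl⟩ := hWm i v hv
    exact scale_norm ht
  obtain ⟨v, v', hv, hcard⟩ := hχ j
  obtain ⟨N, code, hN, hcode, hpair⟩ := hc (2 ^ j * n₀)
  set P := ∏ i ∈ Finset.range j, v i with hP
  set P' := ∏ i ∈ Finset.range (j + 1), v' i with hP'
  set Gd := (W j).filter fun g => rot (g * P / P') χ ∉ {χ : X | ¬ ∀ n, F.Good G θ n χ} with hGd
  have hgood : ∀ g ∈ Gd, g ∈ W j ∧ F.Good G θ (2 ^ j * n₀) (rot (g * P / P') χ) := by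
    intro g hg
    obtain ⟨h1, h2⟩ := Finset.mem_filter.1 hg
    simp only [Set.mem_ofPred_eq, not_not] at h2
    exact ⟨h1, h2 _⟩
  have hlt : (Finset.range N).card < Gd.card := by
    rw [Finset.card_range]
    have h1 : ((4 * C₀ + 1) * E j) ^ F.r ≤ (T j : ℝ) ^ F.r :=
      pow_le_pow_left₀ (mul_nonneg (by linarith) (by linarith [hE1 j])) (hT1 j) _
    have h2 : E j ^ F.r = Real.exp (1 / 100 * ((2 ^ j * n₀ : ℕ) : ℝ) * F.r) := by
      simp only [hE]
      rw [← Real.exp_nat_mul, mul_comm]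
    have h3 : 4 * C₀ + 1 ≤ (4 * C₀ + 1) ^ F.r := le_self_pow₀ (by linarith) F.r_pos.ne'
    rw [mul_pow, h2] at h1
    have h4 := Real.exp_pos (1 / 100 * ((2 ^ j * n₀ : ℕ) : ℝ) * F.r)
    have h5 : ((W j).card : ℝ) ≤ 4 * Gd.card := by exact_mod_cast hcard
    rw [hWc] at h5
    push_cast at h5
    have h6 : (N : ℝ) < Gd.card := by nlinarith
    exact_mod_cast h6
  obtain ⟨g, hg, g', hg', hne, hgg⟩ := Finset.exists_ne_map_eq_of_card_lt_of_maps_to hlt
    (f := fun g => code (rot (g * P / P') χ))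
    (fun g hg => Finset.mem_coe.2 (Finset.mem_range.2 (hcode _ (hgood g hg).2)))
  obtain ⟨ξ, hξ1, hξ2⟩ := hpair _ _ (hgood g hg).2 (hgood g' hg').2 hgg
  obtain ⟨t, ht, htp, htm, rfl⟩ := hWm j g (hgood g hg).1
  obtain ⟨t', ht', htp', htm', rfl⟩ := hWm j g' (hgood g' hg').1
  choose a ha hap ham hav using fun i => hWm i (v i) (hv i).1
  choose b hb hbp hbm hbv using fun i => hWm i (v' i) (hv i).2
  set Ap := ∏ i ∈ Finset.range j, (a i + iK) with hAp
  set Am := ∏ i ∈ Finset.range j, (a i - iK) with hAm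
  set Bp := ∏ i ∈ Finset.range (j + 1), (b i + iK) with hBp
  set Bm := ∏ i ∈ Finset.range (j + 1), (b i - iK) with hBm
  have hAp0 : Ap ≠ 0 := Finset.prod_ne_zero_iff.2 fun i _ => (scale_ne (ha i)).1
  have hAm0 : Am ≠ 0 := Finset.prod_ne_zero_iff.2 fun i _ => (scale_ne (ha i)).2
  have hBp0 : Bp ≠ 0 := Finset.prod_ne_zero_iff.2 fun i _ => (scale_ne (hb i)).1
  have hBm0 : Bm ≠ 0 := Finset.prod_ne_zero_iff.2 fun i _ => (scale_ne (hb i)).2
  have ePA : P = Ap / Am := by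
    rw [hP, hAp, hAm, ← Finset.prod_div_distrib]
    exact Finset.prod_congr rfl fun i _ => hav i
  have ePB : P' = Bp / Bm := by
    rw [hP', hBp, hBm, ← Finset.prod_div_distrib]
    exact Finset.prod_congr rfl fun i _ => hbv i
  have hD0 : 0 ≤ D := by linarith
  have hE2 : Real.exp (1 / 100 * ((2 ^ (j + 1) * n₀ : ℕ) : ℝ)) = E j ^ 2 := by
    simp only [hE]
    rw [← Real.exp_nat_mul]
    congr 1
    push_cast
    ring
  have h1 := scale_prod F hD0 n₀ j _ hap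
  have h2 := scale_prod F hD0 n₀ j _ ham
  have h3 := scale_prod F hD0 n₀ (j + 1) _ hbp
  have h4 := scale_prod F hD0 n₀ (j + 1) _ hbm
  rw [hE2] at h3 h4
  have ht0 := scale_ne ht
  have ht0' := scale_ne ht'
  set δ : K := (t' + iK) / (t' - iK) * P / P' - (t + iK) / (t - iK) * P / P' with hδ
  have hδ0 : δ ≠ 0 := by
    have e : δ = ((t' + iK) / (t' - iK) - (t + iK) / (t - iK)) * (P / P') := by rw [hδ]; ring
    rw [e, ePA, ePB]
    exact mul_ne_zero (sub_ne_zero.2 hne.symm)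
      (div_ne_zero (div_ne_zero hAp0 hAm0) (div_ne_zero hBp0 hBm0))
  set σ : K := (t - iK) * (t' - iK) * (Am * Bp) with hσ
  have hσ0 : σ ≠ 0 := mul_ne_zero (mul_ne_zero ht0.2 ht0'.2) (mul_ne_zero hAm0 hBp0)
  have eq : σ * δ = ((t - iK) * (t' + iK) - (t + iK) * (t' - iK)) * (Ap * Bm) := by
    rw [hσ, hδ, ePA, ePB]
    have := ht0.2
    have := ht0'.2
    field_simp
  have hσh := F.mul _ _ _ _ (F.mul _ _ _ _ htm htm') (F.mul _ _ _ _ h2 h3)
  have hqh := F.mul _ _ _ _ ((F.mul _ _ _ _ htm htp').sub (F.mul _ _ _ _ htp htm'))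
    (F.mul _ _ _ _ h1 h4)
  rw [← eq] at hqh
  have hbig : 2 * F.C ^ (2 * j + 7) * D ^ (2 * j + 3) * E j ^ 5 ≤
      (2 * F.C ^ 7 * D ^ 3) ^ (j + 1) * Real.exp (6 / 100 * (2 ^ j * n₀)) := by
    have e6 : Real.exp (6 / 100 * (2 ^ j * n₀)) = E j ^ 6 := by
      simp only [hE]
      rw [← Real.exp_nat_mul]
      congr 1
      push_cast
      ring
    rw [e6, mul_pow, mul_pow, ← pow_mul, ← pow_mul]
    have k1 : (2 : ℝ) ≤ 2 ^ (j + 1) := le_self_pow₀ (by norm_num) (by omega)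
    have k2 : F.C ^ (2 * j + 7) ≤ F.C ^ (7 * (j + 1)) := pow_le_pow_right₀ hC (by omega)
    have k3 : D ^ (2 * j + 3) ≤ D ^ (3 * (j + 1)) := pow_le_pow_right₀ hD1 (by omega)
    have k4 : E j ^ 5 ≤ E j ^ 6 := pow_le_pow_right₀ (hE1 j) (by omega)
    have k5 : 0 ≤ E j := by linarith [hE1 j]
    gcongr
  have hpos : 0 ≤ F.C ^ (2 * j + 6) * D ^ (2 * j + 3) * E j ^ 5 := by
    have k5 : 0 ≤ E j := by linarith [hE1 j]
    positivity
  refine ⟨ξ.comp (AddMonoidHom.mulRight δ⁻¹), σ * δ, mul_ne_zero hσ0 hδ0, hqh.mono ?_,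
    fun y h hy => ?_⟩
  · refine le_trans ?_ hbig
    calc _ = 2 * (F.C ^ (2 * j + 6) * D ^ (2 * j + 3) * E j ^ 5) * 1 := by simp only [hE]; ring
      _ ≤ 2 * (F.C ^ (2 * j + 6) * D ^ (2 * j + 3) * E j ^ 5) * F.C := by gcongr
      _ = _ := by ring
  · have hyh := F.mul _ _ _ _ hσh hy
    have e1 : (ξ.comp (AddMonoidHom.mulRight δ⁻¹)) (σ * δ * y / (F.c * piK ^ (2 ^ j * n₀))) =
        ξ (σ * y / (F.c * piK ^ (2 ^ j * n₀))) := by
      simp only [AddMonoidHom.coe_comp, Function.comp, AddMonoidHom.coe_mulRight]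
      congr 1
      rw [div_mul_eq_mul_div]
      congr 1
      field_simp
    rw [e1]
    constructor
    · have k1 := hξ2 _ _ hyh
      rw [rot_apply, rot_apply] at k1
      rw [← scale_ch_sub χ k1]
      refine congrArg χ.1 ?_
      generalize F.c * piK ^ (2 ^ j * n₀) = d
      rw [← sub_mul, ← hδ]
      ring
    · have k1 := hξ1 _ _ (hyh.pi_pow_mul (2 ^ j * n₀)).2
      rw [scale_xi, abs_mul, abs_of_pos (by positivity)] at k1
      have hh := F.ht_nonneg hy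
      have h5 : (0 : ℝ) < √5 ^ (2 ^ j * n₀) := by positivity
      have e5 : (5 : ℝ) ^ (2 ^ j * n₀) = √5 ^ (2 ^ j * n₀) * √5 ^ (2 ^ j * n₀) := by
        rw [← mul_pow, Real.mul_self_sqrt (by norm_num)]
      rw [e5, mul_assoc] at k1
      have k2 := le_of_mul_le_mul_left k1 h5
      rw [le_div_iff₀ h5, mul_comm]
      refine k2.trans (mul_le_mul_of_nonneg_right (le_trans ?_ hbig) hh)
      calc _ = 1 * (F.C ^ (2 * j + 6) * D ^ (2 * j + 3) * E j ^ 5 * F.C) := by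
            simp only [hE]; ring
        _ ≤ 2 * (F.C ^ (2 * j + 6) * D ^ (2 * j + 3) * E j ^ 5 * F.C) := by
            gcongr; norm_num
        _ = _ := by ring

end Crest.Agent.R040

end
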