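import Crest.Agent.R040.Predict
import Crest.Agent.R040.FrameEx
import Crest.Agent.R040.Code
import Crest.Agent.R040.Hopf
import Crest.Agent.R040.Rota
import Crest.Agent.R040.Scale
import Crest.Agent.R040.Patch

/-! # Row 40, Step 1: the deterministic part -/

set_option autoImplicit false

open MeasureTheory Filter Topology Set

noncomputable section

namespace Crest.Agent.R040

theorem determ_iter (u : K) (k : ℕ) (χ : X) : (rot u)^[k] χ = rot (u ^ k) χ := by
  induction k with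
  | zero => simp
  | succ k ih => rw [Function.iterate_succ_apply', ih, rot_rot, pow_succ']

theorem determ_bad (μ : Measure X) [IsFiniteMeasure μ] (hU : UInv μ) {B : Finset K} (F : Frame B)
    {G : X → ℂ} (hG : Measurable G) {θ : ℝ} (hθ : 0 < θ) :
    MeasurableSet {χ : X | ¬ ∀ n, F.Good G θ n χ} ∧
      μ.real {χ : X | ¬ ∀ n, F.Good G θ n χ} ≤ μ.real {χ : X | 1 / 10 < ‖χ.1 1 - G χ‖} / θ := by
  classical
  set E : Set X := {χ : X | 1 / 10 < ‖χ.1 1 - G χ‖} with hE
  have hEm : MeasurableSet E :=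
    measurableSet_lt measurable_const ((ch_measurable 1).sub hG).norm
  set f : X → ℝ := fun χ => ∑ j, (rot (u0⁻¹ * F.w j) ⁻¹' E).indicator (fun _ => (1 : ℝ)) χ with hf
  have hu : ‖u0⁻¹‖ = 1 := by rw [norm_inv, norm_u0, inv_one]
  have hpm : ∀ j, MeasurableSet (rot (u0⁻¹ * F.w j) ⁻¹' E) := fun j => rot_measurable _ hEm
  have hfm : Measurable f := Finset.measurable_sum _ fun j _ => measurable_const.indicator (hpm j)
  have hfi : ∀ j, Integrable ((rot (u0⁻¹ * F.w j) ⁻¹' E).indicator (fun _ => (1 : ℝ))) μ :=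
    fun j => (integrable_const _).indicator (hpm j)
  have hr : (0 : ℝ) < F.r := by exact_mod_cast F.r_pos
  have hcount : ∀ (n : ℕ) (χ : X), (Set.ncard {p : ℕ × Fin F.r | p.1 < n ∧ 1 / 10 <
      ‖χ.1 (u0⁻¹ ^ (p.1 + 1) * F.w p.2) - G (rot (u0⁻¹ ^ (p.1 + 1) * F.w p.2) χ)‖} : ℝ) =
      ∑ k ∈ Finset.range n, f ((rot u0⁻¹)^[k] χ) := by
    intro n χ
    have e1 : {p : ℕ × Fin F.r | p.1 < n ∧ 1 / 10 <
        ‖χ.1 (u0⁻¹ ^ (p.1 + 1) * F.w p.2) - G (rot (u0⁻¹ ^ (p.1 + 1) * F.w p.2) χ)‖} =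
        ↑((Finset.range n ×ˢ Finset.univ).filter fun p : ℕ × Fin F.r =>
          rot (u0⁻¹ ^ (p.1 + 1) * F.w p.2) χ ∈ E) := by
      ext p
      simp [hE]
    rw [e1, Set.ncard_coe_finset, Finset.card_filter, Finset.sum_product]
    push_cast
    refine Finset.sum_congr rfl fun k _ => Finset.sum_congr rfl fun j _ => ?_
    rw [indicator_apply, mem_preimage, determ_iter, rot_rot,
      show u0⁻¹ * F.w j * u0⁻¹ ^ k = u0⁻¹ ^ (k + 1) * F.w j by ring]
  have hset : {χ : X | ¬ ∀ n, F.Good G θ n χ} =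
      {χ | ∃ n : ℕ, θ * F.r * n < ∑ k ∈ Finset.range n, f ((rot u0⁻¹)^[k] χ)} := by
    ext χ
    simp only [mem_ofPred_eq, not_forall, Frame.Good, not_le, hcount]
    refine exists_congr fun n => ?_
    rw [mul_right_comm]
  rw [hset]
  constructor
  · rw [ofPred_exists]
    refine MeasurableSet.iUnion fun n => measurableSet_lt measurable_const ?_
    exact Finset.measurable_sum _ fun k _ => hfm.comp ((rot_measurable _).iterate k)
  · refine (hopf μ _ (hU _ hu) f hfm (integrable_finsetSum _ fun j _ => hfi j)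
      (fun χ => Finset.sum_nonneg fun j _ => indicator_nonneg (fun _ _ => zero_le_one) _)
      (θ * F.r) (by positivity)).trans (le_of_eq ?_)
    rw [hf, integral_finsetSum _ fun j _ => hfi j]
    have e2 : ∀ j, ∫ χ, (rot (u0⁻¹ * F.w j) ⁻¹' E).indicator (fun _ => (1 : ℝ)) χ ∂μ = μ.real E := by
      intro j
      rw [integral_indicator_const _ (hpm j), smul_eq_mul, mul_one]
      exact (hU _ (by rw [norm_mul, hu, F.w_norm, one_mul])).measureReal_preimage
        hEm.nullMeasurableSet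
    simp only [e2, Finset.sum_const, Finset.card_univ, Fintype.card_fin, nsmul_eq_mul]
    field_simp

/-- `θ` from `code_lemma (1/100)`; `ε` with `64 ε/θ ≤ δ/2`; `predictor`, `exists_frame`, `scale_lemma`, `patch`.  `Bad = {¬ ∀ n, Good}` is measurable (write the `ncard` as a double sum of indicators) and `μ Bad ≤ ε/θ` by `hopf` with
`S = rot u0⁻¹`, `f = ∑_j 1_err ∘ rot (u0⁻¹ w_j)`, `lam = θ r`.  `rota` gives `G`; `{δ' < ‖1 - χ b‖} ⊆ Gᶜ ∪ rot (ε^k) ⁻¹' Gᶜ`. -/
theorem deterministic (μ : Measure X) [IsFiniteMeasure μ] (hU : UInv μ)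
    (h : AEStronglyMeasurable[sig (deep 1)] (fun χ : X => χ.1 1) μ) (δ : ℝ) (hδ : 0 < δ) :
    ∃ b : K, b ≠ 0 ∧ ∫ χ : X, ‖1 - χ.1 b‖ ^ 2 ∂μ ≤ δ := by
  obtain ⟨θ, hθ, hcode⟩ := code_lemma (1 / 100) (by norm_num)
  obtain ⟨B, η, G, hη, hB, hG, hGc, herr⟩ := predictor μ (deep 1) h (δ * θ / 128) (by positivity)
  obtain ⟨F⟩ := exists_frame B hB
  obtain ⟨C₀, hc⟩ := hcode B F G η hη hGc
  obtain ⟨A, hA, hscale⟩ := scale_lemma F G θ C₀ hc
  obtain ⟨n₀, hpatch⟩ := patch F A hA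
  obtain ⟨W, hW, hW1, hlin⟩ := hscale n₀
  obtain ⟨hBm, hBle⟩ := determ_bad μ hU F hG hθ
  obtain ⟨G', hG'm, hG'le, hG'⟩ := rota μ hU W hW hW1 _ hBm
  have hall : ∀ χ ∈ G', F.AllLin A n₀ χ := by
    intro χ hχ
    refine hlin χ fun j => ?_
    obtain ⟨v, v', h1, h2⟩ := hG' χ hχ j
    exact ⟨v, v', h1, by convert h2⟩
  clear hG' hlin hscale
  have hm0 : 0 ≤ μ.real univ := measureReal_nonneg
  obtain ⟨k, b, hb, hclose⟩ := hpatch (√(δ / (2 * (μ.real univ + 1)))) (by positivity)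
  refine ⟨b, hb, ?_⟩
  have hmp := hU (F.ε ^ k) (by rw [norm_pow, F.ε_norm, one_pow])
  have hpm : MeasurableSet (rot (F.ε ^ k) ⁻¹' G'ᶜ) := rot_measurable _ hG'm.compl
  have hpre : μ.real (rot (F.ε ^ k) ⁻¹' G'ᶜ) = μ.real G'ᶜ :=
    hmp.measureReal_preimage hG'm.compl.nullMeasurableSet
  have hG'c : μ.real G'ᶜ ≤ δ / 16 := by
    have h1 : μ.real {χ : X | 1 / 10 < ‖χ.1 1 - G χ‖} / θ ≤ δ / 128 := by
      rw [div_le_iff₀ hθ]; linarith
    linarith
  have hi1 : Integrable (G'ᶜ.indicator fun _ => (4 : ℝ)) μ := (integrable_const _).indicator hG'm.compl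
  have hi2 : Integrable ((rot (F.ε ^ k) ⁻¹' G'ᶜ).indicator fun _ => (4 : ℝ)) μ :=
    (integrable_const _).indicator hpm
  have hi0 : Integrable (fun _ : X => δ / (2 * (μ.real univ + 1))) μ := integrable_const _
  calc ∫ χ : X, ‖1 - χ.1 b‖ ^ 2 ∂μ
      ≤ ∫ χ : X, (δ / (2 * (μ.real univ + 1)) + G'ᶜ.indicator (fun _ => (4 : ℝ)) χ +
          (rot (F.ε ^ k) ⁻¹' G'ᶜ).indicator (fun _ => (4 : ℝ)) χ) ∂μ := by
        refine integral_mono_of_nonneg (Eventually.of_forall fun χ => by positivity)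
          ((hi0.add hi1).add hi2) (Eventually.of_forall fun χ => ?_)
        have h0 : 0 ≤ δ / (2 * (μ.real univ + 1)) := by positivity
        have h1 : 0 ≤ G'ᶜ.indicator (fun _ => (4 : ℝ)) χ :=
          indicator_nonneg (fun _ _ => by norm_num) _
        have h2 : 0 ≤ (rot (F.ε ^ k) ⁻¹' G'ᶜ).indicator (fun _ => (4 : ℝ)) χ :=
          indicator_nonneg (fun _ _ => by norm_num) _
        have h4 : ‖1 - χ.1 b‖ ^ 2 ≤ 4 := by
          have h5 : ‖1 - χ.1 b‖ ≤ 2 := by
            refine (norm_sub_le _ _).trans ?_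
            rw [norm_one, χ.2.1]; norm_num
          nlinarith [norm_nonneg (1 - χ.1 b)]
        beta_reduce
        by_cases c1 : χ ∈ G'
        · by_cases c2 : rot (F.ε ^ k) χ ∈ G'
          · have h5 := hclose χ (hall _ c1) (hall _ c2)
            have h6 := pow_le_pow_left₀ (norm_nonneg _) h5 2
            rw [Real.sq_sqrt h0] at h6
            linarith
          · rw [indicator_of_mem (s := rot (F.ε ^ k) ⁻¹' G'ᶜ) c2]
            linarith
        · rw [indicator_of_mem (s := G'ᶜ) c1]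
          linarith
    _ = δ / (2 * (μ.real univ + 1)) * μ.real univ + 4 * μ.real G'ᶜ + 4 * μ.real G'ᶜ := by
        rw [integral_add (f := fun χ => δ / (2 * (μ.real univ + 1)) +
          G'ᶜ.indicator (fun _ => (4 : ℝ)) χ) (hi0.add hi1) hi2, integral_add hi0 hi1, integral_const,
          integral_indicator_const _ hG'm.compl, integral_indicator_const _ hpm, hpre]
        simp only [smul_eq_mul]
        ring
    _ ≤ δ := by
        have h1 : δ / (2 * (μ.real univ + 1)) * μ.real univ ≤ δ / 2 := by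
          rw [div_mul_eq_mul_div, div_le_div_iff₀ (by positivity) (by norm_num)]
          nlinarith
        linarith

end Crest.Agent.R040

end
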