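import Crest.Agent.R040.Defs1

/-! # Row 40, Step 1: measures on the dual are determined by their Fourier coefficients -/

set_option autoImplicit false

open MeasureTheory Filter Topology Set

noncomputable section

namespace Crest.Agent.R040

open BoundedContinuousFunction in
/-- evaluation as a bounded continuous function -/
def uniqEv {G : Type} [AddCommGroup G] (a : G) : Ch G →ᵇ ℂ :=
  BoundedContinuousFunction.mkOfCompact ⟨fun χ => χ.1 a, ch_continuous a⟩

@[simp] theorem uniqEv_apply {G : Type} [AddCommGroup G] (a : G) (χ : Ch G) :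
    uniqEv a χ = χ.1 a := rfl

open BoundedContinuousFunction in
theorem uniq_span {G : Type} [AddCommGroup G] {g : Ch G →ᵇ ℂ}
    (hg : g ∈ StarAlgebra.adjoin ℂ (Set.range (uniqEv (G := G)))) :
    g ∈ Submodule.span ℂ (Set.range (uniqEv (G := G))) := by
  induction hg using StarAlgebra.adjoin_induction with
  | mem x h => exact Submodule.subset_span h
  | algebraMap r =>
    have : algebraMap ℂ (Ch G →ᵇ ℂ) r = r • uniqEv 0 := by
      ext χ
      simp [ch_zero]
    rw [this]
    exact Submodule.smul_mem _ _ (Submodule.subset_span ⟨0, rfl⟩)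
  | add x y _ _ h1 h2 => exact add_mem h1 h2
  | mul x y _ _ h1 h2 =>
    have h3 := Submodule.mul_mem_mul h1 h2
    rw [Submodule.span_mul_span] at h3
    refine Submodule.span_mono ?_ h3
    rintro _ ⟨_, ⟨a, rfl⟩, _, ⟨b, rfl⟩, rfl⟩
    exact ⟨a + b, by ext χ; exact χ.2.2 a b⟩
  | star x hx h =>
    clear hx
    induction h using Submodule.span_induction with
    | mem x h =>
      obtain ⟨a, rfl⟩ := h
      exact Submodule.subset_span ⟨-a, by ext χ; exact ch_neg χ a⟩
    | zero => simp
    | add x y _ _ h1 h2 => rw [star_add]; exact add_mem h1 h2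
    | smul c x _ h => rw [star_smul]; exact Submodule.smul_mem _ _ h

/-- The span of the evaluations is a star subalgebra of `Ch G →ᵇ ℂ` that separates points (`ch_neg`, `ch_zero`):
`ext_of_forall_mem_subalgebra_integral_eq_of_polish` (Mathlib/MeasureTheory/Measure/FiniteMeasureExt.lean), or Stone–Weierstrass directly. -/
theorem ch_ext {G : Type} [AddCommGroup G] [Countable G] (μ ν : Measure (Ch G)) [IsFiniteMeasure μ]
    [IsFiniteMeasure ν] (h : ∀ a, ∫ χ : Ch G, χ.1 a ∂μ = ∫ χ : Ch G, χ.1 a ∂ν) : μ = ν := by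
  refine ext_of_forall_mem_subalgebra_integral_eq_of_polish (𝕜 := ℂ)
    (A := StarAlgebra.adjoin ℂ (Set.range (uniqEv (G := G)))) ?_ fun g hg => ?_
  · intro x y hxy
    obtain ⟨a, ha⟩ : ∃ a, x.1 a ≠ y.1 a := by
      by_contra hc
      push Not at hc
      exact hxy (Subtype.ext (funext hc))
    exact ⟨_, ⟨_, ⟨uniqEv a, StarAlgebra.subset_adjoin ℂ _ ⟨a, rfl⟩, rfl⟩, rfl⟩, ha⟩
  · have h1 := uniq_span hg
    clear hg
    induction h1 using Submodule.span_induction with
    | mem x hx =>
      obtain ⟨a, rfl⟩ := hx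
      exact h a
    | zero => simp
    | add x y _ _ h1 h2 =>
      simp only [BoundedContinuousFunction.add_apply]
      rw [integral_add (x.integrable μ) (y.integrable μ),
        integral_add (x.integrable ν) (y.integrable ν), h1, h2]
    | smul c x _ h1 =>
      simp only [BoundedContinuousFunction.smul_apply]
      rw [integral_smul, integral_smul, h1]

/-- `ch_ext` for `μ.map (rot u)` and `μ`. -/
theorem uinv_of_fourier (μ : Measure X) [IsFiniteMeasure μ]
    (h : ∀ u a : K, ‖u‖ = 1 → ∫ χ : X, χ.1 (u * a) ∂μ = ∫ χ : X, χ.1 a ∂μ) : UInv μ := by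
  intro u hu
  refine ⟨rot_measurable u, ch_ext _ _ fun a => ?_⟩
  rw [integral_map (rot_measurable u).aemeasurable (ch_measurable a).aestronglyMeasurable]
  exact h u a hu

end Crest.Agent.R040

end
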