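import Crest.Agent.R040.Nu
import Crest.Agent.R040.ContApprox
import Crest.Agent.R040.Uniq

/-! # Row 40, Step 1: the tail dichotomy -/

set_option autoImplicit false

open MeasureTheory Filter Topology Set

noncomputable section

namespace Crest.Agent.R040

namespace Dich

variable (μ : Measure X) [IsFiniteMeasure μ]

/-- `‖ẽ_z‖²` -/
def N (μ : Measure X) (z : K) (χ : X) : ℝ := ‖et μ z χ‖ ^ 2

omit [IsFiniteMeasure μ] in
theorem et_meas (z : K) : Measurable (et μ z) := ((et_sm μ z).mono tail_le).measurable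

omit [IsFiniteMeasure μ] in
theorem N_meas (z : K) : Measurable (N μ z) := (et_meas μ z).norm.pow_const 2

omit [IsFiniteMeasure μ] in
theorem N_sm (z : K) : StronglyMeasurable[tail] (N μ z) := (et_sm μ z).norm.pow 2

theorem N_bd (z : K) : ∀ᵐ χ ∂μ, 0 ≤ N μ z χ ∧ N μ z χ ≤ 1 :=
  (et_norm_le μ z).mono fun _ h => ⟨sq_nonneg _, pow_le_one₀ (norm_nonneg _) h⟩

theorem int_of {f : X → ℝ} (hf : Measurable f) {C : ℝ} (h : ∀ᵐ χ ∂μ, |f χ| ≤ C) :
    Integrable f μ := Integrable.of_bound hf.aestronglyMeasurable C h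

theorem N_int (z : K) : Integrable (N μ z) μ :=
  int_of μ (N_meas μ z) (C := 1) ((N_bd μ z).mono fun _ h => abs_le.2 ⟨by linarith, h.2⟩)

theorem NN_int (y z : K) : Integrable (fun χ => N μ y χ * N μ z χ) μ :=
  int_of μ ((N_meas μ y).mul (N_meas μ z)) (C := 1) (by
    filter_upwards [N_bd μ y, N_bd μ z] with χ h1 h2
    exact abs_le.2 ⟨by nlinarith, by nlinarith⟩)

theorem V_int (y z : K) : Integrable (fun χ => N μ y χ * (1 - N μ z χ)) μ := by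
  simp only [mul_sub, mul_one]
  exact (N_int μ y).sub (NN_int μ y z)

theorem N_rot (hU : UInv μ) {u : K} (hu : ‖u‖ = 1) (a : K) :
    ∫ χ, N μ (u * a) χ ∂μ = ∫ χ, N μ a χ ∂μ := by
  have h1 : ∫ χ, N μ (u * a) χ ∂μ = ∫ χ, N μ a (rot u χ) ∂μ :=
    integral_congr_ae ((et_rot μ hU u hu a).mono fun χ h => by simp only [N, h])
  rw [h1, ← integral_map (rot_measurable u).aemeasurable (N_meas μ a).aestronglyMeasurable,
    (hU u hu).map_eq]

theorem N_mul (x : K) {ε : ℝ} (hε : 0 < ε) :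
    ∃ n : ℕ, ∀ b ∈ deep n, ∫ χ, |N μ (x + b) χ - N μ x χ * N μ b χ| ∂μ ≤ ε := by
  have hm : 0 ≤ μ.real univ := measureReal_nonneg
  obtain ⟨η, hη⟩ : ∃ η : ℝ, η = ε / (2 * (μ.real univ + 1)) := ⟨_, rfl⟩
  have hη0 : 0 < η := by rw [hη]; positivity
  have hη1 : η * (μ.real univ + 1) = ε / 2 := by rw [hη]; field_simp
  obtain ⟨n, hn⟩ := et_mul μ x (η * (ε / 2)) (by positivity)
  refine ⟨n, fun b hb => ?_⟩
  have hi : Integrable (fun χ => ‖et μ (x + b) χ - et μ x χ * et μ b χ‖ ^ 2) μ := by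
    refine int_of μ (((et_meas μ _).sub ((et_meas μ _).mul (et_meas μ _))).norm.pow_const 2)
      (C := 4) ?_
    filter_upwards [et_norm_le μ (x + b), et_norm_le μ x, et_norm_le μ b] with χ h1 h2 h3
    have h4 : ‖et μ x χ * et μ b χ‖ ≤ 1 := by
      rw [norm_mul]; exact mul_le_one₀ h2 (norm_nonneg _) h3
    have h5 := norm_sub_le (et μ (x + b) χ) (et μ x χ * et μ b χ)
    have h6 := norm_nonneg (et μ (x + b) χ - et μ x χ * et μ b χ)
    rw [abs_of_nonneg (sq_nonneg _)]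
    nlinarith
  have h1 : ∫ χ, |N μ (x + b) χ - N μ x χ * N μ b χ| ∂μ ≤
      ∫ χ, (η + η⁻¹ * ‖et μ (x + b) χ - et μ x χ * et μ b χ‖ ^ 2) ∂μ := by
    refine integral_mono_ae ((N_int μ _).sub (NN_int μ _ _)).abs
      ((integrable_const _).add (hi.const_mul _)) ?_
    filter_upwards [et_norm_le μ (x + b), et_norm_le μ x, et_norm_le μ b] with χ h1 h2 h3
    have h4 : ‖et μ x χ * et μ b χ‖ ≤ 1 := by
      rw [norm_mul]; exact mul_le_one₀ h2 (norm_nonneg _) h3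
    have h5 := abs_norm_sub_norm_le (et μ (x + b) χ) (et μ x χ * et μ b χ)
    have h7 : N μ x χ * N μ b χ = ‖et μ x χ * et μ b χ‖ ^ 2 := by
      simp only [N, norm_mul, mul_pow]
    rw [h7, N]
    generalize ‖et μ (x + b) χ - et μ x χ * et μ b χ‖ = d at *
    have hp := norm_nonneg (et μ (x + b) χ)
    have hq := norm_nonneg (et μ x χ * et μ b χ)
    generalize ‖et μ (x + b) χ‖ = p at *
    generalize ‖et μ x χ * et μ b χ‖ = q at *
    have h8 : |p ^ 2 - q ^ 2| ≤ 2 * d := by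
      rw [sq_sub_sq, abs_mul, abs_of_nonneg (by positivity : 0 ≤ p + q)]
      exact mul_le_mul (by linarith) h5 (abs_nonneg _) (by norm_num)
    have h9 : 2 * d ≤ η + η⁻¹ * d ^ 2 := by
      have : η + η⁻¹ * d ^ 2 - 2 * d = η⁻¹ * (d - η) ^ 2 := by field_simp; ring
      have h0 : 0 ≤ η⁻¹ * (d - η) ^ 2 := by positivity
      linarith
    exact h8.trans h9
  rw [integral_add (integrable_const _) (hi.const_mul _), integral_const, integral_const_mul,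
    smul_eq_mul] at h1
  have h2 : η⁻¹ * ∫ χ, ‖et μ (x + b) χ - et μ x χ * et μ b χ‖ ^ 2 ∂μ ≤ ε / 2 := by
    rw [inv_mul_le_iff₀ hη0]; exact hn b hb
  nlinarith

/-- the defect -/
def V (μ : Measure X) (a z : K) : ℝ := ∫ χ, N μ a χ * (1 - N μ z χ) ∂μ

theorem V_nonneg (a z : K) : 0 ≤ V μ a z :=
  integral_nonneg_of_ae (by
    filter_upwards [N_bd μ a, N_bd μ z] with χ h1 h2
    exact mul_nonneg h1.1 (by linarith))

theorem V_neg (a z : K) : V μ a (-z) = V μ a z :=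
  integral_congr_ae ((et_neg μ z).mono fun χ h => by simp only [N, h, Complex.norm_conj])

theorem V_add (a y z : K) : V μ a (y + z) ≤ 2 * V μ a y + 2 * V μ a z :=
  et_var_add μ (N μ a) (N_sm μ a) (N_bd μ a) y z

theorem step1 (hU : UInv μ) (a : K) {ε : ℝ} (hε : 0 < ε) :
    ∃ n : ℕ, ∀ v : K, ‖v‖ = 1 → a * (v - 1) ∈ deep n → V μ a (a * (v - 1)) ≤ ε := by
  obtain ⟨n, hn⟩ := N_mul μ a hε
  refine ⟨n, fun v hv hb => le_trans ?_ (hn _ hb)⟩
  have h1 : V μ a (a * (v - 1)) =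
      ∫ χ, (N μ (a + a * (v - 1)) χ - N μ a χ * N μ (a * (v - 1)) χ) ∂μ := by
    rw [integral_sub (N_int μ _) (NN_int μ _ _), show a + a * (v - 1) = v * a by ring,
      N_rot μ hU hv, ← integral_sub (N_int μ _) (NN_int μ _ _)]
    simp only [V, mul_sub, mul_one]
  rw [h1]
  exact integral_mono ((N_int μ _).sub (NN_int μ _ _)) ((N_int μ _).sub (NN_int μ _ _)).abs
    fun χ => le_abs_self _

theorem step2 (hU : UInv μ) {a : K} (ha : a ≠ 0) {ε : ℝ} (hε : 0 < ε) :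
    ∃ (M : ℕ) (r : ℝ), 0 < r ∧ ∀ z : K, z / a / 5 ^ M ∈ Lam5 → ‖z‖ < r → V μ a z ≤ ε := by
  obtain ⟨n, hn⟩ := step1 μ hU a (ε := ε / 94) (by positivity)
  obtain ⟨s, hs⟩ := deep_mul a
  obtain ⟨M, r, hr, hM⟩ := six_terms (n + s)
  have ha' : 0 < ‖a‖ := norm_pos_iff.2 ha
  refine ⟨M, r * ‖a‖, by positivity, fun z hz hzr => ?_⟩
  obtain ⟨v, t, hv, hsum⟩ := hM (z / a) hz (by rw [norm_div, div_lt_iff₀ ha']; exact hzr)
  have h1 : ∀ i, V μ a (a * ((t i : K) * (v i - 1))) ≤ ε / 94 := by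
    intro i
    have h2 := hn (v i) (hv i).1 (hs n _ (deep_of_lam5 (hv i).2.1))
    rcases (hv i).2.2 with h | h
    · simpa only [h, Int.cast_one, one_mul] using h2
    · rw [h, show a * (((-1 : ℤ) : K) * (v i - 1)) = -(a * (v i - 1)) by push_cast; ring, V_neg]
      exact h2
  have h3 : z = ∑ i, a * ((t i : K) * (v i - 1)) := by
    rw [← Finset.mul_sum, ← hsum]; field_simp
  obtain ⟨x, hx⟩ : ∃ x : Fin 6 → K, ∀ i, x i = a * ((t i : K) * (v i - 1)) := ⟨_, fun _ => rfl⟩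
  simp only [← hx] at h1 h3
  rw [h3, Fin.sum_univ_six]
  have a1 := V_add μ a (x 0) (x 1)
  have a2 := V_add μ a (x 0 + x 1) (x 2)
  have a3 := V_add μ a (x 0 + x 1 + x 2) (x 3)
  have a4 := V_add μ a (x 0 + x 1 + x 2 + x 3) (x 4)
  have a5 := V_add μ a (x 0 + x 1 + x 2 + x 3 + x 4) (x 5)
  linarith [h1 0, h1 1, h1 2, h1 3, h1 4, h1 5]

theorem ev_int (ν : Measure X) [IsFiniteMeasure ν] (z : K) : Integrable (fun ψ : X => ψ.1 z) ν :=
  Integrable.of_bound (ch_measurable z).aestronglyMeasurable 1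
    (Eventually.of_forall fun ψ => (ψ.2.1 z).le)

theorem defect_eq (ν : Measure X) [IsFiniteMeasure ν] (z : K) :
    ∫ ψ : X, ‖1 - ψ.1 z‖ ^ 2 ∂ν = 2 * (∫ ψ : X, ψ.1 0 ∂ν).re - 2 * (∫ ψ : X, ψ.1 z ∂ν).re := by
  have h0 : ∀ y : K, (∫ ψ : X, ψ.1 y ∂ν).re = ∫ ψ : X, (ψ.1 y).re ∂ν := fun y =>
    (integral_re (ev_int ν y)).symm
  have hi : ∀ y : K, Integrable (fun ψ : X => 2 * (ψ.1 y).re) ν := fun y =>
    (ev_int ν y).re.const_mul 2
  rw [h0, h0, ← integral_const_mul, ← integral_const_mul, ← integral_sub (hi 0) (hi z)]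
  refine integral_congr_ae (Eventually.of_forall fun ψ => ?_)
  have h1 := ψ.2.1 z
  have h2 : (ψ.1 z).re ^ 2 + (ψ.1 z).im ^ 2 = 1 := by
    have := Complex.sq_norm (ψ.1 z)
    rw [h1, Complex.normSq_apply] at this
    nlinarith
  simp only [ch_zero, Complex.sq_norm, Complex.normSq_apply, Complex.sub_re, Complex.sub_im,
    Complex.one_re, Complex.one_im]
  nlinarith

theorem step3 (hU : UInv μ) {a : K} (ha : a ≠ 0) {ε : ℝ} (hε : 0 < ε) :
    ∃ r > (0 : ℝ), ∀ z : K, ‖z‖ < r → V μ a z ≤ ε := by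
  obtain ⟨ν, hν, hF⟩ := exists_nu μ (N μ a) (N_sm μ a) (N_bd μ a)
  obtain ⟨ν', hν', hF'⟩ := exists_nu μ (fun χ => 1 - N μ a χ)
    (stronglyMeasurable_const.sub (N_sm μ a))
    ((N_bd μ a).mono fun χ h => ⟨by linarith [h.2], by linarith [h.1]⟩)
  have hsum : ∀ z : K, ∫ ψ : X, ψ.1 z ∂(ν + ν') = ((∫ χ, N μ z χ ∂μ : ℝ) : ℂ) := by
    intro z
    rw [integral_add_measure (ev_int ν z) (ev_int ν' z), hF, hF', ← Complex.ofReal_add]
    congr 1
    have h1 : ∫ χ, (1 - N μ a χ) * ‖et μ z χ‖ ^ 2 ∂μ =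
        ∫ χ, N μ z χ ∂μ - ∫ χ, N μ a χ * N μ z χ ∂μ := by
      rw [← integral_sub (N_int μ _) (NN_int μ _ _)]
      simp only [N, sub_mul, one_mul]
    rw [h1]
    simp only [N]
    ring
  have hU1 : UInv (ν + ν') := uinv_of_fourier _ fun u b hu => by
    rw [hsum, hsum, N_rot μ hU hu]
  have hV : ∀ z : K, ∫ ψ : X, ‖1 - ψ.1 z‖ ^ 2 ∂ν = 2 * V μ a z := by
    intro z
    rw [defect_eq, hF, hF, Complex.ofReal_re, Complex.ofReal_re]
    have h1 : ∫ χ, N μ a χ * ‖et μ 0 χ‖ ^ 2 ∂μ = ∫ χ, N μ a χ ∂μ :=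
      integral_congr_ae ((et_zero μ).mono fun χ h => by simp only [h, norm_one, one_pow, mul_one])
    have h2 : V μ a z = ∫ χ, N μ a χ ∂μ - ∫ χ, N μ a χ * N μ z χ ∂μ := by
      rw [← integral_sub (N_int μ _) (NN_int μ _ _)]
      simp only [V, mul_sub, mul_one]
    rw [h1, h2]
    simp only [N]
    ring
  obtain ⟨r, hr, h⟩ := cont_of_approx ν (ν + ν') (Measure.le_add_right le_rfl) hU1 a ha
    (fun δ hδ => by
      obtain ⟨M, r, hr, h⟩ := step2 μ hU ha (ε := δ / 2) (by positivity)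
      refine ⟨M, r, hr, fun z hz hzr => ?_⟩
      rw [hV]
      linarith [h z hz hzr]) ε hε
  refine ⟨r, hr, fun z hz => ?_⟩
  have := h z hz
  rw [hV] at this
  linarith [V_nonneg μ a z]

end Dich

open Dich in
/-- `w = ‖ẽ_a‖²`, `V z = ∫ w (1 - ‖ẽ_z‖²)`.  (1) For `b = a(v - 1) ∈ deep n`, `‖v‖ = 1`: `∫ ‖ẽ_{a+b}‖² = ∫ ‖ẽ_a‖²` (`et_rot`, `a + b = v a`) and `et_mul` give `V b` small.  (2) `six_terms`, `et_var_add`, `et_neg`, `deep_mul`,
`deep_of_lam5`: `V z` is small for `z / a / 5^M ∈ Lam5`, `‖z‖ < r‖a‖`.  (3) `ν = ν_w`, `ν₁ = ν_w + ν_{1-w}` (`exists_nu`; `UInv ν₁` by `uinv_of_fourier`, `et_rot`), `∫ ‖1 - ψ z‖² dν = 2 V z` (`et_zero`);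
`cont_of_approx` gives `V z → 0` as `z → 0` in `K`.  (4) for arbitrary `z` take `b ∈ deep n` with `z + b` small (`lam5_dense`): `‖ẽ_{z+b}‖ ≈ ‖ẽ_z‖ ‖ẽ_b‖ ≤ ‖ẽ_z‖`, so `V z ≤ V (z + b) + small`. -/
theorem dichotomy (μ : Measure X) [IsFiniteMeasure μ] (hU : UInv μ) (a : K) (ha : a ≠ 0) (z : K) :
    ∫ χ, ‖et μ a χ‖ ^ 2 * (1 - ‖et μ z χ‖ ^ 2) ∂μ = 0 := by
  refine le_antisymm (le_of_forall_pos_le_add fun ε hε => ?_) (V_nonneg μ a z)
  obtain ⟨r, hr, h⟩ := step3 μ hU ha (ε := ε / 2) (by positivity)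
  obtain ⟨n, hn⟩ := N_mul μ z (ε := ε / 2) (by positivity)
  obtain ⟨b, hb, hbz⟩ := lam5_dense 1 one_ne_zero n (-(z : ℂ)) r hr
  rw [div_one] at hb
  have h1 := h (z + b) (by
    rw [norm_K]
    push_cast
    rwa [sub_neg_eq_add, add_comm] at hbz)
  have h2 := hn b (deep_of_lam5 hb)
  have h3 : V μ a z ≤
      ∫ χ, (N μ a χ * (1 - N μ (z + b) χ) + |N μ (z + b) χ - N μ z χ * N μ b χ|) ∂μ := by
    refine integral_mono_ae (V_int μ _ _)
      ((V_int μ _ _).add ((N_int μ _).sub (NN_int μ _ _)).abs) ?_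
    filter_upwards [N_bd μ a, N_bd μ z, N_bd μ b] with χ k1 k2 k3
    have k4 := le_abs_self (N μ (z + b) χ - N μ z χ * N μ b χ)
    have k5 := abs_nonneg (N μ (z + b) χ - N μ z χ * N μ b χ)
    have k6 : N μ z χ * N μ b χ ≤ N μ z χ := mul_le_of_le_one_right k2.1 k3.2
    generalize |N μ (z + b) χ - N μ z χ * N μ b χ| = d at *
    have k7 : N μ a χ * (N μ (z + b) χ - N μ z χ) ≤ N μ a χ * d :=
      mul_le_mul_of_nonneg_left (by linarith) k1.1
    have k8 : N μ a χ * d ≤ d := mul_le_of_le_one_left k5 k1.2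
    linarith
  have hi : Integrable (fun χ => |N μ (z + b) χ - N μ z χ * N μ b χ|) μ :=
    ((N_int μ _).sub (NN_int μ _ _)).abs
  rw [integral_add (V_int μ _ _) hi] at h3
  change V μ a z ≤ 0 + ε
  change V μ a z ≤ V μ a (z + b) + _ at h3
  linarith

end Crest.Agent.R040

end
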