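import Crest.Agent.R040.Levy
import Crest.Agent.R040.Arith

/-! # Row 40, Step 1: conditional expectations on the tail σ-algebra -/

set_option autoImplicit false

open MeasureTheory Filter Topology Set

noncomputable section

namespace Crest.Agent.R040

theorem sig_le (S : Set K) : sig S ≤ (inferInstance : MeasurableSpace X) := by
  exact iSup₂_le fun z _ => (ch_measurable z).comap_le

theorem tail_le_sig (n : ℕ) : tail ≤ sig (deep n) := by
  exact iInf_le (fun n => sig (deep n)) n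

theorem tail_le : tail ≤ (inferInstance : MeasurableSpace X) := by
  exact (tail_le_sig 0).trans (sig_le _)

theorem et_sm (μ : Measure X) (a : K) : StronglyMeasurable[tail] (et μ a) := by
  exact stronglyMeasurable_condExp

theorem EtBasic_norm (a : K) (χ : X) : ‖χ.1 a‖ = 1 := χ.2.1 a

theorem EtBasic_int (μ : Measure X) [IsFiniteMeasure μ] (a : K) :
    Integrable (fun χ : X => χ.1 a) μ :=
  Integrable.of_bound (ch_measurable a).aestronglyMeasurable 1
    (ae_of_all _ fun χ => (EtBasic_norm a χ).le)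

theorem EtBasic_pull {Ω : Type*} {m m0 : MeasurableSpace Ω} (hm : m ≤ m0) (μ : Measure Ω)
    [IsFiniteMeasure μ] {g f : Ω → ℂ} (hg : StronglyMeasurable[m] g) {C : ℝ}
    (hC : ∀ᵐ x ∂μ, ‖g x‖ ≤ C) (hf : Integrable f μ) :
    μ[fun x => g x * f x | m] =ᵐ[μ] fun x => g x * (μ[f | m]) x :=
  condExp_stronglyMeasurable_bilin_of_bound (ContinuousLinearMap.mul ℝ ℂ) hm hg hf C hC

theorem EtBasic_int_pull {Ω : Type*} {m m0 : MeasurableSpace Ω} (hm : m ≤ m0) (μ : Measure Ω)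
    [IsFiniteMeasure μ] {g f : Ω → ℂ} (hg : StronglyMeasurable[m] g) {C : ℝ}
    (hC : ∀ᵐ x ∂μ, ‖g x‖ ≤ C) (hf : Integrable f μ) :
    ∫ x, g x * f x ∂μ = ∫ x, g x * (μ[f | m]) x ∂μ := by
  rw [← integral_congr_ae (EtBasic_pull hm μ hg hC hf), integral_condExp hm]

theorem EtBasic_ev_sm {S : Set K} {b : K} (hb : b ∈ S) :
    StronglyMeasurable[sig S] fun χ : X => χ.1 b := by
  refine Measurable.stronglyMeasurable (Measurable.of_comap_le ?_)
  exact le_iSup₂ (f := fun z (_ : z ∈ S) =>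
    MeasurableSpace.comap (fun χ : X => χ.1 z) (inferInstance : MeasurableSpace ℂ)) b hb

theorem EtBasic_rot_tail (v : K) : Measurable[tail, tail] (rot v) := by
  obtain ⟨s, hs⟩ := deep_mul v
  intro t ht
  rw [MeasurableSpace.measurableSet_iInf]
  intro n
  have h1 : Measurable[sig (deep n), sig (deep (n + s))] (rot v) := by
    refine Measurable.of_comap_le ?_
    simp only [sig, MeasurableSpace.comap_iSup, MeasurableSpace.comap_comp]
    exact iSup₂_le fun z hz => le_iSup₂ (f := fun z (_ : z ∈ deep n) =>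
      MeasurableSpace.comap (fun χ : X => χ.1 z) (inferInstance : MeasurableSpace ℂ)) (v * z)
      (hs n z hz)
  exact h1 (tail_le_sig (n + s) t ht)

theorem et_norm_le (μ : Measure X) [IsFiniteMeasure μ] (a : K) : ∀ᵐ χ ∂μ, ‖et μ a χ‖ ≤ 1 := by
  exact ae_bdd_norm_condExp_of_ae_bdd_norm (ae_of_all _ fun χ => (EtBasic_norm a χ).le)

theorem et_zero (μ : Measure X) [IsFiniteMeasure μ] : ∀ᵐ χ ∂μ, et μ 0 χ = 1 := by
  have : (fun χ : X => χ.1 0) = fun _ => (1 : ℂ) := funext fun χ => ch_zero χ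
  refine ae_of_all _ fun χ => ?_
  rw [et, this, condExp_const tail_le]

theorem et_neg (μ : Measure X) [IsFiniteMeasure μ] (a : K) :
    ∀ᵐ χ ∂μ, et μ (-a) χ = (starRingEnd ℂ) (et μ a χ) := by
  have h := (Complex.conjCLE : ℂ →L[ℝ] ℂ).comp_condExp_comm (m := tail) (EtBasic_int μ a)
  have : (fun χ : X => χ.1 (-a)) = (Complex.conjCLE : ℂ →L[ℝ] ℂ) ∘ fun χ : X => χ.1 a :=
    funext fun χ => ch_neg χ a
  filter_upwards [h] with χ hχ
  rw [et, this, ← hχ]
  rfl

theorem integral_et (μ : Measure X) [IsFiniteMeasure μ] (a : K) :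
    ∫ χ, et μ a χ ∂μ = ∫ χ : X, χ.1 a ∂μ := by
  exact integral_condExp tail_le

/-- For `b ∈ deep n`, `e_b` is `sig (deep n)`-measurable: `E(e_{a+b} | sig) = e_b E(e_a | sig)`; replace `E(e_a | sig)` by `ẽ_a` (`levy_down`, `deep_anti`) and condition on
`tail` (an `L²` contraction; pull out `ẽ_a`). -/
theorem et_mul (μ : Measure X) [IsFiniteMeasure μ] (a : K) (ε : ℝ) (hε : 0 < ε) :
    ∃ n : ℕ, ∀ b ∈ deep n, ∫ χ, ‖et μ (a + b) χ - et μ a χ * et μ b χ‖ ^ 2 ∂μ ≤ ε := by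
  have hL := levy_down μ (fun n => sig (deep n)) (fun n => sig_le _)
    (fun n k hnk => iSup₂_le fun z hz => le_iSup₂ (f := fun z (_ : z ∈ deep n) =>
      MeasurableSpace.comap (fun χ : X => χ.1 z) (inferInstance : MeasurableSpace ℂ)) z
      (deep_anti hnk hz)) (fun χ : X => χ.1 a)
    (MemLp.of_bound (ch_measurable a).aestronglyMeasurable 1
      (ae_of_all _ fun χ => (EtBasic_norm a χ).le))
  obtain ⟨n, hn⟩ := (hL.eventually (ge_mem_nhds hε)).exists
  refine ⟨n, fun b hb => le_trans ?_ hn⟩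
  set g : X → ℂ := μ[fun χ : X => χ.1 a | sig (deep n)] with hg
  have hgb : ∀ᵐ χ ∂μ, ‖g χ‖ ≤ 1 :=
    ae_bdd_norm_condExp_of_ae_bdd_norm (ae_of_all _ fun χ => (EtBasic_norm a χ).le)
  have hgm : AEStronglyMeasurable g μ :=
    (stronglyMeasurable_condExp.mono (sig_le _)).aestronglyMeasurable
  have hem : AEStronglyMeasurable (et μ a) μ := ((et_sm μ a).mono tail_le).aestronglyMeasurable
  have hbm : AEStronglyMeasurable (fun χ : X => χ.1 b) μ := (ch_measurable b).aestronglyMeasurable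
  have h1 : μ[fun χ : X => χ.1 (a + b) | sig (deep n)] =ᵐ[μ] fun χ : X => χ.1 b * g χ := by
    have : (fun χ : X => χ.1 (a + b)) = fun χ : X => χ.1 b * χ.1 a :=
      funext fun χ => by rw [χ.2.2, mul_comm]
    rw [this]
    exact EtBasic_pull (sig_le _) μ (EtBasic_ev_sm hb) (ae_of_all _ fun χ => (EtBasic_norm b χ).le)
      (EtBasic_int μ a)
  have h2 : et μ (a + b) =ᵐ[μ] μ[fun χ : X => χ.1 b * g χ | tail] :=
    (condExp_condExp_of_le (tail_le_sig n) (sig_le _)).symm.trans (condExp_congr_ae h1)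
  have h3 := EtBasic_pull tail_le μ (et_sm μ a) (et_norm_le μ a) (EtBasic_int μ b)
  have i1 : Integrable (fun χ : X => χ.1 b * g χ) μ :=
    Integrable.of_bound (hbm.mul hgm) 1 (by
      filter_upwards [hgb] with χ h
      rwa [norm_mul, EtBasic_norm, one_mul])
  have i2 : Integrable (fun χ : X => et μ a χ * χ.1 b) μ :=
    Integrable.of_bound (hem.mul hbm) 1 (by
      filter_upwards [et_norm_le μ a] with χ h
      rwa [norm_mul, EtBasic_norm, mul_one])
  have h4 := condExp_sub i1 i2 tail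
  have e1 : ∀ χ : X, ‖((fun χ : X => χ.1 b * g χ) - fun χ : X => et μ a χ * χ.1 b) χ‖ ^ (2 : ℝ) =
      ‖g χ - et μ a χ‖ ^ 2 := by
    intro χ
    rw [Real.rpow_two, Pi.sub_apply, mul_comm (et μ a χ), ← mul_sub, norm_mul, EtBasic_norm,
      one_mul]
  have h5 := integral_norm_condExp_rpow_le (m := tail) (μ := μ) (p := 2) one_le_two
    (f := (fun χ : X => χ.1 b * g χ) - fun χ : X => et μ a χ * χ.1 b) (by
      simp only [e1]
      refine Integrable.of_bound ((hgm.sub hem).norm.pow 2) 4 ?_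
      filter_upwards [hgb, et_norm_le μ a] with χ u1 u2
      have := norm_sub_le (g χ) (et μ a χ)
      have := norm_nonneg (g χ - et μ a χ)
      rw [Real.norm_eq_abs, abs_of_nonneg (by positivity)]
      nlinarith)
  simp only [e1] at h5
  refine le_trans (le_of_eq (integral_congr_ae ?_)) h5
  filter_upwards [h2, h3, h4] with χ u2 u3 u4
  rw [u4, Pi.sub_apply, u3, u2, Real.rpow_two]
  rfl

/-- `rot v` is `tail`-measurable for every `v` (`deep_mul`); use `v = u` and `v = u⁻¹` and `ae_eq_condExp_of_forall_setIntegral_eq`. -/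
theorem et_rot (μ : Measure X) [IsFiniteMeasure μ] (hU : UInv μ) (u : K) (hu : ‖u‖ = 1) (a : K) :
    ∀ᵐ χ ∂μ, et μ (u * a) χ = et μ a (rot u χ) := by
  have hu0 : u ≠ 0 := by
    rintro rfl
    simp at hu
  have hP := hU u hu
  have hem : StronglyMeasurable (et μ a) := (et_sm μ a).mono tail_le
  have h := ae_eq_condExp_of_forall_setIntegral_eq (μ := μ) tail_le
    (f := fun χ : X => χ.1 (u * a)) (g := fun χ => et μ a (rot u χ)) (EtBasic_int μ _)
    (fun s _ _ => ((hP.integrable_comp hem.aestronglyMeasurable).2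
      integrable_condExp).integrableOn) (fun s hs _ => ?_)
    ((et_sm μ a).comp_measurable (EtBasic_rot_tail u)).aestronglyMeasurable
  · filter_upwards [h] with χ hχ
    exact hχ.symm
  have ht : MeasurableSet[tail] (rot u⁻¹ ⁻¹' s) := EtBasic_rot_tail u⁻¹ hs
  have hs' : s = rot u ⁻¹' (rot u⁻¹ ⁻¹' s) := by
    ext χ
    simp only [Set.mem_preimage, rot_rot, inv_mul_cancel₀ hu0, rot_one]
  have key : ∀ F : X → ℂ, StronglyMeasurable F →
      ∫ χ in s, F (rot u χ) ∂μ = ∫ χ in rot u⁻¹ ⁻¹' s, F χ ∂μ := by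
    intro F hF
    have := setIntegral_map (μ := μ) (g := rot u) (f := F) (tail_le _ ht) hF.aestronglyMeasurable
      hP.measurable.aemeasurable
    rw [hP.map_eq, ← hs'] at this
    exact this.symm
  rw [key _ hem]
  refine Eq.trans ?_ (key (fun χ : X => χ.1 a) (ch_measurable a).stronglyMeasurable).symm
  exact setIntegral_condExp tail_le (EtBasic_int μ a) ht

theorem EtBasic_sq (x y : ℂ) :
    ‖x - y‖ ^ 2 = ‖x‖ ^ 2 + ‖y‖ ^ 2 - 2 * ((starRingEnd ℂ) y * x).re := by
  simp only [Complex.sq_norm, Complex.normSq_apply, Complex.sub_re, Complex.sub_im, Complex.mul_re,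
    Complex.conj_re, Complex.conj_im]
  ring

theorem EtBasic_expand (μ : Measure X) [IsFiniteMeasure μ] (w : X → ℝ)
    (hw : StronglyMeasurable[tail] w) (h01 : ∀ᵐ χ ∂μ, 0 ≤ w χ ∧ w χ ≤ 1) (z : K) {g : X → ℂ}
    (hg : StronglyMeasurable[tail] g) (hb : ∀ᵐ χ ∂μ, ‖g χ‖ ≤ 1) :
    ∫ χ : X, w χ * ‖χ.1 z - g χ‖ ^ 2 ∂μ =
      ∫ χ, w χ * (1 - ‖et μ z χ‖ ^ 2 + ‖et μ z χ - g χ‖ ^ 2) ∂μ := by
  have hG : StronglyMeasurable[tail] fun χ => (w χ : ℂ) * (starRingEnd ℂ) (g χ) :=
    (Complex.continuous_ofReal.comp_stronglyMeasurable hw).mul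
      (Complex.continuous_conj.comp_stronglyMeasurable hg)
  have hGb : ∀ᵐ χ ∂μ, ‖(w χ : ℂ) * (starRingEnd ℂ) (g χ)‖ ≤ 1 := by
    filter_upwards [h01, hb] with χ h1 h2
    rw [norm_mul, Complex.norm_conj, Complex.norm_real, Real.norm_eq_abs, abs_of_nonneg h1.1]
    exact mul_le_one₀ h1.2 (norm_nonneg _) h2
  have h1 := EtBasic_int_pull tail_le μ hG hGb (EtBasic_int μ z)
  have i0 : Integrable (fun χ => w χ * (1 + ‖g χ‖ ^ 2)) μ := by
    refine Integrable.of_bound ((hw.mono tail_le).aestronglyMeasurable.mul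
      (aestronglyMeasurable_const.add ((hg.mono tail_le).aestronglyMeasurable.norm.pow 2))) 2 ?_
    filter_upwards [h01, hb] with χ h1 h2
    have := norm_nonneg (g χ)
    rw [Real.norm_eq_abs, abs_of_nonneg (mul_nonneg h1.1 (by positivity))]
    nlinarith [h1.1, h1.2, pow_le_one₀ (n := 2) this h2, sq_nonneg ‖g χ‖]
  have key : ∀ F : X → ℂ, Integrable F μ →
      ∫ χ, (w χ * (1 + ‖g χ‖ ^ 2) - 2 * ((w χ : ℂ) * (starRingEnd ℂ) (g χ) * F χ).re) ∂μ =
        ∫ χ, w χ * (1 + ‖g χ‖ ^ 2) ∂μ -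
          2 * (∫ χ, (w χ : ℂ) * (starRingEnd ℂ) (g χ) * F χ ∂μ).re := by
    intro F hF
    have i1 : Integrable (fun χ => (w χ : ℂ) * (starRingEnd ℂ) (g χ) * F χ) μ :=
      hF.bdd_mul (hG.mono tail_le).aestronglyMeasurable hGb
    have i2 : Integrable (fun χ => ((w χ : ℂ) * (starRingEnd ℂ) (g χ) * F χ).re) μ := i1.re
    rw [integral_sub i0 (i2.const_mul 2), integral_const_mul]
    congr 2
    exact integral_re i1
  calc _ = ∫ χ : X, (w χ * (1 + ‖g χ‖ ^ 2) -
          2 * ((w χ : ℂ) * (starRingEnd ℂ) (g χ) * χ.1 z).re) ∂μ := by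
        refine integral_congr_ae (ae_of_all _ fun χ => ?_)
        simp only [EtBasic_sq, EtBasic_norm, mul_assoc, Complex.re_ofReal_mul]
        ring
    _ = ∫ χ : X, (w χ * (1 + ‖g χ‖ ^ 2) -
          2 * ((w χ : ℂ) * (starRingEnd ℂ) (g χ) * et μ z χ).re) ∂μ := by
        rw [key _ (EtBasic_int μ z), key (et μ z) integrable_condExp, h1]
        rfl
    _ = _ := by
        refine integral_congr_ae (ae_of_all _ fun χ => ?_)
        simp only [EtBasic_sq, mul_assoc, Complex.re_ofReal_mul]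
        ring

/-- expand the square and pull out `w * conj ẽ_z` -/
theorem et_var (μ : Measure X) [IsFiniteMeasure μ] (w : X → ℝ) (hw : StronglyMeasurable[tail] w)
    (h01 : ∀ᵐ χ ∂μ, 0 ≤ w χ ∧ w χ ≤ 1) (z : K) :
    ∫ χ : X, w χ * ‖χ.1 z - et μ z χ‖ ^ 2 ∂μ = ∫ χ, w χ * (1 - ‖et μ z χ‖ ^ 2) ∂μ := by
  rw [EtBasic_expand μ w hw h01 z (et_sm μ z) (et_norm_le μ z)]
  simp

/-- `∫ w ‖e - ẽ‖² ≤ ∫ w ‖e - g‖²` for bounded tail-measurable `g`; take `g = ẽ_z ẽ_{z'}` and `e_z e_{z'} - ẽ_z ẽ_{z'} = e_{z'}(e_z - ẽ_z) + ẽ_z(e_{z'} - ẽ_{z'})`. -/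
theorem et_var_add (μ : Measure X) [IsFiniteMeasure μ] (w : X → ℝ) (hw : StronglyMeasurable[tail] w)
    (h01 : ∀ᵐ χ ∂μ, 0 ≤ w χ ∧ w χ ≤ 1) (z z' : K) :
    ∫ χ, w χ * (1 - ‖et μ (z + z') χ‖ ^ 2) ∂μ ≤
      2 * ∫ χ, w χ * (1 - ‖et μ z χ‖ ^ 2) ∂μ + 2 * ∫ χ, w χ * (1 - ‖et μ z' χ‖ ^ 2) ∂μ := by
  have hwm := (hw.mono tail_le).aestronglyMeasurable (μ := μ)
  have hem : ∀ a, AEStronglyMeasurable (et μ a) μ := fun a =>
    ((et_sm μ a).mono tail_le).aestronglyMeasurable
  have hev : ∀ a : K, AEStronglyMeasurable (fun χ : X => χ.1 a) μ := fun a =>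
    (ch_measurable a).aestronglyMeasurable
  have hint : ∀ F : X → ℝ, AEStronglyMeasurable F μ → (∀ᵐ χ ∂μ, 0 ≤ F χ ∧ F χ ≤ 5) →
      Integrable (fun χ => w χ * F χ) μ := by
    intro F hF hb
    refine Integrable.of_bound (hwm.mul hF) 5 ?_
    filter_upwards [h01, hb] with χ h1 h2
    rw [Real.norm_eq_abs, abs_of_nonneg (mul_nonneg h1.1 h2.1)]
    nlinarith [h1.1, h1.2, h2.1, h2.2]
  have hsq : ∀ x y : ℂ, ‖x‖ ≤ 1 → ‖y‖ ≤ 1 → ‖x - y‖ ^ 2 ≤ 4 := by
    intro x y hx hy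
    have := norm_sub_le x y
    have := norm_nonneg (x - y)
    nlinarith
  have hg : StronglyMeasurable[tail] fun χ => et μ z χ * et μ z' χ := (et_sm μ z).mul (et_sm μ z')
  have hgb : ∀ᵐ χ ∂μ, ‖et μ z χ * et μ z' χ‖ ≤ 1 := by
    filter_upwards [et_norm_le μ z, et_norm_le μ z'] with χ h1 h2
    rw [norm_mul]
    exact mul_le_one₀ h1 (norm_nonneg _) h2
  have i1 : ∀ a : K, Integrable (fun χ : X => w χ * ‖χ.1 a - et μ a χ‖ ^ 2) μ := fun a =>
    hint _ (((hev a).sub (hem a)).norm.pow 2) (by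
      filter_upwards [et_norm_le μ a] with χ h
      exact ⟨by positivity, by linarith [hsq _ _ (EtBasic_norm a χ).le h]⟩)
  rw [← et_var μ w hw h01 z, ← et_var μ w hw h01 z', ← integral_const_mul, ← integral_const_mul,
    ← integral_add ((i1 z).const_mul 2) ((i1 z').const_mul 2)]
  calc _ ≤ ∫ χ, w χ * (1 - ‖et μ (z + z') χ‖ ^ 2 +
          ‖et μ (z + z') χ - et μ z χ * et μ z' χ‖ ^ 2) ∂μ := by
        refine integral_mono_ae (hint _ (aestronglyMeasurable_const.sub ((hem _).norm.pow 2)) ?_)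
          (hint _ ((aestronglyMeasurable_const.sub ((hem _).norm.pow 2)).add
            (((hem _).sub ((hem z).mul (hem z'))).norm.pow 2)) ?_) ?_
        · filter_upwards [et_norm_le μ (z + z')] with χ h
          have := pow_le_one₀ (n := 2) (norm_nonneg _) h
          exact ⟨by linarith, by nlinarith [sq_nonneg ‖et μ (z + z') χ‖]⟩
        · filter_upwards [et_norm_le μ (z + z'), hgb] with χ h h'
          have := pow_le_one₀ (n := 2) (norm_nonneg _) h
          have := hsq _ _ h h'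
          exact ⟨by nlinarith [sq_nonneg ‖et μ (z + z') χ - et μ z χ * et μ z' χ‖],
            by nlinarith [sq_nonneg ‖et μ (z + z') χ‖]⟩
        · filter_upwards [h01] with χ h
          exact mul_le_mul_of_nonneg_left (le_add_of_nonneg_right (by positivity)) h.1
    _ = ∫ χ : X, w χ * ‖χ.1 (z + z') - et μ z χ * et μ z' χ‖ ^ 2 ∂μ :=
        (EtBasic_expand μ w hw h01 (z + z') hg hgb).symm
    _ ≤ _ := by
        refine integral_mono_ae (hint _ (((hev _).sub ((hem z).mul (hem z'))).norm.pow 2) ?_)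
          (((i1 z).const_mul 2).add ((i1 z').const_mul 2)) ?_
        · filter_upwards [hgb] with χ h
          exact ⟨by positivity, by linarith [hsq _ _ (EtBasic_norm (z + z') χ).le h]⟩
        · filter_upwards [h01, et_norm_le μ z] with χ h h'
          have e1 : χ.1 (z + z') - et μ z χ * et μ z' χ =
              χ.1 z' * (χ.1 z - et μ z χ) + et μ z χ * (χ.1 z' - et μ z' χ) := by
            rw [χ.2.2]; ring
          have e2 : ‖χ.1 (z + z') - et μ z χ * et μ z' χ‖ ≤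
              ‖χ.1 z - et μ z χ‖ + ‖χ.1 z' - et μ z' χ‖ := by
            rw [e1]
            refine (norm_add_le _ _).trans (add_le_add ?_ ?_)
            · rw [norm_mul, EtBasic_norm, one_mul]
            · rw [norm_mul]
              exact mul_le_of_le_one_left (norm_nonneg _) h'
          have e3 := pow_le_pow_left₀ (norm_nonneg _) e2 2
          have e4 : ‖χ.1 (z + z') - et μ z χ * et μ z' χ‖ ^ 2 ≤
              2 * ‖χ.1 z - et μ z χ‖ ^ 2 + 2 * ‖χ.1 z' - et μ z' χ‖ ^ 2 := by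
            nlinarith [sq_nonneg (‖χ.1 z - et μ z χ‖ - ‖χ.1 z' - et μ z' χ‖)]
          have := mul_le_mul_of_nonneg_left e4 h.1
          show w χ * _ ≤ 2 * (w χ * _) + 2 * (w χ * _)
          linarith

end Crest.Agent.R040

end
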