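import Crest.Agent.R040.BasM
import Crest.Agent.R040.CircSum
import Crest.Agent.R040.Pert

/-! # Row 40, Step 2: finite configurations -/

set_option autoImplicit false

open MeasureTheory Filter Topology Set Metric
open scoped Real

noncomputable section

namespace Crest.Agent.R040

theorem finCfg_sq {x : ℝ} (h : x ^ 2 = 1) : x = 1 ∨ x = -1 := by
  have : (x - 1) * (x + 1) = 0 := by linarith
  rcases mul_eq_zero.1 this with h | h
  · left; linarith
  · right; linarith

theorem finCfg_zero {m : ENNReal} {n : ℕ} (h : ∀ ε : ℝ, 0 < ε → m ≤ n * ENNReal.ofReal ε) : m = 0 := by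
  have h1 : Tendsto (fun ε : ℝ => (n : ENNReal) * ENNReal.ofReal ε) (𝓝[>] 0)
      (𝓝 ((n : ENNReal) * ENNReal.ofReal 0)) := by
    refine ENNReal.Tendsto.const_mul ?_ (Or.inr (ENNReal.natCast_ne_top n))
    exact (ENNReal.continuous_ofReal.tendsto 0).mono_left nhdsWithin_le_nhds
  rw [ENNReal.ofReal_zero, mul_zero] at h1
  have h2 : m ≤ 0 := ge_of_tendsto h1 (by
    filter_upwards [self_mem_nhdsWithin] with ε hε using h ε hε)
  exact le_antisymm h2 zero_le

theorem finCfg_rot {Z : Set ℂ} (hZ : volume Z = 0) (v q : ℂ) (θ : ℝ) :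
    ∀ᵐ y : ℂ, v + cis θ * (q + y) ∉ Z := by
  have hne : cis θ ≠ 0 := by
    intro h
    have := norm_cis θ
    rw [h, norm_zero] at this
    exact zero_ne_one this
  have hd : DifferentiableOn ℝ (fun z : ℂ => (cis θ)⁻¹ * (z - v) - q) Z := by
    apply Differentiable.differentiableOn
    fun_prop
  have h0 := addHaar_image_eq_zero_of_differentiableOn_of_addHaar_eq_zero volume hd hZ
  rw [ae_iff]
  refine measure_mono_null ?_ h0
  intro y hy
  simp only [mem_ofPred_eq, not_not] at hy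
  refine ⟨_, hy, ?_⟩
  field_simp
  ring

theorem finCfg_fubini {Z : Set ℂ} (hZm : MeasurableSet Z) (hZ : volume Z = 0) (v q : ℂ) :
    ∀ᵐ y : ℂ, ∀ᵐ θ : ℝ, v + cis θ * (q + y) ∉ Z := by
  have hc : Continuous fun p : ℝ × ℂ => v + cis p.1 * (q + p.2) := by
    have := continuous_cis
    fun_prop
  have hm : MeasurableSet {p : ℝ × ℂ | v + cis p.1 * (q + p.2) ∉ Z} :=
    (hc.measurable hZm).compl
  exact (Measure.ae_ae_comm hm).1 (Eventually.of_forall fun θ => finCfg_rot hZ v q θ)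

theorem finCfg_T_null (c : MCol) (v : ℂ) :
    volume {p : ℝ × ℝ | ∃ l, v + cis p.1 + cis p.2 ∈ c.D l ∧ c.N (v + cis p.1) l} = 0 := by
  have hc : Continuous fun p : ℝ × ℝ => v + cis p.1 + cis p.2 := by
    have := continuous_cis
    fun_prop
  have hm : MeasurableSet {p : ℝ × ℝ | ∃ l, v + cis p.1 + cis p.2 ∈ c.D l ∧ c.N (v + cis p.1) l} := by
    rw [ofPred_exists]
    refine MeasurableSet.iUnion fun l => ?_
    exact (hc.measurable (c.meas l)).inter (measurable_fst (c.measurableSet_N_cis v l))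
  rw [Measure.volume_eq_prod, Measure.measure_prod_null hm]
  refine Eventually.of_forall fun α => ?_
  have h1 : ∀ᵐ β : ℝ, ∀ l, c.N (v + cis α) l → v + cis α + cis β ∉ c.D l := by
    rw [ae_all_iff]
    intro l
    by_cases h : c.N (v + cis α) l
    · filter_upwards [h] with β hβ _ using hβ
    · exact Eventually.of_forall fun β h' => absurd h' h
  rw [ae_iff] at h1
  refine measure_mono_null ?_ h1
  rintro β ⟨l, h2, h3⟩ h4
  exact h4 l h3 h2

theorem finCfg_sin {α β : ℝ} (h1 : cis α ≠ cis β) (h2 : cis α ≠ -cis β) : Real.sin (α - β) ≠ 0 := by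
  intro h
  have h3 : Real.cos (α - β) ^ 2 = 1 := by
    have := Real.sin_sq_add_cos_sq (α - β)
    rw [h] at this
    linarith
  have h4 : cis α = cis (α - β) * cis β := by
    rw [← cis_add]
    congr 1
    ring
  rcases finCfg_sq h3 with h5 | h5
  · apply h1
    have : cis (α - β) = 1 := by
      apply Complex.ext
      · rw [cis_re, h5]; simp
      · rw [cis_im, h]; simp
    rw [h4, this, one_mul]
  · apply h2
    have : cis (α - β) = -1 := by
      apply Complex.ext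
      · rw [cis_re, h5]; simp
      · rw [cis_im, h]; simp
    rw [h4, this, neg_one_mul]

theorem finCfg_pair (U : Fin 5 → Set ℝ) (hU : ∀ l, MeasurableSet (U l)) (α β a b : ℝ) {ε : ℝ} (hε : 0 < ε) :
    ∀ᶠ y in 𝓝 (0 : ℂ), ∃ t β' : ℝ, (cis α ≠ cis β → cis α ≠ -cis β →
      cis α + cis β + y = cis (α + t) + cis β') ∧
      ∀ l, volume {θ | θ ∈ Ioc a b ∧ ¬ (θ ∈ U l ↔ θ + t ∈ U l)} ≤ ENNReal.ofReal ε := by
  by_cases hadm : cis α ≠ cis β ∧ cis α ≠ -cis β
  · have hs := finCfg_sin hadm.1 hadm.2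
    obtain ⟨C, s₀, hC, hs₀, hinv⟩ := sum_inv (abs_pos.2 hs)
    have h1 : ∀ l, ∀ᶠ t in 𝓝 (0 : ℝ), ∀ t', |t'| ≤ t →
        volume {θ | θ ∈ Ioc a b ∧ ¬ (θ ∈ U l ↔ θ + t' ∈ U l)} ≤ ENNReal.ofReal ε := by
      intro l
      obtain ⟨η, hη, h⟩ := shift_small (hU l) a b hε
      filter_upwards [Iic_mem_nhds hη] with t ht t' ht'
      have h2 := h t' (ht'.trans ht)
      have hfin : volume {θ | θ ∈ Ioc a b ∧ ¬ (θ ∈ U l ↔ θ + t' ∈ U l)} ≠ ⊤ :=
        ne_top_of_le_ne_top (measure_Ioc_lt_top (a := a) (b := b)).ne (measure_mono fun θ hθ => hθ.1)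
      rw [← ofReal_measureReal hfin]
      exact ENNReal.ofReal_le_ofReal h2.le
    have h2 := eventually_all.2 h1
    have h3 : Tendsto (fun y : ℂ => C * ‖y‖) (𝓝 0) (𝓝 0) := by
      have : Continuous fun y : ℂ => C * ‖y‖ := by fun_prop
      simpa using this.tendsto 0
    have h4 : ∀ᶠ y in 𝓝 (0 : ℂ), ‖y‖ ≤ s₀ := by
      filter_upwards [closedBall_mem_nhds (0 : ℂ) hs₀] with y hy
      simpa using hy
    filter_upwards [h3.eventually h2, h4] with y hy1 hy2
    obtain ⟨θ', γ', h5, -, h6⟩ := hinv α β ‖y‖ (cis α + cis β + y) le_rfl hy2 (by simp)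
    refine ⟨θ' - α, γ', fun _ _ => ?_, fun l => hy1 l _ h5⟩
    rw [h6]
    congr 2
    ring
  · refine Eventually.of_forall fun y => ⟨0, 0, fun h1 h2 => absurd ⟨h1, h2⟩ hadm, fun l => ?_⟩
    simp


/-- `Z` = measurable null set containing the uncoloured points and `v + cis α + cis β` whenever it lies in `D l` and `N (v + cis α) l` (`sum_image_null`).  For each `θ` and `q`, `{y | v + cis θ (q + y) ∈ Z}` is null; by Fubini a.e. `y` is good:
for a.e. `θ` all points `v + cis θ (q + y)`, `q ∈ Q`, are outside `Z`; colour `q` by that point.  For small `y` and each admissible pair `u = cis α`, `u' = cis β` (`sin(α - β) ≠ 0`): `u + u' + y = cis (α + t) + cis β'` with `t` small (`sum_inv`), so the colour is not in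
`N (v + cis (θ + α + t))`; by `shift_small` this list equals `N (v + cis (θ + α))` outside a set of `θ ∈ Ioc a b` of small measure.  So the bad set has outer measure zero in every interval. -/
theorem MCol.fin_cfg (c : MCol) (v : ℂ) (Θ Q : Finset ℂ) (hΘ : ∀ u ∈ Θ, ‖u‖ = 1) :
    ∀ᵐ θ : ℝ, ∃ col : ℂ → Fin 5, (∀ p ∈ Q, ∀ q ∈ Q, ‖p - q‖ = 1 → col p ≠ col q) ∧
      ∀ u ∈ Θ, ∀ u' ∈ Θ, u ≠ u' → u ≠ -u' → u + u' ∈ Q → ¬ c.N (v + cis θ * u) (col (u + u')) := by
  classical
  -- the null set `Z`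
  set T : Set (ℝ × ℝ) := {p | ∃ l, v + cis p.1 + cis p.2 ∈ c.D l ∧ c.N (v + cis p.1) l} with hT
  have hT0 : volume T = 0 := finCfg_T_null c v
  have hZ1 := sum_image_null hT0 v
  have hZ0 : volume {z : ℂ | ¬ ∃ i, z ∈ c.D i} = 0 := ae_iff.1 c.cover
  set Z' : Set ℂ := {z : ℂ | ¬ ∃ i, z ∈ c.D i} ∪ (fun p : ℝ × ℝ => v + cis p.1 + cis p.2) '' T with hZ'
  have hZ'0 : volume Z' = 0 := measure_union_null hZ0 hZ1
  have hZm : MeasurableSet (toMeasurable volume Z') := measurableSet_toMeasurable _ _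
  have hZ : volume (toMeasurable volume Z') = 0 := by rw [measure_toMeasurable, hZ'0]
  have hgood : ∀ᵐ y : ℂ, ∀ᵐ θ : ℝ, ∀ q ∈ Q, v + cis θ * (q + y) ∉ Z' := by
    have h1 : ∀ᵐ y : ℂ, ∀ q ∈ Q, ∀ᵐ θ : ℝ, v + cis θ * (q + y) ∉ toMeasurable volume Z' :=
      (eventually_all_finset Q).2 fun q _ => finCfg_fubini hZm hZ v q
    filter_upwards [h1] with y hy
    filter_upwards [(eventually_all_finset Q).2 hy] with θ hθ q hq h
    exact hθ q hq (subset_toMeasurable _ _ h)
  have hα : ∀ u : ℂ, ∃ α : ℝ, u ∈ Θ → u = cis α := by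
    intro u
    by_cases hu : u ∈ Θ
    · obtain ⟨α, h⟩ := exists_cis (hΘ u hu)
      exact ⟨α, fun _ => h⟩
    · exact ⟨0, fun h => absurd h hu⟩
  choose α hα using hα
  set U : ℂ → Fin 5 → Set ℝ := fun u l => {θ | c.N (v + cis (θ + α u)) l} with hU
  have hUm : ∀ u l, MeasurableSet (U u l) := fun u l =>
    (measurable_add_const (α u)) (c.measurableSet_N_cis v l)
  rw [ae_iff]
  set Bad : Set ℝ := {θ | ¬ ∃ col : ℂ → Fin 5, (∀ p ∈ Q, ∀ q ∈ Q, ‖p - q‖ = 1 → col p ≠ col q) ∧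
      ∀ u ∈ Θ, ∀ u' ∈ Θ, u ≠ u' → u ≠ -u' → u + u' ∈ Q → ¬ c.N (v + cis θ * u) (col (u + u'))} with hBad
  have key : ∀ a b : ℝ, volume (Bad ∩ Ioc a b) = 0 := by
    intro a b
    refine finCfg_zero (n := (Θ ×ˢ Θ ×ˢ (Finset.univ : Finset (Fin 5))).card) fun ε hε => ?_
    have h1 : ∀ᶠ y in 𝓝 (0 : ℂ), ∀ u ∈ Θ, ∀ u' ∈ Θ, ∃ t β' : ℝ,
        (cis (α u) ≠ cis (α u') → cis (α u) ≠ -cis (α u') →
          cis (α u) + cis (α u') + y = cis (α u + t) + cis β') ∧
        ∀ l, volume {θ | θ ∈ Ioc a b ∧ ¬ (θ ∈ U u l ↔ θ + t ∈ U u l)} ≤ ENNReal.ofReal ε :=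
      (eventually_all_finset Θ).2 fun u _ => (eventually_all_finset Θ).2 fun u' _ =>
        finCfg_pair (U u) (hUm u) (α u) (α u') a b hε
    obtain ⟨y, hy1, hy2⟩ := (Measure.dense_of_ae hgood).inter_nhds_nonempty h1
    simp only [mem_ofPred_eq] at hy1 hy2
    choose! t β' ht1 ht2 using hy2
    have hsub : Bad ∩ Ioc a b ⊆ {θ | ¬ ∀ q ∈ Q, v + cis θ * (q + y) ∉ Z'} ∪
        ⋃ x ∈ Θ ×ˢ Θ ×ˢ (Finset.univ : Finset (Fin 5)),
          {θ | θ ∈ Ioc a b ∧ ¬ (θ ∈ U x.1 x.2.2 ↔ θ + t x.1 x.2.1 ∈ U x.1 x.2.2)} := by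
      rintro θ ⟨hθ1, hθ2⟩
      by_contra hcon
      rw [mem_union, not_or] at hcon
      obtain ⟨h2, h3⟩ := hcon
      simp only [mem_ofPred_eq, not_not] at h2
      have h4 : ∀ q : ℂ, ∃ i, q ∈ Q → v + cis θ * (q + y) ∈ c.D i := by
        intro q
        by_cases hq : q ∈ Q
        · have h5 := h2 q hq
          rw [hZ', mem_union, not_or] at h5
          have h6 := h5.1
          simp only [mem_ofPred_eq, not_not] at h6
          obtain ⟨i, hi⟩ := h6
          exact ⟨i, fun _ => hi⟩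
        · exact ⟨0, fun h => absurd h hq⟩
      choose col hcol using h4
      apply hθ1
      refine ⟨col, fun p hp q hq hpq heq => ?_, fun u hu u' hu' hne hne' hQ hN => ?_⟩
      · have h5 := hcol p hp
        have h6 := hcol q hq
        rw [← heq] at h6
        apply c.avoid _ _ h5 _ h6
        have : v + cis θ * (p + y) - (v + cis θ * (q + y)) = cis θ * (p - q) := by ring
        rw [this, norm_mul, norm_cis, hpq, one_mul]
      · have hu1 := hα u hu
        have hu2 := hα u' hu'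
        have h5 := ht1 u hu u' hu' (by rw [← hu1, ← hu2]; exact hne) (by rw [← hu1, ← hu2]; exact hne')
        rw [← hu1, ← hu2] at h5
        have h6 : v + cis θ * (u + u' + y) =
            v + cis (θ + t u u' + α u) + cis (θ + β' u u') := by
          rw [h5, mul_add, ← cis_add, ← cis_add, add_assoc v]
          congr 3
          ring
        have h7 := h2 _ hQ
        have h8 := hcol _ hQ
        rw [h6] at h7 h8
        have h9 : θ ∈ U u (col (u + u')) := by
          show c.N (v + cis (θ + α u)) _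
          rw [cis_add, ← hu1]
          exact hN
        have h10 : θ + t u u' ∉ U u (col (u + u')) := by
          intro h
          apply h7
          exact Or.inr ⟨(θ + t u u' + α u, θ + β' u u'), ⟨_, h8, h⟩, rfl⟩
        apply h3
        simp only [mem_iUnion]
        refine ⟨(u, u', col (u + u')), by simp [hu, hu'], hθ2, fun h => h10 (h.1 h9)⟩
    refine (measure_mono hsub).trans ((measure_union_le _ _).trans ?_)
    rw [ae_iff.1 hy1, zero_add]
    refine (measure_biUnion_finset_le _ _).trans ?_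
    rw [← nsmul_eq_mul]
    refine Finset.sum_le_card_nsmul _ _ _ fun x hx => ?_
    simp only [Finset.mem_product] at hx
    exact ht2 x.1 hx.1 x.2.1 hx.2.1 x.2.2
  have hcov : Bad ⊆ ⋃ n : ℤ, Bad ∩ Ioc (n : ℝ) (n + 1) := by
    intro θ hθ
    have : θ ∈ ⋃ n : ℤ, Ioc (n : ℝ) (n + 1) := by
      rw [iUnion_Ioc_intCast]
      trivial
    obtain ⟨n, hn⟩ := mem_iUnion.1 this
    exact mem_iUnion.2 ⟨n, hθ, hn⟩
  exact measure_mono_null hcov (measure_iUnion_null fun n => key _ _)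

end Crest.Agent.R040

end
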