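import Crest.Agent.R040.Local
import Crest.Agent.R040.Graph

/-! # Row 40, Step 2: forest charts -/

set_option autoImplicit false

open MeasureTheory Filter Topology Set Metric
open scoped Real

noncomputable section

namespace Crest.Agent.R040

theorem stage2_box : IsCompact box := by
  refine (isCompact_closedBall (0 : ℂ) 16).of_isClosed_subset ?_ fun z hz => ?_
  · exact (isClosed_le (f := fun z : ℂ => |z.re|) (by fun_prop) continuous_const).and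
      (isClosed_le (f := fun z : ℂ => |z.im|) (by fun_prop) continuous_const)
  · rw [mem_closedBall_zero_iff]
    have := Complex.norm_le_abs_re_add_abs_im z
    have h1 := hz.1
    have h2 := hz.2
    linarith

/-- uniform version of `lim_principle` -/
theorem stage2_unif (c : MCol) {C : Set ℂ} (hC : IsCompact C) {G : Set ((Fin 5 → ℝ) × ℝ)}
    (hG : IsClosed G) (h : ∀ v ∈ C, ∀ q, c.Lim v q → (q, (0 : ℝ)) ∉ G) :
    ∀ᶠ τ in 𝓝[>] (0 : ℝ), ∀ x ∈ C, ∀ r : ℝ, 0 < r → r ≤ τ → (c.p x r, τ) ∉ G := by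
  by_contra hn
  rw [Filter.not_eventually] at hn
  obtain ⟨τ, hτ, hb⟩ := exists_seq_forall_of_frequently hn
  push Not at hb
  choose x hx r hr hrτ hG' using hb
  have hτ0 : Tendsto τ atTop (𝓝 0) := hτ.mono_right nhdsWithin_le_nhds
  have hr0 : Tendsto r atTop (𝓝 0) :=
    squeeze_zero (fun n => (hr n).le) hrτ hτ0
  obtain ⟨v, hv, q, φ, hφ, hl, -, hq⟩ := MCol.exists_subseq (c := c) hC hx hr hr0
  refine h v hv q hl (hG.mem_of_tendsto (hq.prodMk_nhds (hτ0.comp hφ.tendsto_atTop)) ?_)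
  exact Eventually.of_forall fun n => hG' (φ n)

theorem stage2_closed (Γ : Fin 5 → Fin 5 → Prop) (i : Fin 5) :
    IsClosed {w : (Fin 5 → ℝ) × ℝ | ∀ j, j ≠ i → mm Γ w.1 i j ≤ 1 / 2 + w.2} := by
  simp only [ofPred_forall]
  exact isClosed_iInter fun j => isClosed_iInter fun _ =>
    isClosed_le ((continuous_mm Γ i j).comp continuous_fst) (by fun_prop)

/-- `K₁ = {x ∈ box | ¬ Near x (δ/3)}` is compact and its points have forest graphs (`tf_adj`); finite subcover by balls `ball v s_v`, `s_v` from `adj_usc`.  One parameter `τ` (`β = 1/2 + τ`, `κ = r₀ = τ`, all clauses monotone); by contradiction with `τ = 1/n`,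
`exists_subseq`; charts, colours and the graph `Adj v_n` (finitely many possibilities) are constant along a subsequence; the limit point `x` lies in the closed charts, so `Adj x` is a common subgraph (for the last clause use `hsub`, `Conn.del`);
`conn_lim`, `continuous_mm`, `mm_indep`, `Forest.mult`, `pos_of_mm`, `Tf.forest_del`. -/
theorem MCol.stage2 (c : MCol) {ε δ : ℝ} (hε : 0 < ε) (hδ : 0 < δ)
    (hsub : ∀ v ∈ box, Cyc (c.Adj v) → ∀ x : ℂ, ‖x - v‖ ≤ 2 * δ → ∀ i j, c.Adj x i j → c.Adj v i j) :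
    ∃ (T : Finset (ℂ × ℝ)) (τ : ℝ), 0 < τ ∧ τ ≤ ε ∧ τ < δ ∧ (∀ q ∈ T, Forest (c.Adj q.1)) ∧
      (∀ x ∈ box, ¬ c.Near x (δ / 3) → ∃ q ∈ T, ‖x - q.1‖ < q.2) ∧
      (∀ x ∈ box, ∀ r : ℝ, 0 < r → r ≤ τ → ∀ i j k, i ≠ j → i ≠ k → j ≠ k → c.LabF T (1 / 2 + τ) x r i →
        c.LabF T (1 / 2 + τ) x r j → c.LabF T (1 / 2 + τ) x r k → False) ∧
      (∀ x ∈ box, ∀ r : ℝ, 0 < r → r ≤ τ → ∀ i, c.LabF T (1 / 2 + τ) x r i → τ ≤ c.p x r i) ∧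
      ∀ x ∈ box, ∀ r : ℝ, 0 < r → r ≤ τ → ∀ v ∈ box, Cyc (c.Adj v) → ‖x - v‖ < δ → ∀ l,
        (∃ j, c.Adj v l j) → c.p x r l < τ → ∀ i, c.LabF T (1 / 2 + τ) x r i →
        Lab (del (c.Adj v) l) (1 / 2 + ε) (c.p x r) i := by
  classical
  choose s hs hadj using c.adj_usc
  have hopen : IsOpen {x : ℂ | c.Near x (δ / 3)} := by
    have : {x : ℂ | c.Near x (δ / 3)} = ⋃ v ∈ {v ∈ box | Cyc (c.Adj v)}, ball v (δ / 3) := by
      ext x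
      simp only [MCol.Near, mem_ofPred_eq, mem_iUnion, mem_ball, dist_eq_norm, exists_prop, and_assoc]
    rw [this]
    exact isOpen_biUnion fun _ _ => isOpen_ball
  have hK : IsCompact (box ∩ {x : ℂ | c.Near x (δ / 3)}ᶜ) :=
    stage2_box.inter_right hopen.isClosed_compl
  obtain ⟨t, ht, hcov⟩ := hK.elim_nhds_subcover (fun v => ball v (s v))
    fun v _ => ball_mem_nhds v (hs v)
  set T : Finset (ℂ × ℝ) := t.image fun v => (v, s v) with hT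
  have hfor : ∀ q ∈ T, Forest (c.Adj q.1) := by
    intro q hq
    obtain ⟨v, hv, rfl⟩ := Finset.mem_image.1 hq
    exact ⟨c.tf_adj v, fun hc => (ht v hv).2 ⟨v, (ht v hv).1, hc, by simpa using hδ⟩⟩
  have hle : ∀ q ∈ T, ∀ x ∈ closedBall q.1 q.2, ∀ i j, c.Adj x i j → c.Adj q.1 i j := by
    intro q hq x hx
    obtain ⟨v, hv, rfl⟩ := Finset.mem_image.1 hq
    exact hadj v x (by rwa [mem_closedBall, dist_eq_norm] at hx)
  have hmem : ∀ {q : ℂ × ℝ} {x : ℂ}, ‖x - q.1‖ < q.2 → x ∈ closedBall q.1 q.2 := fun h => by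
    rw [mem_closedBall, dist_eq_norm]; exact h.le
  have eA : ∀ᶠ τ in 𝓝[>] (0 : ℝ), ∀ q₁ ∈ T, ∀ q₂ ∈ T, ∀ q₃ ∈ T, ∀ i j k : Fin 5,
      ∀ x ∈ box ∩ closedBall q₁.1 q₁.2 ∩ closedBall q₂.1 q₂.2 ∩ closedBall q₃.1 q₃.2,
      ∀ r : ℝ, 0 < r → r ≤ τ → (c.p x r, τ) ∉ {w : (Fin 5 → ℝ) × ℝ | (i ≠ j ∧ i ≠ k ∧ j ≠ k) ∧
        (∀ l, l ≠ i → mm (c.Adj q₁.1) w.1 i l ≤ 1 / 2 + w.2) ∧
        (∀ l, l ≠ j → mm (c.Adj q₂.1) w.1 j l ≤ 1 / 2 + w.2) ∧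
        (∀ l, l ≠ k → mm (c.Adj q₃.1) w.1 k l ≤ 1 / 2 + w.2)} := by
    simp only [eventually_all_finset, eventually_all]
    intro q₁ h₁ q₂ h₂ q₃ h₃ i j k
    refine stage2_unif c (((stage2_box.inter_right isClosed_closedBall).inter_right
      isClosed_closedBall).inter_right isClosed_closedBall)
      (isClosed_const.and ((stage2_closed _ i).and ((stage2_closed _ j).and (stage2_closed _ k)))) ?_
    rintro v ⟨⟨⟨-, m₁⟩, m₂⟩, m₃⟩ q hq ⟨⟨hij, hik, hjk⟩, a₁, a₂, a₃⟩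
    simp only [add_zero] at a₁ a₂ a₃
    have hc := c.conn_lim v hq
    exact (hfor q₁ h₁).mult hq.simp (hc.mono (hle q₁ h₁ v m₁)) hij hik hjk a₁
      (mm_indep (hfor q₁ h₁) (hle q₂ h₂ v m₂) (hle q₁ h₁ v m₁) hq.simp hc a₂)
      (mm_indep (hfor q₁ h₁) (hle q₃ h₃ v m₃) (hle q₁ h₁ v m₁) hq.simp hc a₃)
  have eB : ∀ᶠ τ in 𝓝[>] (0 : ℝ), ∀ q₁ ∈ T, ∀ i : Fin 5, ∀ x ∈ box ∩ closedBall q₁.1 q₁.2,
      ∀ r : ℝ, 0 < r → r ≤ τ → (c.p x r, τ) ∉ {w : (Fin 5 → ℝ) × ℝ | w.1 i ≤ w.2 ∧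
        (∀ l, l ≠ i → mm (c.Adj q₁.1) w.1 i l ≤ 1 / 2 + w.2)} := by
    simp only [eventually_all_finset, eventually_all]
    intro q₁ h₁ i
    refine stage2_unif c (stage2_box.inter_right isClosed_closedBall)
      ((isClosed_le (by fun_prop) (by fun_prop)).and (stage2_closed _ i)) ?_
    rintro v ⟨-, m₁⟩ q hq ⟨a₀, a₁⟩
    simp only [add_zero] at a₀ a₁
    have := pos_of_mm hq.simp ((c.conn_lim v hq).mono (hle q₁ h₁ v m₁))
      fun l hl => (a₁ l hl).trans_lt (by norm_num)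
    linarith
  have eC : ∀ᶠ τ in 𝓝[>] (0 : ℝ), ∀ q₁ ∈ T, ∀ (Γ : Fin 5 → Fin 5 → Prop) (l i j : Fin 5),
      ∀ x ∈ box ∩ closedBall q₁.1 q₁.2 ∩
        closure {x : ℂ | ∃ v ∈ box, Cyc (c.Adj v) ∧ c.Adj v = Γ ∧ ‖x - v‖ < δ},
      ∀ r : ℝ, 0 < r → r ≤ τ → (c.p x r, τ) ∉ {w : (Fin 5 → ℝ) × ℝ | ((∃ j, Γ l j) ∧ j ≠ i) ∧
        w.1 l ≤ w.2 ∧ (∀ l, l ≠ i → mm (c.Adj q₁.1) w.1 i l ≤ 1 / 2 + w.2) ∧
        1 / 2 + ε ≤ mm (del Γ l) w.1 i j} := by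
    simp only [eventually_all_finset, eventually_all]
    intro q₁ h₁ Γ l i j
    refine stage2_unif c ((stage2_box.inter_right isClosed_closedBall).inter_right isClosed_closure)
      (isClosed_const.and ((isClosed_le (by fun_prop) (by fun_prop)).and ((stage2_closed _ i).and
        (isClosed_le continuous_const ((continuous_mm _ i j).comp continuous_fst))))) ?_
    rintro v ⟨⟨-, m₁⟩, m₂⟩ q hq ⟨⟨hl, hji⟩, a₀, a₁, a₂⟩
    simp only [add_zero] at a₀ a₁ a₂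
    obtain ⟨y, ⟨u, hu, hcyc, rfl, hyu⟩, hvy⟩ := Metric.mem_closure_iff.1 m₂ δ hδ
    have hvu : ‖v - u‖ ≤ 2 * δ := by
      rw [dist_eq_norm] at hvy
      have := norm_sub_le_norm_sub_add_norm_sub v y u
      linarith
    have h0 : q l = 0 := le_antisymm a₀ (hq.simp.1 l)
    have := mm_indep ((c.tf_adj u).forest_del hcyc hl) (Γ := del (c.Adj v) l) (F := c.Adj q₁.1)
      (fun a b h => hle q₁ h₁ v m₁ a b h.1) (fun a b h => ⟨hsub u hu hcyc v hvu a b h.1, h.2⟩)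
      hq.simp ((c.conn_lim v hq).del h0) a₁ j hji
    linarith
  have eD : ∀ᶠ τ in 𝓝[>] (0 : ℝ), τ ∈ Ioo (0 : ℝ) (min ε δ) :=
    Ioo_mem_nhdsGT (lt_min hε hδ)
  obtain ⟨τ, hA, hB, hC, hD⟩ := (eA.and (eB.and (eC.and eD))).exists
  refine ⟨T, τ, hD.1, (hD.2.trans_le (min_le_left _ _)).le, hD.2.trans_le (min_le_right _ _), hfor,
    fun x hx hn => ?_, ?_, ?_, ?_⟩
  · obtain ⟨v, hv, hxv⟩ := mem_iUnion₂.1 (hcov ⟨hx, hn⟩)
    exact ⟨(v, s v), Finset.mem_image_of_mem _ hv, by rwa [mem_ball, dist_eq_norm] at hxv⟩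
  · rintro x hx r hr hrτ i j k hij hik hjk ⟨q₁, h₁, m₁, a₁⟩ ⟨q₂, h₂, m₂, a₂⟩ ⟨q₃, h₃, m₃, a₃⟩
    exact hA q₁ h₁ q₂ h₂ q₃ h₃ i j k x ⟨⟨⟨hx, hmem m₁⟩, hmem m₂⟩, hmem m₃⟩ r hr hrτ
      ⟨⟨hij, hik, hjk⟩, fun l hl => (a₁ l hl).le, fun l hl => (a₂ l hl).le,
        fun l hl => (a₃ l hl).le⟩
  · rintro x hx r hr hrτ i ⟨q₁, h₁, m₁, a₁⟩
    by_contra hlt
    exact hB q₁ h₁ i x ⟨hx, hmem m₁⟩ r hr hrτ ⟨(not_le.1 hlt).le, fun l hl => (a₁ l hl).le⟩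
  · rintro x hx r hr hrτ v hv hcyc hxv l hl hp i ⟨q₁, h₁, m₁, a₁⟩ j hji
    by_contra hlt
    exact hC q₁ h₁ (c.Adj v) l i j x ⟨⟨hx, hmem m₁⟩, subset_closure ⟨v, hv, hcyc, rfl, hxv⟩⟩ r hr hrτ
      ⟨⟨hl, hji⟩, hp.le, fun l hl => (a₁ l hl).le, not_lt.1 hlt⟩

end Crest.Agent.R040

end
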