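import Crest.Agent.R040.Miss
import Crest.Agent.R040.BasM

/-! # Row 40, Step 2: sweeping -/

set_option autoImplicit false

open MeasureTheory Filter Topology Set Metric
open scoped Real

noncomputable section

namespace Crest.Agent.R040

theorem Sweep_box : IsCompact box := by
  refine Metric.isCompact_of_isClosed_isBounded ?_ ?_
  · exact (isClosed_le (Complex.continuous_re.abs) continuous_const).inter
      (isClosed_le (Complex.continuous_im.abs) continuous_const)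
  · refine (Metric.isBounded_closedBall (x := (0 : ℂ)) (r := 16)).subset ?_
    intro z hz
    have h := Complex.norm_le_abs_re_add_abs_im z
    rw [mem_closedBall_zero_iff]
    linarith [hz.1, hz.2]

/-- uniformity over a compact set -/
theorem Sweep_compact {C : Set ℂ} (hC : IsCompact C) (Q : ℂ → ℝ → Prop)
    (hmono : ∀ x r r', 0 < r' → r' ≤ r → Q x r → Q x r')
    (hloc : ∀ v ∈ C, ∃ δ > (0 : ℝ), ∀ x, ‖x - v‖ < δ → Q x δ) : ∃ r₀ > (0 : ℝ), ∀ x ∈ C, Q x r₀ := by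
  refine hC.induction_on (p := fun S => ∃ r₀ > (0 : ℝ), ∀ x ∈ S, Q x r₀) ?_ ?_ ?_ ?_
  · exact ⟨1, one_pos, fun x hx => absurd hx (notMem_empty x)⟩
  · rintro S T hST ⟨r, hr, h⟩
    exact ⟨r, hr, fun x hx => h x (hST hx)⟩
  · rintro S T ⟨r, hr, h⟩ ⟨r', hr', h'⟩
    refine ⟨min r r', lt_min hr hr', ?_⟩
    rintro x (hx | hx)
    · exact hmono x r _ (lt_min hr hr') (min_le_left _ _) (h x hx)
    · exact hmono x r' _ (lt_min hr hr') (min_le_right _ _) (h' x hx)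
  · intro v hv
    obtain ⟨δ, hδ, h⟩ := hloc v hv
    refine ⟨ball v δ, mem_nhdsWithin_of_mem_nhds (ball_mem_nhds v hδ), δ, hδ, fun x hx => h x ?_⟩
    rwa [mem_ball_iff_norm] at hx

/-- stop a path at the first time it is at distance `a` from `v` -/
theorem Sweep_stop {F : Set (ℂ × ℝ)} {w w' : ℂ × ℝ} (h : JoinedIn F w w') {v : ℂ} {a : ℝ}
    (h0 : ‖w.1 - v‖ ≤ a) (h1 : a ≤ ‖w'.1 - v‖) :
    ∃ z : ℂ × ℝ, ‖z.1 - v‖ = a ∧ JoinedIn (F ∩ {u | ‖u.1 - v‖ ≤ a}) w z := by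
  obtain ⟨γ, hγ⟩ := h
  have hF : ∀ t : ℝ, γ.extend t ∈ F := by
    intro t
    have : γ.extend t ∈ range γ := by
      rw [← γ.extend_range]
      exact mem_range_self t
    obtain ⟨s, hs⟩ := this
    rw [← hs]
    exact hγ s
  set f : ℝ → ℝ := fun t => ‖(γ.extend t).1 - v‖ with hf
  have hfc : Continuous f := ((continuous_fst.comp γ.continuous_extend).sub continuous_const).norm
  have hf0 : f 0 ≤ a := by simpa [hf] using h0
  have hf1 : a ≤ f 1 := by simpa [hf] using h1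
  have hK : IsCompact (Icc (0 : ℝ) 1 ∩ {t | a ≤ f t}) :=
    isCompact_Icc.inter_right (isClosed_le continuous_const hfc)
  obtain ⟨t₀, ⟨ht₀, hat₀⟩, hmin⟩ := hK.exists_isLeast ⟨1, ⟨zero_le_one, le_rfl⟩, hf1⟩
  have heq : f t₀ = a := by
    obtain ⟨t, ht, hta⟩ := intermediate_value_Icc ht₀.1 hfc.continuousOn ⟨hf0, hat₀⟩
    have : t₀ ≤ t := hmin ⟨⟨ht.1, ht.2.trans ht₀.2⟩, hta.ge⟩
    have h2 : t = t₀ := le_antisymm ht.2 this
    rw [← h2]
    exact hta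
  refine ⟨γ.extend t₀, heq, ?_⟩
  refine JoinedIn.ofLine (f := fun s => γ.extend (t₀ * s))
    (γ.continuous_extend.comp (continuous_const.mul continuous_id)).continuousOn (by simp) (by simp) ?_
  rintro _ ⟨s, hs, rfl⟩
  refine ⟨hF _, ?_⟩
  change f (t₀ * s) ≤ a
  have hle : t₀ * s ≤ t₀ := mul_le_of_le_one_right ht₀.1 hs.2
  rcases hle.eq_or_lt with h2 | h2
  · rw [h2]
    exact heq.le
  · by_contra h3
    have : t₀ ≤ t₀ * s := hmin ⟨⟨mul_nonneg ht₀.1 hs.1, hle.trans ht₀.2⟩, (not_le.1 h3).le⟩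
    linarith

theorem Sweep_cross {F : Set (ℂ × ℝ)} {w w' : ℂ × ℝ} (h : JoinedIn F w w') {y : ℂ}
    (h0 : ‖w.1 - y‖ ≤ 1) (h1 : 1 ≤ ‖w'.1 - y‖) : ∃ z ∈ F, ‖z.1 - y‖ = 1 := by
  obtain ⟨z, hz, hj⟩ := Sweep_stop h h0 h1
  exact ⟨z, hj.target_mem.1, hz⟩

/-- a unit pair inside the unit disc at `v` and outside the unit disc at `x'` -/
theorem Sweep_pair {v x' : ℂ} {a : ℝ} (ha : 0 < a) (ha1 : a ≤ 1 / 2) (h : ‖x' - v‖ = a) :
    ∃ y y' : ℂ, ‖y - y'‖ = 1 ∧ ‖v - y‖ < 1 ∧ 1 < ‖x' - y‖ ∧ ‖v - y'‖ < 1 ∧ 1 < ‖x' - y'‖ := by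
  set n : ℂ := (v - x') / a with hn
  have ha' : (a : ℂ) ≠ 0 := by exact_mod_cast ha.ne'
  have hn1 : ‖n‖ = 1 := by
    rw [hn, norm_div, norm_sub_rev, h, Complex.norm_real, Real.norm_eq_abs, abs_of_pos ha,
      div_self ha.ne']
  have hx' : x' = v - n * a := by
    rw [hn]
    field_simp
    ring
  set s : ℝ := √3 / 2 with hs
  have hs2 : s ^ 2 = 3 / 4 := by
    rw [hs, div_pow, Real.sq_sqrt (by norm_num)]
    norm_num
  have hs0 : 0 ≤ s := by positivity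
  have hs1 : 1 / 2 < s := by nlinarith
  have key : ∀ b : ℝ, b ^ 2 = 1 / 4 →
      ‖v - (v + n * ⟨s - a / 2, b⟩)‖ < 1 ∧ 1 < ‖x' - (v + n * ⟨s - a / 2, b⟩)‖ := by
    intro b hb
    constructor
    · have e1 : v - (v + n * ⟨s - a / 2, b⟩) = -(n * ⟨s - a / 2, b⟩) := by ring
      rw [e1, norm_neg, norm_mul, hn1, one_mul]
      refine lt_of_pow_lt_pow_left₀ 2 zero_le_one ?_
      rw [Complex.sq_norm, Complex.normSq_mk]
      nlinarith
    · have e2 : (⟨s + a / 2, b⟩ : ℂ) = ⟨s - a / 2, b⟩ + a := by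
        apply Complex.ext
        · simp
          ring
        · simp
      have e1 : x' - (v + n * ⟨s - a / 2, b⟩) = -(n * ⟨s + a / 2, b⟩) := by
        rw [e2, hx']
        ring
      rw [e1, norm_neg, norm_mul, hn1, one_mul]
      refine lt_of_pow_lt_pow_left₀ 2 (norm_nonneg _) ?_
      rw [Complex.sq_norm, Complex.normSq_mk]
      nlinarith
  refine ⟨v + n * ⟨s - a / 2, 1 / 2⟩, v + n * ⟨s - a / 2, -(1 / 2)⟩, ?_, (key _ (by norm_num)).1,
    (key _ (by norm_num)).2, (key _ (by norm_num)).1, (key _ (by norm_num)).2⟩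
  have e2 : (⟨s - a / 2, 1 / 2⟩ : ℂ) = ⟨s - a / 2, -(1 / 2)⟩ + Complex.I := by
    apply Complex.ext
    · simp
    · simp
      norm_num
  have e1 : v + n * ⟨s - a / 2, 1 / 2⟩ - (v + n * ⟨s - a / 2, -(1 / 2)⟩) = n * Complex.I := by
    rw [e2]
    ring
  rw [e1, norm_mul, hn1, Complex.norm_I, one_mul]

/-- a point of a colour other than `e` inside the unit disc at `v` and outside the unit disc at `x'` -/
theorem Sweep_point (c : MCol) (e : Fin 5) {v x' : ℂ} {a : ℝ} (ha : 0 < a) (ha1 : a ≤ 1 / 2)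
    (h : ‖x' - v‖ = a) : ∃ i, i ≠ e ∧ ∃ y ∈ c.D i, ‖v - y‖ < 1 ∧ 1 < ‖x' - y‖ := by
  obtain ⟨y, y', hyy, h1, h2, h3, h4⟩ := Sweep_pair ha ha1 h
  have a1 : ∀ᵐ t : ℂ, ∃ i, y + t ∈ c.D i :=
    (measurePreserving_add_left volume y).quasiMeasurePreserving.ae c.cover
  have a2 : ∀ᵐ t : ℂ, ∃ i, y' + t ∈ c.D i :=
    (measurePreserving_add_left volume y').quasiMeasurePreserving.ae c.cover
  have hd := Measure.dense_of_ae (a1.and a2)
  have hO : IsOpen {t : ℂ | (‖v - (y + t)‖ < 1 ∧ 1 < ‖x' - (y + t)‖) ∧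
      (‖v - (y' + t)‖ < 1 ∧ 1 < ‖x' - (y' + t)‖)} := by
    have o1 : ∀ p q : ℂ, IsOpen {t : ℂ | ‖p - (q + t)‖ < 1} := fun p q =>
      isOpen_lt (by fun_prop) continuous_const
    have o2 : ∀ p q : ℂ, IsOpen {t : ℂ | 1 < ‖p - (q + t)‖} := fun p q =>
      isOpen_lt continuous_const (by fun_prop)
    exact ((o1 v y).inter (o2 x' y)).inter ((o1 v y').inter (o2 x' y'))
  obtain ⟨t, ⟨ht1, ht2⟩, ⟨i, hi⟩, ⟨j, hj⟩⟩ := hd.inter_open_nonempty _ hO
    ⟨0, by simpa using ⟨⟨h1, h2⟩, h3, h4⟩⟩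
  by_cases hie : i = e
  · by_cases hje : j = e
    · exfalso
      subst hie
      subst hje
      refine c.avoid _ _ hi _ hj ?_
      rw [add_sub_add_right_eq_sub]
      exact hyy
    · exact ⟨j, hje, _, hj, ht2⟩
  · exact ⟨i, hie, _, hi, ht1⟩

/-- translation by the unit vector `y - x` maps `ball x r` onto `ball y r` -/
theorem MCol.sw (c : MCol) {i : Fin 5} {y : ℂ} (hy : y ∈ c.D i) {κ : ℝ} (hκ : 0 < κ) :
    ∃ ρ > (0 : ℝ), ∀ (x : ℂ) (r : ℝ), ‖x - y‖ = 1 → 0 < r → r < ρ → c.p x r i < κ := by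
  have h1 : ∀ᶠ r in 𝓝[>] (0 : ℝ), 1 - κ < pr (c.D i) y r :=
    (c.dens i y hy).eventually (lt_mem_nhds (by linarith))
  obtain ⟨ρ, hρ, h2⟩ := (nhdsGT_basis (0 : ℝ)).eventually_iff.1 h1
  refine ⟨ρ, hρ, fun x r hxy hr hrρ => ?_⟩
  have h3 : 1 - κ < pr (c.D i) y r := h2 ⟨hr, hrρ⟩
  have h4 : pr (c.D i) x r ≤ pr (c.D i)ᶜ y r := by
    unfold pr
    refine div_le_div_of_nonneg_right ?_ (by positivity)
    have hsub : c.D i ∩ ball x r ⊆ (fun z => z + (y - x)) ⁻¹' ((c.D i)ᶜ ∩ ball y r) := by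
      rintro z ⟨hz, hzb⟩
      refine ⟨fun hz' => c.avoid i z hz _ hz' ?_, ?_⟩
      · have : z - (z + (y - x)) = x - y := by ring
        rw [this, hxy]
      · rw [mem_ball_iff_norm] at hzb ⊢
        have : z + (y - x) - y = z - x := by ring
        rwa [this]
    have hfin : volume ((c.D i)ᶜ ∩ ball y r) ≠ ⊤ :=
      ((measure_mono inter_subset_right).trans_lt measure_ball_lt_top).ne
    have hle : volume (c.D i ∩ ball x r) ≤ volume ((c.D i)ᶜ ∩ ball y r) := by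
      refine (measure_mono hsub).trans ?_
      rw [measure_preimage_add_right]
    exact ENNReal.toReal_mono hfin hle
  rw [pr_compl (c.meas i) y hr] at h4
  change pr (c.D i) x r < κ
  linarith

/-- Otherwise paths with `r₀ = 1/(n+1)`, a fixed colour `i` along a subsequence, endpoints `x_n → x`, `x'_n → x'`, `‖x - x'‖ ≥ 2`; `P x i` gives `y ∈ D i` with `‖y - x‖ < 1/2`; along the path `‖· - y‖` crosses `1`; `sw`. -/
theorem MCol.diam_small (c : MCol) {κ : ℝ} (hκ : 0 < κ) : ∃ r₀ > (0 : ℝ), ∀ (i : Fin 5) (w w' : ℂ × ℝ),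
    JoinedIn {w : ℂ × ℝ | w.1 ∈ box ∧ 0 < w.2 ∧ w.2 ≤ r₀ ∧ κ ≤ c.p w.1 w.2 i} w w' → ‖w.1 - w'.1‖ ≤ 2 := by
  have key : ∀ i : Fin 5, ∃ r₀ > (0 : ℝ), ∀ x ∈ box, ∀ w w' : ℂ × ℝ, w.1 = x →
      JoinedIn {w : ℂ × ℝ | w.1 ∈ box ∧ 0 < w.2 ∧ w.2 ≤ r₀ ∧ κ ≤ c.p w.1 w.2 i} w w' →
        ‖w.1 - w'.1‖ ≤ 2 := by
    intro i
    refine Sweep_compact Sweep_box (fun x r₀ => ∀ w w' : ℂ × ℝ, w.1 = x →
      JoinedIn {w : ℂ × ℝ | w.1 ∈ box ∧ 0 < w.2 ∧ w.2 ≤ r₀ ∧ κ ≤ c.p w.1 w.2 i} w w' →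
        ‖w.1 - w'.1‖ ≤ 2) ?_ ?_
    · intro x r r' _ hr h w w' hw hj
      exact h w w' hw (hj.mono fun u hu => ⟨hu.1, hu.2.1, hu.2.2.1.trans hr, hu.2.2.2⟩)
    · intro v _
      by_cases hP : c.P v i
      · obtain ⟨y, hy, hyv⟩ := Metric.mem_closure_iff.1 hP (1 / 2) (by norm_num)
        obtain ⟨ρ, hρ, hsw⟩ := c.sw hy hκ
        refine ⟨min (ρ / 2) (1 / 2), lt_min (half_pos hρ) (by norm_num), ?_⟩
        intro x hx w w' hw hj
        have hx' : ‖x - v‖ < 1 / 2 := hx.trans_le (min_le_right _ _)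
        rw [dist_eq_norm] at hyv
        have h1 : ‖w.1 - y‖ ≤ 1 := by
          rw [hw]
          linarith [norm_sub_le_norm_sub_add_norm_sub x v y]
        have h2 : ‖w'.1 - y‖ < 1 := by
          by_contra h3
          obtain ⟨z, hz, hz1⟩ := Sweep_cross hj h1 (not_lt.1 h3)
          have h4 : z.2 < ρ := by linarith [hz.2.2.1.trans (min_le_left _ _)]
          exact absurd (hsw z.1 z.2 hz1 hz.2.1 h4) (not_lt.2 hz.2.2.2)
        have h3 := norm_sub_le_norm_sub_add_norm_sub w.1 y w'.1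
        rw [norm_sub_rev y] at h3
        linarith
      · obtain ⟨δ, hδ, -, h0⟩ := c.not_P hP
        refine ⟨δ / 2, half_pos hδ, ?_⟩
        intro x hx w w' hw hj
        exfalso
        have hs := hj.source_mem
        have h1 := h0 w.1 w.2 (by rw [hw]; linarith) (by linarith [hs.2.2.1])
        have h2 := hs.2.2.2
        linarith
  choose r hr h using key
  refine ⟨Finset.univ.inf' Finset.univ_nonempty r, ?_, ?_⟩
  · exact (Finset.lt_inf'_iff _).2 fun i _ => hr i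
  · intro i w w' hj
    refine h i w.1 hj.source_mem.1 w w' rfl (hj.mono fun u hu => ⟨hu.1, hu.2.1, ?_, hu.2.2.2⟩)
    exact hu.2.2.1.trans (Finset.inf'_le _ (Finset.mem_univ i))

/-- Otherwise starting points `x_n → x`; `e` missing at `x`, `δ` from `not_P`; `η' = min η (δ/2) (1/2)`.  Stop the path at the first time with `‖· - x_n‖ = η'`, at `x'_n → x'`.  Up to then all colours `≠ e` have proportion `≥ κ`; by `sw` and the intermediate value
theorem no `y` with `‖x - y‖ < 1 < ‖x' - y‖` lies in `D i`, `i ≠ e`.  This open set contains `y± = x + n(√3/2 - η'/2 ± i/2)`, `n = (x - x')/η'`, at distance one; translating both by a generic small vector gives a unit pair in `D e`. -/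
theorem MCol.four_small (c : MCol) {κ η : ℝ} (hκ : 0 < κ) (hη : 0 < η) : ∃ r₀ > (0 : ℝ),
    ∀ w w' : ℂ × ℝ, JoinedIn {w : ℂ × ℝ | w.1 ∈ box ∧ 0 < w.2 ∧ w.2 ≤ r₀ ∧ c.Four κ w.1 w.2} w w' →
      ‖w.1 - w'.1‖ ≤ η := by
  have key : ∃ r₀ > (0 : ℝ), ∀ x ∈ box, ∀ w w' : ℂ × ℝ, w.1 = x →
      JoinedIn {w : ℂ × ℝ | w.1 ∈ box ∧ 0 < w.2 ∧ w.2 ≤ r₀ ∧ c.Four κ w.1 w.2} w w' →
        ‖w.1 - w'.1‖ ≤ η := by
    refine Sweep_compact Sweep_box (fun x r₀ => ∀ w w' : ℂ × ℝ, w.1 = x →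
      JoinedIn {w : ℂ × ℝ | w.1 ∈ box ∧ 0 < w.2 ∧ w.2 ≤ r₀ ∧ c.Four κ w.1 w.2} w w' →
        ‖w.1 - w'.1‖ ≤ η) ?_ ?_
    · intro x r r' _ hr h w w' hw hj
      exact h w w' hw (hj.mono fun u hu => ⟨hu.1, hu.2.1, hu.2.2.1.trans hr, hu.2.2.2⟩)
    intro v _
    obtain ⟨e, he⟩ := c.exists_missing v
    obtain ⟨δ, hδ, -, h0⟩ := c.not_P he
    set a : ℝ := min (η / 2) (min (δ / 2) (1 / 2)) with ha
    have ha0 : 0 < a := lt_min (half_pos hη) (lt_min (half_pos hδ) (by norm_num))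
    have ha1 : a ≤ η / 2 := min_le_left _ _
    have ha2 : a ≤ δ / 2 := (min_le_right _ _).trans (min_le_left _ _)
    have ha3 : a ≤ 1 / 2 := (min_le_right _ _).trans (min_le_right _ _)
    -- no path from near `v` to the sphere of radius `a` with all colours but `e` present
    obtain ⟨r₁, hr₁, H⟩ := Sweep_compact (isCompact_sphere v a) (fun x' r₀ => ∀ w z : ℂ × ℝ,
        z.1 = x' → ‖w.1 - v‖ < r₀ →
        ¬ JoinedIn {u : ℂ × ℝ | 0 < u.2 ∧ u.2 ≤ r₀ ∧ ∀ i, i ≠ e → κ ≤ c.p u.1 u.2 i} w z) (by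
      intro x r r' _ hr h w z hz hw hj
      exact h w z hz (hw.trans_le hr) (hj.mono fun u hu => ⟨hu.1, hu.2.1.trans hr, hu.2.2⟩)) (by
      intro x' hx'
      rw [mem_sphere_iff_norm] at hx'
      obtain ⟨i, hie, y, hy, hy1, hy2⟩ := Sweep_point c e ha0 ha3 hx'
      obtain ⟨ρ, hρ, hsw⟩ := c.sw hy hκ
      refine ⟨min (ρ / 2) (min (1 - ‖v - y‖) (‖x' - y‖ - 1)),
        lt_min (half_pos hρ) (lt_min (by linarith) (by linarith)), ?_⟩
      intro x hx w z hz hw hj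
      have h1 : ‖w.1 - v‖ < 1 - ‖v - y‖ :=
        hw.trans_le ((min_le_right _ _).trans (min_le_left _ _))
      have h2 : ‖x - x'‖ < ‖x' - y‖ - 1 :=
        hx.trans_le ((min_le_right _ _).trans (min_le_right _ _))
      have h3 : ‖w.1 - y‖ ≤ 1 := by linarith [norm_sub_le_norm_sub_add_norm_sub w.1 v y]
      have h4 : 1 ≤ ‖z.1 - y‖ := by
        have h5 := norm_sub_le_norm_sub_add_norm_sub x' x y
        rw [norm_sub_rev x' x] at h5
        rw [hz]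
        linarith
      obtain ⟨u, hu, hu1⟩ := Sweep_cross hj h3 h4
      have h5 : u.2 < ρ := by linarith [hu.2.1.trans (min_le_left _ _)]
      exact absurd (hsw u.1 u.2 hu1 hu.1 h5) (not_lt.2 (hu.2.2 i hie)))
    refine ⟨min r₁ a, lt_min hr₁ ha0, ?_⟩
    intro x hx w w' hw hj
    by_contra hlt
    have hx1 : ‖w.1 - v‖ < r₁ := by
      rw [hw]
      exact hx.trans_le (min_le_left _ _)
    have hx2 : ‖w.1 - v‖ < a := by
      rw [hw]
      exact hx.trans_le (min_le_right _ _)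
    have h3 : a ≤ ‖w'.1 - v‖ := by
      have h5 := norm_sub_le_norm_sub_add_norm_sub w.1 v w'.1
      rw [norm_sub_rev v] at h5
      linarith [not_le.1 hlt]
    obtain ⟨z, hz, hjz⟩ := Sweep_stop hj hx2.le h3
    refine H z.1 (mem_sphere_iff_norm.2 hz) w z rfl hx1 (hjz.mono ?_)
    rintro u ⟨⟨-, hu1, hu2, e', he'⟩, hu3⟩
    refine ⟨hu1, hu2.trans (min_le_left _ _), ?_⟩
    have hu3' : ‖u.1 - v‖ ≤ a := hu3
    have h6 : c.p u.1 u.2 e = 0 :=
      h0 u.1 u.2 (by linarith) (by linarith [hu2.trans (min_le_right _ _)])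
    by_cases hee : e = e'
    · rw [hee]
      exact he'
    · have := he' e hee
      linarith
  obtain ⟨r₀, hr₀, h⟩ := key
  exact ⟨r₀, hr₀, fun w w' hj => h w.1 hj.source_mem.1 w w' rfl hj⟩

end Crest.Agent.R040

end
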