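import Crest.Agent.R040.Defs2
import Crest.Agent.Lib.Brouwer.Basic

/-! # Row 40, Step 2: the covering argument -/

set_option autoImplicit false

open MeasureTheory Filter Topology Set Metric
open scoped Real

noncomputable section

namespace Crest.Agent.R040

theorem top_convex_box : Convex ℝ box := by
  have : box = Complex.reLm ⁻¹' Icc (-8) 8 ∩ Complex.imLm ⁻¹' Icc (-8) 8 := by
    ext z; simp [box, abs_le]
  rw [this]
  exact ((convex_Icc _ _).linear_preimage _).inter ((convex_Icc _ _).linear_preimage _)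

theorem top_closed_box : IsClosed box :=
  (isClosed_le Complex.continuous_re.abs continuous_const).inter
    (isClosed_le Complex.continuous_im.abs continuous_const)

theorem top_compact_box : IsCompact box := by
  refine Metric.isCompact_of_isClosed_isBounded top_closed_box
    (isBounded_iff_forall_norm_le.2 ⟨16, fun z hz => ?_⟩)
  have := Complex.norm_le_abs_re_add_abs_im z
  linarith [hz.1, hz.2]

theorem top_convex (r₁ r₀ : ℝ) : Convex ℝ (slab r₁ r₀) := top_convex_box.prod (convex_Icc _ _)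

theorem top_compact (r₁ r₀ : ℝ) : IsCompact (slab r₁ r₀) := top_compact_box.prod isCompact_Icc

theorem top_loc {S G : Set (ℂ × ℝ)} (hS : Convex ℝ S) (hG : RelOpen S G) {w : ℂ × ℝ}
    (hw : w ∈ G) : ∃ ε > (0 : ℝ), ∀ w' ∈ S, dist w' w < ε → JoinedIn G w w' := by
  obtain ⟨ε, hε, h⟩ := hG.2 w hw
  refine ⟨ε, hε, fun w' hw' hd => ?_⟩
  have hc : Convex ℝ (S ∩ ball w ε) := hS.inter (convex_ball _ _)
  have hm : w ∈ S ∩ ball w ε := ⟨hG.1 hw, mem_ball_self hε⟩
  exact ((hc.isPathConnected ⟨w, hm⟩).joinedIn w hm w' ⟨hw', hd⟩).mono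
    fun z hz => h z hz.1 hz.2

theorem top_closed_diff {S G : Set (ℂ × ℝ)} (hS : IsClosed S) (hG : RelOpen S G) :
    IsClosed (S \ G) := by
  refine isClosed_of_closure_subset fun w hw => ?_
  have hwS : w ∈ S := hS.closure_subset (closure_mono sdiff_subset hw)
  refine ⟨hwS, fun hwG => ?_⟩
  obtain ⟨ε, hε, h⟩ := hG.2 w hwG
  obtain ⟨z, hz, hd⟩ := Metric.mem_closure_iff.1 hw ε hε
  exact hz.2 (h z hz.1 (by rwa [dist_comm]))

theorem top_clamp {lo hi t f : ℝ} (h1 : lo ≤ t) (h2 : t ≤ hi) (h3 : t = lo → f ≤ 0)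
    (h4 : t = hi → 0 ≤ f) (h : max lo (min hi (t - f)) = t) : f = 0 := by
  rcases lt_trichotomy f 0 with hf | hf | hf
  · exfalso
    rcases eq_or_lt_of_le h2 with e | e
    · linarith [h4 e]
    · have : t < max lo (min hi (t - f)) := lt_max_of_lt_right (lt_min e (by linarith))
      linarith
  · exact hf
  · exfalso
    rcases eq_or_lt_of_le h1 with e | e
    · linarith [h3 e.symm]
    · have : max lo (min hi (t - f)) < t := max_lt e (min_lt_of_right_lt (by linarith))
      linarith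

/-- Poincaré–Miranda on the slab -/
theorem top_miranda {r₁ r₀ : ℝ} (h : r₁ < r₀) (F : ℂ × ℝ → ℂ) (f : ℂ × ℝ → ℝ)
    (hF : ContinuousOn F (slab r₁ r₀)) (hf : ContinuousOn f (slab r₁ r₀))
    (h1 : ∀ w ∈ slab r₁ r₀, (w.1.re = -8 → (F w).re ≤ 0) ∧ (w.1.re = 8 → 0 ≤ (F w).re) ∧
      (w.1.im = -8 → (F w).im ≤ 0) ∧ (w.1.im = 8 → 0 ≤ (F w).im) ∧
      (w.2 = r₁ → f w ≤ 0) ∧ (w.2 = r₀ → 0 ≤ f w)) :
    ∃ w ∈ slab r₁ r₀, F w = 0 ∧ f w = 0 := by
  have hre : ContinuousOn (fun w => (F w).re) (slab r₁ r₀) :=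
    Complex.continuous_re.comp_continuousOn hF
  have him : ContinuousOn (fun w => (F w).im) (slab r₁ r₀) :=
    Complex.continuous_im.comp_continuousOn hF
  obtain ⟨w, hw, e⟩ := Crest.Agent.Lib.Brouwer.brouwer (K := slab r₁ r₀)
    ⟨(0, r₁), by simp [slab, box, h.le]⟩ (top_compact r₁ r₀) (top_convex r₁ r₀)
    (fun w => (((max (-8) (min 8 (w.1.re - (F w).re)) : ℝ) : ℂ) +
      ((max (-8) (min 8 (w.1.im - (F w).im)) : ℝ) : ℂ) * Complex.I,
      max r₁ (min r₀ (w.2 - f w))))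
    (by
      refine ContinuousOn.prodMk (ContinuousOn.add ?_ (ContinuousOn.mul ?_ continuousOn_const)) ?_
      · exact Complex.continuous_ofReal.comp_continuousOn (continuousOn_const.sup
          (continuousOn_const.inf (ContinuousOn.sub (by fun_prop) hre)))
      · exact Complex.continuous_ofReal.comp_continuousOn (continuousOn_const.sup
          (continuousOn_const.inf (ContinuousOn.sub (by fun_prop) him)))
      · exact continuousOn_const.sup (continuousOn_const.inf (ContinuousOn.sub (by fun_prop) hf)))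
    (fun w hw => by
      refine ⟨⟨?_, ?_⟩, le_max_left _ _, max_le h.le (min_le_left _ _)⟩
      · simp only [Complex.add_re, Complex.ofReal_re, Complex.mul_re, Complex.I_re, Complex.I_im,
          Complex.ofReal_im, mul_zero, mul_one, sub_zero, add_zero]
        exact abs_le.2 ⟨le_max_left _ _, max_le (by norm_num) (min_le_left _ _)⟩
      · simp only [Complex.add_im, Complex.ofReal_re, Complex.mul_im, Complex.I_re, Complex.I_im,
          Complex.ofReal_im, mul_zero, mul_one, zero_add, add_zero]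
        exact abs_le.2 ⟨le_max_left _ _, max_le (by norm_num) (min_le_left _ _)⟩)
  have e1 := congrArg (fun z : ℂ × ℝ => z.1.re) e
  have e2 := congrArg (fun z : ℂ × ℝ => z.1.im) e
  have e3 := congrArg (fun z : ℂ × ℝ => z.2) e
  simp only [Complex.add_re, Complex.ofReal_re, Complex.mul_re, Complex.I_re, Complex.I_im,
    Complex.ofReal_im, mul_zero, mul_one, sub_zero, add_zero, Complex.add_im, Complex.mul_im,
    zero_add] at e1 e2 e3
  obtain ⟨a1, a2, a3, a4, a5, a6⟩ := h1 w hw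
  have b1 := abs_le.1 hw.1.1
  have b2 := abs_le.1 hw.1.2
  exact ⟨w, hw, Complex.ext (top_clamp b1.1 b1.2 a1 a2 e1) (top_clamp b2.1 b2.2 a3 a4 e2),
    top_clamp hw.2.1 hw.2.2 a5 a6 e3⟩

theorem top_seg_null (p q : ℂ) : volume (segment ℝ p q) = 0 := by
  refine measure_mono_null (t := (affineSpan ℝ {p, q} : AffineSubspace ℝ ℂ)) ?_
    (Measure.addHaar_affineSubspace _ _ fun h => ?_)
  · rw [segment_eq_image_lineMap]
    rintro _ ⟨t, -, rfl⟩
    exact AffineMap.lineMap_mem_affineSpan_pair t p q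
  · have : Module.finrank ℝ (affineSpan ℝ ({p, q} : Set ℂ)).direction ≤ 1 := by
      rw [direction_affineSpan]; exact (collinear_pair ℝ p q).finrank_le_one
    rw [h, AffineSubspace.direction_top, finrank_top, Complex.finrank_real_complex] at this
    omega

theorem top_miss {P : Set ℂ} (hP : P.Countable) :
    ∃ y : ℂ, ‖y‖ < 1 ∧ ∀ p ∈ P, ∀ q ∈ P, y ∉ segment ℝ p q := by
  by_contra hh
  push Not at hh
  have h0 : volume (⋃ p ∈ P, ⋃ q ∈ P, segment ℝ p q) = 0 :=
    (measure_biUnion_null_iff hP).2 fun p _ => (measure_biUnion_null_iff hP).2 fun q _ =>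
      top_seg_null p q
  have h1 : volume (ball (0 : ℂ) 1) = 0 := measure_mono_null (fun y hy => by
    obtain ⟨p, hp, q, hq, h⟩ := hh y (by simpa using hy)
    simp only [mem_iUnion]
    exact ⟨p, hp, q, hq, h⟩) h0
  exact (measure_ball_pos volume (0 : ℂ) one_pos).ne' h1

/-- the separating function -/
theorem top_sep {r₁ r₀ : ℝ} (h : r₁ < r₀) {Z O : Set (ℂ × ℝ)} (hZ : IsClosed Z) (hZO : Z ⊆ O)
    (hO : RelOpen (slab r₁ r₀) O)
    (hO2 : ∀ w w', JoinedIn O w w' → w.2 = r₁ → w'.2 = r₀ → False) :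
    ∃ f : ℂ × ℝ → ℝ, Continuous f ∧ (∀ w, w.2 = r₁ → w ∈ slab r₁ r₀ → f w ≤ 0) ∧
      (∀ w, w.2 = r₀ → w ∈ slab r₁ r₀ → 0 ≤ f w) ∧ ∀ w ∈ Z, f w ≠ 0 := by
  have hS := (top_compact r₁ r₀).isClosed
  set Ob : Set (ℂ × ℝ) := {w | ∃ w0 : ℂ × ℝ, w0.2 = r₁ ∧ JoinedIn O w0 w} with hOb
  have o1 : RelOpen (slab r₁ r₀) Ob := by
    refine ⟨fun w ⟨w0, _, hw⟩ => hO.1 hw.target_mem, fun w ⟨w0, h0, hw⟩ => ?_⟩
    obtain ⟨ε, hε, hl⟩ := top_loc (top_convex r₁ r₀) hO hw.target_mem
    exact ⟨ε, hε, fun w' h1 h2 => ⟨w0, h0, hw.trans (hl w' h1 h2)⟩⟩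
  have o2 : RelOpen (slab r₁ r₀) (O \ Ob) := by
    refine ⟨fun w hw => hO.1 hw.1, fun w hw => ?_⟩
    obtain ⟨ε, hε, hl⟩ := top_loc (top_convex r₁ r₀) hO hw.1
    exact ⟨ε, hε, fun w' h1 h2 => ⟨(hl w' h1 h2).target_mem, fun ⟨w0, h0, hw0⟩ =>
      hw.2 ⟨w0, h0, hw0.trans (hl w' h1 h2).symm⟩⟩⟩
  have cA : IsClosed ((Z ∩ (slab r₁ r₀ \ (O \ Ob))) ∪ (slab r₁ r₀ ∩ {w | w.2 = r₁})) :=
    (hZ.inter (top_closed_diff hS o2)).union (hS.inter (isClosed_eq continuous_snd continuous_const))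
  have cB : IsClosed ((Z ∩ (slab r₁ r₀ \ Ob)) ∪ (slab r₁ r₀ ∩ {w | w.2 = r₀})) :=
    (hZ.inter (top_closed_diff hS o1)).union (hS.inter (isClosed_eq continuous_snd continuous_const))
  obtain ⟨f, fA, fB, -⟩ := exists_continuous_zero_one_of_isClosed cA cB (by
    rw [Set.disjoint_left]
    rintro w (⟨hw, -, hw'⟩ | ⟨-, hw⟩) (⟨hv, -, hv'⟩ | ⟨-, hv⟩)
    · exact hw' ⟨hZO hw, hv'⟩
    · by_cases hb : w ∈ Ob
      · obtain ⟨w0, h0, hw0⟩ := hb
        exact hO2 w0 w hw0 h0 hv
      · exact hw' ⟨hZO hw, hb⟩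
    · exact hv' ⟨w, hw, JoinedIn.refl (hZO hv)⟩
    · have e1 : w.2 = r₁ := hw
      have e2 : w.2 = r₀ := hv
      linarith)
  refine ⟨fun w => 2 * f w - 1, by fun_prop, fun w h1 h2 => ?_, fun w h1 h2 => ?_, fun w hw => ?_⟩
  · have : f w = 0 := fA (Or.inr ⟨h2, h1⟩)
    simp only [this]; norm_num
  · have : f w = 1 := fB (Or.inr ⟨h2, h1⟩)
    simp only [this]; norm_num
  · by_cases hb : w ∈ Ob
    · have : f w = 0 := fA (Or.inl ⟨hw, hO.1 (hZO hw), fun hh => hh.2 hb⟩)
      simp only [this]; norm_num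
    · have : f w = 1 := fB (Or.inl ⟨hw, hO.1 (hZO hw), hb⟩)
      simp only [this]; norm_num

/-- weights and base points of one open set -/
theorem top_pick {r₁ r₀ : ℝ} {G : Set (ℂ × ℝ)} (hG : RelOpen (slab r₁ r₀) G)
    (hdiam : ∀ w w', JoinedIn G w w' → ‖w.1 - w'.1‖ ≤ 2) :
    ∃ (q : ℂ × ℝ → ℝ) (a : ℂ × ℝ → ℂ) (P : Set ℂ), P.Countable ∧
      (∀ w ∈ G, 0 < q w ∧ a w ∈ P ∧ ‖w.1 - a w‖ ≤ 2) ∧ (∀ w ∈ slab r₁ r₀, w ∉ G → q w = 0) ∧
      ∀ y : ℂ, ContinuousOn (fun w => (q w : ℂ) * (a w - y)) (slab r₁ r₀) := by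
  classical
  have hS := (top_compact r₁ r₀).isClosed
  let pick : Set (ℂ × ℝ) → ℂ × ℝ := fun C => if h : C.Nonempty then h.some else 0
  let a : ℂ × ℝ → ℂ := fun w => (pick {w' | JoinedIn G w w'}).1
  have ha1 : ∀ w ∈ G, ‖w.1 - a w‖ ≤ 2 := fun w hw => by
    have hne : ({w' | JoinedIn G w w'} : Set (ℂ × ℝ)).Nonempty := ⟨w, JoinedIn.refl hw⟩
    have : JoinedIn G w (pick {w' | JoinedIn G w w'}) := by
      simp only [pick, dif_pos hne]; exact hne.some_mem
    exact hdiam _ _ this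
  have ha2 : ∀ w ∈ G, ∃ ε > (0 : ℝ), ∀ w' ∈ slab r₁ r₀, dist w' w < ε → a w' = a w := by
    intro w hw
    obtain ⟨ε, hε, hl⟩ := top_loc (top_convex r₁ r₀) hG hw
    refine ⟨ε, hε, fun w' h1 h2 => ?_⟩
    have : ({z | JoinedIn G w' z} : Set (ℂ × ℝ)) = {z | JoinedIn G w z} := by
      ext z
      exact ⟨fun hz => (hl w' h1 h2).trans hz, fun hz => (hl w' h1 h2).symm.trans hz⟩
    simp only [a, this]
  obtain ⟨D, hD1, hD2, hD3⟩ :=
    (TopologicalSpace.IsSeparable.of_separableSpace (slab r₁ r₀)).exists_countable_dense_subset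
  let C : Set (ℂ × ℝ) := (slab r₁ r₀ \ G) ∪ {((9 : ℂ), (0 : ℝ))}
  have cC : IsClosed C := (top_closed_diff hS hG).union isClosed_singleton
  have nC : C.Nonempty := ⟨_, Or.inr rfl⟩
  have hq0 : ∀ w ∈ slab r₁ r₀, w ∉ G → infDist w C = 0 := fun w h1 h2 =>
    infDist_zero_of_mem (Or.inl ⟨h1, h2⟩)
  have cq : Continuous fun w => ((infDist w C : ℝ) : ℂ) :=
    Complex.continuous_ofReal.comp (continuous_infDist_pt C)
  refine ⟨fun w => infDist w C, a, a '' D, hD2.image _, fun w hw => ⟨?_, ?_, ha1 w hw⟩, hq0,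
    fun y w hw => ?_⟩
  · refine (cC.notMem_iff_infDist_pos nC).1 ?_
    rintro (h | h)
    · exact h.2 hw
    · have := (hG.1 hw).1.1
      rw [mem_singleton_iff.1 h] at this
      norm_num at this
  · obtain ⟨ε, hε, hl⟩ := ha2 w hw
    obtain ⟨d, hd, hdist⟩ := Metric.mem_closure_iff.1 (hD3 (hG.1 hw)) ε hε
    exact ⟨d, hd, hl d (hD1 hd) (by rwa [dist_comm])⟩
  · by_cases hwG : w ∈ G
    · obtain ⟨ε, hε, hl⟩ := ha2 w hwG
      refine ContinuousWithinAt.congr_of_eventuallyEq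
        (f := fun w' => ((infDist w' C : ℝ) : ℂ) * (a w - y))
        (cq.mul continuous_const).continuousWithinAt ?_ rfl
      filter_upwards [self_mem_nhdsWithin, mem_nhdsWithin_of_mem_nhds (ball_mem_nhds w hε)]
        with w' h1 h2
      rw [hl w' h1 h2]
    · unfold ContinuousWithinAt
      simp only [hq0 w hw hwG, Complex.ofReal_zero, zero_mul]
      refine squeeze_zero_norm' (a := fun w' => infDist w' C * (‖w'.1 - y‖ + 2)) ?_ ?_
      · filter_upwards [self_mem_nhdsWithin] with w' h1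
        by_cases h2 : w' ∈ G
        · rw [norm_mul, Complex.norm_real, Real.norm_of_nonneg infDist_nonneg]
          refine mul_le_mul_of_nonneg_left ?_ infDist_nonneg
          have h3 := ha1 w' h2
          have h4 := norm_sub_le (w'.1 - y) (w'.1 - a w')
          rw [show w'.1 - y - (w'.1 - a w') = a w' - y by ring] at h4
          linarith
        · simp [hq0 w' h1 h2]
      · have : Continuous fun w' : ℂ × ℝ => infDist w' C * (‖w'.1 - y‖ + 2) :=
          (continuous_infDist_pt C).mul (by fun_prop)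
        have h2 := this.tendsto w
        rw [hq0 w hw hwG, zero_mul] at h2
        exact h2.mono_left nhdsWithin_le_nhds

/-- `S = slab` is compact and convex, so path components of relatively open sets are relatively open.  `Z = S \ ⋃ G i ⊆ O` is closed; `O_b` = points joined in `O` to the bottom face; `A = (Z ∩ O_b) ∪ bottom`, `B = (Z \ O_b) ∪ top` are disjoint closed sets;
`h = (d_A - d_B)/(d_A + d_B)` (`infDist`).  For each path component of `G i` choose a point `a_i(w)` (`pathComponentIn`, choice depending only on the component): locally constant on `G i`, `‖a_i(w).1 - w.1‖ ≤ 2`, countably many values (disjoint relatively open sets in a separable space).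
`q_i = infDist w (S \ G i)` (use `min 1`, or handle `S \ G i = ∅`: impossible by `hdiam`), `g w = ∑ q_i (a_i(w).1 - w.1) / ∑ q_i` on `S \ Z`.  `w.1 + g w` lies on a segment between two chosen points (`hmult`); the countable union of segments is null, so it misses some `y` with `‖y‖ < 1`.
`F w = (w.1 + χ(h w) g w - y, h w)` with `χ(t) = max 0 (1 - 2|t|)` is continuous on `S`; Brouwer (`Crest.Agent.Lib.Brouwer.brouwer`) for `w ↦ clamp (w - F w)` (Poincaré–Miranda sign conditions on the faces) gives a zero of `F`. -/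
theorem top {r₁ r₀ : ℝ} (h : r₁ < r₀) (G : Fin 5 → Set (ℂ × ℝ)) (O : Set (ℂ × ℝ))
    (hG : ∀ i, RelOpen (slab r₁ r₀) (G i)) (hO : RelOpen (slab r₁ r₀) O)
    (hcov : ∀ w ∈ slab r₁ r₀, w ∈ O ∨ ∃ i, w ∈ G i)
    (hmult : ∀ w i j k, i ≠ j → i ≠ k → j ≠ k → w ∈ G i → w ∈ G j → w ∈ G k → False)
    (hdiam : ∀ i w w', JoinedIn (G i) w w' → ‖w.1 - w'.1‖ ≤ 2)
    (hO2 : ∀ w w', JoinedIn O w w' → w.2 = r₁ → w'.2 = r₀ → False) : False := by
  classical
  have hS := (top_compact r₁ r₀).isClosed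
  choose q a P hP h1 h2 h3 using fun i => top_pick (hG i) (hdiam i)
  obtain ⟨y, hy, hy'⟩ := top_miss (countable_iUnion hP)
  have cZ : IsClosed (⋂ i, slab r₁ r₀ \ G i) := isClosed_iInter fun i => top_closed_diff hS (hG i)
  obtain ⟨f, cf, f1, f2, f3⟩ := top_sep h cZ (fun w hw => by
    have hw' := mem_iInter.1 hw
    rcases hcov w (hw' 0).1 with h | ⟨i, hi⟩
    · exact h
    · exact absurd hi (hw' i).2) hO hO2
  have hq : ∀ i, ∀ w ∈ slab r₁ r₀, 0 ≤ q i w := fun i w hw => by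
    by_cases hi : w ∈ G i
    · exact (h1 i w hi).1.le
    · exact (h2 i w hw hi).ge
  -- a sign lemma
  have sgn : ∀ (L : ℂ →L[ℝ] ℝ), (∀ z, |L z| ≤ ‖z‖) → ∀ w ∈ slab r₁ r₀, L w.1 = 8 →
      0 ≤ L (∑ i, (q i w : ℂ) * (a i w - y) + ((|f w| : ℝ) : ℂ) * (w.1 - y)) := by
    intro L hL w hw h8
    have hy1 := (abs_le.1 (hL y)).2
    rw [map_add, map_sum]
    refine add_nonneg (Finset.sum_nonneg fun i _ => ?_) ?_
    · rw [← Complex.real_smul, map_smul, smul_eq_mul]
      by_cases hi : w ∈ G i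
      · refine mul_nonneg (hq i w hw) ?_
        have := (abs_le.1 ((hL _).trans (h1 i w hi).2.2)).2
        rw [map_sub] at this ⊢
        linarith
      · rw [h2 i w hw hi, zero_mul]
    · rw [← Complex.real_smul, map_smul, smul_eq_mul, map_sub]
      exact mul_nonneg (abs_nonneg _) (by linarith)
  obtain ⟨w, hw, e1, e2⟩ := top_miranda h
    (fun w => ∑ i, (q i w : ℂ) * (a i w - y) + ((|f w| : ℝ) : ℂ) * (w.1 - y)) f
    ((continuousOn_finsetSum _ fun i _ => h3 i y).add (by fun_prop)) cf.continuousOn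
    (fun w hw => by
      refine ⟨fun e => ?_, fun e => ?_, fun e => ?_, fun e => ?_, fun e => f1 w e hw,
        fun e => f2 w e hw⟩
      · have := sgn (-Complex.reCLM) (fun z => by simpa using Complex.abs_re_le_norm z) w hw
          (by simp [e])
        rw [neg_apply, Complex.reCLM_apply] at this
        linarith
      · exact sgn Complex.reCLM Complex.abs_re_le_norm w hw e
      · have := sgn (-Complex.imCLM) (fun z => by simpa using Complex.abs_im_le_norm z) w hw
          (by simp [e])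
        rw [neg_apply, Complex.imCLM_apply] at this
        linarith
      · exact sgn Complex.imCLM Complex.abs_im_le_norm w hw e)
  simp only [e2, abs_zero, Complex.ofReal_zero, zero_mul, add_zero] at e1
  obtain ⟨i, hi⟩ : ∃ i, w ∈ G i := by
    by_contra hh
    push Not at hh
    exact f3 w (mem_iInter.2 fun i => ⟨hw, hh i⟩) e2
  have hi1 := (h1 i w hi).1
  have hi2 : a i w ∈ ⋃ i, P i := mem_iUnion.2 ⟨i, (h1 i w hi).2.1⟩
  by_cases hj : ∃ j, j ≠ i ∧ w ∈ G j
  · obtain ⟨j, hji, hj⟩ := hj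
    have hj1 := (h1 j w hj).1
    have hj2 : a j w ∈ ⋃ i, P i := mem_iUnion.2 ⟨j, (h1 j w hj).2.1⟩
    rw [Fintype.sum_eq_add i j hji.symm fun k hk => by
      rw [h2 k w hw fun hk' => hmult w i j k hji.symm hk.1.symm hk.2.symm hi hj hk']
      simp] at e1
    refine hy' _ hi2 _ hj2 ⟨q i w / (q i w + q j w), q j w / (q i w + q j w), by positivity,
      by positivity, by field_simp, ?_⟩
    have hne : ((q i w : ℂ) + q j w) ≠ 0 := by
      exact_mod_cast (add_pos hi1 hj1).ne'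
    simp only [Complex.real_smul]
    push_cast
    field_simp
    linear_combination e1
  · push Not at hj
    rw [Fintype.sum_eq_single i fun k hk => by rw [h2 k w hw (hj k hk)]; simp] at e1
    have : a i w = y := by
      rcases mul_eq_zero.1 e1 with e | e
      · exact absurd (by exact_mod_cast e) hi1.ne'
      · exact sub_eq_zero.1 e
    exact hy' _ hi2 _ hi2 (this ▸ left_mem_segment ℝ _ _)

end Crest.Agent.R040

end
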