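import Crest.Agent.R040.Stage1
import Crest.Agent.R040.Stage2
import Crest.Agent.R040.Sweep
import Crest.Agent.R040.Top

/-! # Row 40, Step 2: no measurable colouring -/

set_option autoImplicit false

open MeasureTheory Filter Topology Set Metric
open scoped Real

noncomputable section

namespace Crest.Agent.R040

/-- `P` is an open condition on `S` -/
def Final_EO (S : Set (ℂ × ℝ)) (P : ℂ × ℝ → Prop) : Prop :=
  ∀ w ∈ S, P w → ∀ᶠ w' in 𝓝[S] w, P w'

section EO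
variable {S : Set (ℂ × ℝ)} {P Q : ℂ × ℝ → Prop}

theorem Final_EO.relOpen (h : Final_EO S P) : RelOpen S {w | w ∈ S ∧ P w} := by
  refine ⟨fun w hw => hw.1, fun w hw => ?_⟩
  obtain ⟨ε, hε, hb⟩ := Metric.mem_nhdsWithin_iff.1 (h w hw.1 hw.2)
  exact ⟨ε, hε, fun w' hw' hd => ⟨hw', hb ⟨hd, hw'⟩⟩⟩

theorem Final_EO.and (h : Final_EO S P) (h' : Final_EO S Q) : Final_EO S fun w => P w ∧ Q w :=
  fun w hw hp => (h w hw hp.1).and (h' w hw hp.2)

theorem Final_EO.or (h : Final_EO S P) (h' : Final_EO S Q) : Final_EO S fun w => P w ∨ Q w :=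
  fun w hw hp => hp.elim (fun hp => (h w hw hp).mono fun _ => Or.inl)
    fun hp => (h' w hw hp).mono fun _ => Or.inr

theorem Final_EO.ex {ι : Type} {P : ι → ℂ × ℝ → Prop} (h : ∀ i, Final_EO S (P i)) :
    Final_EO S fun w => ∃ i, P i w :=
  fun w hw ⟨i, hi⟩ => (h i w hw hi).mono fun _ h' => ⟨i, h'⟩

theorem Final_EO.all {P : Fin 5 → ℂ × ℝ → Prop} (h : ∀ i, Final_EO S (P i)) :
    Final_EO S fun w => ∀ i, P i w :=
  fun w hw hp => eventually_all.2 fun i => h i w hw (hp i)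

theorem Final_EO.const (a : Prop) : Final_EO S fun _ => a :=
  fun _ _ hp => Eventually.of_forall fun _ => hp

theorem Final_EO.imp (a : Prop) (h : Final_EO S P) : Final_EO S fun w => a → P w := by
  intro w hw hp
  by_cases ha : a
  · exact (h w hw (hp ha)).mono fun _ h' _ => h'
  · exact Eventually.of_forall fun _ h' => absurd h' ha

theorem Final_EO.congr (h : Final_EO S P) (hpq : ∀ w ∈ S, P w ↔ Q w) : Final_EO S Q := by
  intro w hw hq
  filter_upwards [h w hw ((hpq w hw).2 hq), self_mem_nhdsWithin] with w' h1 h2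
  exact (hpq w' h2).1 h1

theorem Final_EO.lt {f g : ℂ × ℝ → ℝ} (hf : ContinuousOn f S) (hg : ContinuousOn g S) :
    Final_EO S fun w => f w < g w :=
  fun w hw hp => Filter.Tendsto.eventually_lt (hf w hw) (hg w hw) hp

theorem Final_EO.joined (h : Final_EO S P) (hS : Convex ℝ S) {w : ℂ × ℝ} (hw : w ∈ S) (hp : P w) :
    ∀ᶠ w' in 𝓝[S] w, JoinedIn {w | w ∈ S ∧ P w} w w' := by
  obtain ⟨ε, hε, hb⟩ := Metric.mem_nhdsWithin_iff.1 (h w hw hp)
  refine Metric.mem_nhdsWithin_iff.2 ⟨ε, hε, fun w' hw' => ?_⟩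
  have hc : Convex ℝ (ball w ε ∩ S) := (convex_ball w ε).inter hS
  exact JoinedIn.of_segment_subset
    ((hc.segment_subset ⟨mem_ball_self hε, hw⟩ hw').trans fun z hz => ⟨hz.2, hb hz⟩)

end EO

theorem Final_convex_slab (r₁ r₀ : ℝ) : Convex ℝ (slab r₁ r₀) := by
  refine Convex.prod ?_ (convex_Icc _ _)
  intro x hx y hy a b ha hb hab
  obtain ⟨hx1, hx2⟩ := hx
  obtain ⟨hy1, hy2⟩ := hy
  rw [abs_le] at hx1 hx2 hy1 hy2
  constructor
  · rw [abs_le]
    simp only [Complex.add_re, Complex.smul_re, smul_eq_mul]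
    constructor <;> nlinarith
  · rw [abs_le]
    simp only [Complex.add_im, Complex.smul_im, smul_eq_mul]
    constructor <;> nlinarith

section Labels
variable (c : MCol) {S : Set (ℂ × ℝ)} (hS : ∀ w ∈ S, 0 < w.2)
include hS

theorem Final_cont_p (i : Fin 5) : ContinuousOn (fun w : ℂ × ℝ => c.p w.1 w.2 i) S :=
  (continuous_apply i).comp_continuousOn (c.continuousOn_p.mono hS)

theorem Final_eo_lab (Γ : Fin 5 → Fin 5 → Prop) (β : ℝ) (i : Fin 5) :
    Final_EO S fun w => Lab Γ β (c.p w.1 w.2) i :=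
  Final_EO.all fun j => Final_EO.imp _ (Final_EO.lt
    ((continuous_mm Γ i j).comp_continuousOn (c.continuousOn_p.mono hS)) continuousOn_const)

omit hS in
theorem Final_eo_dist (v : ℂ) (t : ℝ) : Final_EO S fun w => ‖w.1 - v‖ < t :=
  Final_EO.lt (by fun_prop) continuousOn_const

theorem Final_eo_labF (T : Finset (ℂ × ℝ)) (β : ℝ) (i : Fin 5) :
    Final_EO S fun w => c.LabF T β w.1 w.2 i :=
  Final_EO.ex fun q => (Final_EO.const _).and
    ((Final_eo_dist q.1 q.2).and (Final_eo_lab c hS _ β i))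

theorem Final_eo_lab4 (ε δ : ℝ) (i : Fin 5) : Final_EO S fun w => c.Lab4 ε δ w.1 w.2 i :=
  Final_EO.ex fun v => (Final_EO.const _).and ((Final_EO.const _).and ((Final_eo_dist v δ).and
    (Final_EO.ex fun l => (Final_EO.const _).and
      ((Final_EO.lt (Final_cont_p c hS l) continuousOn_const).and (Final_eo_lab c hS _ _ i)))))

omit hS in
theorem Final_eo_near (t : ℝ) : Final_EO S fun w => c.Near w.1 t :=
  Final_EO.ex fun v => (Final_EO.const _).and ((Final_EO.const _).and (Final_eo_dist v t))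

theorem Final_eo_four (κ : ℝ) : Final_EO S fun w => ∃ e, ∀ i, i ≠ e → κ < c.p w.1 w.2 i :=
  Final_EO.ex fun _ => Final_EO.all fun i => Final_EO.imp _
    (Final_EO.lt continuousOn_const (Final_cont_p c hS i))

theorem Final_eo_not_four (κ : ℝ) : Final_EO S fun w => ¬ c.Four κ w.1 w.2 := by
  have h : Final_EO S fun w => ∀ e, ∃ i, i ≠ e ∧ c.p w.1 w.2 i < κ :=
    Final_EO.all fun _ => Final_EO.ex fun i => (Final_EO.const _).and
      (Final_EO.lt (Final_cont_p c hS i) continuousOn_const)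
  refine h.congr fun w _ => ?_
  simp only [MCol.Four, not_exists, not_forall, not_le, exists_prop]

end Labels

theorem Final_near_mono {c : MCol} {x : ℂ} {s t : ℝ} (h : c.Near x s) (hst : s ≤ t) : c.Near x t := by
  obtain ⟨v, hv, hc, hx⟩ := h
  exact ⟨v, hv, hc, hx.trans_le hst⟩

/-- `stage1`, `stage2`; `r₀ ≤ τ` small for `diam_small τ` and `four_small (τ/2) (δ/3)`; `r₁ = r₀/(M + 1)`, `S = slab r₁ r₀`.  `O₄ = {w ∈ S | ∃ e, ∀ i ≠ e, τ/2 < p i}` (relatively open), `O'` = points joined in `O₄` to a point with `Near (δ/2)`; `O'` and `O₄ \ O'` are relatively open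
(`S` is convex); `K₄ = {w ∈ S | Four τ}`, `K' = K₄ ∩ O'`, `K'' = K₄ \ O'` are closed; on `K'`: `Near δ`; on `K''`: `¬ Near (δ/2)`.  `G i = {w ∈ S | (LabF i ∧ w ∉ K') ∨ (Lab4 i ∧ w ∉ K'')}` (`continuousOn_p`, `continuous_mm`),
`O = {w ∈ S | Near δ ∧ ∃ e, ∀ i ≠ e, ε/2 < p i}`.  Cover: `Forest.centroid`, `Tf.forest_del`, `Tf.cyc_four`.  Multiplicity: off `K₄` with `Near δ`, some cycle colour has `p l < τ` and every `LabF` is a `Lab4`; without `Near δ` there is no `Lab4`.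
A path in `O` from the bottom to the top realises every value `t r₁`, `t ∈ [1, M]`, of `‖x' - x‖ + r'`.  `top`. -/
theorem no_mcol (c : MCol) : False := by
  obtain ⟨ε, δ, M, hε, -, hδ, hM, mult4, pos4, hsub, tower⟩ := c.stage1
  obtain ⟨T, τ, hτ, hτε, hτδ, hfor, hcov, multF, posF, transfer⟩ := c.stage2 hε hδ hsub
  obtain ⟨rd, hrd, hdiam⟩ := c.diam_small hτ
  obtain ⟨rf, hrf, hfour⟩ := c.four_small (half_pos hτ) (show 0 < δ / 3 by positivity)
  obtain ⟨r₀, hr₀, h0τ, h0d, h0f⟩ : ∃ r₀ : ℝ, 0 < r₀ ∧ r₀ ≤ τ ∧ r₀ ≤ rd ∧ r₀ ≤ rf :=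
    ⟨min τ (min rd rf), by positivity, min_le_left _ _, (min_le_right _ _).trans (min_le_left _ _),
      (min_le_right _ _).trans (min_le_right _ _)⟩
  obtain ⟨r₁, hr₁, hr₁₀⟩ : ∃ r₁ : ℝ, 0 < r₁ ∧ r₀ = (M + 1) * r₁ :=
    ⟨r₀ / (M + 1), by positivity, by field_simp⟩
  have hlt : r₁ < r₀ := by nlinarith
  set S := slab r₁ r₀ with hSdef
  have hbox : ∀ w ∈ S, w.1 ∈ box := fun w hw => hw.1
  have hlo : ∀ w ∈ S, r₁ ≤ w.2 := fun w hw => hw.2.1
  have hhi : ∀ w ∈ S, w.2 ≤ r₀ := fun w hw => hw.2.2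
  have hS : ∀ w ∈ S, 0 < w.2 := fun w hw => hr₁.trans_le (hlo w hw)
  have hSτ : ∀ w ∈ S, w.2 ≤ τ := fun w hw => (hhi w hw).trans h0τ
  have hSδ : ∀ w ∈ S, w.2 < δ := fun w hw => (hSτ w hw).trans_lt hτδ
  have hconv : Convex ℝ S := Final_convex_slab r₁ r₀
  -- the sets `O₄`, `O'`
  let P₄ : ℂ × ℝ → Prop := fun w => ∃ e, ∀ i, i ≠ e → τ / 2 < c.p w.1 w.2 i
  have eP₄ : Final_EO S P₄ := Final_eo_four c hS _
  let P' : ℂ × ℝ → Prop := fun w =>
    ∃ w₀ : ℂ × ℝ, c.Near w₀.1 (δ / 2) ∧ JoinedIn {w | w ∈ S ∧ P₄ w} w₀ w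
  have eP' : Final_EO S P' := by
    rintro w hw ⟨w₀, hn, hj⟩
    filter_upwards [eP₄.joined hconv hw hj.target_mem.2] with w' hw'
    exact ⟨w₀, hn, hj.trans hw'⟩
  have eP'' : Final_EO S fun w => P₄ w ∧ ¬ P' w := by
    rintro w hw ⟨h4, hn⟩
    filter_upwards [eP₄.joined hconv hw h4] with w' hw'
    refine ⟨hw'.target_mem.2, ?_⟩
    rintro ⟨w₀, hn', hj⟩
    exact hn ⟨w₀, hn', hj.trans hw'.symm⟩
  have h44 : ∀ w : ℂ × ℝ, c.Four τ w.1 w.2 → P₄ w := by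
    rintro w ⟨e, he⟩
    exact ⟨e, fun i hi => (half_lt_self hτ).trans_le (he i hi)⟩
  let K' : ℂ × ℝ → Prop := fun w => c.Four τ w.1 w.2 ∧ P' w
  let K'' : ℂ × ℝ → Prop := fun w => c.Four τ w.1 w.2 ∧ ¬ P' w
  have eK' : Final_EO S fun w => ¬ K' w := by
    refine ((Final_eo_not_four c hS τ).or eP'').congr fun w _ => ⟨?_, fun h => ?_⟩
    · rintro (h | h) hk
      · exact h hk.1
      · exact h.2 hk.2
    · by_cases h4 : c.Four τ w.1 w.2
      · exact Or.inr ⟨h44 w h4, fun hp => h ⟨h4, hp⟩⟩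
      · exact Or.inl h4
  have eK'' : Final_EO S fun w => ¬ K'' w := by
    refine ((Final_eo_not_four c hS τ).or eP').congr fun w _ => ⟨?_, fun h => ?_⟩
    · rintro (h | h) hk
      · exact h hk.1
      · exact hk.2 h
    · by_cases h4 : c.Four τ w.1 w.2
      · exact Or.inr (by_contra fun hp => h ⟨h4, hp⟩)
      · exact Or.inl h4
  have nearK' : ∀ w, K' w → c.Near w.1 δ := by
    rintro w ⟨-, w₀, ⟨v, hv, hc, hx⟩, hj⟩
    have h1 : ‖w₀.1 - w.1‖ ≤ δ / 3 := by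
      refine hfour w₀ w (hj.mono ?_)
      rintro z ⟨hz, e, he⟩
      exact ⟨hbox z hz, hS z hz, (hhi z hz).trans h0f, e, fun i hi => (he i hi).le⟩
    refine ⟨v, hv, hc, ?_⟩
    have h2 : ‖w.1 - v‖ ≤ ‖w₀.1 - v‖ + ‖w₀.1 - w.1‖ := by
      have : w.1 - v = (w₀.1 - v) - (w₀.1 - w.1) := by ring
      rw [this]
      exact norm_sub_le _ _
    linarith
  have farK'' : ∀ w ∈ S, K'' w → ¬ c.Near w.1 (δ / 2) := by
    rintro w hw ⟨h4, hp⟩ hn
    exact hp ⟨w, hn, JoinedIn.refl ⟨hw, h44 w h4⟩⟩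
  refine top hlt
    (fun i => {w | w ∈ S ∧ ((c.LabF T (1 / 2 + τ) w.1 w.2 i ∧ ¬ K' w) ∨
      (c.Lab4 ε δ w.1 w.2 i ∧ ¬ K'' w))})
    {w | w ∈ S ∧ (c.Near w.1 δ ∧ ∃ e, ∀ i, i ≠ e → ε / 2 < c.p w.1 w.2 i)}
    (fun i => (((Final_eo_labF c hS T _ i).and eK').or
      ((Final_eo_lab4 c hS ε δ i).and eK'')).relOpen)
    ((Final_eo_near c δ).and (Final_eo_four c hS _)).relOpen ?_ ?_ ?_ ?_
  · -- cover
    intro w hw
    have hsimp := c.simp_p w.1 (hS w hw)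
    by_cases hA : ¬ c.Near w.1 (δ / 3) ∧ ¬ K' w
    · obtain ⟨q, hq, hqx⟩ := hcov w.1 (hbox w hw) hA.1
      obtain ⟨i, hi⟩ := (hfor q hq).centroid hsimp
      exact Or.inr ⟨i, hw, Or.inl ⟨⟨q, hq, hqx, fun j hj => by linarith [hi j hj]⟩, hA.2⟩⟩
    · have hB : c.Near w.1 δ ∧ ¬ K'' w := by
        by_cases h3 : c.Near w.1 (δ / 3)
        · exact ⟨Final_near_mono h3 (by linarith),
            fun hk => farK'' w hw hk (Final_near_mono h3 (by linarith))⟩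
        · have hk : K' w := by_contra fun hk => hA ⟨h3, hk⟩
          exact ⟨nearK' w hk, fun hk' => hk'.2 hk.2⟩
      by_cases hO : ∃ e, ∀ i, i ≠ e → ε / 2 < c.p w.1 w.2 i
      · exact Or.inl ⟨hw, hB.1, hO⟩
      · obtain ⟨v, hv, hc, hx⟩ := hB.1
        obtain ⟨e, he⟩ := (c.tf_adj v).cyc_four hc
        obtain ⟨l, hl, hpl⟩ : ∃ l, l ≠ e ∧ c.p w.1 w.2 l ≤ ε / 2 := by
          by_contra hcon
          exact hO ⟨e, fun i hi => lt_of_not_ge fun h => hcon ⟨i, hi, h⟩⟩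
        obtain ⟨i, hi⟩ := ((c.tf_adj v).forest_del hc (he l hl)).centroid hsimp
        exact Or.inr ⟨i, hw, Or.inr ⟨⟨v, hv, hc, hx, l, he l hl, by linarith,
          fun j hj => by linarith [hi j hj]⟩, hB.2⟩⟩
  · -- multiplicity
    rintro w i j k hij hik hjk ⟨hw, hi⟩ ⟨-, hj⟩ ⟨-, hk⟩
    have key : (∀ a, ((c.LabF T (1 / 2 + τ) w.1 w.2 a ∧ ¬ K' w) ∨
          (c.Lab4 ε δ w.1 w.2 a ∧ ¬ K'' w)) → c.Lab4 ε δ w.1 w.2 a) ∨
        (∀ a, ((c.LabF T (1 / 2 + τ) w.1 w.2 a ∧ ¬ K' w) ∨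
          (c.Lab4 ε δ w.1 w.2 a ∧ ¬ K'' w)) → c.LabF T (1 / 2 + τ) w.1 w.2 a) := by
      by_cases h4 : c.Four τ w.1 w.2
      · by_cases hp : P' w
        · exact Or.inl fun a ha => ha.elim (fun h => absurd ⟨h4, hp⟩ h.2) fun h => h.1
        · exact Or.inr fun a ha => ha.elim (fun h => h.1) fun h => absurd ⟨h4, hp⟩ h.2
      · by_cases hn : c.Near w.1 δ
        · obtain ⟨v, hv, hc, hx⟩ := hn
          obtain ⟨e, he⟩ := (c.tf_adj v).cyc_four hc
          obtain ⟨l, hl, hpl⟩ : ∃ l, l ≠ e ∧ c.p w.1 w.2 l < τ := by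
            by_contra hcon
            exact h4 ⟨e, fun i hi => le_of_not_gt fun h => hcon ⟨i, hi, h⟩⟩
          refine Or.inl fun a ha => ha.elim (fun h => ?_) fun h => h.1
          exact ⟨v, hv, hc, hx, l, he l hl, hpl.trans_le hτε,
            transfer w.1 (hbox w hw) w.2 (hS w hw) (hSτ w hw) v hv hc hx l (he l hl) hpl a h.1⟩
        · refine Or.inr fun a ha => ha.elim (fun h => h.1) fun h => ?_
          obtain ⟨v, hv, hc, hx, -⟩ := h.1
          exact absurd ⟨v, hv, hc, hx⟩ hn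
    rcases key with key | key
    · exact mult4 w.1 (hbox w hw) w.2 (hS w hw) (hSδ w hw) i j k hij hik hjk (key i hi) (key j hj)
        (key k hk)
    · exact multF w.1 (hbox w hw) w.2 (hS w hw) (hSτ w hw) i j k hij hik hjk (key i hi) (key j hj)
        (key k hk)
  · -- diameter
    intro i w w' hj
    refine hdiam i w w' (hj.mono ?_)
    rintro z ⟨hz, h⟩
    refine ⟨hbox z hz, hS z hz, (hhi z hz).trans h0d, ?_⟩
    rcases h with h | h
    · exact posF z.1 (hbox z hz) z.2 (hS z hz) (hSτ z hz) i h.1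
    · exact hτε.trans (pos4 z.1 (hbox z hz) z.2 (hS z hz) (hSδ z hz) i h.1)
  · -- no path from the bottom to the top
    intro w w' hj h1 h0
    have hw := hj.source_mem
    refine tower w.1 r₁ hw.2.1 hr₁ (h1 ▸ hSδ w hw.1) fun t ht => ?_
    obtain ⟨γ, hγ⟩ := hj
    have hf : Continuous fun s => ‖(γ s).1 - w.1‖ + (γ s).2 := by fun_prop
    have hm : t * r₁ ∈ Icc (‖(γ 0).1 - w.1‖ + (γ 0).2) (‖(γ 1).1 - w.1‖ + (γ 1).2) := by
      rw [γ.source, γ.target, sub_self, norm_zero, zero_add, h1, h0]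
      have := norm_nonneg (w'.1 - w.1)
      constructor <;> nlinarith [ht.1, ht.2]
    obtain ⟨s, hs⟩ := intermediate_value_univ 0 1 hf hm
    obtain ⟨hs1, -, e, he⟩ := hγ s
    exact ⟨(γ s).1, (γ s).2, hlo _ hs1, hs, e, fun i hi => (he i hi).le⟩

end Crest.Agent.R040

end
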