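import Crest.Agent.R040.Arith

/-! # Row 40, Step 1: calculus of heights -/

set_option autoImplicit false

open MeasureTheory Filter Topology Set

noncomputable section

namespace Crest.Agent.R040

variable {B : Finset K}

theorem frameApi_ii : iK * iK = -1 := Subtype.ext (by simp)

theorem frameApi_abs (a b : ℤ) :
    |(a : ℝ)| ≤ ‖(a : K) + (b : K) * iK‖ ∧ |(b : ℝ)| ≤ ‖(a : K) + (b : K) * iK‖ := by
  rw [norm_K]
  exact ⟨by simpa using Complex.abs_re_le_norm (((a : K) + (b : K) * iK : K) : ℂ),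
    by simpa using Complex.abs_im_le_norm (((a : K) + (b : K) * iK : K) : ℂ)⟩

theorem frameApi_ee (x : ℝ) : ee x = Complex.exp (Complex.I * (2 * Real.pi * x : ℝ)) := by
  rw [ee, mul_comm]
  push_cast
  rfl

theorem Frame.r_pos (F : Frame B) : 0 < F.r := by
  obtain ⟨a, b, h, -⟩ := F.one
  by_contra h0
  have : IsEmpty (Fin F.r) := ⟨fun j => h0 j.pos⟩
  simp at h

theorem Frame.ht_nonneg (F : Frame B) {z : K} {H : ℝ} (h : Ht F.β z H) : 0 ≤ H := by
  obtain ⟨a, b, -, h⟩ := h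
  exact (norm_nonneg _).trans (h ⟨0, F.r_pos⟩)

theorem Ht.mono {r : ℕ} {β : Fin r → K} {z : K} {H H' : ℝ} (h : Ht β z H) (hH : H ≤ H') :
    Ht β z H' := by
  obtain ⟨a, b, h1, h2⟩ := h
  exact ⟨a, b, h1, fun j => (h2 j).trans hH⟩

theorem Ht.add {r : ℕ} {β : Fin r → K} {z w : K} {H H' : ℝ} (h : Ht β z H) (h' : Ht β w H') :
    Ht β (z + w) (H + H') := by
  obtain ⟨a, b, rfl, h2⟩ := h
  obtain ⟨a', b', rfl, h2'⟩ := h'
  refine ⟨a + a', b + b', ?_, fun j => le_trans (le_of_eq ?_)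
    ((norm_add_le _ _).trans (add_le_add (h2 j) (h2' j)))⟩
  · rw [← Finset.sum_add_distrib]
    refine Finset.sum_congr rfl fun j _ => ?_
    simp only [Pi.add_apply]
    push_cast
    ring
  · congr 1
    simp only [Pi.add_apply]
    push_cast
    ring

theorem Ht.neg {r : ℕ} {β : Fin r → K} {z : K} {H : ℝ} (h : Ht β z H) : Ht β (-z) H := by
  obtain ⟨a, b, rfl, h2⟩ := h
  refine ⟨-a, -b, ?_, fun j => le_trans (le_of_eq ?_) (h2 j)⟩
  · rw [← Finset.sum_neg_distrib]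
    refine Finset.sum_congr rfl fun j _ => ?_
    simp only [Pi.neg_apply]
    push_cast
    ring
  · rw [← norm_neg]
    congr 1
    simp only [Pi.neg_apply]
    push_cast
    ring

theorem Ht.sub {r : ℕ} {β : Fin r → K} {z w : K} {H H' : ℝ} (h : Ht β z H) (h' : Ht β w H') :
    Ht β (z - w) (H + H') := by
  rw [sub_eq_add_neg]
  exact h.add h'.neg

theorem Ht.gauss_mul {r : ℕ} {β : Fin r → K} {z : K} {H : ℝ} (h : Ht β z H) (a b : ℤ) :
    Ht β (((a : K) + (b : K) * iK) * z) (‖(a : K) + (b : K) * iK‖ * H) := by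
  obtain ⟨a', b', rfl, h2⟩ := h
  have h1 : ∀ j, ((a * a' j - b * b' j : ℤ) : K) + ((a * b' j + b * a' j : ℤ) : K) * iK =
      ((a : K) + (b : K) * iK) * ((a' j : K) + (b' j : K) * iK) := fun j => by
    push_cast
    linear_combination (-(b : K) * b' j) * frameApi_ii
  refine ⟨fun j => a * a' j - b * b' j, fun j => a * b' j + b * a' j, ?_, fun j => ?_⟩
  · simp only [h1, Finset.mul_sum, mul_assoc]
  · rw [h1, norm_mul]
    exact mul_le_mul_of_nonneg_left (h2 j) (norm_nonneg _)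

theorem Ht.pi_pow_mul {r : ℕ} {β : Fin r → K} {z : K} {H : ℝ} (h : Ht β z H) (n : ℕ) :
    Ht β (piK ^ n * z) (√5 ^ n * H) ∧ Ht β (pibK ^ n * z) (√5 ^ n * H) := by
  have h1 : ((2 : ℤ) : K) + ((1 : ℤ) : K) * iK = piK := by simp [piK]
  have h2 : ((2 : ℤ) : K) + ((-1 : ℤ) : K) * iK = pibK := by simp [pibK, sub_eq_add_neg]
  induction n with
  | zero => simpa using h
  | succ n ih =>
    have h3 := ih.1.gauss_mul 2 1
    have h4 := ih.2.gauss_mul 2 (-1)
    rw [h1, norm_piK] at h3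
    rw [h2, norm_pibK] at h4
    simp only [pow_succ', mul_assoc]
    exact ⟨h3, h4⟩

theorem ht_beta {r : ℕ} (β : Fin r → K) (j : Fin r) : Ht β (β j) 1 ∧ Ht β (iK * β j) 1 := by
  have h1 : Ht β (β j) 1 := by
    refine ⟨Pi.single j 1, 0, ?_, fun i => ?_⟩
    · simp [Pi.single_apply]
    · simp only [Pi.single_apply]
      split_ifs <;> simp
  have h2 := h1.gauss_mul 0 1
  have h3 : ‖iK‖ = 1 := by rw [norm_K, coe_iK, Complex.norm_I]
  exact ⟨h1, by simpa [h3] using h2⟩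

theorem ht_finite {r : ℕ} (β : Fin r → K) (H : ℝ) : {z : K | Ht β z H}.Finite := by
  have h1 : {a : Fin r → ℤ | ∀ j, a j ∈ Icc (-⌈H⌉) ⌈H⌉}.Finite :=
    Set.Finite.pi' fun _ => Set.finite_Icc _ _
  have h2 : ∀ a : ℤ, |(a : ℝ)| ≤ H → a ∈ Icc (-⌈H⌉) ⌈H⌉ := fun a ha => by
    have h3 : |a| ≤ ⌈H⌉ := by exact_mod_cast ha.trans (Int.le_ceil H)
    exact abs_le.1 h3
  refine ((h1.prod h1).image fun p => ∑ j, ((p.1 j : K) + (p.2 j : K) * iK) * β j).subset ?_
  rintro z ⟨a, b, rfl, h⟩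
  exact ⟨(a, b), ⟨fun j => h2 _ ((frameApi_abs _ _).1.trans (h j)),
    fun j => h2 _ ((frameApi_abs _ _).2.trans (h j))⟩, rfl⟩

/-- product of finitely many elements -/
theorem Frame.ht_prod (F : Frame B) {ι : Type} (s : Finset ι) (z : ι → K) (H : ι → ℝ)
    (h : ∀ i ∈ s, Ht F.β (z i) (H i)) :
    Ht F.β (∏ i ∈ s, z i) (F.C ^ (s.card + 1) * ∏ i ∈ s, H i) := by
  classical
  induction s using Finset.induction_on with
  | empty => simpa using F.one
  | insert i s hi ih =>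
    rw [Finset.prod_insert hi, Finset.prod_insert hi, Finset.card_insert_of_notMem hi]
    refine (F.mul _ _ _ _ (h i (Finset.mem_insert_self _ _))
      (ih fun j hj => h j (Finset.mem_insert_of_mem hj))).mono (le_of_eq ?_)
    ring

/-- `R` is a subring that is finitely generated as a `ℤ`-module, so `q` is integral (`IsIntegral.of_mem_of_fg`); the constant term of a minimal relation is nonzero
(e.g. `IsAlgebraic.exists_nonzero_eq_adjoin_mul`, `IsAlgebraic.exists_nonzero_dvd`). -/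
theorem Frame.exists_int_mul (F : Frame B) {q : K} {H : ℝ} (hq : Ht F.β q H) (h0 : q ≠ 0) :
    ∃ (a : ℤ) (y : K) (h : ℝ), a ≠ 0 ∧ Ht F.β y h ∧ (a : K) = q * y := by
  have h1 : IsAlgebraic ℤ q :=
    (isAlgebraic_algebraMap_iff (A := ℂ) Subtype.val_injective).1
      ((IsFractionRing.isAlgebraic_iff ℤ ℚ ℂ).2 (mem_algebraicClosure_iff.1 q.2))
  obtain ⟨t, ht, a, ha, h2⟩ := h1.exists_nonzero_eq_adjoin_mul (mem_nonZeroDivisors_of_ne_zero h0)
  obtain ⟨h, h3⟩ : ∃ h, Ht F.β t h := by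
    refine Algebra.adjoin_induction (p := fun t _ => ∃ h, Ht F.β t h) ?_ ?_ ?_ ?_ ht
    · rintro x rfl
      exact ⟨H, hq⟩
    · intro n
      exact ⟨_, by simpa using F.one.gauss_mul n 0⟩
    · rintro x y - - ⟨_, hx⟩ ⟨_, hy⟩
      exact ⟨_, hx.add hy⟩
    · rintro x y - - ⟨_, hx⟩ ⟨_, hy⟩
      exact ⟨_, F.mul _ _ _ _ hx hy⟩
  exact ⟨a, t, h, ha, h3, by simpa using h2.symm⟩

/-- the family `β_j / d`, `i β_j / d` is `ℚ`-independent (real and imaginary parts); extend (`LinearIndependent` + `LinearMap.exists_extend`, or `Basis.extend`). -/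
theorem Frame.exists_addHom (F : Frame B) (d : K) (hd : d ≠ 0) (x y : Fin F.r → ℝ) :
    ∃ ξ : K →+ ℝ, ∀ j, ξ (F.β j / d) = x j ∧ ξ (iK * F.β j / d) = y j := by
  have hv : LinearIndependent ℚ (Sum.elim (fun j => F.β j / d) fun j => iK * F.β j / d) := by
    rw [Fintype.linearIndependent_iff]
    intro g hg
    have h1 : ∑ j, g (Sum.inl j) • F.β j + iK * ∑ j, g (Sum.inr j) • F.β j = 0 := by
      rw [← div_left_inj' hd, zero_div, ← hg, Fintype.sum_sum_type, add_div, Finset.mul_sum,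
        Finset.sum_div, Finset.sum_div]
      simp only [Sum.elim_inl, Sum.elim_inr, mul_smul_comm, smul_div_assoc]
    have h2 : ∀ c : Fin F.r → ℚ, ((∑ j, c j • F.β j : K) : ℂ).im = 0 := fun c => by
      simp [F.real]
    have h3 := congrArg (fun z : K => (z : ℂ)) h1
    simp only [IntermediateField.coe_add, IntermediateField.coe_mul, coe_iK,
      IntermediateField.coe_zero, Complex.ext_iff, Complex.add_re, Complex.add_im, Complex.mul_re,
      Complex.mul_im, h2, Complex.I_re, Complex.I_im, Complex.zero_re, Complex.zero_im] at h3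
    have h4 : ∀ c : Fin F.r → ℚ, ((∑ j, c j • F.β j : K) : ℂ).re = 0 → ∀ j, c j = 0 :=
      fun c hc => Fintype.linearIndependent_iff.1 F.li c (Subtype.ext (Complex.ext hc (h2 c)))
    rintro (j | j)
    · exact h4 (fun j => g (Sum.inl j)) (by linarith [h3.1]) j
    · exact h4 (fun j => g (Sum.inr j)) (by linarith [h3.2]) j
  obtain ⟨g, hg⟩ := ((Module.Basis.span hv).constr ℚ (Sum.elim x y)).exists_extend
  have h1 : ∀ i, g (Sum.elim (fun j => F.β j / d) (fun j => iK * F.β j / d) i) =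
      Sum.elim x y i := fun i => by
    rw [← Module.Basis.coe_span_apply hv i, ← (Module.Basis.span hv).constr_basis ℚ (Sum.elim x y) i,
      ← hg]
    rfl
  exact ⟨g.toAddMonoidHom, fun j => ⟨h1 (Sum.inl j), h1 (Sum.inr j)⟩⟩

theorem Frame.addHom_bound (F : Frame B) (d : K) (ξ : K →+ ℝ) (η : ℝ)
    (h : ∀ j, |ξ (F.β j / d)| ≤ η ∧ |ξ (iK * F.β j / d)| ≤ η) {y : K} {H : ℝ} (hy : Ht F.β y H) :
    |ξ (y / d)| ≤ 2 * F.r * η * H := by
  obtain ⟨a, b, rfl, h2⟩ := hy
  have h1 : (∑ j, ((a j : K) + (b j : K) * iK) * F.β j) / d =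
      ∑ j, (a j • (F.β j / d) + b j • (iK * F.β j / d)) := by
    rw [Finset.sum_div]
    refine Finset.sum_congr rfl fun j _ => ?_
    simp only [zsmul_eq_mul]
    ring
  rw [h1, map_sum]
  refine (Finset.abs_sum_le_sum_abs _ _).trans
    ((Finset.sum_le_card_nsmul _ _ (H * η + H * η) fun j _ => ?_).trans (le_of_eq ?_))
  · have h3 := (frameApi_abs (a j) (b j)).1.trans (h2 j)
    have h4 := (frameApi_abs (a j) (b j)).2.trans (h2 j)
    have h5 := (abs_nonneg _).trans h3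
    rw [map_add, map_zsmul, map_zsmul, zsmul_eq_mul, zsmul_eq_mul]
    refine (abs_add_le _ _).trans ?_
    rw [abs_mul, abs_mul]
    exact add_le_add (mul_le_mul h3 (h j).1 (abs_nonneg _) h5)
      (mul_le_mul h4 (h j).2 (abs_nonneg _) h5)
  · rw [Finset.card_univ, Fintype.card_fin, nsmul_eq_mul]
    ring

/-- two characters (or additive maps) that agree on the generators agree on `q R` -/
theorem Frame.induction_on (F : Frame B) (p : K → Prop) (h0 : p 0) (hadd : ∀ x y, p x → p y → p (x + y))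
    (hneg : ∀ x, p x → p (-x)) (hβ : ∀ j, p (F.β j) ∧ p (iK * F.β j)) {y : K} {H : ℝ}
    (hy : Ht F.β y H) : p y := by
  obtain ⟨a, b, rfl, -⟩ := hy
  let S : AddSubgroup K := ⟨⟨⟨{x | p x}, fun hx hy => hadd _ _ hx hy⟩, h0⟩, fun hx => hneg _ hx⟩
  refine S.sum_mem fun j _ => ?_
  have h1 := S.add_mem (S.zsmul_mem (x := F.β j) (hβ j).1 (a j))
    (S.zsmul_mem (x := iK * F.β j) (hβ j).2 (b j))
  rwa [zsmul_eq_mul, zsmul_eq_mul, ← mul_assoc, ← add_mul] at h1

/-- the elements `∑ a_j β_j`, `0 ≤ a_j < T` -/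
theorem Frame.real_count (F : Frame B) (T : ℕ) :
    ∃ s : Finset K, s.card = T ^ F.r ∧ ∀ t ∈ s, (t : ℂ).im = 0 ∧ Ht F.β t T := by
  classical
  refine ⟨Finset.univ.image fun a : Fin F.r → Fin T => ∑ j, ((a j : ℕ) : K) * F.β j, ?_, ?_⟩
  · rw [Finset.card_image_of_injective _ fun a a' h => funext fun j => ?_]
    · simp
    · have h1 := Fintype.linearIndependent_iff.1 F.li
        (fun j => ((a j : ℕ) : ℚ) - ((a' j : ℕ) : ℚ)) (by
          simp only [sub_smul, Nat.cast_smul_eq_nsmul, nsmul_eq_mul, Finset.sum_sub_distrib]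
          exact sub_eq_zero.2 h) j
      exact Fin.ext (by exact_mod_cast sub_eq_zero.1 h1)
  · intro t ht
    obtain ⟨a, -, rfl⟩ := Finset.mem_image.1 ht
    refine ⟨by simp [F.real], fun j => (a j : ℕ), 0, by simp, fun j => ?_⟩
    simp

/-- pigeonhole on the coordinates of `ε^k` modulo `m`; multiply by a power of `ε⁻¹` -/
theorem Frame.eps_pow (F : Frame B) (m : ℕ) (hm : 0 < m) :
    ∃ (k : ℕ) (y : K) (h : ℝ), 0 < k ∧ Ht F.β y h ∧ F.ε ^ k - 1 = (m : K) * y := by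
  have hpow : ∀ {z : K}, Ht F.β z F.C → ∀ n : ℕ, ∃ h, Ht F.β (z ^ n) h := fun hz n =>
    ⟨_, by simpa using F.ht_prod (Finset.range n) _ _ fun _ _ => hz⟩
  choose h a b hab _ using hpow F.ε_ht
  have : NeZero m := ⟨hm.ne'⟩
  obtain ⟨k, -, k', -, hk, he⟩ := Set.infinite_univ.exists_lt_map_eq_of_mapsTo
    (f := fun k => ((fun j => (a k j : ZMod m)), fun j => (b k j : ZMod m)))
    (Set.mapsTo_univ _ _) Set.finite_univ
  choose c hc using fun j => (ZMod.intCast_eq_intCast_iff_dvd_sub _ _ _).1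
    (congrFun (congrArg Prod.fst he) j)
  choose d hd using fun j => (ZMod.intCast_eq_intCast_iff_dvd_sub _ _ _).1
    (congrFun (congrArg Prod.snd he) j)
  have h1 : Ht F.β (∑ j, ((c j : K) + (d j : K) * iK) * F.β j)
      (∑ j, ‖(c j : K) + (d j : K) * iK‖) :=
    ⟨c, d, rfl, fun j => Finset.single_le_sum (f := fun j => ‖(c j : K) + (d j : K) * iK‖)
      (fun _ _ => norm_nonneg _) (Finset.mem_univ j)⟩
  obtain ⟨h', h2⟩ := hpow F.ε_inv_ht k
  have h3 : F.ε ^ k' - F.ε ^ k = m * ∑ j, ((c j : K) + (d j : K) * iK) * F.β j := by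
    rw [hab k, hab k', ← Finset.sum_sub_distrib, Finset.mul_sum]
    refine Finset.sum_congr rfl fun j _ => ?_
    have h4 : (a k' j : K) - a k j = m * c j := by exact_mod_cast congrArg (Int.cast : ℤ → K) (hc j)
    have h5 : (b k' j : K) - b k j = m * d j := by exact_mod_cast congrArg (Int.cast : ℤ → K) (hd j)
    linear_combination F.β j * h4 + iK * F.β j * h5
  have h0 : F.ε ≠ 0 := norm_ne_zero_iff.1 (by rw [F.ε_norm]; exact one_ne_zero)
  refine ⟨k' - k, _, _, by omega, F.mul _ _ _ _ h1 h2, ?_⟩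
  rw [← mul_assoc, ← h3, pow_sub₀ _ h0 hk.le, inv_pow, sub_mul, mul_inv_cancel₀ (pow_ne_zero _ h0)]

theorem ee_add (x y : ℝ) : ee (x + y) = ee x * ee y := by
  rw [ee, ee, ee, ← Complex.exp_add]
  congr 1
  push_cast
  ring

theorem norm_ee (x : ℝ) : ‖ee x‖ = 1 := by
  rw [frameApi_ee, mul_comm, Complex.norm_exp_ofReal_mul_I]

theorem norm_ee_sub_one (x : ℝ) : ‖ee x - 1‖ ≤ 2 * Real.pi * |x| := by
  rw [frameApi_ee]
  refine Real.norm_exp_I_mul_ofReal_sub_one_le.trans (le_of_eq ?_)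
  rw [Real.norm_eq_abs, abs_mul, abs_of_pos Real.two_pi_pos]

theorem eq_of_ee_eq {x y : ℝ} (h : ee x = ee y) (hxy : |x - y| < 1) : x = y := by
  obtain ⟨n, hn⟩ := Complex.exp_eq_exp_iff_exists_int.1 h
  have h1 : (x : ℂ) = y + n := by
    refine mul_right_cancel₀ Complex.two_pi_I_ne_zero ?_
    linear_combination hn
  have h2 : x = y + n := by exact_mod_cast h1
  rw [h2, add_sub_cancel_left] at hxy
  have h3 : |n| < 1 := by exact_mod_cast hxy
  rw [h2, Int.abs_lt_one_iff.1 h3, Int.cast_zero, add_zero]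

/-- nearby points of the circle differ by a small angle -/
theorem exists_ee_of_close {z w : ℂ} (hz : ‖z‖ = 1) (hw : ‖w‖ = 1) :
    ∃ x : ℝ, |x| ≤ ‖w - z‖ ∧ w = z * ee x := by
  have hz0 : z ≠ 0 := norm_ne_zero_iff.1 (by rw [hz]; exact one_ne_zero)
  have hw0 : w ≠ 0 := norm_ne_zero_iff.1 (by rw [hw]; exact one_ne_zero)
  have hp := Real.pi_pos
  refine ⟨Complex.arg (w / z) / (2 * Real.pi), ?_, ?_⟩
  · have h1 := Complex.angle_le_mul_norm_sub hw hz
    rw [Complex.angle_eq_abs_arg hw0 hz0] at h1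
    rw [abs_div, abs_of_pos Real.two_pi_pos, div_le_iff₀ Real.two_pi_pos]
    nlinarith [norm_nonneg (w - z)]
  · have h1 := Complex.norm_mul_exp_arg_mul_I (w / z)
    rw [norm_div, hz, hw, div_one, Complex.ofReal_one, one_mul] at h1
    rw [frameApi_ee, mul_div_cancel₀ _ Real.two_pi_pos.ne', mul_comm Complex.I, h1,
      mul_div_cancel₀ _ hz0]

end Crest.Agent.R040

end
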