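import Crest.Agent.R040.Arith

/-! # Row 40, Step 1: auxiliary lemmas for the existence of frames -/

set_option autoImplicit false

open MeasureTheory Filter Topology Set

noncomputable section

namespace Crest.Agent.R040

theorem fx_I_sq : iK ^ 2 = -1 := Subtype.ext (by simp)

@[simp] theorem fx_coe_two : ((2 : K) : ℂ) = 2 := rfl

theorem fx_int_I : IsIntegral ℤ iK := by
  refine IsIntegral.of_pow (n := 2) two_pos ?_
  rw [fx_I_sq]
  exact isIntegral_one.neg

theorem fx_int_intCast (n : ℤ) : IsIntegral ℤ (n : K) := by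
  simpa using isIntegral_algebraMap (R := ℤ) (A := K) (x := n)

theorem fx_int_pi : IsIntegral ℤ piK := by
  have := (fx_int_intCast 2).add fx_int_I
  simpa [piK] using this

theorem fx_int_pib : IsIntegral ℤ pibK := by
  have := (fx_int_intCast 2).sub fx_int_I
  simpa [pibK] using this

theorem fx_pi_ne : piK ≠ 0 := fun h => by
  have := congrArg (fun z : K => (z : ℂ).im) h
  simp [piK] at this

theorem fx_int_cj {z : K} (h : IsIntegral ℤ z) : IsIntegral ℤ (cj z) := by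
  have h1 : IsIntegral ℤ (z : ℂ) := h.map (K.val.toRingHom.toIntAlgHom)
  have h2 : IsIntegral ℤ ((cj z : K) : ℂ) := h1.map (starRingEnd ℂ).toIntAlgHom
  exact (isIntegral_algHom_iff K.val.toRingHom.toIntAlgHom Subtype.val_injective).1 h2

theorem fx_exists_sqrt {x : K} (hx : (x : ℂ).im = 0) (h0 : 0 ≤ (x : ℂ).re) :
    ∃ s : K, (s : ℂ) = (√(x : ℂ).re : ℝ) ∧ s ^ 2 = x := by
  have e : ((√(x : ℂ).re : ℝ) : ℂ) ^ 2 = (x : ℂ) := by
    rw [← Complex.ofReal_pow, Real.sq_sqrt h0]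
    exact Complex.ext (by simp) (by simp [hx])
  have ha : IsAlgebraic ℚ ((√(x : ℂ).re : ℝ) : ℂ) := by
    refine IsAlgebraic.of_pow two_pos ?_
    rw [e]
    exact mem_algebraicClosure_iff.1 x.2
  exact ⟨⟨_, mem_algebraicClosure_iff.2 ha⟩, rfl, Subtype.ext e⟩

theorem fx_rec {s u v : K} (hs : s ^ 2 = 2) (h1 : u * v = 1) (h2 : u + v = 2 - 2 * s) (k : ℕ) :
    ∃ P Q P' Q' : ℤ, u ^ k + v ^ k = P - Q * s ∧ u ^ (k + 1) + v ^ (k + 1) = P' - Q' * s ∧
      0 ≤ P ∧ P ≤ P' ∧ 0 ≤ Q ∧ Q < Q' := by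
  induction k with
  | zero => exact ⟨2, 0, 2, 2, by norm_num, by simpa using h2, by norm_num, le_rfl, le_rfl, by norm_num⟩
  | succ k ih =>
    obtain ⟨P, Q, P', Q', e1, e2, a1, a2, a3, a4⟩ := ih
    refine ⟨P', Q', 2 * P' + 4 * Q' - P, 2 * P' + 2 * Q' - Q, e2, ?_, by omega, by omega, by omega,
      by omega⟩
    have : u ^ (k + 1 + 1) + v ^ (k + 1 + 1) =
        (u + v) * (u ^ (k + 1) + v ^ (k + 1)) - (u * v) * (u ^ k + v ^ k) := by ring
    rw [this, h1, h2, e1, e2]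
    push_cast
    linear_combination (2 * (Q' : K)) * hs

theorem fx_salem : ∃ a b : K, (a : ℂ).im = 0 ∧ (b : ℂ).im = 0 ∧ IsIntegral ℤ a ∧ IsIntegral ℤ b ∧
    a ^ 2 + b ^ 2 = 1 ∧ ∀ k : ℕ, 0 < k → (a + b * iK) ^ k ≠ 1 := by
  obtain ⟨s, hs, hs2⟩ := fx_exists_sqrt (x := 2) (by simp) (by simp)
  have hs' : (s : ℂ) = (√2 : ℝ) := by simpa using hs
  obtain ⟨b, hb, hb2⟩ := fx_exists_sqrt (x := 2 * s - 2) (by simp [hs']) (by simp [hs'])
  have hsi : IsIntegral ℤ s := by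
    refine IsIntegral.of_pow (n := 2) two_pos ?_
    rw [hs2]
    simpa using fx_int_intCast 2
  have hbi : IsIntegral ℤ b := by
    refine IsIntegral.of_pow (n := 2) two_pos ?_
    rw [hb2]
    simpa using ((fx_int_intCast 2).mul hsi).sub (fx_int_intCast 2)
  refine ⟨s - 1, b, by simp [hs'], by rw [hb]; simp, hsi.sub isIntegral_one, hbi,
    by linear_combination hs2 + hb2, fun k hk h => ?_⟩
  have huv : (-(s - 1 + b * iK)) * (-(s - 1 - b * iK)) = 1 := by
    linear_combination hs2 + hb2 - b ^ 2 * fx_I_sq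
  obtain ⟨l, hl⟩ : ∃ l, 2 * k = l + 1 := ⟨2 * k - 1, by omega⟩
  obtain ⟨P, Q, P', Q', -, e, -, -, a3, a4⟩ := fx_rec hs2 huv (by ring) l
  have hu : (-(s - 1 + b * iK)) ^ (l + 1) = 1 := by
    rw [← hl, pow_mul, neg_sq, ← pow_mul, mul_comm 2 k, pow_mul, h, one_pow]
  have hv : (-(s - 1 - b * iK)) ^ (l + 1) = 1 := by
    have := congrArg (· ^ (l + 1)) huv
    simp only [mul_pow, hu, one_mul, one_pow] at this
    exact this
  rw [hu, hv] at e
  have e2 : (Q' : ℝ) * √2 = ((P' - 2 : ℤ) : ℝ) := by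
    have := congrArg (fun z : K => (z : ℂ).re) e
    simp [hs'] at this
    push_cast
    linarith
  exact (irrational_sqrt_two.intCast_mul (m := Q') (by omega)).ne_int _ e2

/-- `A + A i` -/
def fxR (A : Subring K) : Subring K where
  carrier := {z | ∃ x ∈ A, ∃ y ∈ A, z = x + y * iK}
  one_mem' := ⟨1, one_mem _, 0, zero_mem _, by simp⟩
  zero_mem' := ⟨0, zero_mem _, 0, zero_mem _, by simp⟩
  add_mem' := by
    rintro _ _ ⟨x, hx, y, hy, rfl⟩ ⟨x', hx', y', hy', rfl⟩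
    exact ⟨x + x', add_mem hx hx', y + y', add_mem hy hy', by ring⟩
  neg_mem' := by
    rintro _ ⟨x, hx, y, hy, rfl⟩
    exact ⟨-x, neg_mem hx, -y, neg_mem hy, by ring⟩
  mul_mem' := by
    rintro _ _ ⟨x, hx, y, hy, rfl⟩ ⟨x', hx', y', hy', rfl⟩
    exact ⟨x * x' - y * y', sub_mem (mul_mem hx hx') (mul_mem hy hy'), x * y' + y * x',
      add_mem (mul_mem hx hy') (mul_mem hy hx'), by linear_combination y * y' * fx_I_sq⟩

theorem fx_mem_of {A : Subring K} {x : K} (hx : x ∈ A) : x ∈ fxR A :=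
  ⟨x, hx, 0, zero_mem _, by simp⟩

theorem fx_I_mem (A : Subring K) : iK ∈ fxR A := ⟨0, zero_mem _, 1, one_mem _, by simp⟩

theorem fx_pi_mem (A : Subring K) : piK ∈ fxR A := add_mem (ofNat_mem _ 2) (fx_I_mem A)

theorem fx_pib_mem (A : Subring K) : pibK ∈ fxR A := sub_mem (ofNat_mem _ 2) (fx_I_mem A)

theorem fx_mem_G {z : K} : z ∈ fxR ⊥ ↔ ∃ a b : ℤ, z = (a : K) + (b : K) * iK := by
  constructor
  · rintro ⟨x, hx, y, hy, rfl⟩
    obtain ⟨a, rfl⟩ := Subring.mem_bot.1 hx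
    obtain ⟨b, rfl⟩ := Subring.mem_bot.1 hy
    exact ⟨a, b, rfl⟩
  · rintro ⟨a, b, rfl⟩
    exact ⟨a, intCast_mem _ a, b, intCast_mem _ b, rfl⟩

theorem fx_G_le (A : Subring K) {z : K} (h : z ∈ fxR ⊥) : z ∈ fxR A := by
  obtain ⟨a, b, rfl⟩ := fx_mem_G.1 h
  exact ⟨a, intCast_mem _ a, b, intCast_mem _ b, rfl⟩

theorem fx_ht_iff {r : ℕ} {β : Fin r → K} {z : K} {H : ℝ} :
    Ht β z H ↔ ∃ g : Fin r → K, (∀ j, g j ∈ fxR ⊥) ∧ z = ∑ j, g j * β j ∧ ∀ j, ‖g j‖ ≤ H := by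
  constructor
  · rintro ⟨a, b, e, h⟩
    exact ⟨_, fun j => fx_mem_G.2 ⟨a j, b j, rfl⟩, e, h⟩
  · rintro ⟨g, hg, e, h⟩
    choose a b hab using fun j => fx_mem_G.1 (hg j)
    exact ⟨a, b, by simp only [← hab, e], fun j => hab j ▸ h j⟩

theorem fx_ht_mono {r : ℕ} {β : Fin r → K} {z : K} {H H' : ℝ} (h : Ht β z H) (hH : H ≤ H') :
    Ht β z H' := by
  obtain ⟨a, b, e, h⟩ := h
  exact ⟨a, b, e, fun j => (h j).trans hH⟩

theorem fx_ht_ev {r : ℕ} {β : Fin r → K} {z : K} (h : ∃ H, Ht β z H) :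
    ∀ᶠ C in atTop, Ht β z C := by
  obtain ⟨H, h⟩ := h
  filter_upwards [eventually_ge_atTop H] with C hC using fx_ht_mono h hC

theorem fx_ht_mul {r : ℕ} {β : Fin r → K} (c : Fin r → Fin r → Fin r → ℤ)
    (hc : ∀ j l, β j * β l = ∑ m, (c j l m : K) * β m) :
    ∀ᶠ C in atTop, ∀ z w H H', Ht β z H → Ht β w H' → Ht β (z * w) (C * H * H') := by
  filter_upwards [eventually_ge_atTop (∑ m, ∑ j, ∑ l, ‖(c j l m : K)‖)] with C hC z w H H' hz hw
  obtain ⟨g, hg, rfl, hgH⟩ := fx_ht_iff.1 hz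
  obtain ⟨h, hh, rfl, hhH⟩ := fx_ht_iff.1 hw
  refine fx_ht_iff.2 ⟨fun m => ∑ j, ∑ l, (c j l m : K) * (g j * h l), fun m => ?_, ?_, fun m => ?_⟩
  · exact sum_mem fun j _ => sum_mem fun l _ => mul_mem (intCast_mem _ _) (mul_mem (hg j) (hh l))
  · rw [Finset.sum_mul_sum]
    simp only [Finset.sum_mul]
    rw [Finset.sum_comm (s := Finset.univ) (t := Finset.univ)
      (f := fun m j => ∑ l, (c j l m : K) * (g j * h l) * β m)]
    refine Finset.sum_congr rfl fun j _ => ?_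
    rw [Finset.sum_comm (s := Finset.univ) (t := Finset.univ)
      (f := fun m l => (c j l m : K) * (g j * h l) * β m)]
    refine Finset.sum_congr rfl fun l _ => ?_
    rw [show g j * β j * (h l * β l) = g j * h l * (β j * β l) by ring, hc, Finset.mul_sum]
    exact Finset.sum_congr rfl fun m _ => by ring
  · have hH : 0 ≤ H := (norm_nonneg _).trans (hgH m)
    have hH' : 0 ≤ H' := (norm_nonneg _).trans (hhH m)
    have h1 : ∑ j, ∑ l, ‖(c j l m : K)‖ ≤ C :=
      (Finset.single_le_sum (f := fun m => ∑ j, ∑ l, ‖(c j l m : K)‖)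
        (fun _ _ => Finset.sum_nonneg fun _ _ => Finset.sum_nonneg fun _ _ => norm_nonneg _)
        (Finset.mem_univ m)).trans hC
    calc ‖∑ j, ∑ l, (c j l m : K) * (g j * h l)‖
        ≤ ∑ j, ∑ l, ‖(c j l m : K)‖ * (H * H') := by
          refine (norm_sum_le _ _).trans (Finset.sum_le_sum fun j _ => ?_)
          refine (norm_sum_le _ _).trans (Finset.sum_le_sum fun l _ => ?_)
          rw [norm_mul, norm_mul]
          exact mul_le_mul_of_nonneg_left (mul_le_mul (hgH j) (hhH l) (norm_nonneg _) hH)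
            (norm_nonneg _)
      _ = (∑ j, ∑ l, ‖(c j l m : K)‖) * (H * H') := by simp only [Finset.sum_mul]
      _ ≤ C * (H * H') := mul_le_mul_of_nonneg_right h1 (mul_nonneg hH hH')
      _ = C * H * H' := by ring

/-- a finite set of real algebraic integers lies in an order with a basis -/
theorem fx_order (S : Set K) (hS : S.Finite) (hi : ∀ x ∈ S, IsIntegral ℤ x)
    (hr : ∀ x ∈ S, (x : ℂ).im = 0) :
    ∃ (A : Subring K) (r : ℕ) (β : Fin r → K), (∀ x ∈ S, x ∈ A) ∧ (∀ j, (β j : ℂ).im = 0) ∧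
      (∀ j, IsIntegral ℤ (β j)) ∧ (∀ j, β j ∈ A) ∧ LinearIndependent ℚ β ∧
      (∀ z, z ∈ fxR A ↔ ∃ H, Ht β z H) ∧
      ∀ᶠ C in atTop, ∀ z w H H', Ht β z H → Ht β w H' → Ht β (z * w) (C * H * H') := by
  set R₀ := Algebra.adjoin ℤ S with hR₀
  have : Module.Finite ℤ R₀ := Algebra.finite_adjoin_of_finite_of_isIntegral hS hi
  have : Module.Free ℤ R₀ := inferInstance
  let b := Module.finBasis ℤ R₀
  have hreal : ∀ x ∈ R₀, (x : ℂ).im = 0 := by
    intro x hx
    induction hx using Algebra.adjoin_induction with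
    | mem x hx => exact hr x hx
    | algebraMap n => simp
    | add x y _ _ hx hy => simp [hx, hy]
    | mul x y _ _ hx hy => simp [hx, hy]
  have hrep : ∀ x : R₀, (x : K) = ∑ j, ((b.repr x j : ℤ) : K) * (b j : K) := by
    intro x
    conv_lhs => rw [← b.sum_repr x]
    simp
  refine ⟨R₀.toSubring, _, fun j => (b j : K), fun x hx => Algebra.subset_adjoin hx,
    fun j => hreal _ (b j).2, fun j => ?_, fun j => (b j).2, ?_, fun z => ⟨?_, ?_⟩, ?_⟩
  · exact (Algebra.IsIntegral.isIntegral (R := ℤ) (b j)).map R₀.val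
  · have := b.linearIndependent.map' R₀.val.toLinearMap
      (LinearMap.ker_eq_bot.2 Subtype.val_injective)
    exact (LinearIndependent.iff_fractionRing ℤ ℚ).1 this
  · rintro ⟨x, hx, y, hy, rfl⟩
    refine ⟨∑ j, ‖((b.repr ⟨x, hx⟩ j : ℤ) : K) + ((b.repr ⟨y, hy⟩ j : ℤ) : K) * iK‖,
      fun j => b.repr ⟨x, hx⟩ j, fun j => b.repr ⟨y, hy⟩ j, ?_, fun j => ?_⟩
    · have h1 := hrep ⟨x, hx⟩
      have h2 := hrep ⟨y, hy⟩
      simp only at h1 h2
      conv_lhs => rw [h1, h2]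
      rw [Finset.sum_mul, ← Finset.sum_add_distrib]
      exact Finset.sum_congr rfl fun j _ => by ring
    · exact Finset.single_le_sum
        (f := fun j => ‖((b.repr ⟨x, hx⟩ j : ℤ) : K) + ((b.repr ⟨y, hy⟩ j : ℤ) : K) * iK‖)
        (fun _ _ => norm_nonneg _) (Finset.mem_univ j)
  · rintro ⟨H, h⟩
    obtain ⟨g, hg, rfl, -⟩ := fx_ht_iff.1 h
    exact sum_mem fun j _ => mul_mem (fx_G_le _ (hg j)) (fx_mem_of (b j).2)
  · exact fx_ht_mul (fun j l m => b.repr (b j * b l) m) fun j l => hrep (b j * b l)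

/-- Gaussian integers that are prime to `π` -/
def fxGood (c : K) : Prop := ∃ c₀ : ℤ, ¬ (5 : ℤ) ∣ c₀ ∧ ∃ g ∈ fxR ⊥, c = c₀ + piK * g

theorem fxGood.mem {c : K} (h : fxGood c) : c ∈ fxR ⊥ := by
  obtain ⟨c₀, -, g, hg, rfl⟩ := h
  exact add_mem (intCast_mem _ _) (mul_mem (fx_pi_mem _) hg)

theorem fxGood.mul {c d : K} (h : fxGood c) (h' : fxGood d) : fxGood (c * d) := by
  have hd := h'.mem
  obtain ⟨c₀, hc₀, g, hg, rfl⟩ := h
  obtain ⟨d₀, hd₀, g', hg', e⟩ := h'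
  refine ⟨c₀ * d₀, fun h => ?_, g * d + c₀ * g', add_mem (mul_mem hg hd)
    (mul_mem (intCast_mem _ _) hg'), ?_⟩
  · exact ((Int.prime_iff_natAbs_prime.2 (by norm_num : Nat.Prime (5 : ℤ).natAbs)).dvd_or_dvd h).elim
      hc₀ hd₀
  · push_cast
    linear_combination (c₀ : K) * e

theorem fxGood.int {n : ℤ} (h : ¬ (5 : ℤ) ∣ n) : fxGood n := ⟨n, h, 0, zero_mem _, by simp⟩

theorem fxGood.one : fxGood 1 := by simpa using fxGood.int (n := 1) (by norm_num)

theorem fxGood.pow {c : K} (h : fxGood c) (k : ℕ) : fxGood (c ^ k) := by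
  induction k with
  | zero => simpa using fxGood.one
  | succ k ih => rw [pow_succ]; exact ih.mul h

theorem fxGood.prod {ι : Type} (s : Finset ι) (c : ι → K) (h : ∀ i, fxGood (c i)) :
    fxGood (∏ i ∈ s, c i) :=
  Finset.prod_induction c fxGood (fun _ _ => fxGood.mul) fxGood.one fun i _ => h i

theorem fxGood.pib : fxGood pibK :=
  ⟨-1, by norm_num, 1 - iK, sub_mem (one_mem _) (fx_I_mem _), by
    rw [piK, pibK]; push_cast; linear_combination fx_I_sq⟩

theorem fxGood.ne_zero {c : K} (h : fxGood c) : c ≠ 0 := by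
  obtain ⟨c₀, hc₀, g, hg, rfl⟩ := h
  obtain ⟨x, y, rfl⟩ := fx_mem_G.1 hg
  intro e
  have h1 := congrArg (fun z : K => (z : ℂ).re) e
  have h2 := congrArg (fun z : K => (z : ℂ).im) e
  simp [piK] at h1 h2
  have h3 : (c₀ : ℝ) = ((5 * y : ℤ) : ℝ) := by push_cast; linarith
  exact hc₀ ⟨y, by exact_mod_cast h3⟩

theorem fx_inv {A : Subring K} {γ : K} (hγ : γ ∈ fxR A) (hi : IsIntegral ℤ γ) :
    ∃ c : K, fxGood c ∧ ∃ t ∈ fxR A, c = (1 + piK * γ) * t := by
  obtain ⟨p, hp, h0⟩ := hi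
  rw [← Polynomial.aeval_def, Polynomial.aeval_eq_sum_range] at h0
  have hdiv : ∀ l : ℕ, ∃ t ∈ fxR A, (-1 : K) ^ l = (piK * γ) ^ l + (1 + piK * γ) * t := by
    intro l
    induction l with
    | zero => exact ⟨0, zero_mem _, by simp⟩
    | succ l ih =>
      obtain ⟨t, ht, e⟩ := ih
      refine ⟨-t - (piK * γ) ^ l, sub_mem (neg_mem ht) (pow_mem (mul_mem (fx_pi_mem _) hγ) l), ?_⟩
      rw [pow_succ, e]
      ring
  choose t ht e using hdiv
  refine ⟨∑ l ∈ Finset.range (p.natDegree + 1), (p.coeff l : K) * piK ^ (p.natDegree - l) * (-1) ^ l,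
    ⟨(-1) ^ p.natDegree, ?_, ∑ l ∈ Finset.range p.natDegree,
      (p.coeff l : K) * piK ^ (p.natDegree - l - 1) * (-1) ^ l, ?_, ?_⟩,
    ∑ l ∈ Finset.range (p.natDegree + 1), (p.coeff l : K) * piK ^ (p.natDegree - l) * t l, ?_, ?_⟩
  · rcases neg_one_pow_eq_or ℤ p.natDegree with h | h <;> rw [h] <;> norm_num
  · exact sum_mem fun l _ => mul_mem (mul_mem (intCast_mem _ _) (pow_mem (fx_pi_mem _) _))
      (pow_mem (neg_mem (one_mem _)) _)
  · rw [Finset.sum_range_succ, hp.coeff_natDegree, Nat.sub_self, Finset.mul_sum, add_comm]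
    congr 1
    · simp
    · refine Finset.sum_congr rfl fun l hl => ?_
      obtain ⟨n, hn⟩ : ∃ n, p.natDegree - l = n + 1 :=
        ⟨p.natDegree - l - 1, by have := Finset.mem_range.1 hl; omega⟩
      rw [hn, Nat.add_sub_cancel]
      ring
  · exact sum_mem fun l _ => mul_mem (mul_mem (intCast_mem _ _) (pow_mem (fx_pi_mem _) _)) (ht l)
  · rw [← add_zero (_ * _), ← mul_zero (piK ^ p.natDegree), ← h0, Finset.mul_sum, Finset.mul_sum,
      ← Finset.sum_add_distrib]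
    refine Finset.sum_congr rfl fun l hl => ?_
    have hl' : l ≤ p.natDegree := Nat.lt_succ_iff.1 (Finset.mem_range.1 hl)
    have : piK ^ p.natDegree = piK ^ (p.natDegree - l) * piK ^ l := by
      rw [← pow_add, Nat.sub_add_cancel hl']
    rw [e l, zsmul_eq_mul, this, mul_pow]
    ring

theorem fx_common (B : Finset K) (hB : ∀ b ∈ B, b ∈ deep 1) :
    ∃ d : K, fxGood d ∧ ∀ b ∈ B, IsIntegral ℤ (d * b / piK) := by
  classical
  induction B using Finset.induction_on with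
  | empty => exact ⟨1, fxGood.one, by simp⟩
  | insert b B _ ih =>
    obtain ⟨d, hd, h⟩ := ih fun x hx => hB x (Finset.mem_insert_of_mem hx)
    obtain ⟨k, c, hc, hi⟩ := hB b (Finset.mem_insert_self _ _)
    have hdi : IsIntegral ℤ d := by
      obtain ⟨x, y, rfl⟩ := fx_mem_G.1 hd.mem
      exact (fx_int_intCast x).add ((fx_int_intCast y).mul fx_int_I)
    refine ⟨d * (c * pibK ^ k), hd.mul ((fxGood.int hc).mul (fxGood.pib.pow k)), fun x hx => ?_⟩
    rcases Finset.mem_insert.1 hx with rfl | hx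
    · have := hdi.mul hi
      rwa [show d * ((c : K) * (pibK ^ k * x / piK ^ 1)) = d * (c * pibK ^ k) * x / piK by ring] at this
    · have := (h x hx).mul ((fx_int_intCast c).mul (fx_int_pib.pow k))
      rwa [show d * x / piK * ((c : K) * pibK ^ k) = d * (c * pibK ^ k) * x / piK by ring] at this

theorem fx_unit {β : K} (hβ : (β : ℂ).im = 0) :
    1 + piK * (piK * (β - 1)) ≠ 0 ∧ ‖(1 + pibK ^ 2 * (β - 1)) / (1 + piK * (piK * (β - 1)))‖ = 1 := by
  have h0 : 1 + piK * (piK * (β - 1)) ≠ 0 := fun e => by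
    have h1 := congrArg (fun z : K => (z : ℂ).re) e
    have h2 := congrArg (fun z : K => (z : ℂ).im) e
    simp [piK, hβ] at h1 h2
    linarith
  refine ⟨h0, ?_⟩
  have e : ((1 + pibK ^ 2 * (β - 1) : K) : ℂ) =
      (starRingEnd ℂ) ((1 + piK * (piK * (β - 1)) : K) : ℂ) := by
    apply Complex.ext <;> simp [piK, pibK, hβ, pow_two] <;> ring
  rw [norm_div, norm_K (1 + pibK ^ 2 * (β - 1)), e, Complex.norm_conj, ← norm_K,
    div_self (norm_ne_zero_iff.2 h0)]

theorem fx_frame (B : Finset K) (hB : ∀ b ∈ B, b ∈ deep 1) : Nonempty (Frame B) := by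
  classical
  obtain ⟨a, b, ha, hb, hai, hbi, hab, hinf⟩ := fx_salem
  obtain ⟨d, hd, hdB⟩ := fx_common B hB
  let f₁ : K → K := fun x => d * x / piK + cj (d * x / piK)
  let f₂ : K → K := fun x => iK * (cj (d * x / piK) - d * x / piK)
  obtain ⟨A, r, β, hSA, hreal, hint, hβA, hli, hiff, hmul⟩ :=
    fx_order ({a, b} ∪ (f₁ '' B ∪ f₂ '' B))
      ((Set.toFinite _).union ((B.finite_toSet.image _).union (B.finite_toSet.image _)))
      (by
        rintro x ((rfl | rfl) | ⟨x, hx, rfl⟩ | ⟨x, hx, rfl⟩)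
        · exact hai
        · exact hbi
        · exact (hdB x hx).add (fx_int_cj (hdB x hx))
        · exact fx_int_I.mul ((fx_int_cj (hdB x hx)).sub (hdB x hx)))
      (by
        rintro x ((rfl | rfl) | ⟨x, hx, rfl⟩ | ⟨x, hx, rfl⟩)
        · exact ha
        · exact hb
        · simp only [f₁]
          generalize d * x / piK = y
          simp
        · simp only [f₂]
          generalize d * x / piK = y
          simp)
  have haA : a ∈ A := hSA a (by simp)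
  have hbA : b ∈ A := hSA b (by simp)
  have hyA : ∀ x ∈ B, 2 * (d * x / piK) ∈ fxR A := fun x hx =>
    ⟨f₁ x, hSA _ (Or.inr (Or.inl ⟨x, hx, rfl⟩)), f₂ x, hSA _ (Or.inr (Or.inr ⟨x, hx, rfl⟩)), by
      simp only [f₁, f₂]
      linear_combination (d * x / piK - cj (d * x / piK)) * fx_I_sq⟩
  have hβR : ∀ j, β j ∈ fxR A := fun j => fx_mem_of (hβA j)
  have hγ : ∀ j, piK * (β j - 1) ∈ fxR A := fun j =>
    mul_mem (fx_pi_mem _) (sub_mem (hβR j) (one_mem _))
  choose c hc t ht hct using fun j => fx_inv (hγ j) (fx_int_pi.mul ((hint j).sub isIntegral_one))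
  have hα : ∀ j, 1 + pibK ^ 2 * (β j - 1) ∈ fxR A := fun j =>
    add_mem (one_mem _) (mul_mem (pow_mem (fx_pib_mem _) 2) (sub_mem (hβR j) (one_mem _)))
  let w : Fin r → K := fun j => (1 + pibK ^ 2 * (β j - 1)) / (1 + piK * (piK * (β j - 1)))
  have hw : ∀ j, (∏ l, c l) * w j ∈ fxR A := fun j => by
    have : (∏ l, c l) * w j = (∏ l ∈ Finset.univ.erase j, c l) * t j * (1 + pibK ^ 2 * (β j - 1)) := by
      rw [← Finset.mul_prod_erase _ _ (Finset.mem_univ j), hct j]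
      have := div_mul_cancel₀ (1 + pibK ^ 2 * (β j - 1)) (fx_unit (hreal j)).1
      linear_combination ((∏ l ∈ Finset.univ.erase j, c l) * t j) * this
    rw [this]
    exact mul_mem (mul_mem (prod_mem fun l _ => fx_G_le _ (hc l).mem) (ht j)) (hα j)
  have hgood : fxGood (2 * d * ∏ l, c l) :=
    ((by simpa using fxGood.int (n := 2) (by norm_num) : fxGood 2).mul hd).mul (fxGood.prod _ _ hc)
  have hcw : ∀ j, (2 * d * ∏ l, c l) * w j ∈ fxR A := fun j => by
    rw [mul_assoc]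
    exact mul_mem (mul_mem (ofNat_mem _ 2) (fx_G_le _ hd.mem)) (hw j)
  have hcwb : ∀ j, ∀ x ∈ B, (2 * d * ∏ l, c l) * w j * x / piK ∈ fxR A := fun j x hx => by
    rw [show (2 * d * ∏ l, c l) * w j * x / piK = 2 * (d * x / piK) * ((∏ l, c l) * w j) by ring]
    exact mul_mem (hyA x hx) (hw j)
  have hε : (a + b * iK) * (a - b * iK) = 1 := by linear_combination hab - b ^ 2 * fx_I_sq
  have hεinv : (a + b * iK)⁻¹ = a - b * iK := (eq_inv_of_mul_eq_one_right hε).symm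
  have hεR : a + b * iK ∈ fxR A := ⟨a, haA, b, hbA, rfl⟩
  have hεR' : (a + b * iK)⁻¹ ∈ fxR A := ⟨a, haA, -b, neg_mem hbA, by rw [hεinv]; ring⟩
  have ev : ∀ z ∈ fxR A, ∀ᶠ C in atTop, Ht β z C := fun z hz => fx_ht_ev ((hiff z).1 hz)
  obtain ⟨C, h1, h2, h3, h4, h5, h6, h7⟩ := ((eventually_ge_atTop (1 : ℝ)).and
    ((ev 1 (one_mem _)).and (hmul.and ((eventually_all.2 fun j => ev _ (hcw j)).and
    ((eventually_all.2 fun j => (eventually_all_finset B).2 fun x hx => ev _ (hcwb j x hx)).and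
    ((ev _ hεR).and (ev _ hεR'))))))).exists
  generalize (2 * d * ∏ l, c l) = c' at *
  refine ⟨⟨r, β, hreal, hli, C, h1, h2, h3, c', hgood.ne_zero, fx_mem_G.1 hgood.mem, w,
    fun j => (fx_unit (hreal j)).2, h4, h5, ?_, a + b * iK, ?_, h6, h7, hinf⟩⟩
  · rintro y H ⟨x₁, x₂, rfl, -⟩
    obtain ⟨c₀, hc₀, g, hg, hc'⟩ := hgood
    obtain ⟨e, f, hef⟩ : ∃ e f : ℤ, e * c₀ + f * 5 = 1 := by
      have : IsCoprime c₀ 5 :=
        ((Int.prime_iff_natAbs_prime.2 (by norm_num : Nat.Prime (5 : ℤ).natAbs)).coprime_iff_not_dvd.2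
          hc₀).symm
      exact this
    have hef' : (e : K) * c₀ + f * 5 = 1 := by exact_mod_cast congrArg (fun n : ℤ => (n : K)) hef
    have h5' : piK * pibK = 5 := by rw [piK, pibK]; linear_combination (-1) * fx_I_sq
    have hpi : piK * (piK - pibK) + pibK ^ 2 = 1 := by
      rw [piK, pibK]; linear_combination 3 * fx_I_sq
    have key : ∀ j, ∃ s ∈ fxR A, β j = e * (c' * w j) + piK * s := fun j => by
      have hs : (c' * w j) * (1 + piK * (piK * (β j - 1))) = c' * (1 + pibK ^ 2 * (β j - 1)) := by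
        rw [mul_assoc, div_mul_cancel₀ _ (fx_unit (hreal j)).1]
      refine ⟨f * pibK * β j + e * ((c' * w j) * (piK * (β j - 1)) -
        g * (1 + pibK ^ 2 * (β j - 1)) - c₀ * (piK - pibK) * (1 - β j)), ?_, ?_⟩
      · exact add_mem (mul_mem (mul_mem (intCast_mem _ _) (fx_pib_mem _)) (hβR j))
          (mul_mem (intCast_mem _ _) (sub_mem (sub_mem (mul_mem (hcw j) (hγ j))
            (mul_mem (fx_G_le _ hg) (hα j)))
            (mul_mem (mul_mem (intCast_mem _ _) (sub_mem (fx_pi_mem _) (fx_pib_mem _)))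
              (sub_mem (one_mem _) (hβR j)))))
      · linear_combination (-(e : K)) * hs - e * (1 + pibK ^ 2 * (β j - 1)) * hc' - β j * hef'
          - f * β j * h5' + e * c₀ * (1 - β j) * hpi
    choose s hs hse using key
    have hy' : ∑ j, (((x₁ j - 2 * x₂ j : ℤ) : K) * s j + (x₂ j : K) * β j) ∈ fxR A :=
      sum_mem fun j _ => add_mem (mul_mem (intCast_mem _ _) (hs j)) (mul_mem (intCast_mem _ _) (hβR j))
    obtain ⟨H', hH'⟩ := (hiff _).1 hy'
    refine ⟨fun j => (x₁ j - 2 * x₂ j) * e, _, H', hH', ?_⟩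
    rw [Finset.mul_sum, ← Finset.sum_add_distrib]
    refine Finset.sum_congr rfl fun j _ => ?_
    have hI : iK = piK - 2 := by rw [piK]; ring
    push_cast
    linear_combination ((x₁ j : K) - 2 * x₂ j) * hse j + (x₂ j : K) * β j * hI
  · have h1 := congrArg (fun z : K => (z : ℂ).re) hab
    simp [pow_two, ha, hb] at h1
    rw [norm_K, Complex.norm_eq_sqrt_sq_add_sq]
    simp [ha, hb, pow_two, h1]

end Crest.Agent.R040

end
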