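import Crest.Agent.R040.Defs1

/-! # Row 40, Step 1: an invariant random colouring -/

set_option autoImplicit false

open MeasureTheory Filter Topology Set

noncomputable section

namespace Crest.Agent.R040

section MK

open scoped ENNReal BoundedContinuousFunction

variable {Ω : Type} [MeasurableSpace Ω] [TopologicalSpace Ω] [BorelSpace Ω]

/-- push-forward by a continuous map -/
def invMeasPm {T : Ω → Ω} (hT : Continuous T) (P : ProbabilityMeasure Ω) : ProbabilityMeasure Ω :=
  P.map hT.measurable.aemeasurable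

omit [TopologicalSpace Ω] [BorelSpace Ω] in
/-- Cesàro mean -/
def invMeasAvg (P : ℕ → ProbabilityMeasure Ω) (n : ℕ) : ProbabilityMeasure Ω :=
  ⟨((n + 1 : ℕ) : ℝ≥0∞)⁻¹ • ∑ k ∈ Finset.range (n + 1), (P k : Measure Ω), ⟨by
    simp only [Measure.smul_apply, Measure.coe_finsetSum, Finset.sum_apply, measure_univ,
      Finset.sum_const, Finset.card_range, nsmul_eq_mul, mul_one, smul_eq_mul]
    exact ENNReal.inv_mul_cancel (by simp) (by simp)⟩⟩

theorem invMeas_pm_avg {T : Ω → Ω} (hT : Continuous T) (P : ℕ → ProbabilityMeasure Ω) (n : ℕ) :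
    invMeasPm hT (invMeasAvg P n) = invMeasAvg (fun k => invMeasPm hT (P k)) n := by
  apply ProbabilityMeasure.toMeasure_injective
  show Measure.map T (_ • _) = _ • _
  rw [Measure.map_smul, Measure.map_finset_sum hT.measurable.aemeasurable]
  rfl

theorem invMeas_integral_avg (P : ℕ → ProbabilityMeasure Ω) (n : ℕ) (f : Ω →ᵇ ℝ) :
    ∫ x, f x ∂(invMeasAvg P n : Measure Ω) =
      ((n : ℝ) + 1)⁻¹ * ∑ k ∈ Finset.range (n + 1), ∫ x, f x ∂(P k : Measure Ω) := by
  show ∫ x, f x ∂(_ • _ : Measure Ω) = _
  rw [integral_smul_measure, integral_finsetSum_measure fun k _ => f.integrable _]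
  simp only [ENNReal.toReal_inv, ENNReal.toReal_natCast, smul_eq_mul]
  push_cast
  rfl

theorem invMeas_pm_comm {T T' : Ω → Ω} (hT : Continuous T) (hT' : Continuous T')
    (h : ∀ x, T (T' x) = T' (T x)) (P : ProbabilityMeasure Ω) :
    invMeasPm hT (invMeasPm hT' P) = invMeasPm hT' (invMeasPm hT P) := by
  apply ProbabilityMeasure.toMeasure_injective
  show Measure.map T (Measure.map T' _) = Measure.map T' (Measure.map T _)
  rw [Measure.map_map hT.measurable hT'.measurable, Measure.map_map hT'.measurable hT.measurable]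
  congr 1
  exact funext h

variable [CompactSpace Ω] [T2Space Ω] [HasOuterApproxClosed Ω]

theorem invMeas_one {S : Set (ProbabilityMeasure Ω)} (hS : IsClosed S) (hne : S.Nonempty)
    (hav : ∀ (P : ℕ → ProbabilityMeasure Ω) n, (∀ k, P k ∈ S) → invMeasAvg P n ∈ S)
    {T : Ω → Ω} (hT : Continuous T) (hm : ∀ P ∈ S, invMeasPm hT P ∈ S) :
    ∃ P ∈ S, invMeasPm hT P = P := by
  obtain ⟨P₀, hP₀⟩ := hne
  set P : ℕ → ProbabilityMeasure Ω := fun k => (invMeasPm hT)^[k] P₀ with hP
  have hs : ∀ k, invMeasPm hT (P k) = P (k + 1) := fun k =>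
    (Function.iterate_succ_apply' _ _ _).symm
  have hPS : ∀ k, P k ∈ S := by
    intro k
    induction k with
    | zero => exact hP₀
    | succ k ih => rw [← hs]; exact hm _ ih
  obtain ⟨Q, hQ, hl⟩ := hS.isCompact.ultrafilter_le_nhds
    ((Filter.hyperfilter ℕ).map (invMeasAvg P))
    (by
      rw [le_principal_iff]
      exact Filter.mem_map.2 (Filter.Eventually.of_forall fun n => hav P n hPS))
  have hl1 : Tendsto (invMeasAvg P) (Filter.hyperfilter ℕ) (𝓝 Q) := hl
  have hl2 := ProbabilityMeasure.tendsto_map_of_tendsto_of_continuous _ _ hl1 hT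
  refine ⟨Q, hQ, ProbabilityMeasure.toMeasure_injective
    (ext_of_forall_integral_eq_of_IsFiniteMeasure fun f => ?_)⟩
  have t1 := ProbabilityMeasure.tendsto_iff_forall_integral_tendsto.1 hl1 f
  have t2 := ProbabilityMeasure.tendsto_iff_forall_integral_tendsto.1 hl2 f
  have hb : ∀ k, |∫ x, f x ∂(P k : Measure Ω)| ≤ ‖f‖ := fun k => by
    simpa using f.norm_integral_le_norm (P k : Measure Ω)
  have t3 : Tendsto (fun n => (∫ x, f x ∂(invMeasPm hT (invMeasAvg P n) : Measure Ω)) -
      ∫ x, f x ∂(invMeasAvg P n : Measure Ω)) atTop (𝓝 0) := by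
    have h0 : Tendsto (fun n : ℕ => ((n : ℝ) + 1)⁻¹ * (2 * ‖f‖)) atTop (𝓝 0) := by
      simpa using (tendsto_one_div_add_atTop_nhds_zero_nat (𝕜 := ℝ)).mul_const (2 * ‖f‖)
    refine squeeze_zero_norm (fun n => ?_) h0
    rw [invMeas_pm_avg, invMeas_integral_avg, invMeas_integral_avg, ← mul_sub,
      ← Finset.sum_sub_distrib]
    simp only [hs]
    rw [Finset.sum_range_sub (fun k => ∫ x, f x ∂(P k : Measure Ω)), norm_mul, Real.norm_eq_abs,
      Real.norm_eq_abs, abs_of_nonneg (by positivity)]
    gcongr
    have := abs_sub (∫ x, f x ∂(P (n + 1) : Measure Ω)) (∫ x, f x ∂(P 0 : Measure Ω))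
    linarith [hb (n + 1), hb 0]
  have t4 := t3.mono_left (Nat.hyperfilter_le_atTop)
  exact sub_eq_zero.1 (tendsto_nhds_unique (t2.sub t1) t4)

omit [CompactSpace Ω] [T2Space Ω] in
theorem invMeas_fix_closed {T : Ω → Ω} (hT : Continuous T) :
    IsClosed {P : ProbabilityMeasure Ω | invMeasPm hT P = P} :=
  isClosed_eq (ProbabilityMeasure.continuous_map hT) continuous_id

/-- Markov–Kakutani for probability measures -/
theorem invMeas_all {G : Type} {S : Set (ProbabilityMeasure Ω)} (hS : IsClosed S)
    (hne : S.Nonempty)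
    (hav : ∀ (P : ℕ → ProbabilityMeasure Ω) n, (∀ k, P k ∈ S) → invMeasAvg P n ∈ S)
    {T : G → Ω → Ω} (hT : ∀ g, Continuous (T g)) (hc : ∀ g g' x, T g (T g' x) = T g' (T g x))
    (hm : ∀ g, ∀ P ∈ S, invMeasPm (hT g) P ∈ S) :
    ∃ P ∈ S, ∀ g, invMeasPm (hT g) P = P := by
  classical
  have key : ∀ u : Finset G, (S ∩ ⋂ g ∈ u, {P | invMeasPm (hT g) P = P}).Nonempty := by
    intro u
    induction u using Finset.induction_on with
    | empty => simpa using hne
    | insert a u _ ih =>
      obtain ⟨P, hP, hP'⟩ := invMeas_one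
        (hS.inter (isClosed_biInter fun g _ => invMeas_fix_closed (hT g))) ih
        (fun P n h => ⟨hav P n fun k => (h k).1, mem_iInter₂.2 fun g hg => by
          show invMeasPm (hT g) (invMeasAvg P n) = _
          rw [invMeas_pm_avg]
          congr 1
          exact funext fun k => mem_iInter₂.1 (h k).2 g hg⟩)
        (hT a) (fun P h => ⟨hm a P h.1, mem_iInter₂.2 fun g hg => by
          show invMeasPm (hT g) (invMeasPm (hT a) P) = _
          rw [invMeas_pm_comm _ _ (hc g a)]
          congr 1
          exact mem_iInter₂.1 h.2 g hg⟩)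
      refine ⟨P, hP.1, mem_iInter₂.2 fun g hg => ?_⟩
      rcases Finset.mem_insert.1 hg with rfl | hg
      · exact hP'
      · exact mem_iInter₂.1 hP.2 g hg
  obtain ⟨P, hP, hP'⟩ := hS.isCompact.inter_iInter_nonempty _
    (fun g => invMeas_fix_closed (hT g)) key
  exact ⟨P, hP, fun g => mem_iInter.1 hP' g⟩

end MK

theorem invMeas_sh_cont (a : K) : Continuous (sh a) :=
  continuous_pi fun z => continuous_apply (z + a)

theorem invMeas_rt_cont (u : K) : Continuous (rt u) :=
  continuous_pi fun z => continuous_apply (u * z)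

theorem invMeas_clopen (x y : K) : IsClopen {ω : Col | ω x = ω y} :=
  IsClopen.preimage (f := fun ω : Col => (ω x, ω y))
    (isClopen_discrete {p : Fin 5 × Fin 5 | p.1 = p.2})
    ((continuous_apply x).prodMk (continuous_apply y))

/-- Markov–Kakutani twice.  `ProbabilityMeasure Col` is compact (Mathlib, Prokhorov.lean).  General lemma: a nonempty closed set `S` of
probability measures on a compact metrizable space, closed under finite averages (Cesàro means), and a family of commuting continuous maps
`T g` whose push-forwards preserve `S`: some member of `S` is fixed by all `T g` (one map: cluster point of the Cesàro means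
`(1/n) ∑_{k<n} (T^k)_* P`, tested on bounded continuous functions; finitely many maps: induction, the fixed set of `T g` in `S` has the same
properties; all maps: finite intersection property).  Apply it to `S₀ = {P | P {proper} = 1}` (the proper colourings form a closed set that contains
the restriction of `c`; use portmanteau for closed sets, or work on the subtype) and the translations `sh a`; then to the set of translation invariant members of `S₀`
and the rotations `rt u` (`sh a (rt u ω) = rt u (sh (u * a) ω)`). -/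
theorem exists_invCol (c : ℂ → Fin 5) (hc : ∀ x y : ℂ, ‖x - y‖ = 1 → c x ≠ c y) :
    ∃ P : Measure Col, InvCol P := by
  set S₀ : Set (ProbabilityMeasure Col) :=
    {P | ∀ x y : K, ‖x - y‖ = 1 → (P : Measure Col) {ω | ω x = ω y} = 0} with hS₀
  have hms : ∀ x y : K, MeasurableSet {ω : Col | ω x = ω y} := fun x y =>
    (invMeas_clopen x y).isClosed.measurableSet
  have c0 : IsClosed S₀ := by
    have : S₀ = ⋂ x : K, ⋂ y : K, ⋂ _ : ‖x - y‖ = 1,
        {P : ProbabilityMeasure Col | P {ω | ω x = ω y} = 0} := by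
      ext P
      simp only [hS₀, mem_ofPred_eq, mem_iInter, ProbabilityMeasure.null_iff_toMeasure_null]
    rw [this]
    refine isClosed_iInter fun x => isClosed_iInter fun y => isClosed_iInter fun _ =>
      isClosed_eq (continuous_iff_continuousAt.2 fun P => ?_) continuous_const
    exact ProbabilityMeasure.tendsto_measure_of_isClopen_of_tendsto tendsto_id (invMeas_clopen x y)
  have n0 : S₀.Nonempty := by
    refine ⟨⟨Measure.dirac fun z : K => c z, inferInstance⟩, fun x y h => ?_⟩
    show Measure.dirac _ _ = 0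
    rw [Measure.dirac_apply' _ (hms x y), indicator_of_notMem]
    exact hc x y h
  have a0 : ∀ (P : ℕ → ProbabilityMeasure Col) n, (∀ k, P k ∈ S₀) → invMeasAvg P n ∈ S₀ := by
    intro P n h x y hxy
    show (_ • _ : Measure Col) _ = 0
    simp only [Measure.smul_apply, Measure.coe_finsetSum, Finset.sum_apply]
    rw [Finset.sum_eq_zero fun k _ => h k x y hxy, smul_zero]
  have m0 : ∀ a, ∀ P ∈ S₀, invMeasPm (invMeas_sh_cont a) P ∈ S₀ := by
    intro a P h x y hxy
    show Measure.map (sh a) _ _ = 0
    rw [Measure.map_apply (invMeas_sh_cont a).measurable (hms x y)]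
    exact h (x + a) (y + a) (by rwa [add_sub_add_right_eq_sub])
  have m1 : ∀ u : K, ‖u‖ = 1 → ∀ P ∈ S₀, invMeasPm (invMeas_rt_cont u) P ∈ S₀ := by
    intro u hu P h x y hxy
    show Measure.map (rt u) _ _ = 0
    rw [Measure.map_apply (invMeas_rt_cont u).measurable (hms x y)]
    exact h (u * x) (u * y) (by rw [← mul_sub, norm_mul, hu, hxy, one_mul])
  obtain ⟨P₁, hP₁, hP₁'⟩ := invMeas_all c0 n0 a0 invMeas_sh_cont
    (fun a b ω => funext fun z => congrArg ω (add_right_comm z a b)) m0
  obtain ⟨P, hP, hP'⟩ := invMeas_all (G := {u : K // ‖u‖ = 1})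
    (S := S₀ ∩ ⋂ a, {P | invMeasPm (invMeas_sh_cont a) P = P})
    (c0.inter (isClosed_iInter fun a => invMeas_fix_closed _)) ⟨P₁, hP₁, mem_iInter.2 hP₁'⟩
    (fun P n h => ⟨a0 P n fun k => (h k).1, mem_iInter.2 fun a => by
      show invMeasPm _ (invMeasAvg P n) = _
      rw [invMeas_pm_avg]
      congr 1
      exact funext fun k => mem_iInter.1 (h k).2 a⟩)
    (fun u => invMeas_rt_cont u.1)
    (fun u v ω => funext fun z => congrArg ω (mul_left_comm v.1 u.1 z))
    (fun u P h => ⟨m1 u.1 u.2 P h.1, mem_iInter.2 fun a => by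
      have h1 : Measure.map (sh (u.1 * a)) (P : Measure Col) = P :=
        congrArg ProbabilityMeasure.toMeasure (mem_iInter.1 h.2 (u.1 * a))
      apply ProbabilityMeasure.toMeasure_injective
      show Measure.map (sh a) (Measure.map (rt u.1) _) = Measure.map (rt u.1) _
      conv_rhs => rw [← h1]
      rw [Measure.map_map (invMeas_sh_cont a).measurable (invMeas_rt_cont _).measurable,
        Measure.map_map (invMeas_rt_cont _).measurable (invMeas_sh_cont _).measurable]
      congr 1
      exact funext fun ω => funext fun z => congrArg ω (mul_add u.1 z a)⟩)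
  refine ⟨P, inferInstance, fun a => ⟨(invMeas_sh_cont a).measurable,
    congrArg ProbabilityMeasure.toMeasure (mem_iInter.1 hP.2 a)⟩,
    fun u hu => ⟨(invMeas_rt_cont u).measurable,
    congrArg ProbabilityMeasure.toMeasure (hP' ⟨u, hu⟩)⟩, ?_⟩
  refine ae_all_iff.2 fun x => ae_all_iff.2 fun y => ?_
  by_cases h : ‖x - y‖ = 1
  · have : ∀ᵐ ω ∂(P : Measure Col), ω x ≠ ω y := by
      rw [ae_iff]
      simpa using hP.1 x y h
    exact this.mono fun ω hω _ => hω
  · exact Filter.Eventually.of_forall fun ω h' => absurd h' h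

end Crest.Agent.R040

end
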