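import Crest.Agent.R040.Defs1

/-! # Row 40, Step 1: Lévy's downward theorem in `L²` -/

set_option autoImplicit false

open MeasureTheory Filter Topology Set

noncomputable section

namespace Crest.Agent.R040

/-- orthogonal projections onto a decreasing sequence of closed subspaces -/
theorem levy_proj {E : Type*} [NormedAddCommGroup E] [InnerProductSpace ℂ E] [CompleteSpace E]
    (U : ℕ → Submodule ℂ E) [∀ n, (U n).HasOrthogonalProjection] (W : Submodule ℂ E)
    [W.HasOrthogonalProjection] (hU : Antitone U) (hW : W = ⨅ n, U n) (x : E) :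
    Tendsto (fun n => (U n).starProjection x) atTop (𝓝 (W.starProjection x)) := by
  have h1 : (⨆ n, (U n)ᗮ).topologicalClosure = Wᗮ := by
    rw [← Submodule.orthogonal_orthogonal_eq_closure, ← Submodule.iInf_orthogonal, hW]
    simp only [Submodule.orthogonal_orthogonal]
  have : (⨆ n, (U n)ᗮ).topologicalClosure.HasOrthogonalProjection := by
    rw [h1]
    infer_instance
  have h2 := Submodule.starProjection_tendsto_closure_iSup (fun n => (U n)ᗮ)
    (fun a b hab => Submodule.orthogonal_le (hU hab)) x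
  have h3 : (⨆ n, (U n)ᗮ).topologicalClosure.starProjection x = x - W.starProjection x := by
    rw [← Submodule.starProjection_orthogonal_val]
    congr 1
    simp only [h1]
  rw [h3] at h2
  simp only [Submodule.starProjection_orthogonal_val] at h2
  simpa using h2.const_sub x

theorem levy_aesm {Ω : Type*} {m0 : MeasurableSpace Ω} (μ : Measure Ω)
    (m : ℕ → MeasurableSpace Ω) (hanti : Antitone m) (f : Ω → ℂ)
    (hf : ∀ n, AEStronglyMeasurable[m n] f μ) : AEStronglyMeasurable[⨅ n, m n] f μ := by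
  choose g hg hfg using hf
  refine ⟨fun x => limUnder atTop (fun n => g n x), Measurable.stronglyMeasurable ?_, ?_⟩
  · intro s hs
    rw [MeasurableSpace.measurableSet_iInf]
    intro N
    have h1 : StronglyMeasurable[m N] fun x => limUnder atTop (fun n => g (n + N) x) :=
      @StronglyMeasurable.limUnder ℕ Ω ℂ (m N) _ _ atTop _ (fun n => g (n + N)) _ _
        fun n => (hg (n + N)).mono (hanti (Nat.le_add_left N n))
    have h2 : (fun x => limUnder atTop (fun n => g (n + N) x)) =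
        fun x => limUnder atTop (fun n => g n x) := by
      funext x
      unfold limUnder
      conv_rhs => rw [← Filter.map_add_atTop_eq_nat N, Filter.map_map]
      rfl
    rw [h2] at h1
    exact h1.measurable hs
  · filter_upwards [ae_all_iff.2 hfg] with x hx
    simp only [← hx]
    exact (tendsto_const_nhds.limUnder_eq).symm

theorem levy_norm {Ω : Type*} {m0 : MeasurableSpace Ω} (μ : Measure Ω) (F : Lp ℂ 2 μ) :
    ‖F‖ ^ 2 = ∫ x, ‖F x‖ ^ 2 ∂μ := by
  have h := L2.inner_def (𝕜 := ℂ) F F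
  simp only [inner_self_eq_norm_sq_to_K] at h
  have h2 : ∫ x, ((‖F x‖ : ℂ)) ^ 2 ∂μ = ((∫ x, ‖F x‖ ^ 2 ∂μ : ℝ) : ℂ) := by
    rw [← integral_complex_ofReal]
    simp
  have h3 : ((‖F‖ ^ 2 : ℝ) : ℂ) = ((∫ x, ‖F x‖ ^ 2 ∂μ : ℝ) : ℂ) := by
    rw [← h2]
    push_cast
    exact h
  exact_mod_cast h3

/-- `g n = μ[f | m n]`; `μ[g n | m k] = g k` for `k ≥ n` (`condExp_condExp_of_le`), so `‖g n - g k‖² = ‖g n‖² - ‖g k‖²` and `‖g n‖²` decreases: Cauchy in `L²`, limit `g`.  An a.e. convergent subsequence;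
`g' = limUnder`/`limsup` of the real and imaginary parts along it is `m n`-measurable for every `n` (tail of the sequence), hence `⨅ n, m n`-measurable (`MeasurableSpace.measurableSet_iInf`); `g' = μ[f | ⨅ m]` by
`ae_eq_condExp_of_forall_setIntegral_eq`.  `condExpL2` (orthogonal projections onto `lpMeas`) may be more convenient. -/
theorem levy_down {Ω : Type*} {m0 : MeasurableSpace Ω} (μ : Measure Ω) [IsFiniteMeasure μ]
    (m : ℕ → MeasurableSpace Ω) (hm : ∀ n, m n ≤ m0) (hanti : Antitone m) (f : Ω → ℂ)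
    (hf : MemLp f 2 μ) :
    Tendsto (fun n => ∫ x, ‖(μ[f | m n]) x - (μ[f | ⨅ n, m n]) x‖ ^ 2 ∂μ) atTop (𝓝 0) := by
  have hm' : ⨅ n, m n ≤ m0 := (iInf_le m 0).trans (hm 0)
  have : ∀ n, Fact (m n ≤ m0) := fun n => ⟨hm n⟩
  have : Fact (⨅ n, m n ≤ m0) := ⟨hm'⟩
  have h1 := levy_proj (fun n => lpMeas ℂ ℂ (m n) 2 μ) (lpMeas ℂ ℂ (⨅ n, m n) 2 μ)
    (fun a b hab F hF => mem_lpMeas_iff_aestronglyMeasurable.2
      ((mem_lpMeas_iff_aestronglyMeasurable.1 hF).mono (hanti hab)))
    (by
      ext F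
      simp only [Submodule.mem_iInf, mem_lpMeas_iff_aestronglyMeasurable]
      exact ⟨fun h n => h.mono (iInf_le m n), levy_aesm μ m hanti F⟩) (hf.toLp f)
  have h2 := (tendsto_iff_norm_sub_tendsto_zero.1 h1).pow 2
  rw [zero_pow two_ne_zero] at h2
  refine h2.congr fun n => ?_
  rw [levy_norm]
  refine integral_congr_ae ?_
  filter_upwards [Lp.coeFn_sub ((lpMeas ℂ ℂ (m n) 2 μ).starProjection (hf.toLp f))
    ((lpMeas ℂ ℂ (⨅ n, m n) 2 μ).starProjection (hf.toLp f)),
    hf.condExpL2_ae_eq_condExp (𝕜 := ℂ) (hm n), hf.condExpL2_ae_eq_condExp (𝕜 := ℂ) hm'] with x e1 e2 e3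
  rw [e1, Pi.sub_apply, ← e2, ← e3]
  rfl

end Crest.Agent.R040

end
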