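import Crest.Agent.R040.BasM
import Crest.Agent.R040.Half

/-! # Row 40, Step 2: links -/

set_option autoImplicit false

open MeasureTheory Filter Topology Set Metric
open scoped Real

noncomputable section

namespace Crest.Agent.R040

namespace MCol

variable {c : MCol}

theorem Link.ne {v : ℂ} {a b : Fin 5} (h : c.Link v a b) : a ≠ b := h.1

theorem Link.P {v : ℂ} {a b : Fin 5} (h : c.Link v a b) : c.P v a ∧ c.P v b := by
  obtain ⟨-, R, c₀, -, hc₀, h1, δ₀, hδ₀, h2⟩ := h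
  refine ⟨c.P_of_windows fun δ hδ => ?_, c.P_of_windows fun δ hδ => ?_⟩
  · obtain ⟨x, r, hx, -, hr, ha, -⟩ := h1 1 le_rfl δ hδ
    exact ⟨x, r, hx, hr, by unfold MCol.p; rw [ha]; norm_num⟩
  · obtain ⟨x, r, hx, hr0, hr, ha, hR⟩ := h1 1 le_rfl (min δ (min δ₀ c₀)) (by positivity)
    simp only [lt_min_iff, one_mul] at hx hr hR
    have := h2 x r hx.2.1 hr0 hr.2.1 ha
    exact ⟨x, r, hx.1, hr.1, by unfold MCol.p; linarith [hR.2.2]⟩

theorem LinkL_win {v : ℂ} {q : Fin 5 → ℝ} (hq : c.Lim v q) {a : Fin 5} (h0 : 0 < q a) (h1 : q a < 1)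
    {R : Set ℂ} (hR : MeasurableSet R)
    (hlim : ∀ (η : ℝ) (x : ℂ) (r : ℝ), 0 < r → (∀ i, |c.p x r i - q i| < η) → pr R x r ≤ 3 * η) :
    ∀ K ≥ (1 : ℝ), ∀ δ > (0 : ℝ), ∃ (x : ℂ) (r : ℝ), ‖x - v‖ < δ ∧ 0 < r ∧ r < δ ∧
      pr (c.D a) x r = 1 / 2 ∧ pr R x (K * r) < δ := by
  intro K hK δ hδ
  obtain ⟨κ, hκ, hκ1, hκ2⟩ : ∃ κ : ℝ, 0 < κ ∧ 2 * κ ≤ q a ∧ 2 * κ ≤ 1 - q a :=
    ⟨min (q a) (1 - q a) / 2, by have := lt_min h0 (sub_pos.2 h1); linarith,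
      by linarith [min_le_left (q a) (1 - q a)], by linarith [min_le_right (q a) (1 - q a)]⟩
  obtain ⟨δ', hδ', H⟩ := half κ (δ / 2) K hκ (by linarith) hK
  obtain ⟨x, r, hx, hr0, hr, hp⟩ := hq (min (δ / 2) (min κ (δ' / 3))) (by positivity)
  have hpa := abs_lt.1 ((hp a).trans_le ((min_le_right _ _).trans (min_le_left _ _)))
  have hpR := hlim (δ' / 3) x r hr0 fun i =>
    (hp i).trans_le ((min_le_right _ _).trans (min_le_right _ _))
  simp only [lt_min_iff] at hx hr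
  unfold MCol.p at hpa
  obtain ⟨z, ρ, hρ, hsub, hA, hRz⟩ := H (c.D a) R x r (c.meas a) hR hr0 (by linarith [hpa.1])
    (by linarith [hpa.2]) (by linarith)
  have hKρ : ρ ≤ K * ρ := le_mul_of_one_le_left hρ.le hK
  have hz : ‖z - x‖ < r := by
    rw [← dist_eq_norm]
    exact hsub (mem_ball_self (by linarith))
  have hz' : ‖z + (ρ / 2 : ℝ) - x‖ < r := by
    rw [← dist_eq_norm]
    refine hsub ?_
    rw [mem_ball, dist_eq_norm, add_sub_cancel_left, Complex.norm_real, Real.norm_eq_abs,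
      abs_of_pos (by linarith)]
    linarith
  have hz'' : ‖z - (ρ / 2 : ℝ) - x‖ < r := by
    rw [← dist_eq_norm]
    refine hsub ?_
    rw [mem_ball, dist_eq_norm, sub_sub_cancel_left, norm_neg, Complex.norm_real, Real.norm_eq_abs,
      abs_of_pos (by linarith)]
    linarith
  have hρr : ρ < 2 * r := by
    have h3 := norm_sub_le (z + (ρ / 2 : ℝ) - x) (z - (ρ / 2 : ℝ) - x)
    rw [show z + (ρ / 2 : ℝ) - x - (z - (ρ / 2 : ℝ) - x) = (ρ : ℂ) by push_cast; ring,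
      Complex.norm_real, Real.norm_eq_abs, abs_of_pos hρ] at h3
    linarith
  refine ⟨z, ρ, ?_, hρ, by linarith [hr.1], hA, by linarith⟩
  have h4 := norm_sub_le_norm_sub_add_norm_sub z x v
  linarith [hx.1, hr.1]

theorem LinkL_le {q : Fin 5 → ℝ} (hq : Simp q) {a g : Fin 5} (hag : a ≠ g) : q a + q g ≤ 1 := by
  rw [← hq.2, ← Finset.sum_pair hag]
  exact Finset.sum_le_sum_of_subset_of_nonneg (Finset.subset_univ _) fun i _ _ => hq.1 i

theorem LinkL_gap {v : ℂ} {a g : Fin 5} (hag : a ≠ g)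
    (h : ¬ ∃ q, c.Lim v q ∧ q a = 1 / 2 ∧ q g = 1 / 2) : ∃ c₀ > (0 : ℝ), ∃ δ₀ > (0 : ℝ),
    ∀ (x : ℂ) (r : ℝ), ‖x - v‖ < δ₀ → 0 < r → r < δ₀ →
      c₀ < max (1 / 2 - c.p x r a) (1 / 2 - c.p x r g) := by
  have hf : Continuous fun q : Fin 5 → ℝ => max (1 / 2 - q a) (1 / 2 - q g) := by fun_prop
  obtain ⟨a', ha', H⟩ := (isCompact_lim (c := c) v).exists_forall_le' hf.continuousOn (a := 0)
    fun q hq => by
      by_contra hc
      rw [not_lt, max_le_iff] at hc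
      have := LinkL_le (Lim.simp hq) hag
      exact h ⟨q, hq, by linarith [hc.1, hc.2], by linarith [hc.1, hc.2]⟩
  obtain ⟨δ, hδ, H2⟩ := lim_principle (c := c) (v := v)
    (F := {q | max (1 / 2 - q a) (1 / 2 - q g) ≤ a' / 2}) (isClosed_le hf continuous_const)
    fun q hq hF => by
      have h1 := H q hq
      have h2 : max (1 / 2 - q a) (1 / 2 - q g) ≤ a' / 2 := hF
      linarith
  exact ⟨a' / 2, by linarith, δ, hδ, fun x r hx hr0 hr => not_le.1 (H2 x r hx hr0 hr)⟩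

theorem LinkL_two {a b : Fin 5} (hab : a ≠ b) (x : ℂ) {r : ℝ} (hr : 0 < r) :
    pr (c.D a ∪ c.D b)ᶜ x r = 1 - c.p x r a - c.p x r b := by
  rw [pr_compl ((c.meas a).union (c.meas b)) x hr, pr_union (c.meas b) (c.disj a b hab)]
  unfold MCol.p
  ring

theorem LinkL_adj_win {v : ℂ} {a b : Fin 5} (h : c.Adj v a b) :
    ∀ K ≥ (1 : ℝ), ∀ δ > (0 : ℝ), ∃ (x : ℂ) (r : ℝ), ‖x - v‖ < δ ∧ 0 < r ∧ r < δ ∧
      pr (c.D a) x r = 1 / 2 ∧ pr (c.D a ∪ c.D b)ᶜ x (K * r) < δ := by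
  obtain ⟨hab, q, hq, ha, hb, hs⟩ := h
  refine LinkL_win hq ha (by linarith) ((c.meas a).union (c.meas b)).compl fun η x r hr hp => ?_
  rw [LinkL_two hab x hr]
  have h1 := abs_lt.1 (hp a)
  have h2 := abs_lt.1 (hp b)
  linarith [h1.1, h1.2, h2.1]

/-- `R = (D a ∪ D b)ᶜ`, `c₀ = 1/2`; `half` -/
theorem Adj.link {v : ℂ} {a b : Fin 5} (h : c.Adj v a b) : c.Link v a b := by
  refine ⟨h.1, (c.D a ∪ c.D b)ᶜ, 1 / 2, ((c.meas a).union (c.meas b)).compl, by norm_num,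
    LinkL_adj_win h, 1, one_pos, fun x r _ hr _ ha => ?_⟩
  rw [LinkL_two h.1 x hr]
  unfold MCol.p
  linarith

/-- `R = (D a ∪ D b ∪ D g)ᶜ`; `half`; `lim_principle` and compactness (`isCompact_lim`): a limit vector with `q a = 1/2`, `q g = 1/2` would give `Adj v a g`; note `pr (D b) + pr R = 1 - p a - p g`. -/
theorem link_of_three {v : ℂ} {q : Fin 5 → ℝ} (hq : c.Lim v q) {a b g : Fin 5} (hab : a ≠ b) (hag : a ≠ g)
    (hbg : b ≠ g) (ha : 0 < q a) (hb : 0 < q b) (hs : q a + q b + q g = 1) (h : ¬ c.Adj v a g) :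
    c.Link v a b := by
  have hm := ((c.meas a).union (c.meas b)).union (c.meas g)
  have hR : ∀ (x : ℂ) (r : ℝ), 0 < r →
      pr (c.D a ∪ c.D b ∪ c.D g)ᶜ x r = 1 - c.p x r a - c.p x r b - c.p x r g := fun x r hr => by
    rw [pr_compl hm x hr, pr_union (c.meas g) ((c.disj a g hag).union_left (c.disj b g hbg)),
      pr_union (c.meas b) (c.disj a b hab)]
    unfold MCol.p
    ring
  obtain ⟨c₀, hc₀, δ₀, hδ₀, H⟩ := LinkL_gap (c := c) (v := v) hag fun ⟨q', hq', h1, h2⟩ =>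
    h ⟨hag, q', hq', by rw [h1]; norm_num, by rw [h2]; norm_num, by rw [h1, h2]; norm_num⟩
  refine ⟨hab, (c.D a ∪ c.D b ∪ c.D g)ᶜ, c₀, hm.compl, hc₀,
    LinkL_win hq ha (by linarith [hq.simp.1 g]) hm.compl fun η x r hr hp => ?_,
    δ₀, hδ₀, fun x r hx hr0 hr ha' => ?_⟩
  · rw [hR x r hr]
    linarith [(abs_lt.1 (hp a)).1, (abs_lt.1 (hp b)).1, (abs_lt.1 (hp g)).1]
  · have h1 := H x r hx hr0 hr
    rw [hR x r hr0]
    unfold MCol.p at h1 ⊢
    rcases lt_max_iff.1 h1 with h2 | h2 <;> linarith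

theorem Adj.half {v : ℂ} {a b : Fin 5} (h : c.Adj v a b) :
    ∃ q, c.Lim v q ∧ q a = 1 / 2 ∧ q b = 1 / 2 := by
  by_contra hc
  obtain ⟨c₀, hc₀, δ₀, hδ₀, H⟩ := LinkL_gap h.1 hc
  obtain ⟨x, r, hx, hr0, hr, ha, hR⟩ := LinkL_adj_win h 1 le_rfl (min δ₀ c₀) (by positivity)
  simp only [lt_min_iff, one_mul] at hx hr hR
  have h1 := H x r hx.1 hr0 hr.1
  rw [LinkL_two h.1 x hr0] at hR
  unfold MCol.p at h1 hR
  rcases lt_max_iff.1 h1 with h2 | h2 <;> linarith [hR.2]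

/-- upper semicontinuity: `Adj.half`, `isClosed_lim`, finitely many pairs -/
theorem adj_usc (c : MCol) (v : ℂ) :
    ∃ δ > (0 : ℝ), ∀ x : ℂ, ‖x - v‖ ≤ δ → ∀ i j, c.Adj x i j → c.Adj v i j := by
  have key : ∀ i j, ∀ᶠ x in 𝓝 v, c.Adj x i j → c.Adj v i j := by
    intro i j
    by_cases hv : c.Adj v i j
    · exact Eventually.of_forall fun _ _ => hv
    by_cases hij : i = j
    · exact Eventually.of_forall fun _ hx => absurd hij hx.1
    obtain ⟨c₀, hc₀, δ₀, hδ₀, H⟩ := LinkL_gap (c := c) (v := v) hij fun ⟨q', hq', h1, h2⟩ =>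
      hv ⟨hij, q', hq', by rw [h1]; norm_num, by rw [h2]; norm_num, by rw [h1, h2]; norm_num⟩
    filter_upwards [ball_mem_nhds v (half_pos hδ₀)] with x hx hadj
    obtain ⟨q, hq, h1, h2⟩ := hadj.half
    obtain ⟨y, r, hy, hr0, hr, hp⟩ := hq (min (δ₀ / 2) c₀) (by positivity)
    rw [mem_ball, dist_eq_norm] at hx
    simp only [lt_min_iff] at hy hr hp
    have h3 := H y r (by linarith [norm_sub_le_norm_sub_add_norm_sub y x v, hy.1]) hr0
      (by linarith [hr.1])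
    exfalso
    rcases lt_max_iff.1 h3 with h4 | h4
    · linarith [(abs_lt.1 (hp i).2).1]
    · linarith [(abs_lt.1 (hp j).2).1]
  have h2 : ∀ᶠ x in 𝓝 v, ∀ i j, c.Adj x i j → c.Adj v i j :=
    eventually_all.2 fun i => eventually_all.2 fun j => key i j
  obtain ⟨δ, hδ, H⟩ := nhds_basis_closedBall.eventually_iff.1 h2
  exact ⟨δ, hδ, fun x hx => H (by rwa [mem_closedBall, dist_eq_norm])⟩

theorem ASep.symm {v : ℂ} {a b : Fin 5} {e : ℂ} (h : c.ASep v a b e) : c.ASep v b a e := by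
  intro η hη K hK
  obtain ⟨δ, hδ, H⟩ := h η hη K hK
  refine ⟨δ, hδ, fun x r hx hr0 hr => ?_⟩
  obtain ⟨ψ, B, E, hB, hE, h1, h2, h3, h4⟩ := H x r hx hr0 hr
  exact ⟨ψ, Bᶜ, E, hB.compl, hE, h1, h2, fun z hz hzE hb => not_not.2 (h4 z hz hzE hb), h3⟩

end MCol

end Crest.Agent.R040

end
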