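import Crest.Agent.R040.Tri
import Crest.Agent.R040.Conn4

/-! # Row 40, Step 2: the local graph -/

set_option autoImplicit false

open MeasureTheory Filter Topology Set Metric
open scoped Real

noncomputable section

namespace Crest.Agent.R040

theorem Local_iso {c : MCol} {v : ℂ} {q : Fin 5 → ℝ} (hq : c.Lim v q) {a b g : Fin 5} (hab : a ≠ b)
    (hag : a ≠ g) (hbg : b ≠ g) (ha : 0 < q a) (hb : 0 < q b) (hg : 0 < q g)
    (hs : q a + q b + q g = 1) (h1 : ¬ c.Adj v a b) (h2 : ¬ c.Adj v a g) : False :=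
  c.tri v a b g (Or.inl (MCol.link_of_three hq hab hag hbg ha hb hs h2))
    (Or.inl (MCol.link_of_three hq hag hab hbg.symm ha hg (by linarith) h1))
    (Or.inl (MCol.link_of_three hq hbg hab.symm hag.symm hb hg (by linarith)
      fun h => h1 h.symm))

theorem Local_fifth : ∀ e l j k : Fin 5, l ≠ e → j ≠ k → ∃ g : Fin 5, j ≠ g ∧ k ≠ g ∧
    (j ≠ e → j ≠ l → k ≠ e → k ≠ l → ∀ i, i = e ∨ i = l ∨ i = j ∨ i = k ∨ i = g) := by decide

theorem Local_three {c : MCol} {v : ℂ} {q : Fin 5 → ℝ} (hq : c.Lim v q) {e l : Fin 5} (hl : l ≠ e)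
    (he0 : q e = 0) (hl0 : q l = 0) : Conn (c.Adj v) q := by
  intro j k hj hk
  by_cases hjk : j = k
  · rw [hjk]
  obtain ⟨g, hjg, hkg, hall⟩ := Local_fifth e l j k hl hjk
  have hne : ∀ i x, 0 < q i → q x = 0 → i ≠ x := fun i x h1 h2 h => by rw [h, h2] at h1; exact h1.false
  replace hall := hall (hne _ _ hj he0) (hne _ _ hj hl0) (hne _ _ hk he0) (hne _ _ hk hl0)
  have hs : q j + q k + q g = 1 := by
    rw [← hq.simp.2, ← Finset.sum_subset (Finset.subset_univ {j, k, g}) fun i _ hi => ?_,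
      Finset.sum_insert (by simp [hjk, hjg]), Finset.sum_pair hkg, add_assoc]
    rcases hall i with rfl | rfl | rfl | rfl | rfl
    · exact he0
    · exact hl0
    all_goals simp at hi
  by_cases h1 : c.Adj v j k
  · exact Relation.ReflTransGen.single ⟨h1, hj, hk⟩
  have hg : 0 < q g := (hq.simp.1 g).lt_of_ne fun h => h1 ⟨hjk, q, hq, hj, hk, by linarith⟩
  by_cases h2 : c.Adj v j g
  · by_cases h3 : c.Adj v k g
    · exact (Relation.ReflTransGen.single ⟨h2, hj, hg⟩).tail ⟨h3.symm, hg, hk⟩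
    · exact (Local_iso hq (Ne.symm hjk) hkg hjg hk hj hg (by linarith) (fun h => h1 h.symm) h3).elim
  · exact (Local_iso hq hjk hjg hkg hj hk hg hs h1 h2).elim

/-- `Adj.symm`, `Adj.link`, `tri`, `exists_missing`, `Adj.P` -/
theorem MCol.tf_adj (c : MCol) (v : ℂ) : Tf (c.Adj v) := by
  obtain ⟨e, he⟩ := c.exists_missing v
  exact ⟨fun _ _ h => h.symm, fun _ h => h.1 rfl, fun a b g h1 h2 h3 =>
    c.tri v a b g (Or.inl h1.link) (Or.inl h3.link) (Or.inl h2.link), e, fun _ h => he h.P⟩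

/-- `e` missing.  Support of size `≤ 2`: definition of `Adj`.  Size 3, `{a, b, g}`: if disconnected, some `a` is adjacent to neither `b` nor `g`; `link_of_three` gives `Link a b` (`¬ Adj a g`), `Link a g` (`¬ Adj a b`), `Link b g` (`¬ Adj b a`); `tri`.  Size 4: `conn_four`. -/
theorem MCol.conn_lim (c : MCol) (v : ℂ) {q : Fin 5 → ℝ} (hq : c.Lim v q) : Conn (c.Adj v) q := by
  obtain ⟨e, he⟩ := c.exists_missing v
  by_cases hpos : ∀ i, i ≠ e → 0 < q i
  · exact c.conn_four v hq he hpos fun q' hq' ⟨_, hl, hl0⟩ => Local_three hq' hl (hq'.eq_zero he) hl0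
  · push Not at hpos
    obtain ⟨l, hl, hl0⟩ := hpos
    exact Local_three hq hl (hq.eq_zero he) (le_antisymm hl0 (hq.simp.1 l))

end Crest.Agent.R040

end
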