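import Crest.Agent.R040.Defs1

/-! # Row 40, Step 1: the minimal norm trick -/

set_option autoImplicit false

open MeasureTheory Filter Topology Set

noncomputable section

namespace Crest.Agent.R040

/-- `C r` = closed convex hull of `{T a f | ν a < r}`; `x r` = its element of least norm (exists by the parallelogram law and completeness;
if `C ∋ y` then `‖y - x‖² ≤ 2‖y‖² - 2‖x‖²` for the minimiser `x`, more precisely `‖x - y‖² = 2‖x‖² + 2‖y‖² - 4‖(x+y)/2‖²`).  `C r` increases with `r`, so `‖x r‖` decreases in `r` and is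
bounded by `‖f‖`; hence `x r` is Cauchy as `r ↓ 0`, with limit `x₀ ∈ ⋂ C r` and `‖x r‖ ↑ ‖x₀‖`.  `T h` maps `C r` into `C (r + ν h)`, so
`(x₀ + T h x₀)/2 ∈ C s` whenever `ν h < s`, and `‖x₀ - T h x₀‖² = 4‖x₀‖² - 4‖(x₀ + T h x₀)/2‖² ≤ 4‖x₀‖² - 4‖x s‖²`. -/
theorem minnorm {H : Type*} [NormedAddCommGroup H] [NormedSpace ℝ H] [CompleteSpace H]
    (hpar : ∀ x y : H, ‖x + y‖ ^ 2 + ‖x - y‖ ^ 2 = 2 * (‖x‖ ^ 2 + ‖y‖ ^ 2))
    {G : Type*} [AddCommGroup G] (ν : G → ℝ) (hν0 : ν 0 = 0) (hνadd : ∀ a b, ν (a + b) ≤ ν a + ν b)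
    (T : G → H →ₗ[ℝ] H) (hT : ∀ a x, ‖T a x‖ = ‖x‖) (hTadd : ∀ a b x, T (a + b) x = T a (T b x))
    (f : H) :
    ∃ x₀ : H, (∀ r > (0 : ℝ), x₀ ∈ closure (convexHull ℝ {y | ∃ a, ν a < r ∧ y = T a f})) ∧
      ∀ ε > (0 : ℝ), ∃ r > (0 : ℝ), ∀ a, ν a < r → ‖T a x₀ - x₀‖ < ε := by
  set K : ℝ → Set H := fun r => closure (convexHull ℝ {y | ∃ a, ν a < r ∧ y = T a f}) with hK
  have Kconv : ∀ r, Convex ℝ (K r) := fun r => (convex_convexHull ℝ _).closure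
  have Kmono : ∀ r s, r ≤ s → K r ⊆ K s := fun r s hrs =>
    closure_mono (convexHull_mono fun y ⟨a, ha, hy⟩ => ⟨a, ha.trans_le hrs, hy⟩)
  have Kf : ∀ r, 0 < r → T 0 f ∈ K r := fun r hr =>
    subset_closure (subset_convexHull ℝ _ ⟨0, by rw [hν0]; exact hr, rfl⟩)
  have KT : ∀ a r, MapsTo (T a) (K r) (K (ν a + r)) := by
    intro a r
    have hc : Continuous (T a) :=
      AddMonoidHomClass.continuous_of_bound (T a) 1 fun x => by rw [hT, one_mul]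
    refine MapsTo.closure ?_ hc
    refine convexHull_min (t := (T a) ⁻¹' _) ?_ ((convex_convexHull ℝ _).linear_preimage (T a))
    rintro y ⟨b, hb, rfl⟩
    exact subset_convexHull ℝ _ ⟨a + b, by linarith [hνadd a b], (hTadd a b f).symm⟩
  set ρ : ℕ → ℝ := fun n => 1 / ((n : ℝ) + 1) with hρ
  have ρpos : ∀ n, 0 < ρ n := fun n => Nat.one_div_pos_of_nat
  have ρanti : ∀ n m, n ≤ m → ρ m ≤ ρ n := fun n m h => Nat.one_div_le_one_div h
  have ρlim : Tendsto ρ atTop (𝓝 0) := tendsto_one_div_add_atTop_nhds_zero_nat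
  set d : ℕ → ℝ := fun n => sInf ((fun y : H => ‖y‖ ^ 2) '' K (ρ n)) with hd
  have bdd : ∀ n, BddBelow ((fun y : H => ‖y‖ ^ 2) '' K (ρ n)) := fun n =>
    ⟨0, by rintro _ ⟨y, -, rfl⟩; positivity⟩
  have ne : ∀ n, ((fun y : H => ‖y‖ ^ 2) '' K (ρ n)).Nonempty := fun n =>
    ⟨_, T 0 f, Kf _ (ρpos n), rfl⟩
  have dle : ∀ n, ∀ y ∈ K (ρ n), d n ≤ ‖y‖ ^ 2 := fun n y hy => csInf_le (bdd n) ⟨y, hy, rfl⟩
  have dmono : Monotone d := fun n m h =>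
    csInf_le_csInf (bdd n) (ne m) (image_mono (Kmono _ _ (ρanti n m h)))
  have dbdd : BddAbove (range d) := ⟨‖T 0 f‖ ^ 2, by
    rintro _ ⟨n, rfl⟩
    exact dle n _ (Kf _ (ρpos n))⟩
  set d0 : ℝ := ⨆ n, d n with hd0
  have dlim : Tendsto d atTop (𝓝 d0) := tendsto_atTop_ciSup dmono dbdd
  have dle0 : ∀ n, d n ≤ d0 := fun n => le_ciSup dbdd n
  have key : ∀ n, ∀ x ∈ K (ρ n), ∀ y ∈ K (ρ n),
      ‖x - y‖ ^ 2 ≤ 2 * ‖x‖ ^ 2 + 2 * ‖y‖ ^ 2 - 4 * d n := by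
    intro n x hx y hy
    have hm : (1 / 2 : ℝ) • x + (1 / 2 : ℝ) • y ∈ K (ρ n) :=
      Kconv _ hx hy (by norm_num) (by norm_num) (by norm_num)
    have h1 := dle n _ hm
    rw [← smul_add, norm_smul, mul_pow] at h1
    have h2 : ‖(1 / 2 : ℝ)‖ ^ 2 = 1 / 4 := by norm_num
    rw [h2] at h1
    linarith [hpar x y]
  have hx : ∀ n, ∃ x ∈ K (ρ n), ‖x‖ ^ 2 < d n + ρ n := by
    intro n
    obtain ⟨_, ⟨x, hx, rfl⟩, h⟩ := exists_lt_of_csInf_lt (ne n) (lt_add_of_pos_right (d n) (ρpos n))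
    exact ⟨x, hx, h⟩
  choose x hxK hxn using hx
  have hcau : CauchySeq x := by
    refine cauchySeq_of_le_tendsto_0' (fun n => Real.sqrt (4 * d0 + 4 * ρ n - 4 * d n)) ?_ ?_
    · intro n m hnm
      rw [dist_eq_norm]
      apply Real.le_sqrt_of_sq_le
      have := key n _ (hxK n) _ (Kmono _ _ (ρanti n m hnm) (hxK m))
      linarith [hxn n, hxn m, dle0 n, dle0 m, ρanti n m hnm]
    · have h1 : Tendsto (fun n => 4 * d0 + 4 * ρ n - 4 * d n) atTop (𝓝 (4 * d0 + 4 * 0 - 4 * d0)) :=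
        (tendsto_const_nhds.add (ρlim.const_mul 4)).sub (dlim.const_mul 4)
      have h2 := h1.sqrt
      simpa using h2
  obtain ⟨x₀, hx₀⟩ := cauchySeq_tendsto_of_complete hcau
  have hx₀K : ∀ r > (0 : ℝ), x₀ ∈ K r := by
    intro r hr
    refine isClosed_closure.mem_of_tendsto hx₀ ?_
    filter_upwards [ρlim.eventually (gt_mem_nhds hr)] with n hn
    exact Kmono _ _ hn.le (hxK n)
  have hx₀n : ‖x₀‖ ^ 2 ≤ d0 := by
    have h1 : Tendsto (fun n => ‖x n‖ ^ 2) atTop (𝓝 (‖x₀‖ ^ 2)) := hx₀.norm.pow 2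
    have h2 : Tendsto (fun n => d n + ρ n) atTop (𝓝 (d0 + 0)) := dlim.add ρlim
    rw [add_zero] at h2
    exact le_of_tendsto_of_tendsto' h1 h2 fun n => (hxn n).le
  refine ⟨x₀, hx₀K, fun ε hε => ?_⟩
  have h3 : d0 - ε ^ 2 / 4 < d0 := by have := pow_pos hε 2; linarith
  obtain ⟨n, hn⟩ := (dlim.eventually (lt_mem_nhds h3)).exists
  refine ⟨ρ n / 2, by have := ρpos n; positivity, fun a ha => ?_⟩
  have h4 : T a x₀ ∈ K (ρ n) :=
    Kmono _ _ (by linarith) (KT a (ρ n / 2) (hx₀K _ (by have := ρpos n; positivity)))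
  have h5 := key n _ h4 _ (hx₀K _ (ρpos n))
  rw [hT] at h5
  exact lt_of_pow_lt_pow_left₀ 2 hε.le (by linarith)

end Crest.Agent.R040

end
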