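import Crest.Agent.R040.Sat1All

/-! # Row 40, Step 2: first finite certificate -/

set_option autoImplicit false

open MeasureTheory Filter Topology Set Metric
open scoped Real

noncomputable section

namespace Crest.Agent.R040

theorem sat1_perm : ∀ a b c d : Fin 5, a ≠ b → a ≠ c → a ≠ d → b ≠ c → b ≠ d → c ≠ d →
    ∃ σ : Equiv.Perm (Fin 5), σ 0 = a ∧ σ 1 = b ∧ σ 2 = c ∧ σ 3 = d := by
  intro a b c d h1 h2 h3 h4 h5 h6
  have hinj : Function.Injective (![a, b, c, d] : Fin 4 → Fin 5) := by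
    intro i j hij
    fin_cases i <;> fin_cases j <;> simp_all [eq_comm]
  have hcs : Function.Injective (Fin.castSucc : Fin 4 → Fin 5) := Fin.castSucc_injective 4
  obtain ⟨σ, hσ⟩ := Equiv.Perm.exists_extending_pair _ _ hcs hinj
  exact ⟨σ, hσ 0, hσ 1, hσ 2, hσ 3⟩

theorem sat1 : ∃ Θ Q : Finset ℂ, (∀ u ∈ Θ, ‖u‖ = 1) ∧ ∀ (N : ℂ → Fin 5 → Prop) (col : ℂ → Fin 5),
    (∀ u ∈ Θ, ∀ j, ∃ k, k ≠ j ∧ N u k) → (∀ u ∈ Θ, ∀ k, N u k → ¬ N (om * u) k) →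
    (∀ p ∈ Q, ∀ q ∈ Q, ‖p - q‖ = 1 → col p ≠ col q) →
    (∀ u ∈ Θ, ∀ u' ∈ Θ, u ≠ u' → u ≠ -u' → u + u' ∈ Q → ¬ N u (col (u + u'))) → False := by
  refine ⟨Chk.dirs Chk.s1DT 18, Chk.pnts Chk.s1DT Chk.s1PT 87,
    Chk.norm_dirs (by decide +kernel), fun N col h1 h2 h3 h4 => ?_⟩
  have m6 : Chk.emb (Chk.dir Chk.s1DT 6) ∈ Chk.dirs Chk.s1DT 18 := Chk.mem_dirs (by norm_num)
  have m7 : Chk.emb (Chk.dir Chk.s1DT 7) ∈ Chk.dirs Chk.s1DT 18 := Chk.mem_dirs (by norm_num)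
  have e67 : Chk.emb (Chk.dir Chk.s1DT 7) = om * Chk.emb (Chk.dir Chk.s1DT 6) :=
    Chk.emb_om (by decide +kernel)
  obtain ⟨a, -, ha⟩ := h1 _ m6 0
  obtain ⟨b, hba, hb⟩ := h1 _ m6 a
  obtain ⟨c, -, hc⟩ := h1 _ m7 0
  obtain ⟨d, hdc, hd⟩ := h1 _ m7 c
  have hx : ∀ x y, N (Chk.emb (Chk.dir Chk.s1DT 6)) x → N (Chk.emb (Chk.dir Chk.s1DT 7)) y → x ≠ y := by
    rintro x y hx hy rfl
    exact h2 _ m6 x hx (e67 ▸ hy)
  obtain ⟨σ, s0, s1, s2, s3⟩ := sat1_perm a b c d hba.symm (hx _ _ ha hc) (hx _ _ ha hd)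
    (hx _ _ hb hc) (hx _ _ hb hd) hdc.symm
  refine Chk.s1false (Chk.lit_zero _) (Chk.lit_xor _)
    (Chk.chk1_sound (N := fun u k => N u (σ k)) (col := fun p => σ.symm (col p))
      (by norm_num) (by norm_num) (by norm_num) (by norm_num) ?_ ?_ ?_ ?_ ?_ ?_ ?_ ?_)
  · intro u hu j
    obtain ⟨k, hk, hN⟩ := h1 u hu (σ j)
    refine ⟨σ.symm k, fun h => hk (by rw [← h]; simp), by simpa using hN⟩
  · intro u hu k
    exact h2 u hu (σ k)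
  · intro p hp q hq hpq h
    exact h3 p hp q hq hpq (σ.symm.injective h)
  · intro u hu u' hu' n1 n2 hm
    simpa using h4 u hu u' hu' n1 n2 hm
  · simpa [s0] using ha
  · simpa [s1] using hb
  · simpa [s2] using hc
  · simpa [s3] using hd

end Crest.Agent.R040

end
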