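import Crest.Agent.R040.Rules
import Crest.Agent.R040.Two
import Crest.Agent.R040.FinCfg
import Crest.Agent.R040.Sat1

/-! # Row 40, Step 2: every point misses a colour -/

set_option autoImplicit false

open MeasureTheory Filter Topology Set Metric
open scoped Real

noncomputable section

namespace Crest.Agent.R040

theorem miss_two {N : Fin 5 → Prop}
    (h : ∀ i j k, i ≠ j → i ≠ k → j ≠ k → N i → N j → N k → False) {k : Fin 5} (hk : N k) :
    ∃ j, ∀ l, N l → l = j ∨ l = k := by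
  by_cases h1 : ∃ j, j ≠ k ∧ N j
  · obtain ⟨j, hjk, hj⟩ := h1
    refine ⟨j, fun l hl => ?_⟩
    by_contra h2
    rw [not_or] at h2
    exact h l j k h2.1 h2.2 hjk hl hj hk
  · exact ⟨k, fun l hl => Or.inr (by_contra fun h2 => h1 ⟨l, h2, hl⟩)⟩

/-- Otherwise for a.e. `θ`: `rule1` is the first hypothesis of `sat1`; if `k` is unseen at `θ` and at `θ + π/3` then by `two` and `rule1` `θ ∈ U v j k`, `θ + π/3 ∈ U v l k` for some `j, l`, against `rule2`.  Write each `u ∈ Θ` as `cis α` (`exists_cis`), use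
`ae_shift` and `fin_cfg`; `N u k := c.N (v + cis θ * u) k`. -/
theorem MCol.exists_missing (c : MCol) (v : ℂ) : ∃ e, ¬ c.P v e := by
  by_contra hn
  have hP : ∀ e, c.P v e := fun e => by_contra fun h => hn ⟨e, h⟩
  obtain ⟨Θ, Q, hΘ, hsat⟩ := sat1
  have h1 : ∀ᵐ θ : ℝ, (∀ j, ∃ k, k ≠ j ∧ c.N (v + cis θ) k) ∧
      ∀ k, c.N (v + cis θ) k → ¬ c.N (v + cis (θ + π / 3)) k := by
    filter_upwards [c.rule1 v, c.rule2 v, c.two v, ae_shift (c.two v) (π / 3)] with θ r1 r2 t1 t2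
    refine ⟨fun j => r1 j (hP j), fun k hk hk' => ?_⟩
    obtain ⟨j, hj⟩ := miss_two t1 hk
    obtain ⟨l, hl⟩ := miss_two t2 hk'
    exact r2 j l k (hP j) (hP l) hj hl
  have h2 : ∀ᵐ θ : ℝ, ∀ u ∈ Θ, (∀ j, ∃ k, k ≠ j ∧ c.N (v + cis θ * u) k) ∧
      ∀ k, c.N (v + cis θ * u) k → ¬ c.N (v + cis θ * (om * u)) k := by
    refine (Filter.eventually_all_finset Θ).2 fun u hu => ?_
    obtain ⟨α, rfl⟩ := exists_cis (hΘ u hu)
    filter_upwards [ae_shift h1 α] with θ hθ
    have e : cis θ * (om * cis α) = cis (θ + α + π / 3) := by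
      rw [cis_add, cis_add, om]
      ring
    rw [e, ← cis_add]
    exact hθ
  obtain ⟨θ, h3, col, h4, h5⟩ := (h2.and (c.fin_cfg v Θ Q hΘ)).exists
  exact hsat (fun u k => c.N (v + cis θ * u) k) col (fun u hu => (h3 u hu).1)
    (fun u hu => (h3 u hu).2) h4 h5

end Crest.Agent.R040

end
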