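import Crest.Agent.R040.Bas
import Crest.Agent.R040.HL

/-! # Row 40, Step 2: separation along two foliations -/

set_option autoImplicit false

open MeasureTheory Filter Topology Set Metric
open scoped Real

noncomputable section

namespace Crest.Agent.R040

theorem sep_fin {E : Type*} [PseudoMetricSpace E] [ProperSpace E] [MeasurableSpace E]
    {μ : Measure E} [IsFiniteMeasureOnCompacts μ] (S : Set E) (u : E) (ρ : ℝ) :
    μ (S ∩ ball u ρ) ≠ ⊤ :=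
  ((measure_mono inter_subset_right).trans_lt measure_ball_lt_top).ne

theorem sep_pick {α : Type*} [MeasurableSpace α] {μ : Measure α} {A H : Set α} (h : μ H < μ A)
    {p : α → Prop} (hp : ∀ᵐ t ∂μ, p t) : ∃ t ∈ A, t ∉ H ∧ p t := by
  by_contra hc
  refine h.not_ge (measure_mono_ae (hp.mono fun t ht hA => ?_))
  by_contra hH
  exact hc ⟨t, hA, hH, ht⟩

theorem sep_ball (t : ℝ) {ρ : ℝ} (h : 0 ≤ ρ) : volume.real (ball t ρ) = 2 * ρ := by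
  rw [Measure.real, Real.volume_ball, ENNReal.toReal_ofReal (by positivity)]

theorem sep_le (B : Set ℝ) (t : ℝ) {ρ : ℝ} (h : 0 ≤ ρ) : volume.real (B ∩ ball t ρ) ≤ 2 * ρ :=
  (measureReal_mono inter_subset_right measure_ball_lt_top.ne).trans (sep_ball t h).le

theorem sep_prod (B₁ B₂ : Set ℝ) (u : ℝ × ℝ) (ρ : ℝ) : volume.real (B₁ ×ˢ B₂ ∩ ball u ρ) =
    volume.real (B₁ ∩ ball u.1 ρ) * volume.real (B₂ ∩ ball u.2 ρ) := by
  rw [← ball_prod_same, prod_inter_prod, Measure.volume_eq_prod, measureReal_prod_prod]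

/-- `B` has density zero at `t` -/
def sepSm (B : Set ℝ) (t : ℝ) : Prop :=
  ∀ θ > (0 : ℝ), ∃ a > (0 : ℝ), ∀ ρ, 0 < ρ → ρ < a → volume.real (B ∩ ball t ρ) < 2 * θ * ρ

theorem sep_dens {B : Set ℝ} (hB : MeasurableSet B) : ∀ᵐ t : ℝ, t ∉ B → sepSm B t := by
  filter_upwards [ae_dens hB.compl] with t ht h θ hθ
  obtain ⟨a, ha, h1⟩ := (mem_nhdsGT_iff_exists_Ioo_subset).1
    ((ht h).eventually_const_lt (sub_lt_self 1 hθ))
  refine ⟨a, ha, fun ρ h2 h3 => ?_⟩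
  have h4 := (lt_div_iff₀ (by positivity : 0 < 2 * ρ)).1 (h1 ⟨h2, h3⟩)
  have h5 := measureReal_inter_add_diff (μ := volume) (s := ball t ρ) hB measure_ball_lt_top.ne
  rw [sep_ball t h2.le, diff_eq, inter_comm, inter_comm _ Bᶜ] at h5
  rw [← Real.ball_eq_Ioo] at h4
  linarith

theorem sep_slice {H : Set (ℝ × ℝ)} (hH : MeasurableSet H) (hf : volume H ≠ ⊤) {θ : ℝ} (hθ : 0 < θ)
    (R : ℝ) : ∃ V : Set (ℝ × ℝ), volume V ≤ ENNReal.ofReal (10 / θ) * volume H ∧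
      ∀ s ∉ V, ∀ ρ, 0 < ρ → ρ ≤ R → volume.real (Prod.mk s.1 ⁻¹' H ∩ ball s.2 ρ) < 2 * θ * ρ := by
  let V : Set (ℝ × ℝ) := ⋃ q : ℚ, {s | 0 < (q : ℝ) ∧ (q : ℝ) ≤ 2 * R ∧
    θ / 2 * volume.real (ball s.2 q) < volume.real (Prod.mk s.1 ⁻¹' H ∩ ball s.2 q)}
  have hm : ∀ {S : Set ((ℝ × ℝ) × ℝ)}, MeasurableSet S →
      Measurable fun s => volume.real (Prod.mk s ⁻¹' S) := fun h =>
    (measurable_measure_prodMk_left h).ennreal_toReal
  have hb : ∀ q : ℝ, MeasurableSet {w : (ℝ × ℝ) × ℝ | dist w.2 w.1.2 < q} := fun q =>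
    measurableSet_lt (by fun_prop) measurable_const
  have hV : MeasurableSet V := MeasurableSet.iUnion fun q =>
    (MeasurableSet.const _).inter ((MeasurableSet.const _).inter (measurableSet_lt
      ((hm (hb q)).const_mul _)
      (hm ((hH.preimage (measurable_fst.fst.prodMk measurable_snd)).inter (hb q)))))
  refine ⟨V, ?_, fun s hs ρ h1 h2 => ?_⟩
  · rw [Measure.volume_eq_prod] at hf ⊢
    rw [Measure.prod_apply hV, Measure.prod_apply hH,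
      ← lintegral_const_mul _ (measurable_measure_prodMk_left hH)]
    refine lintegral_mono_ae ((Measure.ae_measure_lt_top hH hf).mono fun a ha => ?_)
    refine le_trans (measure_mono ?_) ((hl_weak volume (measurable_prodMk_left hH) ha.ne
      (half_pos hθ) (2 * R)).trans (le_of_eq ?_))
    · rintro t ⟨_, ⟨q, rfl⟩, h⟩
      exact ⟨q, h⟩
    · rw [ENNReal.ofReal_mul (by positivity), ofReal_measureReal ha.ne, Module.finrank_self]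
      congr 2
      field_simp
      norm_num
  · obtain ⟨q, q1, q2⟩ := exists_rat_btwn (by linarith : ρ < 2 * ρ)
    have h3 : ¬ _ := fun h => hs (mem_iUnion.2 ⟨q, h1.trans q1, by linarith, h⟩)
    rw [not_lt, sep_ball _ (h1.trans q1).le] at h3
    refine ((measureReal_mono (inter_subset_inter_right _ (ball_subset_ball q1.le))
      (sep_fin _ _ _)).trans h3).trans_lt ?_
    nlinarith

/-- the chain of squares -/
theorem sep_chain {E T T' : Set (ℝ × ℝ)} {s s' : ℝ × ℝ} {η ρ' R : ℝ} (hρ : 0 < ρ') (hR : 5 * ρ' ≤ R)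
    (hd : dist s' s ≤ 4 * ρ')
    (hE : ∀ u, u = s ∨ u = s' → ∀ ρ, 0 < ρ → ρ ≤ R → volume.real (E ∩ ball u ρ) ≤ η / 25 * ρ ^ 2)
    (hT : ∀ u ∈ segment ℝ s s', ∀ ρ, 0 < ρ → ρ ≤ ρ' → volume.real (T ∩ ball u ρ) ≤ η * ρ ^ 2)
    (hT' : ∃ ρ, 0 < ρ ∧ ρ ≤ ρ' ∧ volume.real (T' ∩ ball s' ρ) ≤ η * ρ ^ 2) :
    ∃ Z : Set ((ℝ × ℝ) × ℝ), IsPreconnected Z ∧ (∀ w ∈ Z, 0 < w.2 ∧ w.2 ≤ ρ' ∧
      dist w.1 s ≤ dist s' s ∧ volume.real (E ∩ ball w.1 w.2) ≤ η * w.2 ^ 2 ∧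
      volume.real (T ∩ ball w.1 w.2) ≤ η * w.2 ^ 2) ∧ (∀ ρ, 0 < ρ → ρ ≤ ρ' → (s, ρ) ∈ Z) ∧
      ∃ w ∈ Z, volume.real (T' ∩ ball w.1 w.2) ≤ η * w.2 ^ 2 := by
  have hη : 0 ≤ η := le_of_mul_le_mul_right (by
    simpa using measureReal_nonneg.trans (hT s (left_mem_segment _ _ _) ρ' hρ le_rfl)) (pow_pos hρ 2)
  have h1 : ∀ u, u = s ∨ u = s' → ∀ ρ, 0 < ρ → ρ ≤ ρ' → volume.real (E ∩ ball u ρ) ≤ η * ρ ^ 2 :=
    fun u hu ρ a b => (hE u hu ρ a (by linarith)).trans (by nlinarith [mul_nonneg hη (sq_nonneg ρ)])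
  refine ⟨{s} ×ˢ Ioc 0 ρ' ∪ segment ℝ s s' ×ˢ {ρ'} ∪ {s'} ×ˢ Ioc 0 ρ', ?_, ?_,
    fun ρ a b => Or.inl (Or.inl ⟨rfl, a, b⟩), ?_⟩
  · refine IsPreconnected.union (s', ρ') (Or.inr ⟨right_mem_segment _ _ _, rfl⟩) ⟨rfl, hρ, le_rfl⟩
      (IsPreconnected.union (s, ρ') ⟨rfl, hρ, le_rfl⟩ ⟨left_mem_segment _ _ _, rfl⟩ ?_ ?_) ?_
    · exact isPreconnected_singleton.prod isPreconnected_Ioc
    · exact (convex_segment _ _).isPreconnected.prod isPreconnected_singleton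
    · exact isPreconnected_singleton.prod isPreconnected_Ioc
  · rintro ⟨u, ρ⟩ ((⟨rfl, a, b⟩ | ⟨hu, rfl⟩) | ⟨rfl, a, b⟩)
    · exact ⟨a, b, by simp, h1 _ (Or.inl rfl) _ a b, hT _ (left_mem_segment _ _ _) _ a b⟩
    · have h2 : dist u s ≤ dist s' s :=
        (convex_closedBall s _).segment_subset (mem_closedBall_self dist_nonneg)
          (mem_closedBall.2 le_rfl) hu
      refine ⟨hρ, le_rfl, h2, ?_, hT _ hu _ hρ le_rfl⟩
      refine ((measureReal_mono (inter_subset_inter_right _ (ball_subset_ball' (by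
        change ρ + dist u s ≤ 5 * ρ; linarith))) (sep_fin _ _ _)).trans
        (hE s (Or.inl rfl) _ (by positivity) hR)).trans (le_of_eq (by ring))
    · exact ⟨a, b, le_rfl, h1 _ (Or.inr rfl) _ a b, hT _ (right_mem_segment _ _ _) _ a b⟩
  · obtain ⟨ρ, a, b, h⟩ := hT'
    exact ⟨(s', ρ), Or.inr ⟨rfl, a, b⟩, h⟩

theorem sep_t {B H : Set ℝ} (hB : MeasurableSet B) {t₀ ρ₁ : ℝ}
    (h : volume.real (H ∩ ball t₀ ρ₁) < volume.real (B ∩ ball t₀ ρ₁)) {η ρ' : ℝ} (hη : 0 < η)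
    (hρ : 0 < ρ') : ∃ t, dist t t₀ ≤ ρ₁ ∧ t ∉ H ∧ ∃ ρ, 0 < ρ ∧ ρ ≤ ρ' ∧
      volume.real (Bᶜ ∩ ball t ρ) * (2 * ρ) ≤ η * ρ ^ 2 := by
  obtain ⟨t, ⟨h1, h2⟩, h3, h4⟩ := sep_pick
    ((ENNReal.toReal_lt_toReal (sep_fin _ _ _) (sep_fin _ _ _)).1 h) (sep_dens hB.compl)
  obtain ⟨a, ha, h5⟩ := h4 (not_not.2 h1) (η / 4) (by positivity)
  have h6 : 0 < min (a / 2) ρ' := lt_min (half_pos ha) hρ
  refine ⟨t, le_of_lt h2, fun h => h3 ⟨h, h2⟩, _, h6, min_le_right _ _, ?_⟩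
  have := h5 _ h6 ((min_le_left _ _).trans_lt (half_lt_self ha))
  nlinarith

theorem sep_plane {c η : ℝ} (hc : 0 < c) (hη : 0 < η) : ∃ δ : ℝ, 0 < δ ∧
    ∀ (p : ℝ × ℝ) (r : ℝ) (A E : Set (ℝ × ℝ)) (B₁ B₂ : Set ℝ), 0 < r → MeasurableSet E →
      MeasurableSet B₁ → MeasurableSet B₂ → volume E ≤ ENNReal.ofReal (δ * r ^ 2) →
      A ⊆ B₁ᶜ ×ˢ B₂ᶜ ∩ ball p r → c * r ^ 2 ≤ volume.real A →
      c * r ^ 2 ≤ volume.real (B₁ ×ˢ B₂ ∩ ball p r) →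
    ∃ Z : Set ((ℝ × ℝ) × ℝ), IsPreconnected Z ∧ (∀ w ∈ Z, 0 < w.2 ∧ w.2 ≤ r ∧
      dist w.1 p ≤ 3 * r ∧ volume.real (E ∩ ball w.1 w.2) ≤ η * w.2 ^ 2 ∧
      volume.real (B₁ ×ˢ B₂ ∩ ball w.1 w.2) ≤ η * w.2 ^ 2) ∧
      (∃ s ∈ A, ∃ ρ', 0 < ρ' ∧ ∀ ρ, 0 < ρ → ρ ≤ ρ' → (s, ρ) ∈ Z) ∧
      ∃ w ∈ Z, volume.real (B₁ᶜ ×ˢ B₂ᶜ ∩ ball w.1 w.2) ≤ η * w.2 ^ 2 := by
  obtain ⟨θ, hθ, θ1, θ2⟩ : ∃ θ, 0 < θ ∧ θ ≤ η / 4 ∧ θ ≤ c / 32 :=
    ⟨_, lt_min (by positivity) (by positivity), min_le_left _ _, min_le_right _ _⟩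
  refine ⟨c / 2 / ((1 + 10 / θ + 10 / θ) * (25 / (η / 100))), by positivity, ?_⟩
  intro p r A E B₁ B₂ hr hE hB₁ hB₂ hEv hA hAv hBv
  have hEf : volume E ≠ ⊤ := (hEv.trans_lt ENNReal.ofReal_lt_top).ne
  have hl := hl_weak volume hE hEf (by positivity : 0 < η / 100) (5 * r)
  rw [← measure_toMeasurable] at hl
  have hG := subset_toMeasurable volume {x : ℝ × ℝ | ∃ ρ, 0 < ρ ∧ ρ ≤ 5 * r ∧
    η / 100 * volume.real (ball x ρ) < volume.real (E ∩ ball x ρ)}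
  have hH := measurableSet_toMeasurable volume {x : ℝ × ℝ | ∃ ρ, 0 < ρ ∧ ρ ≤ 5 * r ∧
    η / 100 * volume.real (ball x ρ) < volume.real (E ∩ ball x ρ)}
  generalize toMeasurable (volume : Measure (ℝ × ℝ)) _ = H at hl hG hH
  replace hG : ∀ u ∉ H, ∀ ρ, 0 < ρ → ρ ≤ 5 * r → volume.real (E ∩ ball u ρ) ≤ η / 25 * ρ ^ 2 := by
    intro u hu ρ a b
    have h1 : ¬ _ := fun h => hu (hG ⟨ρ, a, b, h⟩)
    have h2 := sep_prod univ univ u ρ
    simp only [univ_prod_univ, univ_inter, sep_ball _ a.le] at h2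
    rw [not_lt, h2] at h1
    linarith
  have hHf : volume H ≠ ⊤ := (hl.trans_lt ENNReal.ofReal_lt_top).ne
  have hsw : MeasurePreserving (Prod.swap : ℝ × ℝ → ℝ × ℝ) volume volume := Measure.measurePreserving_swap
  have hs1 := hsw.measure_preimage hH.nullMeasurableSet
  obtain ⟨V, hV, hV'⟩ := sep_slice hH hHf hθ (2 * r)
  obtain ⟨W, hW, hW'⟩ := sep_slice (measurable_swap hH) (hs1 ▸ hHf) hθ (2 * r)
  have hlt : volume (H ∪ V ∪ Prod.swap ⁻¹' W) < volume A := by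
    have h1 : volume (H ∪ V ∪ Prod.swap ⁻¹' W) ≤ ENNReal.ofReal (1 + 10 / θ + 10 / θ) * volume H := by
      rw [ENNReal.ofReal_add (by positivity) (by positivity),
        ENNReal.ofReal_add (by positivity) (by positivity), ENNReal.ofReal_one, add_mul, add_mul,
        one_mul]
      exact (measure_union_le _ _).trans (add_le_add ((measure_union_le _ _).trans
        (add_le_add le_rfl hV)) ((hsw.measure_preimage_le W).trans (hs1 ▸ hW)))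
    refine (h1.trans (mul_le_mul_right hl _)).trans_lt (lt_of_lt_of_le ?_ ENNReal.ofReal_toReal_le)
    rw [← ENNReal.ofReal_mul (by positivity)]
    refine (ENNReal.ofReal_lt_ofReal_iff_of_nonneg (by positivity)).2 (lt_of_lt_of_le ?_ hAv)
    have h2 := ENNReal.toReal_le_of_le_ofReal (by positivity) hEv
    rw [div_mul_eq_mul_div, le_div_iff₀' (by positivity)] at h2
    simp only [Module.finrank_prod, Module.finrank_self]
    rw [← mul_assoc]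
    norm_num at h2 ⊢
    exact h2.trans_lt (by nlinarith [mul_pos hc (pow_pos hr 2)])
  obtain ⟨s, hsA, hs, d1, d2⟩ := sep_pick hlt
    ((Measure.quasiMeasurePreserving_fst.ae (sep_dens hB₁)).and
      (Measure.quasiMeasurePreserving_snd.ae (sep_dens hB₂)))
  simp only [mem_union, not_or] at hs
  obtain ⟨⟨hsH, hsV⟩, hsW⟩ := hs
  obtain ⟨⟨b1, b2⟩, hsp⟩ := hA hsA
  obtain ⟨a1, ha1, d1⟩ := d1 b1 θ hθ
  obtain ⟨a2, ha2, d2⟩ := d2 b2 θ hθ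
  let T : Set ℝ := {ρ | 0 < ρ ∧ ρ ≤ 2 * r ∧ ¬ (volume.real (B₁ ∩ ball s.1 ρ) < 2 * θ * ρ ∧
    volume.real (B₂ ∩ ball s.2 ρ) < 2 * θ * ρ)}
  have hT : 2 * r ∈ T := by
    refine ⟨by positivity, le_rfl, fun h => ?_⟩
    have h1 := hBv.trans (measureReal_mono (inter_subset_inter_right _ (ball_subset_ball' (y := s)
      (ε₂ := 2 * r) (by rw [dist_comm]; linarith [mem_ball.1 hsp]))) (sep_fin _ _ _))
    rw [sep_prod] at h1
    have h2 := mul_le_mul h.1.le (sep_le B₂ s.2 (by positivity : 0 ≤ 2 * r)) measureReal_nonneg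
      (by positivity)
    nlinarith [mul_pos hc (pow_pos hr 2), pow_pos hr 2]
  have hb : min a1 a2 ∈ lowerBounds T := fun ρ h => not_lt.1 fun h' =>
    h.2.2 ⟨d1 ρ h.1 (h'.trans_le (min_le_left _ _)), d2 ρ h.1 (h'.trans_le (min_le_right _ _))⟩
  have hm : 0 < sInf T := (lt_min ha1 ha2).trans_le (le_csInf ⟨_, hT⟩ hb)
  have hm2 : sInf T ≤ 2 * r := csInf_le ⟨_, hb⟩ hT
  obtain ⟨ρ₁, ⟨r1, r2, r3⟩, r4⟩ := exists_lt_of_csInf_lt ⟨_, hT⟩ (by linarith : sInf T < 2 * sInf T)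
  have hsm : ∀ ρ, 0 < ρ → ρ ≤ sInf T / 2 → volume.real (B₁ ∩ ball s.1 ρ) * (2 * ρ) ≤ η * ρ ^ 2 ∧
      volume.real (B₂ ∩ ball s.2 ρ) * (2 * ρ) ≤ η * ρ ^ 2 := fun ρ a b => by
    have h1 : ρ ∉ T := notMem_of_lt_csInf (by linarith) ⟨_, hb⟩
    have h2 := not_not.1 fun h => h1 ⟨a, by linarith, h⟩
    constructor <;> nlinarith [h2.1, h2.2, pow_pos a 2]
  obtain ⟨s', g1, g2, g3, g4⟩ : ∃ s', dist s' s ≤ ρ₁ ∧ s' ∉ H ∧ (∀ u ∈ segment ℝ s s', ∀ ρ, 0 < ρ →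
      ρ ≤ sInf T / 2 → volume.real (B₁ ×ˢ B₂ ∩ ball u ρ) ≤ η * ρ ^ 2) ∧ ∃ ρ, 0 < ρ ∧
      ρ ≤ sInf T / 2 ∧ volume.real (B₁ᶜ ×ˢ B₂ᶜ ∩ ball s' ρ) ≤ η * ρ ^ 2 := by
    rcases not_and_or.1 r3 with h | h
    · obtain ⟨t, t1, t2, ρ, a, b, t3⟩ := sep_t hB₁ ((hW' s.swap hsW ρ₁ r1 r2).trans_le (not_lt.1 h))
        hη (half_pos hm)
      refine ⟨(t, s.2), by simpa [Prod.dist_eq, r1.le] using t1, t2, fun u hu ρ a b => ?_,
        ρ, a, b, ?_⟩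
      · have : u.2 = s.2 := by simpa using (Prod.segment_subset _ _ hu).2
        rw [sep_prod, this, mul_comm]
        exact (mul_le_mul_of_nonneg_left (sep_le _ _ a.le) measureReal_nonneg).trans (hsm ρ a b).2
      · rw [sep_prod]
        exact (mul_le_mul_of_nonneg_left (sep_le _ _ a.le) measureReal_nonneg).trans t3
    · obtain ⟨t, t1, t2, ρ, a, b, t3⟩ := sep_t hB₂ ((hV' s hsV ρ₁ r1 r2).trans_le (not_lt.1 h))
        hη (half_pos hm)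
      refine ⟨(s.1, t), by simpa [Prod.dist_eq, r1.le] using t1, t2, fun u hu ρ a b => ?_,
        ρ, a, b, ?_⟩
      · have : u.1 = s.1 := by simpa using (Prod.segment_subset _ _ hu).1
        rw [sep_prod, this]
        exact (mul_le_mul_of_nonneg_left (sep_le _ _ a.le) measureReal_nonneg).trans (hsm ρ a b).1
      · rw [sep_prod, mul_comm]
        exact (mul_le_mul_of_nonneg_left (sep_le _ _ a.le) measureReal_nonneg).trans t3
  obtain ⟨Z, z1, z2, z3, z4⟩ := sep_chain (E := E) (R := 5 * r) (half_pos hm) (by linarith)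
    (by linarith) (by rintro u (rfl | rfl); exacts [hG _ hsH, hG _ g2]) g3 g4
  refine ⟨Z, z1, fun w hw => ?_, ⟨s, hsA, _, half_pos hm, z3⟩, z4⟩
  obtain ⟨w1, w2, w3, w4⟩ := z2 w hw
  exact ⟨w1, by linarith, by linarith [dist_triangle w.1 s p, mem_ball.1 hsp], w4⟩

/-- Write `s = (s₁, s₂) = Φ z`, `β_i(t, ρ)` = proportion of `B_i` in `(t - ρ, t + ρ)`, `D' = D ∩ ball x (K r)`.  Good set `G = {z | ∀ ρ ≤ K r, pr D' z ρ ≤ λ}`; `hl_weak` in `ℂ` bounds `Gᶜ` by `25 δ r²/λ`; let `H ⊇ Φ '' Gᶜ` be measurable of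
comparable measure; by Fubini and `hl_weak` on `ℝ` the sets of `s` whose vertical (horizontal) slice of `H` has maximal function `≥ θ/2` at `s` are small.  So there is `z ∈ SA ∩ ball x r \ D`, in `G`, outside these two sets, with `s_i` a density point of `B_iᶜ`
(`ae_dens`, Fubini).  `ρ₀ = 2 L r`: the square `ball s ρ₀ ⊇ Φ '' ball x r` contains measure `≥ (cπ - δ) r²/L` of `B₁ ×ˢ B₂`, so `max β_i(s_i, ρ₀) ≥ θ` for `θ` small.  Let `ρ'` be the first radius with `max(β₁, β₂) = θ` (continuity), say `β₂(s₂, ρ') = θ`, `β₁(s₁, ρ) ≤ θ`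
for `ρ ≤ ρ'`.  Pick `t ∈ B₂ ∩ (s₂ ± ρ')`, a density point of `B₂`, with `(s₁, t) ∉ H`; `z' = Φ.symm (s₁, t) ∈ G`.  Discs centred on `Φ.symm ({s₁} × [s₂, t])` of radius `ρ ≤ ρ'/L` have `pr SB ≤ (4L³/π) θ + pr D`.  `pr SA z ρ → 1`; `pr SA z' ρ < 1/2` for small `ρ`;
intermediate values as in `half` (radii at `z`, radii at `z'`, or sliding at radius `ρ'/L`, where `pr D ≤ (L² + 1)² λ` because the disc lies in `ball z (Lρ' + ρ'/L)`).  `K = 10 L²` keeps everything inside.  The case `β₁ = θ` is symmetric (swap coordinates). -/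
theorem sep (L c ε : ℝ) (hL : 1 ≤ L) (hc : 0 < c) (hε : 0 < ε) : ∃ (K δ : ℝ), 1 ≤ K ∧ 0 < δ ∧
    ∀ (Φ : ℂ ≃ₜ ℝ × ℝ) (x : ℂ) (r : ℝ) (SA SB D : Set ℂ) (B₁ B₂ : Set ℝ),
      (∀ z z', dist (Φ z) (Φ z') ≤ L * dist z z') → (∀ z z', dist z z' ≤ L * dist (Φ z) (Φ z')) →
      (∀ S : Set ℂ, volume (Φ '' S) ≤ ENNReal.ofReal L * volume S) →
      (∀ S : Set ℂ, volume S ≤ ENNReal.ofReal L * volume (Φ '' S)) →
      0 < r → MeasurableSet SA → MeasurableSet SB → MeasurableSet D → MeasurableSet B₁ →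
      MeasurableSet B₂ → (∀ z ∈ SA, Tendsto (pr SA z) (𝓝[>] 0) (𝓝 1)) →
      c ≤ pr SA x r → c ≤ pr SB x r → volume.real (D ∩ ball x (K * r)) ≤ δ * r ^ 2 →
      (∀ z ∈ ball x (K * r), z ∉ D → z ∈ SA → (Φ z).1 ∉ B₁ ∧ (Φ z).2 ∉ B₂) →
      (∀ z ∈ ball x (K * r), z ∉ D → z ∈ SB → (Φ z).1 ∈ B₁ ∧ (Φ z).2 ∈ B₂) →
      ∃ (z : ℂ) (ρ : ℝ), 0 < ρ ∧ ball z ρ ⊆ ball x (K * r) ∧ pr SA z ρ = 1 / 2 ∧ pr SB z ρ ≤ ε ∧
        pr D z ρ ≤ ε := by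
  have hL0 : 0 < L := one_pos.trans_le hL
  have hπ := Real.two_le_pi
  obtain ⟨δ, hδ, hpl⟩ := sep_plane (c := c / L ^ 3) (η := min ε (1 / 4) / L ^ 3) (by positivity)
    (by positivity)
  refine ⟨3 * L ^ 2 + 1, min δ c, le_add_of_nonneg_left (by positivity), lt_min hδ hc, ?_⟩
  intro Φ x r SA SB D B₁ B₂ l1 l2 m1 m2 hr hSA hSB hD hB₁ hB₂ hdens hA hB hDv h1 h2
  set K := 3 * L ^ 2 + 1 with hK
  have hrK : ball x r ⊆ ball x (K * r) :=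
    ball_subset_ball (le_mul_of_one_le_left hr.le (le_add_of_nonneg_left (by positivity)))
  have m3 : ∀ (S : Set ℂ) (T : Set (ℝ × ℝ)), volume T ≠ ⊤ → Φ '' S ⊆ T →
      volume.real S ≤ L * volume.real T := fun S T hT h => by
    have := ENNReal.toReal_mono (ENNReal.mul_ne_top ENNReal.ofReal_ne_top hT)
      ((m2 S).trans (mul_le_mul_right (measure_mono h) _))
    rwa [ENNReal.toReal_mul, ENNReal.toReal_ofReal hL0.le] at this
  have b1 : ∀ z z' ρ, z' ∈ ball z ρ → Φ z' ∈ ball (Φ z) (L * ρ) := fun z z' ρ h =>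
    (l1 _ _).trans_lt (mul_lt_mul_of_pos_left h hL0)
  have big : ∀ (S : Set ℂ) (T : Set (ℝ × ℝ)), c ≤ pr S x r → volume T ≠ ⊤ →
      Φ '' ((S ∩ ball x r) \ D) ⊆ T → c / L ^ 3 * (L * r) ^ 2 ≤ volume.real T := by
    intro S T hS hT h
    have a1 := (le_div_iff₀ (by positivity)).1 hS
    have a2 := m3 _ _ hT h
    have a3 := (measureReal_mono (μ := volume) (s₁ := S ∩ ball x r)
      (s₂ := (S ∩ ball x r) \ D ∪ D ∩ ball x (K * r))
      (fun z hz => (em (z ∈ D)).elim (fun h => Or.inr ⟨h, hrK hz.2⟩) fun h => Or.inl ⟨hz, h⟩)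
      (measure_union_ne_top (measure_ne_top_of_subset diff_subset (sep_fin _ _ _))
        (sep_fin _ _ _))).trans (measureReal_union_le _ _)
    have a4 := mul_le_mul_of_nonneg_right (min_le_right δ c) (sq_nonneg r)
    rw [show c / L ^ 3 * (L * r) ^ 2 = c * r ^ 2 / L by field_simp, div_le_iff₀' hL0]
    nlinarith [mul_pos hc (pow_pos hr 2)]
  have hsub : Φ '' ((SA ∩ ball x r) \ D) ⊆ B₁ᶜ ×ˢ B₂ᶜ ∩ ball (Φ x) (L * r) := by
    rintro _ ⟨z, ⟨⟨a, b⟩, d⟩, rfl⟩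
    exact ⟨h1 z (hrK b) d a, b1 _ _ _ b⟩
  obtain ⟨Z, z1, z2, ⟨_, ⟨z, ⟨⟨hz, -⟩, -⟩, rfl⟩, ρ', hρ', z3⟩, w', hw', z4⟩ :=
    hpl (Φ x) (L * r) _ (Φ '' (D ∩ ball x (K * r))) B₁ B₂ (by positivity)
    (Φ.measurableEmbedding.measurableSet_image' (hD.inter measurableSet_ball)) hB₁ hB₂
    ((m1 _).trans (by
      rw [← ofReal_measureReal (sep_fin D x _), ← ENNReal.ofReal_mul hL0.le]
      refine ENNReal.ofReal_le_ofReal ((mul_le_mul_of_nonneg_left (hDv.trans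
        (mul_le_mul_of_nonneg_right (min_le_left δ c) (sq_nonneg r))) hL0.le).trans ?_)
      nlinarith [mul_nonneg (mul_pos (mul_pos hδ (pow_pos hr 2)) hL0).le (sub_nonneg.2 hL)]))
    hsub (big SA _ hA (measure_ne_top_of_subset hsub (sep_fin _ _ _)) subset_rfl)
    (big SB _ hB (sep_fin _ _ _) (by
      rintro _ ⟨z, ⟨⟨a, b⟩, d⟩, rfl⟩
      exact ⟨h2 z (hrK b) d a, b1 _ _ _ b⟩))
  have hin : ∀ w ∈ Z, ball (Φ.symm w.1) (w.2 / L) ⊆ ball x (K * r) := fun w hw => by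
    obtain ⟨w1, w2, w3, -⟩ := z2 w hw
    have a1 := l2 (Φ.symm w.1) x
    rw [Φ.apply_symm_apply] at a1
    have a2 := (div_le_iff₀' hL0).2 w2
    exact ball_subset_ball' (by nlinarith)
  have small : ∀ w ∈ Z, ∀ (S : Set ℂ) (T : Set (ℝ × ℝ)),
      (∀ z ∈ ball x (K * r), z ∉ D → z ∈ S → Φ z ∈ T) →
      volume.real (T ∩ ball w.1 w.2) ≤ min ε (1 / 4) / L ^ 3 * w.2 ^ 2 →
      pr S (Φ.symm w.1) (w.2 / L) ≤ min ε (1 / 4) := by
    intro w hw S T hS hT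
    obtain ⟨w1, -, -, w4, -⟩ := z2 w hw
    have a1 := (m3 (S ∩ ball (Φ.symm w.1) (w.2 / L))
      (Φ '' (D ∩ ball x (K * r)) ∩ ball w.1 w.2 ∪ T ∩ ball w.1 w.2)
      (measure_union_ne_top (sep_fin _ _ _) (sep_fin _ _ _)) (by
        rintro _ ⟨z, ⟨a, b⟩, rfl⟩
        have := b1 _ _ _ b
        rw [Φ.apply_symm_apply, mul_div_cancel₀ _ hL0.ne'] at this
        exact (em (z ∈ D)).elim (fun h => Or.inl ⟨⟨z, ⟨h, hin w hw b⟩, rfl⟩, this⟩)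
          fun h => Or.inr ⟨hS z (hin w hw b) h a, this⟩)).trans
      (mul_le_mul_of_nonneg_left ((measureReal_union_le _ _).trans (add_le_add w4 hT)) hL0.le)
    rw [pr, div_le_iff₀ (by positivity)]
    refine a1.trans ?_
    rw [show L * (min ε (1 / 4) / L ^ 3 * w.2 ^ 2 + min ε (1 / 4) / L ^ 3 * w.2 ^ 2) =
      min ε (1 / 4) * (2 * (w.2 / L) ^ 2) by field_simp; ring]
    gcongr
  have hcont : ContinuousOn (fun w : (ℝ × ℝ) × ℝ => pr SA (Φ.symm w.1) (w.2 / L)) Z :=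
    (continuousOn_pr hSA).comp (f := fun w : (ℝ × ℝ) × ℝ => (Φ.symm w.1, w.2 / L))
      (Continuous.continuousOn (by fun_prop)) fun w hw => div_pos (z2 w hw).1 hL0
  obtain ⟨ρ, q1, q2, q3⟩ := (((hdens z hz).eventually_const_le (by norm_num : (1 : ℝ) / 2 < 1)).and
    (Ioc_mem_nhdsGT (div_pos hρ' hL0))).exists
  obtain ⟨w, hw, e⟩ := z1.intermediate_value hw'
    (z3 (L * ρ) (by positivity) ((le_div_iff₀' hL0).1 q3)) hcont (show 1 / 2 ∈ Icc _ _ from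
      ⟨(small w' hw' SA _ h1 z4).trans ((min_le_right _ _).trans (by norm_num)), by
        simpa only [Φ.symm_apply_apply, mul_div_cancel_left₀ _ hL0.ne'] using q1⟩)
  exact ⟨_, _, div_pos (z2 w hw).1 hL0, hin w hw, e,
    (small w hw SB _ h2 (z2 w hw).2.2.2.2).trans (min_le_left _ _),
    (small w hw D _ (fun _ _ a b => absurd b a) (z2 w hw).2.2.2.2).trans (min_le_left _ _)⟩

end Crest.Agent.R040

end
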