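import Crest.Agent.R040.Bas

/-! # Row 40, Step 2: almost linear charts -/

set_option autoImplicit false

open MeasureTheory Filter Topology Set Metric
open scoped Real

noncomputable section

namespace Crest.Agent.R040

theorem SepChart_vol {E F : Type*} [NormedAddCommGroup E] [NormedSpace ℝ E] [FiniteDimensional ℝ E]
    [MeasurableSpace E] [BorelSpace E] [NormedAddCommGroup F] [NormedSpace ℝ F]
    [FiniteDimensional ℝ F] [MeasurableSpace F] [BorelSpace F] (μ : Measure E) (ν : Measure F)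
    [μ.IsAddHaarMeasure] [ν.IsAddHaarMeasure] (hd : Module.finrank ℝ F = Module.finrank ℝ E)
    (K : NNReal) : ∃ C : NNReal, ∀ f : E → F, LipschitzWith K f → ∀ S, ν (f '' S) ≤ C * μ S := by
  obtain ⟨a, ha⟩ : ∃ a : NNReal, ν = a • μH[Module.finrank ℝ F] :=
    ⟨_, Measure.isAddLeftInvariant_eq_smul _ _⟩
  obtain ⟨b, hb⟩ : ∃ b : NNReal, μH[Module.finrank ℝ E] = b • μ :=
    ⟨_, Measure.isAddLeftInvariant_eq_smul _ _⟩
  refine ⟨a * K ^ Module.finrank ℝ E * b, fun f hf S => ?_⟩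
  have h := hf.hausdorffMeasure_image_le (d := Module.finrank ℝ E) (Nat.cast_nonneg _) S
  rw [hb, ENNReal.rpow_natCast] at h
  rw [ha, hd]
  simp only [Measure.coe_nnreal_smul_apply, ENNReal.coe_mul, ENNReal.coe_pow, mul_assoc] at h ⊢
  gcongr

/-- `A.symm ∘ Ψ` approximates the identity on the ball; extend it to a homeomorphism of `ℂ` that approximates the identity everywhere (`ApproximatesLinearOn.exists_homeomorph_extension`, or `LipschitzOnWith.extend_finite_dimension` for `Ψ - A`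
and `ApproximatesLinearOn.toHomeomorph`).  Both `Φ` and `Φ.symm` are `L`-Lipschitz.  Measure bounds: `Measure.addHaar_image_le_mul_of_det_lt` for maps approximating the identity and `addHaar_image_continuousLinearEquiv`/uniqueness of Haar measure
for `A`; or `LipschitzWith.hausdorffMeasure_image_le` with `μH[2]`, a Haar measure on both spaces (`Measure.isAddLeftInvariant_eq_smul`).  `ℝ × ℝ` has the sup norm. -/
theorem exists_chart (A : ℂ ≃L[ℝ] ℝ × ℝ) : ∃ (η : NNReal) (L : ℝ), 0 < η ∧ 1 ≤ L ∧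
    ∀ (Ψ : ℂ → ℝ × ℝ) (s : Set ℂ), ApproximatesLinearOn Ψ (A : ℂ →L[ℝ] ℝ × ℝ) s η →
      ∃ Φ : ℂ ≃ₜ ℝ × ℝ, EqOn Ψ Φ s ∧ (∀ z z', dist (Φ z) (Φ z') ≤ L * dist z z') ∧
        (∀ z z', dist z z' ≤ L * dist (Φ z) (Φ z')) ∧
        (∀ S : Set ℂ, volume (Φ '' S) ≤ ENNReal.ofReal L * volume S) ∧
        (∀ S : Set ℂ, volume S ≤ ENNReal.ofReal L * volume (Φ '' S)) := by
  set N : NNReal := ‖(A.symm : ℝ × ℝ →L[ℝ] ℂ)‖₊ with hN
  have hN0 : 0 < N := A.nnnorm_symm_pos
  have hκ := lipschitzExtensionConstant_pos (ℝ × ℝ)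
  set c : NNReal := N⁻¹ / 2 with hc
  have hc0 : 0 < c := by positivity
  have hcN : c < N⁻¹ := half_lt_self (by positivity)
  set K₁ : NNReal := ‖(A : ℂ →L[ℝ] ℝ × ℝ)‖₊ + c with hK₁
  set K₂ : NNReal := (N⁻¹ - c)⁻¹ with hK₂
  obtain ⟨C₁, hC₁⟩ := SepChart_vol (volume : Measure ℂ) (volume : Measure (ℝ × ℝ)) (by simp) K₁
  obtain ⟨C₂, hC₂⟩ := SepChart_vol (volume : Measure (ℝ × ℝ)) (volume : Measure ℂ) (by simp) K₂
  refine ⟨c / lipschitzExtensionConstant (ℝ × ℝ), ((1 + K₁ + K₂ + C₁ + C₂ : NNReal) : ℝ),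
    by positivity, ?_, fun Ψ s hf => ?_⟩
  · push_cast
    linarith [K₁.2, K₂.2, C₁.2, C₂.2]
  obtain ⟨u, hu, uf⟩ := hf.lipschitzOnWith.extend_finite_dimension
  rw [mul_div_cancel₀ _ hκ.ne'] at hu
  let g : ℂ → ℝ × ℝ := fun x => A x + u x
  have fg : EqOn Ψ g s := fun x hx => by
    simp only [g, ← uf hx, Pi.sub_apply, ContinuousLinearEquiv.coe_coe, add_sub_cancel]
  have hg : ApproximatesLinearOn g (A : ℂ →L[ℝ] ℝ × ℝ) univ c := by
    apply LipschitzOnWith.approximatesLinearOn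
    rw [lipschitzOnWith_univ]
    convert! hu
    ext x <;> simp [g]
  let Φ := hg.toHomeomorph g (Or.inr hcN)
  have h1 : LipschitzWith K₁ Φ := LipschitzWith.of_dist_le_mul fun z z' =>
    hg.lipschitz.dist_le_mul ⟨z, trivial⟩ ⟨z', trivial⟩
  have h2 : ∀ z z', dist z z' ≤ K₂ * dist (Φ z) (Φ z') := fun z z' =>
    (hg.antilipschitz (Or.inr hcN)).le_mul_dist ⟨z, trivial⟩ ⟨z', trivial⟩
  have h3 : LipschitzWith K₂ Φ.symm := LipschitzWith.of_dist_le_mul fun w w' => by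
    simpa using h2 (Φ.symm w) (Φ.symm w')
  refine ⟨Φ, fg, fun z z' => (h1.dist_le_mul z z').trans ?_, fun z z' => (h2 z z').trans ?_,
    fun S => (hC₁ Φ h1 S).trans ?_, fun S => ?_⟩
  · gcongr
    push_cast
    linarith [K₁.2, K₂.2, C₁.2, C₂.2]
  · gcongr
    push_cast
    linarith [K₁.2, K₂.2, C₁.2, C₂.2]
  · rw [ENNReal.ofReal_coe_nnreal]
    gcongr
    exact (le_add_self).trans le_self_add
  · have h4 := hC₂ Φ.symm h3 (Φ '' S)
    rw [image_image] at h4
    simp only [Homeomorph.symm_apply_apply, image_id'] at h4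
    refine h4.trans ?_
    rw [ENNReal.ofReal_coe_nnreal]
    gcongr
    exact le_add_self

end Crest.Agent.R040

end
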