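import Crest.Agent.R040.LinkL
import Crest.Agent.R040.Sep
import Crest.Agent.R040.SepChart
import Crest.Agent.R040.AsepU

/-! # Row 40, Step 2: linked colours are separated in at most one direction -/

set_option autoImplicit false

open MeasureTheory Filter Topology Set Metric
open scoped Real

noncomputable section

namespace Crest.Agent.R040

theorem nosep_equiv {e₁ e₂ : ℂ} (h : cr e₁ e₂ ≠ 0) : ∃ A : ℂ ≃L[ℝ] ℝ × ℝ, ∀ z : ℂ,
    A z = (e₁.re * z.re + e₁.im * z.im, e₂.re * z.re + e₂.im * z.im) := by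
  let A : ℂ ≃ₗ[ℝ] ℝ × ℝ :=
    { toFun := fun z => (e₁.re * z.re + e₁.im * z.im, e₂.re * z.re + e₂.im * z.im)
      map_add' := fun z w => by ext <;> simp <;> ring
      map_smul' := fun t z => by ext <;> simp <;> ring
      invFun := fun p => ⟨(e₂.im * p.1 - e₁.im * p.2) / cr e₁ e₂,
        (e₁.re * p.2 - e₂.re * p.1) / cr e₁ e₂⟩
      left_inv := fun z => by
        refine Complex.ext ?_ ?_ <;> simp only <;> rw [div_eq_iff h, cr] <;> ring
      right_inv := fun p => by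
        refine Prod.ext ?_ ?_ <;> simp only <;> field_simp <;> rw [cr] <;> ring }
  exact ⟨A.toContinuousLinearEquiv, fun z => rfl⟩

theorem nosep_fin (S : Set ℂ) (x : ℂ) (r : ℝ) : volume (S ∩ ball x r) ≠ ⊤ :=
  ((measure_mono inter_subset_right).trans_lt measure_ball_lt_top).ne

theorem nosep_dens {U : Set ℝ} {t : ℝ} (h : Dens U t) :
    ∀ s > (0 : ℝ), volume (U ∩ Ioo (t - s) (t + s)) ≠ 0 := fun s hs h0 => by
  obtain ⟨s', h1, h2⟩ := ((h.eventually (lt_mem_nhds one_pos)).and (Ioo_mem_nhdsGT hs)).exists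
  have h3 : volume (U ∩ Ioo (t - s') (t + s')) = 0 := measure_mono_null
    (inter_subset_inter_right _ (Ioo_subset_Ioo (by linarith [h2.2]) (by linarith [h2.2]))) h0
  simp [Measure.real, h3] at h1

/-- `A z = (⟪e₁, z⟫, ⟪e₂, z⟫)` is a linear equivalence (`cr ≠ 0`); `exists_chart`, `sep` with `c = min (1/2) (c₀/2)`, `ε = c₀/4`, `SA = D a`, `SB = D b`, `D = E₁ ∪ E₂ ∪ R`, `Ψ = (ψ₁, ψ₂)`; the resulting window contradicts the second clause of `Link`
(take `K r` and `‖x - v‖` below `δ₀/2`). -/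
theorem MCol.not_sep {c : MCol} {v : ℂ} {a b : Fin 5} (h : c.Link v a b) {e₁ e₂ : ℂ}
    (h₁ : c.ASep v a b e₁) (h₂ : c.ASep v a b e₂) (hcr : cr e₁ e₂ ≠ 0) : False := by
  obtain ⟨-, R, c₀, hR, hc₀, hw, δ₀, hδ₀, hl⟩ := h
  obtain ⟨A, hA⟩ := nosep_equiv hcr
  obtain ⟨η, L, hη, hL, hch⟩ := exists_chart A
  obtain ⟨K, δ, hK, hδ, hsep⟩ := sep L (min (1 / 2) (c₀ / 2)) (c₀ / 4) hL (by positivity)
    (by positivity)
  have hη' : 0 < min (η : ℝ) (δ / 4) := lt_min hη (by positivity)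
  obtain ⟨δ₁, hδ₁, h₁⟩ := h₁ _ hη' K hK
  obtain ⟨δ₂, hδ₂, h₂⟩ := h₂ _ hη' K hK
  have hK0 : 0 < K := by linarith
  have hπ := Real.pi_pos
  obtain ⟨δ', hδ', a1, a2, a3, a4, a5⟩ : ∃ δ' > (0 : ℝ), δ' ≤ δ₁ ∧ δ' ≤ δ₂ ∧ (K + 1) * δ' ≤ δ₀ ∧
      π * K ^ 2 * δ' ≤ δ / 2 ∧ K ^ 2 * δ' ≤ c₀ / 2 := by
    refine ⟨min (min δ₁ δ₂) (min (δ₀ / (K + 1)) (min (δ / 2 / (π * K ^ 2)) (c₀ / 2 / K ^ 2))),
      by positivity, (min_le_left _ _).trans (min_le_left _ _),
      (min_le_left _ _).trans (min_le_right _ _), ?_, ?_, ?_⟩ <;>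
      rw [← le_div_iff₀' (by positivity)] <;> refine (min_le_right _ _).trans ?_
    · exact min_le_left _ _
    · exact (min_le_right _ _).trans (min_le_left _ _)
    · exact (min_le_right _ _).trans (min_le_right _ _)
  obtain ⟨x, r, hx, hr, hr', hpa, hpR⟩ := hw K hK δ' hδ'
  have hKr : 0 < K * r := by positivity
  have hKδ : K * r < K * δ' := by gcongr
  have hKδ' : 0 < K * δ' := by positivity
  obtain ⟨ψ₁, B₁, E₁, mB₁, mE₁, l₁, v₁, p₁, q₁⟩ := h₁ x r (hx.trans_le a1) hr (hr'.trans_le a1)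
  obtain ⟨ψ₂, B₂, E₂, mB₂, mE₂, l₂, v₂, p₂, q₂⟩ := h₂ x r (hx.trans_le a2) hr (hr'.trans_le a2)
  obtain ⟨Φ, hΦ, f1, f2, f3, f4⟩ := hch (fun z => (ψ₁ z, ψ₂ z)) (ball x (K * r)) (by
    intro z hz z' hz'
    have e : min (η : ℝ) (δ / 4) * ‖z - z'‖ ≤ η * ‖z - z'‖ := by gcongr; exact min_le_left _ _
    rw [ContinuousLinearEquiv.coe_coe, hA, Prod.mk_sub_mk, Prod.mk_sub_mk, Prod.norm_mk]
    exact max_le ((l₁ z hz z' hz').trans e) ((l₂ z hz z' hz').trans e))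
  have hb : c₀ / 2 ≤ pr (c.D b) x r := by
    have h3 := hl x r (by linarith) hr (by linarith) hpa
    have h4 := pr_sub R hr hKr (ball_subset_ball (x := x) (le_mul_of_one_le_left hr.le hK))
    have h5 : pr R x r ≤ K ^ 2 * pr R x (K * r) :=
      le_of_mul_le_mul_left (h4.trans_eq (by ring)) (pow_pos hr 2)
    have h6 : K ^ 2 * pr R x (K * r) ≤ K ^ 2 * δ' := by gcongr
    linarith
  have hD : volume.real ((E₁ ∪ E₂ ∪ R) ∩ ball x (K * r)) ≤ δ * r ^ 2 := by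
    rw [union_inter_distrib_right, union_inter_distrib_right]
    have h3 := measureReal_union_le (μ := volume) (E₁ ∩ ball x (K * r) ∪ E₂ ∩ ball x (K * r))
      (R ∩ ball x (K * r))
    have h4 := measureReal_union_le (μ := volume) (E₁ ∩ ball x (K * r)) (E₂ ∩ ball x (K * r))
    have h5 : min (η : ℝ) (δ / 4) * r ^ 2 ≤ δ / 4 * r ^ 2 := by gcongr; exact min_le_right _ _
    rw [pr, div_lt_iff₀ (by positivity)] at hpR
    have h6 : π * K ^ 2 * δ' * r ^ 2 ≤ δ / 2 * r ^ 2 := by gcongr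
    nlinarith
  obtain ⟨z, ρ, hρ, hsub, g1, g2, g3⟩ := hsep Φ x r (c.D a) (c.D b) (E₁ ∪ E₂ ∪ R) B₁ B₂ f1 f2 f3 f4 hr
    (c.meas a) (c.meas b) ((mE₁.union mE₂).union hR) mB₁ mB₂ (c.dens a)
    ((min_le_left _ _).trans hpa.ge) ((min_le_right _ _).trans hb) hD
    (fun z hz hD hz' => by
      rw [← hΦ hz]
      exact ⟨p₁ z hz (fun h => hD (Or.inl (Or.inl h))) hz',
        p₂ z hz (fun h => hD (Or.inl (Or.inr h))) hz'⟩)
    (fun z hz hD hz' => by
      rw [← hΦ hz]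
      exact ⟨q₁ z hz (fun h => hD (Or.inl (Or.inl h))) hz',
        q₂ z hz (fun h => hD (Or.inl (Or.inr h))) hz'⟩)
  have hρ' : ρ ≤ K * r := by
    have h3 := measureReal_mono (μ := volume) hsub measure_ball_lt_top.ne
    rw [volume_real_ball _ hρ.le, volume_real_ball _ hKr.le] at h3
    exact (pow_le_pow_iff_left₀ hρ.le hKr.le two_ne_zero).1 (le_of_mul_le_mul_left h3 hπ)
  have hz : ‖z - v‖ < δ₀ := by
    have h3 := mem_ball_iff_norm.1 (hsub (mem_ball_self hρ))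
    have h4 := norm_sub_le_norm_sub_add_norm_sub z x v
    linarith
  have h3 := hl z ρ hz hρ (by linarith) g1
  have h4 : pr R z ρ ≤ pr (E₁ ∪ E₂ ∪ R) z ρ := pr_mono z ρ fun w hw => Or.inr hw.1
  linarith

/-- a set of positive measure has two density points that differ modulo `π` (`ae_dens`); `asep_of_U` -/
theorem MCol.U_null {c : MCol} {v : ℂ} {a b : Fin 5} (h : c.Link v a b) : volume (c.U v a b) = 0 := by
  by_contra h0
  have hd := ae_dens (c.measurableSet_U v a b)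
  obtain ⟨t₁, m₁, d₁⟩ := Measure.exists_mem_of_measure_ne_zero_of_ae h0 (ae_restrict_of_ae hd)
  obtain ⟨t₂, m₂, d₂, n₂⟩ := Measure.exists_mem_of_measure_ne_zero_of_ae h0 (ae_restrict_of_ae
    (hd.and ((Set.countable_range fun n : ℤ => t₁ + n * π).ae_notMem volume)))
  refine MCol.not_sep h (c.asep_of_U v a b t₁ (nosep_dens (d₁ m₁)))
    (c.asep_of_U v a b t₂ (nosep_dens (d₂ m₂))) fun h1 => n₂ ?_
  rw [cr_cis, Real.sin_eq_zero_iff] at h1
  obtain ⟨n, hn⟩ := h1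
  exact ⟨n, by simp only; linarith⟩

end Crest.Agent.R040

end
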