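import Crest.Agent.R040.EtBasic
import Crest.Agent.R040.Bochner

/-! # Row 40, Step 1: the spectral measure of `z ↦ ∫ w |ẽ_z|²` -/

set_option autoImplicit false

open MeasureTheory Filter Topology Set

noncomputable section

namespace Crest.Agent.R040

/-- the quotient `χ' conj χ''` of two characters -/
def nuDiv (p : X × X) : X :=
  ⟨fun z => p.1.1 z * (starRingEnd ℂ) (p.2.1 z), fun z => by
    rw [norm_mul, Complex.norm_conj, p.1.2.1, p.2.2.1, one_mul], fun a b => by
    show p.1.1 (a + b) * (starRingEnd ℂ) (p.2.1 (a + b)) = _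
    rw [p.1.2.2, p.2.2.2, map_mul]; ring⟩

theorem nuDiv_continuous : Continuous nuDiv :=
  Continuous.subtype_mk (continuous_pi fun z =>
    ((ch_continuous z).comp continuous_fst).mul
      (Complex.continuous_conj.comp ((ch_continuous z).comp continuous_snd))) _

theorem nu_integrable {Y : Type} [MeasurableSpace Y] (m : Measure Y) [IsFiniteMeasure m] (f : Y → X)
    (hf : Measurable f) (z : K) : Integrable (fun y => (f y).1 z) m :=
  Integrable.of_bound ((ch_measurable z).comp hf).aestronglyMeasurable 1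
    (Eventually.of_forall fun y => ((f y).2.1 z).le)

open ProbabilityTheory in
/-- `bochner`.  Positivity: `∫ w ‖ẽ_z‖² = ∫ w ẽ_z conj(e_z)` (pull-out), so `∑ c_a c_b φ(a - b) = ∫ w ∑ (c_a conj e_a)(c_b e_b) ẽ_{a-b}`, and for a.e. `χ` the matrix `ẽ_{a-b}(χ)`, `a, b ∈ s`, is positive
semidefinite: for Gaussian rational coefficients `∑ d_a conj(d_b) ẽ_{a-b} = E(‖∑ d_a e_a‖² | tail) ≥ 0` a.e.; countably many, then density.
(Alternative without Bochner: `condExpKernel μ tail` and the image of `κ χ ⊗ κ χ` under `(χ', χ'') ↦ χ' conj χ''`.) -/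
theorem exists_nu (μ : Measure X) [IsFiniteMeasure μ] (w : X → ℝ) (hw : StronglyMeasurable[tail] w)
    (h01 : ∀ᵐ χ ∂μ, 0 ≤ w χ ∧ w χ ≤ 1) :
    ∃ ν : Measure X, IsFiniteMeasure ν ∧
      ∀ z : K, ∫ ψ : X, ψ.1 z ∂ν = ((∫ χ, w χ * ‖et μ z χ‖ ^ 2 ∂μ : ℝ) : ℂ) := by
  have hwm : Measurable w := (hw.mono tail_le).measurable
  let κ : Kernel X X := Kernel.comap (condExpKernel μ tail) id (measurable_id'' tail_le)
  haveI : IsMarkovKernel κ := Kernel.IsMarkovKernel.comap _ _
  let μw : Measure X := μ.withDensity fun χ => ENNReal.ofReal (w χ)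
  haveI : IsFiniteMeasure μw := by
    apply isFiniteMeasure_withDensity_ofReal
    exact (Integrable.of_bound hwm.aestronglyMeasurable 1 (h01.mono fun χ h => by
      rw [Real.norm_eq_abs, abs_of_nonneg h.1]; exact h.2)).2
  have hm : Measurable fun p : X × (X × X) => nuDiv p.2 :=
    nuDiv_continuous.measurable.comp measurable_snd
  refine ⟨(μw ⊗ₘ (κ ×ₖ κ)).map fun p => nuDiv p.2, inferInstance, fun z => ?_⟩
  rw [integral_map hm.aemeasurable (ch_measurable z).aestronglyMeasurable,
    Measure.integral_compProd (nu_integrable _ _ hm z),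
    integral_withDensity_eq_integral_toReal_smul hwm.ennreal_ofReal
      (Eventually.of_forall fun _ => ENNReal.ofReal_lt_top), ← integral_complex_ofReal]
  have he : et μ z =ᵐ[μ] fun χ => ∫ ψ : X, ψ.1 z ∂(condExpKernel μ tail χ) :=
    condExp_ae_eq_integral_condExpKernel tail_le (nu_integrable μ id measurable_id z)
  refine integral_congr_ae ?_
  filter_upwards [he, h01] with χ h1 h2
  have h3 : ∫ p : X × X, (nuDiv p).1 z ∂((κ ×ₖ κ) χ) = et μ z χ * (starRingEnd ℂ) (et μ z χ) := by
    rw [Kernel.prod_apply, h1]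
    have := integral_prod_mul (μ := κ χ) (ν := κ χ) (fun ψ : X => ψ.1 z)
      (fun ψ : X => (starRingEnd ℂ) (ψ.1 z))
    rw [integral_conj] at this
    exact this
  rw [h3, ENNReal.toReal_ofReal h2.1, Complex.mul_conj, Complex.normSq_eq_norm_sq]
  simp

end Crest.Agent.R040

end
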