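import Crest.Agent.R040.Ann

/-! # Row 40, Step 2: separation along the pencil at a singular direction -/

set_option autoImplicit false

open MeasureTheory Filter Topology Set Metric
open scoped Real

noncomputable section

namespace Crest.Agent.R040

theorem pencil_period {P : ℂ → Prop} (h : ∀ᵐ γ : ℝ, γ ∈ Ioc 0 (0 + 2 * π) → P (cis γ)) :
    ∀ᵐ γ : ℝ, P (cis γ) := by
  have hper : Function.Periodic cis (2 * π) := cis_add_two_pi
  filter_upwards [ae_all_iff.2 fun n : ℤ => ae_shift h (-(n • (2 * π)))] with γ hγ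
  have h1 := hγ (toIocDiv Real.two_pi_pos 0 γ)
    (by rw [← sub_eq_add_neg]; exact sub_toIocDiv_zsmul_mem_Ioc _ _ _)
  rwa [← sub_eq_add_neg, hper.sub_zsmul_eq] at h1

theorem pencil_side (c : MCol) (v : ℂ) (a b m d e : Fin 5)
    (hall : ∀ k, k = a ∨ k = b ∨ k = m ∨ k = d ∨ k = e) (t : ℝ) {δ : ℝ} (hδ : 0 < δ) (hδπ : δ ≤ π)
    (hm : ∀ z, ‖z - (v + cis t)‖ < 2 * δ → z ∉ c.D m)
    (hd : ∀ s > (0 : ℝ), volume ({α | c.N (v + cis α) d} ∩ Ioo (t + π / 3 - s) (t + π / 3 + s)) ≠ 0) :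
    ∀ᵐ α : ℝ, α ∈ Ioo (t - π / 3 - δ) (t - π / 3 + δ) → c.N (v + cis α) e →
      c.N (v + cis (t + π / 3) + cis α) a ∨ c.N (v + cis (t + π / 3) + cis α) b := by
  set w := v + cis (t + π / 3) with hw
  set a₀ := t - π / 3 - π with ha₀
  let E : Fin 5 → ℂ → Set (ℝ × ℝ) := fun k x =>
    {p | p.1 ∈ Ioc a₀ (a₀ + 2 * π) ∧ p.2 ∈ Ioc 0 (0 + 2 * π) ∧
      ¬ (x + cis p.1 + cis p.2 ∈ c.D k ↔ w + cis p.1 + cis p.2 ∈ c.D k)}
  have hE : ∀ k x, volume (E k x) ≠ ⊤ := fun k x => by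
    refine ne_top_of_le_ne_top ?_ (measure_mono (t := Ioc a₀ (a₀ + 2 * π) ×ˢ Ioc 0 (0 + 2 * π))
      fun p hp => ⟨hp.1, hp.2.1⟩)
    rw [Measure.volume_eq_prod, Measure.prod_prod]
    exact ENNReal.mul_ne_top measure_Ioc_lt_top.ne measure_Ioc_lt_top.ne
  have hex : ∀ n : ℕ, ∃ α : ℝ, c.N (v + cis α) d ∧ |α - (t + π / 3)| < δ ∧
      (∀ k, volume (E k (v + cis α)) ≤ ENNReal.ofReal ((1 / 2) ^ n)) ∧
      ∀ᵐ β : ℝ, (∃ k, v + cis α + cis β ∈ c.D k) ∧
        ∀ k, c.N (v + cis β) k → v + cis α + cis β ∉ c.D k := by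
    intro n
    have h1 : ∀ᶠ x in 𝓝 w, ∀ k, volume.real (E k x) < (1 / 2) ^ n := eventually_all.2 fun k => by
      obtain ⟨η, hη, h⟩ := sum_translate (c.meas k) w a₀ 0 (ε := (1 / 2) ^ n) (by positivity)
      exact Metric.eventually_nhds_iff.2 ⟨η, hη, fun x hx => h x (by rwa [← dist_eq_norm])⟩
    have h2 : Tendsto (fun α => v + cis α) (𝓝 (t + π / 3)) (𝓝 w) :=
      (continuous_const.add continuous_cis).tendsto _
    obtain ⟨s, hs, h3⟩ := Metric.eventually_nhds_iff.1 (h2.eventually h1)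
    obtain ⟨α, ⟨h4, h5⟩, h6⟩ := Measure.exists_mem_of_measure_ne_zero_of_ae
      (hd (min s δ) (lt_min hs hδ)) (ae_restrict_of_ae (c.ae_list v))
    have h7 : |α - (t + π / 3)| < min s δ := abs_lt.2 ⟨by linarith [h5.1], by linarith [h5.2]⟩
    refine ⟨α, h4, h7.trans_le (min_le_right _ _), fun k => ?_, h6⟩
    rw [← ofReal_measureReal (hE k _)]
    exact ENNReal.ofReal_le_ofReal (h3 (h7.trans_le (min_le_left _ _)) k).le
  choose α hαd hαδ hαE hαg using hex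
  have hBC : ∀ k, ∀ᵐ p : ℝ × ℝ, ∀ᶠ n in atTop, p ∉ E k (v + cis (α n)) := fun k =>
    ae_eventually_notMem (ne_top_of_le_ne_top
      (summable_geometric_two.tsum_ofReal_ne_top) (ENNReal.tsum_le_tsum fun n => hαE n k))
  have hF := Measure.ae_ae_of_ae_prod (μ := volume) (ν := volume) (ae_all_iff.2 hBC)
  filter_upwards [hF, ae_all_iff.2 hαd, ae_all_iff.2 hαg] with β h1 h2 h3 hβ hβe
  have hβ' : β ∈ Ioc a₀ (a₀ + 2 * π) := ⟨by linarith [hβ.1], by linarith [hβ.2]⟩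
  have key : ∀ k, (∃ᶠ n in atTop, v + cis (α n) + cis β ∈ c.D k) → c.N (w + cis β) k := by
    intro k hk
    refine pencil_period (P := fun z => w + cis β + z ∉ c.D k) ?_
    filter_upwards [h1] with γ hγ hγ'
    obtain ⟨n, h4, h5⟩ := (hk.and_eventually (hγ k)).exists
    have h6 : v + cis (α n) + cis β + cis γ ∈ c.D k ↔ w + cis β + cis γ ∈ c.D k := by
      by_contra h
      exact h5 ⟨hβ', hγ', h⟩
    exact fun h => c.N_of_mem h4 γ (h6.2 h)
  have hab : ∀ n, v + cis (α n) + cis β ∈ c.D a ∨ v + cis (α n) + cis β ∈ c.D b := by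
    intro n
    obtain ⟨k, hk⟩ := (h3 n).1
    rcases hall k with rfl | rfl | rfl | rfl | rfl
    · exact Or.inl hk
    · exact Or.inr hk
    · refine absurd hk (hm _ ?_)
      have e1 : v + cis (α n) + cis β - (v + cis t) =
          (cis (α n) - cis (t + π / 3)) + (cis β - cis (t - π / 3)) := by
        rw [← cis_hex t]; ring
      have e2 : |β - (t - π / 3)| < δ := abs_lt.2 ⟨by linarith [hβ.1], by linarith [hβ.2]⟩
      rw [e1]
      linarith [norm_add_le (cis (α n) - cis (t + π / 3)) (cis β - cis (t - π / 3)),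
        norm_cis_sub (α n) (t + π / 3), norm_cis_sub β (t - π / 3), hαδ n]
    · exact absurd hk (h2 n)
    · exact absurd hk ((h3 n).2 _ hβe)
  exact (frequently_or_distrib.1 (Frequently.of_forall hab)).imp (key a) (key b)

/-- `δ` from `not_P`.  Choose `α_n, β_n → t + π/3`, generic for `ae_list`, with `N (v + cis α_n) d`, `N (v + cis β_n) e`.  For a.e. `α'` near `t - π/3`: if `N (v + cis α') e` then `y = v + cis α_n + cis α'` is coloured, not `d`, `e`, `m` (`cis_hex`: `y` is near `v + cis t`), so it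
lies in `D a ∪ D b`; otherwise use `β_n`.  `F_k(x, α') = |{γ ∈ Ioc 0 2π | x + cis α' + cis γ ∈ D k}|`; `y ∈ D a` gives `F_a(v + cis α_n, α') = 0`.  So `min(F_a, F_b)(w, α') ≤ ∑ |F(v + cis α_n, α') - F(w, α')| + ∑ |F(v + cis β_n, α') - F(w, α')|`, whose integral
tends to `0` by `sum_translate` at `w = v + cis (t + π/3)`. -/
theorem MCol.pencil (c : MCol) (v : ℂ) (a b m d e : Fin 5)
    (hall : ∀ k, k = a ∨ k = b ∨ k = m ∨ k = d ∨ k = e) (t : ℝ)
    (hde : ∀ᵐ θ : ℝ, c.N (v + cis θ) d ∨ c.N (v + cis θ) e) (hm : ¬ c.P (v + cis t) m)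
    (hd : ∀ s > (0 : ℝ), volume ({α | c.N (v + cis α) d} ∩ Ioo (t + π / 3 - s) (t + π / 3 + s)) ≠ 0)
    (he : ∀ s > (0 : ℝ), volume ({α | c.N (v + cis α) e} ∩ Ioo (t + π / 3 - s) (t + π / 3 + s)) ≠ 0) :
    ∃ s > (0 : ℝ), ∀ᵐ α : ℝ, α ∈ Ioo (t - π / 3 - s) (t - π / 3 + s) →
      c.N (v + cis (t + π / 3) + cis α) a ∨ c.N (v + cis (t + π / 3) + cis α) b := by
  obtain ⟨δ, hδ, h, -⟩ := c.not_P hm
  have h1 : 0 < min δ π := lt_min hδ Real.pi_pos
  have h2 : ∀ z, ‖z - (v + cis t)‖ < 2 * min δ π → z ∉ c.D m := fun z hz =>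
    h z (by linarith [min_le_left δ π])
  refine ⟨min δ π, h1, ?_⟩
  filter_upwards [hde, pencil_side c v a b m d e hall t h1 (min_le_right _ _) h2 hd,
    pencil_side c v a b m e d (fun k => by have := hall k; tauto) t h1 (min_le_right _ _) h2 he]
    with α h3 h4 h5 hα
  exact h3.elim (h5 hα) (h4 hα)

end Crest.Agent.R040

end
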