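import Crest.Agent.R040.Defs1

/-! # Row 40, Step 1: a uniformly continuous predictor -/

set_option autoImplicit false

open MeasureTheory Filter Topology Set

noncomputable section

namespace Crest.Agent.R040

/-- `sig S` is the comap of the product σ-algebra under `res : X → Y`, `Y = S → closedBall (0:ℂ) 1` (compact metrizable, Borel = product; `MeasurableSpace.pi` and `comap_iSup`, `comap_comp`).  Doob–Dynkin
(`StronglyMeasurable.exists_eq_measurable_comp` / `Measurable.exists_eq_measurable_comp`) gives `e_1 = F ∘ res` a.e.; approximate `F` in measure for `μ.map res` by a continuous `G₀`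
(`Integrable.exists_boundedContinuous_lintegral_sub_le` or `MemLp.exists_boundedContinuous_eLpNorm_sub_le`, then Markov).  `G₀` is uniformly continuous for the product uniformity: finitely many coordinates and one `η`
(compactness argument: the open sets `{(y,y') | ‖G₀ y - G₀ y'‖ < 1/10}` and `{∃ b, y b ≠ y' b}` cover `Y × Y`). -/
theorem predictor (μ : Measure X) [IsFiniteMeasure μ] (S : Set K)
    (h : AEStronglyMeasurable[sig S] (fun χ : X => χ.1 1) μ) (ε : ℝ) (hε : 0 < ε) :
    ∃ (B : Finset K) (η : ℝ) (G : X → ℂ), 0 < η ∧ (∀ b ∈ B, b ∈ S) ∧ Measurable G ∧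
      (∀ χ χ' : X, (∀ b ∈ B, ‖χ.1 b - χ'.1 b‖ ≤ η) → ‖G χ - G χ'‖ ≤ 1 / 10) ∧
      μ.real {χ : X | 1 / 10 < ‖χ.1 1 - G χ‖} ≤ ε := by
  classical
  let res : X → S → ℂ := fun χ z => χ.1 z
  have rc : Continuous res := continuous_pi fun z => ch_continuous _
  have hle : sig S ≤ MeasurableSpace.pi.comap res := iSup₂_le fun z hz =>
    ((measurable_pi_apply (⟨z, hz⟩ : S)).comp (comap_measurable res)).comap_le
  obtain ⟨F, hF, e⟩ := (h.stronglyMeasurable_mk.mono hle).exists_eq_measurable_comp
  have ae : (fun χ : X => χ.1 1) =ᵐ[μ] F ∘ res := e ▸ h.ae_eq_mk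
  have i1 : Integrable (fun χ : X => χ.1 1) μ :=
    (integrable_const (1 : ℝ)).mono' (ch_measurable 1).aestronglyMeasurable
      (.of_forall fun χ => (χ.2.1 1).le)
  have i2 : Integrable F (μ.map res) :=
    (integrable_map_measure hF.aestronglyMeasurable rc.measurable.aemeasurable).2 (i1.congr ae)
  obtain ⟨g, hg, i3⟩ := i2.exists_boundedContinuous_integral_sub_le (ε := ε / 10) (by positivity)
  have gc : Continuous fun χ => g (res χ) := g.continuous.comp rc
  obtain ⟨t, ht⟩ := (isClosed_le (f := fun _ : X × X => (1 / 10 : ℝ))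
    (g := fun p => ‖g (res p.1) - g (res p.2)‖) continuous_const
    (by fun_prop)).isCompact.elim_finite_subcover
    (fun q : S × ℕ => {p : X × X | 1 / ((q.2 : ℝ) + 1) < ‖res p.1 q.1 - res p.2 q.1‖})
    (fun q => isOpen_lt continuous_const (by fun_prop)) fun p hp => by
      have : res p.1 ≠ res p.2 := fun e => by
        rw [mem_ofPred_eq, e] at hp
        norm_num at hp
      obtain ⟨b, hb⟩ := Function.ne_iff.1 this
      obtain ⟨n, hn⟩ := exists_nat_one_div_lt (norm_pos_iff.2 (sub_ne_zero.2 hb))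
      exact mem_iUnion.2 ⟨(b, n), hn⟩
  refine ⟨t.image fun q => q.1.1, 1 / ((t.sup Prod.snd : ℕ) + 1), fun χ => g (res χ), by positivity,
    fun b hb => ?_, gc.measurable, fun χ χ' hχ => ?_, ?_⟩
  · obtain ⟨q, -, rfl⟩ := Finset.mem_image.1 hb
    exact q.1.2
  · by_contra hn
    obtain ⟨q, hq, hq'⟩ := mem_iUnion₂.1 (ht (show (χ, χ') ∈ _ from (not_le.1 hn).le))
    exact hq'.not_ge ((hχ _ (Finset.mem_image_of_mem _ hq)).trans
      (Nat.one_div_le_one_div (Finset.le_sup (f := Prod.snd) hq)))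
  · have i4 : Integrable (fun χ : X => ‖χ.1 1 - g (res χ)‖) μ :=
      (i1.sub (i3.comp_measurable rc.measurable)).norm
    have h1 := mul_meas_ge_le_integral_of_nonneg (.of_forall fun χ => norm_nonneg _) i4 (1 / 10)
    rw [integral_map (f := fun x => ‖F x - g x‖) rc.measurable.aemeasurable
      (i2.sub i3).norm.aestronglyMeasurable] at hg
    have h2 : ∫ χ, ‖χ.1 1 - g (res χ)‖ ∂μ = ∫ χ, ‖F (res χ) - g (res χ)‖ ∂μ :=
      integral_congr_ae (ae.mono fun χ hχ => congrArg (fun a => ‖a - g (res χ)‖) hχ)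
    have h3 : μ.real {χ : X | 1 / 10 < ‖χ.1 1 - g (res χ)‖} ≤
        μ.real {χ : X | 1 / 10 ≤ ‖χ.1 1 - g (res χ)‖} :=
      measureReal_mono (ofPred_subset_ofPred.2 fun χ => le_of_lt)
    linarith

end Crest.Agent.R040

end
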