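import Crest.Agent.R040.Dich
import Crest.Agent.R040.Determ
import Crest.Agent.R040.Bochner
import Crest.Agent.R040.EtBasic
import Crest.Agent.R040.Uniq

/-! # Row 40, Step 1: rigidity of rotation invariant spectral measures -/

set_option autoImplicit false

open MeasureTheory Filter Topology Set

noncomputable section

namespace Crest.Agent.R040

theorem rigid_int {E : Type} [NormedAddCommGroup E] (ν : Measure X) [IsFiniteMeasure ν] {f : X → E}
    (hf : Continuous f) : Integrable f ν :=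
  hf.integrable_of_hasCompactSupport (HasCompactSupport.of_compactSpace f)

theorem rigid_disc (ν : Measure X) [IsFiniteMeasure ν] (hU : UInv ν) {b z : K} (hb : b ≠ 0)
    (hz : ‖z‖ ≤ 2 * ‖b‖) : ∫ χ : X, ‖1 - χ.1 z‖ ^ 2 ∂ν ≤ 4 * ∫ χ : X, ‖1 - χ.1 b‖ ^ 2 ∂ν := by
  obtain ⟨v₁, v₂, h1, h2, rfl⟩ := disc b z hb hz
  have hc : ∀ a : K, Continuous fun χ : X => ‖1 - χ.1 a‖ ^ 2 := fun a =>
    (continuous_const.sub (ch_continuous a)).norm.pow 2
  have h3 : ∀ v : K, ‖v‖ = 1 → ∫ χ : X, ‖1 - χ.1 (v * b)‖ ^ 2 ∂ν = ∫ χ : X, ‖1 - χ.1 b‖ ^ 2 ∂ν := by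
    intro v hv
    conv_rhs => rw [← (hU v hv).map_eq]
    rw [integral_map (rot_measurable v).aemeasurable (hc b).aestronglyMeasurable]
    rfl
  calc _ ≤ ∫ χ : X, (2 * ‖1 - χ.1 (v₁ * b)‖ ^ 2 + 2 * ‖1 - χ.1 (v₂ * b)‖ ^ 2) ∂ν := by
        refine integral_mono (rigid_int ν (hc _))
          (((rigid_int ν (hc _)).const_mul 2).add ((rigid_int ν (hc _)).const_mul 2)) fun χ => ?_
        have e : 1 - χ.1 (v₁ * b + v₂ * b) =
            (1 - χ.1 (v₁ * b)) + χ.1 (v₁ * b) * (1 - χ.1 (v₂ * b)) := by rw [χ.2.2]; ring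
        have a1 := norm_add_le (1 - χ.1 (v₁ * b)) (χ.1 (v₁ * b) * (1 - χ.1 (v₂ * b)))
        rw [← e, norm_mul, χ.2.1, one_mul] at a1
        have a2 := pow_le_pow_left₀ (norm_nonneg _) a1 2
        dsimp only
        nlinarith [sq_nonneg (‖1 - χ.1 (v₁ * b)‖ - ‖1 - χ.1 (v₂ * b)‖)]
    _ = _ := by
        rw [integral_add ((rigid_int ν (hc _)).const_mul 2) ((rigid_int ν (hc _)).const_mul 2),
          integral_const_mul, integral_const_mul, h3 _ h1, h3 _ h2]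
        ring

theorem rigid_pt (χ : X) {s : Finset K} {m : K → ℝ} (hm : ∑ y ∈ s, m y = 1) :
    1 ≤ ∑ y ∈ s, m y * ‖1 - χ.1 y‖ ^ 2 + ‖∑ y ∈ s, (m y : ℂ) * χ.1 y‖ ^ 2 := by
  have h1 : ∀ y, ‖1 - χ.1 y‖ ^ 2 = 2 - 2 * (χ.1 y).re := fun y => by
    have := χ.2.1 y
    rw [← Complex.normSq_eq_norm_sq, Complex.normSq_sub, Complex.normSq_eq_norm_sq (χ.1 y), this]
    simp; ring
  have h2 : ∑ y ∈ s, m y * ‖1 - χ.1 y‖ ^ 2 = 2 - 2 * (∑ y ∈ s, (m y : ℂ) * χ.1 y).re := by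
    simp only [h1, Complex.re_sum, Complex.re_ofReal_mul, mul_sub, Finset.sum_sub_distrib,
      ← Finset.sum_mul, hm, Finset.mul_sum, one_mul]
    congr 1
    exact Finset.sum_congr rfl fun y _ => by ring
  nlinarith [Complex.re_le_norm (∑ y ∈ s, (m y : ℂ) * χ.1 y),
    sq_nonneg (‖∑ y ∈ s, (m y : ℂ) * χ.1 y‖ - 1)]

theorem rigid_null (μ ν : Measure X) [IsFiniteMeasure μ] [IsFiniteMeasure ν] (hle : ν ≤ μ)
    (hPD : PD μ) (hU : UInv ν)
    (h : AEStronglyMeasurable[sig (deep 1)] (fun χ : X => χ.1 1) ν) : ν = 0 := by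
  rw [← Measure.measure_univ_eq_zero, ← measureReal_eq_zero_iff]
  refine le_antisymm (le_of_forall_pos_le_add fun ε hε => ?_) measureReal_nonneg
  obtain ⟨b, hb, h1⟩ := deterministic ν hU h (ε / 5) (by positivity)
  obtain ⟨s, m, h2, h3, h4⟩ := hPD (2 * ‖b‖) (by positivity) (ε / 5) (by positivity)
  have hc : ∀ a : K, Integrable (fun χ : X => m a * ‖1 - χ.1 a‖ ^ 2) ν := fun a =>
    (rigid_int ν ((continuous_const.sub (ch_continuous a)).norm.pow 2)).const_mul _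
  have hc' : Continuous fun χ : X => ‖∑ y ∈ s, (m y : ℂ) * χ.1 y‖ ^ 2 :=
    (continuous_finsetSum _ fun y _ => continuous_const.mul (ch_continuous y)).norm.pow 2
  have h5 := integral_mono (integrable_const (1 : ℝ))
    ((integrable_finsetSum s fun y _ => hc y).add (rigid_int ν hc')) fun χ => rigid_pt χ h3
  simp only [Pi.add_apply] at h5
  rw [integral_add (integrable_finsetSum s fun y _ => hc y) (rigid_int ν hc'),
    integral_finsetSum s fun y _ => hc y, integral_const, smul_eq_mul, mul_one] at h5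
  have h6 := integral_mono_measure hle (ae_of_all _ fun _ => by positivity) (rigid_int μ hc')
  have h7 : ∑ y ∈ s, ∫ χ : X, m y * ‖1 - χ.1 y‖ ^ 2 ∂ν ≤ ∑ y ∈ s, m y * (4 * (ε / 5)) :=
    Finset.sum_le_sum fun y hy => by
      rw [integral_const_mul]
      exact mul_le_mul_of_nonneg_left ((rigid_disc ν hU hb (h2 y hy).2.le).trans (by linarith))
        (h2 y hy).1
  rw [← Finset.sum_mul, h3] at h7
  linarith

/-- `W = ⋃_{a ≠ 0} {ẽ_a ≠ 0}` is tail-measurable and a.e. invariant under every `rot u` (`et_rot`), so `μ.restrict W` is `UInv`.  `dichotomy` ⇒ `‖ẽ_1‖ = 1` a.e. on `W`; `et_var` with `w = 1_W` ⇒ `e_1 = ẽ_1` a.e. on `W`.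
`deterministic` and `disc` give `∫_W ‖1 - χ z‖² ≤ 4δ` for `‖z‖ ≤ 2‖b‖`, hence `∫_W ‖1 - ∑ m y χ y‖² ≤ 4δ` (convexity); with `PD`, `μ W ≤ 2·4δ + 2ε`.  So `μ W = 0`, `ẽ_1 = 0` a.e., `integral_et`. -/
theorem rigidity (μ : Measure X) [IsFiniteMeasure μ] (hU : UInv μ) (hPD : PD μ) :
    ∫ χ : X, χ.1 1 ∂μ = 0 := by
  set W : Set X := ⋃ a : K, ⋃ _ : a ≠ 0, et μ a ⁻¹' {0}ᶜ with hW
  have hmem : ∀ χ, χ ∈ W ↔ ∃ a, a ≠ 0 ∧ et μ a χ ≠ 0 := fun χ => by simp [hW]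
  have hWt : MeasurableSet[tail] W := MeasurableSet.iUnion fun a => MeasurableSet.iUnion fun _ =>
    (et_sm μ a).measurable (measurableSet_singleton 0).compl
  have hWm : MeasurableSet W := tail_le _ hWt
  have hem : ∀ a, AEStronglyMeasurable (et μ a) μ := fun a =>
    ((et_sm μ a).mono tail_le).aestronglyMeasurable
  have hUν : UInv (μ.restrict W) := fun u hu => by
    have h1 := (hU u hu).restrict_preimage hWm
    have hu0 : u ≠ 0 := by rintro rfl; simp at hu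
    rwa [Measure.restrict_congr_set (t := W) ?_] at h1
    filter_upwards [ae_all_iff.2 (et_rot μ hU u hu)] with χ hχ
    refine propext ((hmem (rot u χ)).trans (Iff.trans ?_ (hmem χ).symm))
    refine ⟨fun ⟨a, h1, h2⟩ => ⟨u * a, mul_ne_zero hu0 h1, by rwa [hχ]⟩,
      fun ⟨a, h1, h2⟩ => ⟨u⁻¹ * a, mul_ne_zero (inv_ne_zero hu0) h1, ?_⟩⟩
    rwa [← hχ, mul_inv_cancel_left₀ hu0]
  have h1 : ∀ a : K, ∀ᵐ χ ∂μ, a ≠ 0 → ‖et μ a χ‖ ^ 2 * (1 - ‖et μ 1 χ‖ ^ 2) = 0 := fun a => by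
    by_cases ha : a = 0
    · exact ae_of_all _ fun _ h => absurd ha h
    have hb : ∀ᵐ χ ∂μ, 0 ≤ ‖et μ a χ‖ ^ 2 * (1 - ‖et μ 1 χ‖ ^ 2) ∧
        ‖et μ a χ‖ ^ 2 * (1 - ‖et μ 1 χ‖ ^ 2) ≤ 1 := by
      filter_upwards [et_norm_le μ a, et_norm_le μ 1] with χ a1 a2
      have b1 := pow_le_one₀ (n := 2) (norm_nonneg _) a1
      have b2 := pow_le_one₀ (n := 2) (norm_nonneg _) a2
      exact ⟨mul_nonneg (sq_nonneg _) (by linarith),
        mul_le_one₀ b1 (by linarith) (by linarith [sq_nonneg ‖et μ 1 χ‖])⟩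
    have := (integral_eq_zero_iff_of_nonneg_ae (hb.mono fun _ h => h.1) (Integrable.of_bound
      (((hem a).norm.pow 2).mul (aestronglyMeasurable_const.sub ((hem 1).norm.pow 2))) 1
      (hb.mono fun _ h => (Real.norm_of_nonneg h.1).trans_le h.2))).1 (dichotomy μ hU a ha 1)
    exact this.mono fun _ h _ => h
  have h2 := et_var μ (W.indicator 1) (stronglyMeasurable_const.indicator hWt)
    (ae_of_all _ fun χ => by by_cases h : χ ∈ W <;> simp [h]) 1
  have h3 : ∫ χ, W.indicator 1 χ * (1 - ‖et μ 1 χ‖ ^ 2) ∂μ = 0 := by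
    refine integral_eq_zero_of_ae ?_
    filter_upwards [ae_all_iff.2 h1] with χ hχ
    by_cases h : χ ∈ W
    · obtain ⟨a, a1, a2⟩ := (hmem χ).1 h
      simpa [h, a2] using hχ a a1
    · simp [h]
  have e : (fun χ => W.indicator 1 χ * ‖χ.1 1 - et μ 1 χ‖ ^ 2) =
      W.indicator fun χ => ‖χ.1 1 - et μ 1 χ‖ ^ 2 := by
    funext χ; by_cases h : χ ∈ W <;> simp [h]
  rw [h3, e, integral_indicator hWm, integral_eq_zero_iff_of_nonneg (fun _ => sq_nonneg _)] at h2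
  · have h4 := rigid_null μ (μ.restrict W) Measure.restrict_le_self hPD hUν
      ⟨et μ 1, (et_sm μ 1).mono (tail_le_sig 1), h2.mono fun χ h => by
        simpa [sub_eq_zero] using h⟩
    rw [← integral_et]
    refine integral_eq_zero_of_ae ?_
    filter_upwards [measure_eq_zero_iff_ae_notMem.1 (Measure.restrict_eq_zero.1 h4)] with χ hχ
    exact by_contra fun h => hχ ((hmem χ).2 ⟨1, one_ne_zero, h⟩)
  · refine Integrable.integrableOn (Integrable.of_bound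
      (((ch_measurable 1).aestronglyMeasurable.sub (hem 1)).norm.pow 2) (2 ^ 2) ?_)
    filter_upwards [et_norm_le μ 1] with χ hχ
    rw [Real.norm_of_nonneg (sq_nonneg _)]
    exact pow_le_pow_left₀ (norm_nonneg _)
      ((norm_sub_le_of_le (χ.2.1 1).le hχ).trans (by norm_num)) 2

/-- `bochner` (symmetry from `u = -1`), `uinv_of_fourier`, `∫ ‖∑ m y χ y‖² = ∑∑ m a m b φ(a - b)`, `rigidity`. -/
theorem rigidity_pd (φ : K → ℝ)
    (hpd : ∀ (s : Finset K) (c : K → ℝ), 0 ≤ ∑ a ∈ s, ∑ b ∈ s, c a * c b * φ (a - b))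
    (hU : ∀ u a : K, ‖u‖ = 1 → φ (u * a) = φ a)
    (hPD : ∀ r > (0 : ℝ), ∀ ε > (0 : ℝ), ∃ (s : Finset K) (m : K → ℝ), (∀ y ∈ s, 0 ≤ m y ∧ ‖y‖ < r) ∧
      ∑ y ∈ s, m y = 1 ∧ ∑ a ∈ s, ∑ b ∈ s, m a * m b * φ (a - b) < ε) :
    φ 1 = 0 := by
  obtain ⟨μ, hμ, h⟩ := bochner φ (fun a => by simpa using hU (-1) a (by simp)) hpd
  have h1 := rigidity μ (uinv_of_fourier μ fun u a hu => by rw [h, h, hU u a hu]) fun r hr ε hε => by
    obtain ⟨s, m, h1, h2, h3⟩ := hPD r hr ε hε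
    refine ⟨s, m, h1, h2, lt_of_eq_of_lt ?_ h3⟩
    have hi : ∀ a b : K, Integrable (fun χ : X => (m a : ℂ) * m b * χ.1 (a - b)) μ := fun a b =>
      (rigid_int μ (ch_continuous _)).const_mul _
    have e : ∀ χ : X, ((‖∑ y ∈ s, (m y : ℂ) * χ.1 y‖ ^ 2 : ℝ) : ℂ) =
        ∑ a ∈ s, ∑ b ∈ s, (m a : ℂ) * m b * χ.1 (a - b) := fun χ => by
      rw [Complex.ofReal_pow, ← Complex.mul_conj', map_sum, Finset.sum_mul_sum]
      refine Finset.sum_congr rfl fun a _ => Finset.sum_congr rfl fun b _ => ?_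
      rw [sub_eq_add_neg, χ.2.2, ch_neg, map_mul, Complex.conj_ofReal]
      ring
    rw [← Complex.ofReal_inj, ← integral_complex_ofReal]
    simp only [e]
    rw [integral_finsetSum _ fun a _ => integrable_finsetSum _ fun b _ => hi a b]
    push_cast
    refine Finset.sum_congr rfl fun a _ => ?_
    rw [integral_finsetSum _ fun b _ => hi a b]
    exact Finset.sum_congr rfl fun b _ => by rw [integral_const_mul, h]
  rw [h] at h1
  exact_mod_cast h1

end Crest.Agent.R040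

end
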