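import Crest.Agent.R040.Ann
import Crest.Agent.R040.Pert

/-! # Row 40, Step 2: two rules for the unseen colours -/

set_option autoImplicit false

open MeasureTheory Filter Topology Set Metric
open scoped Real

noncomputable section

namespace Crest.Agent.R040

theorem rules_null {E : Set ℝ}
    (h : ∀ a b : ℝ, ∀ ε > (0 : ℝ), volume (E ∩ Ioc a b) ≤ ENNReal.ofReal ε) : volume E = 0 := by
  have h1 : ∀ n : ℕ, volume (E ∩ Ioc (-(n : ℝ)) n) = 0 := by
    intro n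
    refine le_antisymm ?_ zero_le
    refine ENNReal.le_of_forall_pos_le_add fun ε hε _ => ?_
    have := h (-(n : ℝ)) n ε (by exact_mod_cast hε)
    simpa using this
  have h2 : E ⊆ ⋃ n : ℕ, E ∩ Ioc (-(n : ℝ)) n := by
    intro θ hθ
    obtain ⟨n, hn⟩ := exists_nat_gt |θ|
    have := abs_lt.1 hn
    exact mem_iUnion.2 ⟨n, hθ, this.1, this.2.le⟩
  exact measure_mono_null h2 (measure_iUnion_null h1)

theorem rules_ofReal {S : Set ℝ} {a b ε : ℝ} (hS : S ⊆ Ioc a b) (h : volume.real S < ε) :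
    volume S ≤ ENNReal.ofReal ε := by
  have hf : volume S ≠ ⊤ := ((measure_mono hS).trans_lt measure_Ioc_lt_top).ne
  rw [← ofReal_measureReal hf]
  exact ENNReal.ofReal_le_ofReal h.le

/-- the bad directions of `x` -/
theorem MCol.rules_bad (c : MCol) (v : ℂ) (a b : ℝ) {ε : ℝ} (hε : 0 < ε) : ∃ δ > (0 : ℝ), ∀ x : ℂ, ‖x - v‖ < δ →
    (∀ᵐ γ : ℝ, ∃ k, x + cis γ ∈ c.D k) →
    volume {θ | θ ∈ Ioc a b ∧ ¬ ∃ k, x + cis θ ∈ c.D k ∧ c.N (v + cis θ) k} ≤ ENNReal.ofReal ε := by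
  obtain ⟨δ, hδ, H⟩ := c.ann v a b hε
  refine ⟨δ, hδ, fun x hx hc => ?_⟩
  have h1 := rules_ofReal (a := a) (b := b) (fun θ hθ => hθ.1) (H x hx)
  refine le_trans (measure_mono_ae ?_) h1
  filter_upwards [hc] with θ hθ h
  obtain ⟨k, hk⟩ := hθ
  exact ⟨h.1, k, hk, fun hN => h.2 ⟨k, hk, hN⟩⟩

/-- If `N ⊆ {j}` on a set `E ⊆ Ioc a b` of positive measure, take `x ∈ D j` near `v` (`exists_good`): for most `θ ∈ E` the point `x + cis θ` has a colour in `N`, and it is not `j`. -/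
theorem MCol.rule1 (c : MCol) (v : ℂ) : ∀ᵐ θ : ℝ, ∀ j, c.P v j → ∃ k, k ≠ j ∧ c.N (v + cis θ) k := by
  refine ae_all_iff.2 fun j => ?_
  by_cases hj : c.P v j
  swap
  · exact Eventually.of_forall fun _ h => absurd h hj
  rw [ae_iff]
  refine rules_null fun a b ε hε => ?_
  obtain ⟨δ, hδ, H⟩ := c.rules_bad v a b hε
  obtain ⟨x, hxj, hx, hc⟩ := c.exists_good hj hδ
  refine le_trans (measure_mono ?_) (H x hx hc)
  rintro θ ⟨h1, h2⟩
  refine ⟨h2, ?_⟩
  rintro ⟨k, hk, hN⟩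
  refine h1 fun _ => ⟨k, ?_, hN⟩
  rintro rfl
  exact c.N_of_mem hxj θ hk

/-- `E = U v j k ∩ (U v l k - π/3) ∩ Ioc a b`.  For good `x ∈ D j`, `x' ∈ D l` near `v`: `x + cis θ ∈ D k` for most `θ ∈ U v j k`, `x' + cis θ' ∈ D k` for most `θ' ∈ U v l k` (`ann`).  `exists_pert` with `d = x - x'`, `σ = 1`; `pert_measure`
shows `g θ ∈ U v l k` for most `θ ∈ E`; then two points of `D k` are at distance one. -/
theorem MCol.rule2 (c : MCol) (v : ℂ) : ∀ᵐ θ : ℝ, ∀ j l k, c.P v j → c.P v l →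
    θ ∈ c.U v j k → θ + π / 3 ∈ c.U v l k → False := by
  refine ae_all_iff.2 fun j => ae_all_iff.2 fun l => ae_all_iff.2 fun k => ?_
  by_cases hj : c.P v j
  swap
  · exact Eventually.of_forall fun _ h => absurd h hj
  by_cases hl : c.P v l
  swap
  · exact Eventually.of_forall fun _ _ h => absurd h hl
  rw [ae_iff]
  refine rules_null fun a b ε hε => ?_
  have hε4 : 0 < ε / 4 := by positivity
  set W : Set ℝ := c.U v l k ∩ Ioc (a + π / 3) (b + π / 3) with hW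
  have hWm : MeasurableSet W := (c.measurableSet_U v l k).inter measurableSet_Ioc
  have hWf : volume W ≠ ⊤ := ((measure_mono inter_subset_right).trans_lt measure_Ioc_lt_top).ne
  obtain ⟨η, hη, Hη⟩ := pert_measure hWm hWf hε4
  obtain ⟨δ₃, hδ₃, H3⟩ := exists_pert 1 (Or.inl rfl) hη
  obtain ⟨δ₁, hδ₁, H1⟩ := c.rules_bad v a b hε4
  obtain ⟨δ₂, hδ₂, H2⟩ := c.rules_bad v (a + π / 3) (b + π / 3) hε4
  obtain ⟨x, hxj, hx, hc⟩ := c.exists_good hj (lt_min hδ₁ (half_pos hδ₃))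
  obtain ⟨x', hxl, hx', hc'⟩ := c.exists_good hl (lt_min hδ₂ (half_pos hδ₃))
  have hd : ‖x - x'‖ < δ₃ := by
    have h1 := (lt_min_iff.1 hx).2
    have h2 := (lt_min_iff.1 hx').2
    calc ‖x - x'‖ = ‖(x - v) - (x' - v)‖ := by congr 1; ring
      _ ≤ ‖x - v‖ + ‖x' - v‖ := norm_sub_le _ _
      _ < δ₃ := by linarith
  obtain ⟨g, -, hg1, hg2, hg3⟩ := H3 _ hd
  simp only [one_mul] at hg1
  have m1 := H1 x (lt_min_iff.1 hx).1 hc
  have m2 := (hg3 _).trans (mul_le_mul_right (H2 x' (lt_min_iff.1 hx').1 hc') 2)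
  have m3 := rules_ofReal (a := a) (b := b)
    (fun θ hθ => ⟨by linarith [hθ.1.2.1], by linarith [hθ.1.2.2]⟩) (Hη g (π / 3) hg1 hg3)
  have hsum : ENNReal.ofReal (ε / 4) + 2 * ENNReal.ofReal (ε / 4) + ENNReal.ofReal (ε / 4) =
      ENNReal.ofReal ε := by
    rw [two_mul, ← ENNReal.ofReal_add hε4.le hε4.le, ← ENNReal.ofReal_add hε4.le (by positivity),
      ← ENNReal.ofReal_add (by positivity) hε4.le]
    congr 1; ring
  rw [← hsum]
  refine le_trans (measure_mono ?_) ((measure_union_le _ _).trans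
    (add_le_add ((measure_union_le _ _).trans (add_le_add m1 m2)) m3))
  rintro θ ⟨h1, h2⟩
  have hU : θ ∈ c.U v j k := by
    by_contra h
    exact h1 fun _ _ h' => absurd h' h
  have hU' : θ + π / 3 ∈ c.U v l k := by
    by_contra h
    exact h1 fun _ _ _ h' => absurd h' h
  by_contra hcon
  simp only [mem_union, not_or, mem_ofPred_eq, mem_preimage, not_and, not_not] at hcon
  obtain ⟨⟨c1, c2⟩, c3⟩ := hcon
  have hgW : g θ ∈ W := c3 ⟨hU', by linarith [h2.1], by linarith [h2.2]⟩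
  obtain ⟨m, hm, hN⟩ := c1 h2
  obtain ⟨m', hm', hN'⟩ := c2 hgW.2
  have e1 : m = k := (hU m hN).resolve_left (by rintro rfl; exact c.N_of_mem hxj θ hm)
  have e2 : m' = k := (hgW.1 m' hN').resolve_left (by rintro rfl; exact c.N_of_mem hxl _ hm')
  subst e1 e2
  refine c.avoid _ _ hm _ hm' ?_
  rw [← hg2 θ]
  congr 1; ring

end Crest.Agent.R040

end
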