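import Crest.Agent.R040.Sat1Run0
import Crest.Agent.R040.Sat1Run1
import Crest.Agent.R040.Sat1Run2
import Crest.Agent.R040.Sat1Run3
import Crest.Agent.R040.Sat1In

/-! # Row 40: a certificate refutes its input clauses -/

set_option autoImplicit false
set_option maxRecDepth 100000
set_option exponentiation.threshold 100000

namespace Crest.Agent.R040.Chk

theorem s1false {F : ℕ → Prop} (h0 : ¬ F 0) (hx : ∀ l, F l → ¬ F (l ^^^ 1))
    (hc : ∀ d c, chk1 s1DT s1PT 87 18 6 7 d c = true → Sat F c) : False := by
  have a0 : ∀ j < 0, Sat F (s1g j) := fun j hj => absurd hj (Nat.not_lt_zero j)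
  have a1000 : ∀ j < 1000, Sat F (s1g j) := by
    have := load_sound hc _ _ s1load0 a0
    rwa [show 0 + s1L0.length = 1000 by decide +kernel] at this
  have a1591 : ∀ j < 1591, Sat F (s1g j) := by
    have := load_sound hc _ _ s1load1000 a1000
    rwa [show 1000 + s1L1000.length = 1591 by decide +kernel] at this
  have a1830 : ∀ j < 1830, Sat F (s1g j) := by
    have := run_sound h0 hx _ _ s1run1591 a1591
    rwa [show 1591 + s1H1591.length = 1830 by decide +kernel] at this
  have a2019 : ∀ j < 2019, Sat F (s1g j) := by
    have := run_sound h0 hx _ _ s1run1830 a1830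
    rwa [show 1830 + s1H1830.length = 2019 by decide +kernel] at this
  have a2185 : ∀ j < 2185, Sat F (s1g j) := by
    have := run_sound h0 hx _ _ s1run2019 a2019
    rwa [show 2019 + s1H2019.length = 2185 by decide +kernel] at this
  have a2360 : ∀ j < 2360, Sat F (s1g j) := by
    have := run_sound h0 hx _ _ s1run2185 a2185
    rwa [show 2185 + s1H2185.length = 2360 by decide +kernel] at this
  have a2524 : ∀ j < 2524, Sat F (s1g j) := by
    have := run_sound h0 hx _ _ s1run2360 a2360
    rwa [show 2360 + s1H2360.length = 2524 by decide +kernel] at this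
  have a2728 : ∀ j < 2728, Sat F (s1g j) := by
    have := run_sound h0 hx _ _ s1run2524 a2524
    rwa [show 2524 + s1H2524.length = 2728 by decide +kernel] at this
  have a2856 : ∀ j < 2856, Sat F (s1g j) := by
    have := run_sound h0 hx _ _ s1run2728 a2728
    rwa [show 2728 + s1H2728.length = 2856 by decide +kernel] at this
  have a2991 : ∀ j < 2991, Sat F (s1g j) := by
    have := run_sound h0 hx _ _ s1run2856 a2856
    rwa [show 2856 + s1H2856.length = 2991 by decide +kernel] at this
  have a3097 : ∀ j < 3097, Sat F (s1g j) := by
    have := run_sound h0 hx _ _ s1run2991 a2991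
    rwa [show 2991 + s1H2991.length = 3097 by decide +kernel] at this
  have a3213 : ∀ j < 3213, Sat F (s1g j) := by
    have := run_sound h0 hx _ _ s1run3097 a3097
    rwa [show 3097 + s1H3097.length = 3213 by decide +kernel] at this
  have a3336 : ∀ j < 3336, Sat F (s1g j) := by
    have := run_sound h0 hx _ _ s1run3213 a3213
    rwa [show 3213 + s1H3213.length = 3336 by decide +kernel] at this
  have a3446 : ∀ j < 3446, Sat F (s1g j) := by
    have := run_sound h0 hx _ _ s1run3336 a3336
    rwa [show 3336 + s1H3336.length = 3446 by decide +kernel] at this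
  have a3561 : ∀ j < 3561, Sat F (s1g j) := by
    have := run_sound h0 hx _ _ s1run3446 a3446
    rwa [show 3446 + s1H3446.length = 3561 by decide +kernel] at this
  have a3677 : ∀ j < 3677, Sat F (s1g j) := by
    have := run_sound h0 hx _ _ s1run3561 a3561
    rwa [show 3561 + s1H3561.length = 3677 by decide +kernel] at this
  have a3795 : ∀ j < 3795, Sat F (s1g j) := by
    have := run_sound h0 hx _ _ s1run3677 a3677
    rwa [show 3677 + s1H3677.length = 3795 by decide +kernel] at this
  have a3905 : ∀ j < 3905, Sat F (s1g j) := by
    have := run_sound h0 hx _ _ s1run3795 a3795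
    rwa [show 3795 + s1H3795.length = 3905 by decide +kernel] at this
  have a3998 : ∀ j < 3998, Sat F (s1g j) := by
    have := run_sound h0 hx _ _ s1run3905 a3905
    rwa [show 3905 + s1H3905.length = 3998 by decide +kernel] at this
  have a4092 : ∀ j < 4092, Sat F (s1g j) := by
    have := run_sound h0 hx _ _ s1run3998 a3998
    rwa [show 3998 + s1H3998.length = 4092 by decide +kernel] at this
  have a4188 : ∀ j < 4188, Sat F (s1g j) := by
    have := run_sound h0 hx _ _ s1run4092 a4092
    rwa [show 4092 + s1H4092.length = 4188 by decide +kernel] at this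
  have a4292 : ∀ j < 4292, Sat F (s1g j) := by
    have := run_sound h0 hx _ _ s1run4188 a4188
    rwa [show 4188 + s1H4188.length = 4292 by decide +kernel] at this
  have a4397 : ∀ j < 4397, Sat F (s1g j) := by
    have := run_sound h0 hx _ _ s1run4292 a4292
    rwa [show 4292 + s1H4292.length = 4397 by decide +kernel] at this
  have a4518 : ∀ j < 4518, Sat F (s1g j) := by
    have := run_sound h0 hx _ _ s1run4397 a4397
    rwa [show 4397 + s1H4397.length = 4518 by decide +kernel] at this
  have a4740 : ∀ j < 4740, Sat F (s1g j) := by
    have := run_sound h0 hx _ _ s1run4518 a4518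
    rwa [show 4518 + s1H4518.length = 4740 by decide +kernel] at this
  have a4894 : ∀ j < 4894, Sat F (s1g j) := by
    have := run_sound h0 hx _ _ s1run4740 a4740
    rwa [show 4740 + s1H4740.length = 4894 by decide +kernel] at this
  have a5033 : ∀ j < 5033, Sat F (s1g j) := by
    have := run_sound h0 hx _ _ s1run4894 a4894
    rwa [show 4894 + s1H4894.length = 5033 by decide +kernel] at this
  have a5143 : ∀ j < 5143, Sat F (s1g j) := by
    have := run_sound h0 hx _ _ s1run5033 a5033
    rwa [show 5033 + s1H5033.length = 5143 by decide +kernel] at this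
  have a5267 : ∀ j < 5267, Sat F (s1g j) := by
    have := run_sound h0 hx _ _ s1run5143 a5143
    rwa [show 5143 + s1H5143.length = 5267 by decide +kernel] at this
  have a5397 : ∀ j < 5397, Sat F (s1g j) := by
    have := run_sound h0 hx _ _ s1run5267 a5267
    rwa [show 5267 + s1H5267.length = 5397 by decide +kernel] at this
  have a5523 : ∀ j < 5523, Sat F (s1g j) := by
    have := run_sound h0 hx _ _ s1run5397 a5397
    rwa [show 5397 + s1H5397.length = 5523 by decide +kernel] at this
  have a5668 : ∀ j < 5668, Sat F (s1g j) := by
    have := run_sound h0 hx _ _ s1run5523 a5523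
    rwa [show 5523 + s1H5523.length = 5668 by decide +kernel] at this
  have a5794 : ∀ j < 5794, Sat F (s1g j) := by
    have := run_sound h0 hx _ _ s1run5668 a5668
    rwa [show 5668 + s1H5668.length = 5794 by decide +kernel] at this
  have a5926 : ∀ j < 5926, Sat F (s1g j) := by
    have := run_sound h0 hx _ _ s1run5794 a5794
    rwa [show 5794 + s1H5794.length = 5926 by decide +kernel] at this
  have a6061 : ∀ j < 6061, Sat F (s1g j) := by
    have := run_sound h0 hx _ _ s1run5926 a5926
    rwa [show 5926 + s1H5926.length = 6061 by decide +kernel] at this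
  have a6253 : ∀ j < 6253, Sat F (s1g j) := by
    have := run_sound h0 hx _ _ s1run6061 a6061
    rwa [show 6061 + s1H6061.length = 6253 by decide +kernel] at this
  have a6367 : ∀ j < 6367, Sat F (s1g j) := by
    have := run_sound h0 hx _ _ s1run6253 a6253
    rwa [show 6253 + s1H6253.length = 6367 by decide +kernel] at this
  have a6497 : ∀ j < 6497, Sat F (s1g j) := by
    have := run_sound h0 hx _ _ s1run6367 a6367
    rwa [show 6367 + s1H6367.length = 6497 by decide +kernel] at this
  have a6635 : ∀ j < 6635, Sat F (s1g j) := by
    have := run_sound h0 hx _ _ s1run6497 a6497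
    rwa [show 6497 + s1H6497.length = 6635 by decide +kernel] at this
  have a6766 : ∀ j < 6766, Sat F (s1g j) := by
    have := run_sound h0 hx _ _ s1run6635 a6635
    rwa [show 6635 + s1H6635.length = 6766 by decide +kernel] at this
  have a6896 : ∀ j < 6896, Sat F (s1g j) := by
    have := run_sound h0 hx _ _ s1run6766 a6766
    rwa [show 6766 + s1H6766.length = 6896 by decide +kernel] at this
  have a7034 : ∀ j < 7034, Sat F (s1g j) := by
    have := run_sound h0 hx _ _ s1run6896 a6896
    rwa [show 6896 + s1H6896.length = 7034 by decide +kernel] at this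
  have e : s1g 7033 = 0 := by decide +kernel
  exact not_sat_zero h0 (e ▸ a7034 7033 (by norm_num))

end Crest.Agent.R040.Chk
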