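import Crest.Agent.R040.Sat2Run0
import Crest.Agent.R040.Sat2Run1
import Crest.Agent.R040.Sat2In

/-! # Row 40: a certificate refutes its input clauses -/

set_option autoImplicit false
set_option maxRecDepth 100000
set_option exponentiation.threshold 100000

namespace Crest.Agent.R040.Chk

theorem s2false {F : ℕ → Prop} (h0 : ¬ F 0) (hx : ∀ l, F l → ¬ F (l ^^^ 1))
    (hc : ∀ d c, chk2 s2DT s2PT 345 54 d c = true → Sat F c) : False := by
  have a0 : ∀ j < 0, Sat F (s2g j) := fun j hj => absurd hj (Nat.not_lt_zero j)
  have a1000 : ∀ j < 1000, Sat F (s2g j) := by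
    have := load_sound hc _ _ s2load0 a0
    rwa [show 0 + s2L0.length = 1000 by decide +kernel] at this
  have a2000 : ∀ j < 2000, Sat F (s2g j) := by
    have := load_sound hc _ _ s2load1000 a1000
    rwa [show 1000 + s2L1000.length = 2000 by decide +kernel] at this
  have a3000 : ∀ j < 3000, Sat F (s2g j) := by
    have := load_sound hc _ _ s2load2000 a2000
    rwa [show 2000 + s2L2000.length = 3000 by decide +kernel] at this
  have a4000 : ∀ j < 4000, Sat F (s2g j) := by
    have := load_sound hc _ _ s2load3000 a3000
    rwa [show 3000 + s2L3000.length = 4000 by decide +kernel] at this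
  have a5000 : ∀ j < 5000, Sat F (s2g j) := by
    have := load_sound hc _ _ s2load4000 a4000
    rwa [show 4000 + s2L4000.length = 5000 by decide +kernel] at this
  have a5679 : ∀ j < 5679, Sat F (s2g j) := by
    have := load_sound hc _ _ s2load5000 a5000
    rwa [show 5000 + s2L5000.length = 5679 by decide +kernel] at this
  have a5873 : ∀ j < 5873, Sat F (s2g j) := by
    have := run_sound h0 hx _ _ s2run5679 a5679
    rwa [show 5679 + s2H5679.length = 5873 by decide +kernel] at this
  have a6116 : ∀ j < 6116, Sat F (s2g j) := by
    have := run_sound h0 hx _ _ s2run5873 a5873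
    rwa [show 5873 + s2H5873.length = 6116 by decide +kernel] at this
  have a6404 : ∀ j < 6404, Sat F (s2g j) := by
    have := run_sound h0 hx _ _ s2run6116 a6116
    rwa [show 6116 + s2H6116.length = 6404 by decide +kernel] at this
  have a6584 : ∀ j < 6584, Sat F (s2g j) := by
    have := run_sound h0 hx _ _ s2run6404 a6404
    rwa [show 6404 + s2H6404.length = 6584 by decide +kernel] at this
  have a6754 : ∀ j < 6754, Sat F (s2g j) := by
    have := run_sound h0 hx _ _ s2run6584 a6584
    rwa [show 6584 + s2H6584.length = 6754 by decide +kernel] at this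
  have a6876 : ∀ j < 6876, Sat F (s2g j) := by
    have := run_sound h0 hx _ _ s2run6754 a6754
    rwa [show 6754 + s2H6754.length = 6876 by decide +kernel] at this
  have a6968 : ∀ j < 6968, Sat F (s2g j) := by
    have := run_sound h0 hx _ _ s2run6876 a6876
    rwa [show 6876 + s2H6876.length = 6968 by decide +kernel] at this
  have a7084 : ∀ j < 7084, Sat F (s2g j) := by
    have := run_sound h0 hx _ _ s2run6968 a6968
    rwa [show 6968 + s2H6968.length = 7084 by decide +kernel] at this
  have a7254 : ∀ j < 7254, Sat F (s2g j) := by
    have := run_sound h0 hx _ _ s2run7084 a7084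
    rwa [show 7084 + s2H7084.length = 7254 by decide +kernel] at this
  have a7381 : ∀ j < 7381, Sat F (s2g j) := by
    have := run_sound h0 hx _ _ s2run7254 a7254
    rwa [show 7254 + s2H7254.length = 7381 by decide +kernel] at this
  have a7515 : ∀ j < 7515, Sat F (s2g j) := by
    have := run_sound h0 hx _ _ s2run7381 a7381
    rwa [show 7381 + s2H7381.length = 7515 by decide +kernel] at this
  have a7684 : ∀ j < 7684, Sat F (s2g j) := by
    have := run_sound h0 hx _ _ s2run7515 a7515
    rwa [show 7515 + s2H7515.length = 7684 by decide +kernel] at this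
  have a7787 : ∀ j < 7787, Sat F (s2g j) := by
    have := run_sound h0 hx _ _ s2run7684 a7684
    rwa [show 7684 + s2H7684.length = 7787 by decide +kernel] at this
  have a7910 : ∀ j < 7910, Sat F (s2g j) := by
    have := run_sound h0 hx _ _ s2run7787 a7787
    rwa [show 7787 + s2H7787.length = 7910 by decide +kernel] at this
  have a8048 : ∀ j < 8048, Sat F (s2g j) := by
    have := run_sound h0 hx _ _ s2run7910 a7910
    rwa [show 7910 + s2H7910.length = 8048 by decide +kernel] at this
  have a8163 : ∀ j < 8163, Sat F (s2g j) := by
    have := run_sound h0 hx _ _ s2run8048 a8048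
    rwa [show 8048 + s2H8048.length = 8163 by decide +kernel] at this
  have a8266 : ∀ j < 8266, Sat F (s2g j) := by
    have := run_sound h0 hx _ _ s2run8163 a8163
    rwa [show 8163 + s2H8163.length = 8266 by decide +kernel] at this
  have a8376 : ∀ j < 8376, Sat F (s2g j) := by
    have := run_sound h0 hx _ _ s2run8266 a8266
    rwa [show 8266 + s2H8266.length = 8376 by decide +kernel] at this
  have a8474 : ∀ j < 8474, Sat F (s2g j) := by
    have := run_sound h0 hx _ _ s2run8376 a8376
    rwa [show 8376 + s2H8376.length = 8474 by decide +kernel] at this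
  have a8584 : ∀ j < 8584, Sat F (s2g j) := by
    have := run_sound h0 hx _ _ s2run8474 a8474
    rwa [show 8474 + s2H8474.length = 8584 by decide +kernel] at this
  have a8667 : ∀ j < 8667, Sat F (s2g j) := by
    have := run_sound h0 hx _ _ s2run8584 a8584
    rwa [show 8584 + s2H8584.length = 8667 by decide +kernel] at this
  have a8760 : ∀ j < 8760, Sat F (s2g j) := by
    have := run_sound h0 hx _ _ s2run8667 a8667
    rwa [show 8667 + s2H8667.length = 8760 by decide +kernel] at this
  have e : s2g 8759 = 0 := by decide +kernel
  exact not_sat_zero h0 (e ▸ a8760 8759 (by norm_num))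

end Crest.Agent.R040.Chk
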