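import Mathlib

/-! # Row 40: a small verified unit-propagation checker

A clause is a natural number whose digits in base `8192` are literal codes (`2v + 2` positive, `2v + 3` negative). -/

set_option autoImplicit false

namespace Crest.Agent.R040.Chk

inductive Sat (F : ℕ → Prop) : ℕ → Prop
  | here {c : ℕ} : F (c % 8192) → Sat F c
  | there {c : ℕ} : Sat F (c / 8192) → Sat F c

theorem not_sat_zero {F : ℕ → Prop} (h0 : ¬ F 0) : ¬ Sat F 0 := by
  have : ∀ c, Sat F c → c = 0 → False := by
    intro c h
    induction h with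
    | here h => intro hc; subst hc; exact h0 (by simpa using h)
    | there _ ih => intro hc; subst hc; exact ih (by simp)
  exact fun h => this 0 h rfl

theorem Sat.cases {F : ℕ → Prop} {c : ℕ} (h : Sat F c) : F (c % 8192) ∨ Sat F (c / 8192) := by
  cases h with
  | here h => exact Or.inl h
  | there h => exact Or.inr h

/-- `d + 8192 c` -/
theorem sat_cons {F : ℕ → Prop} {d c : ℕ} (hd : d < 8192) (h : F d ∨ Sat F c) : Sat F (d + 8192 * c) := by
  rcases h with h | h
  · exact Sat.here (by rwa [show (d + 8192 * c) % 8192 = d by omega])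
  · exact Sat.there (by rwa [show (d + 8192 * c) / 8192 = c by omega])

theorem sat_one {F : ℕ → Prop} {d : ℕ} (hd : d < 8192) (h : F d) : Sat F d :=
  Sat.here (by rwa [Nat.mod_eq_of_lt hd])

def bit (A l : ℕ) : Bool := Nat.beq (Nat.land (Nat.shiftRight A l) 1) 1

theorem bit_eq (A l : ℕ) (h : bit A l = true) : A.testBit l = true := by
  have h1 : (A >>> l) &&& 1 = 1 := Nat.eq_of_beq_eq_true h
  rw [Nat.and_one_is_mod] at h1
  rw [Nat.testBit_eq_decide_div_mod_eq, ← Nat.shiftRight_eq_div_pow]
  exact decide_eq_true h1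

noncomputable def scan (A fuel : ℕ) : ℕ → ℕ → ℕ :=
  Nat.rec (motive := fun _ => ℕ → ℕ → ℕ) (fun _ _ => 100000) (fun _ ih c u =>
    cond (Nat.beq c 0) u
      (cond (bit A (Nat.mod c 8192)) (ih (Nat.div c 8192) u)
        (cond (Nat.beq u 0) (ih (Nat.div c 8192) (Nat.mod c 8192)) 100000))) fuel

theorem scan_succ (A n c u : ℕ) : scan A (n + 1) c u =
    cond (Nat.beq c 0) u
      (cond (bit A (c % 8192)) (scan A n (c / 8192) u)
        (cond (Nat.beq u 0) (scan A n (c / 8192) (c % 8192)) 100000)) := rfl

theorem beq_false {a b : ℕ} (h : Nat.beq a b = false) : a ≠ b := by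
  intro e; subst e; rw [Nat.beq_refl] at h; exact Bool.noConfusion h

theorem scan_sound {F : ℕ → Prop} (h0 : ¬ F 0) {A : ℕ} (hA : ∀ l, A.testBit l = true → ¬ F l) :
    ∀ (n c u : ℕ), scan A n c u ≠ 100000 →
      (u ≠ 0 → scan A n c u = u ∧ ¬ Sat F c) ∧ (u = 0 → Sat F c → F (scan A n c u))
  | 0, _, _, h => absurd rfl h
  | n + 1, c, u, h => by
    rw [scan_succ] at h ⊢
    cases hc : Nat.beq c 0
    · rw [hc] at h
      simp only [cond_false] at h ⊢
      cases hb : bit A (c % 8192)
      · rw [hb] at h
        simp only [cond_false] at h ⊢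
        cases hu : Nat.beq u 0
        · rw [hu] at h
          exact absurd rfl h
        · rw [hu] at h
          simp only [cond_true] at h ⊢
          have hu0 := Nat.eq_of_beq_eq_true hu
          refine ⟨fun h' => absurd hu0 h', fun _ hs => ?_⟩
          obtain ⟨h1, h2⟩ := scan_sound h0 hA n (c / 8192) (c % 8192) h
          by_cases hd : c % 8192 = 0
          · rcases hs.cases with hs | hs
            · exact absurd (hd ▸ hs) h0
            · exact h2 hd hs
          · obtain ⟨h3, h4⟩ := h1 hd
            rw [h3]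
            exact hs.cases.resolve_right h4
      · rw [hb] at h
        simp only [cond_true] at h ⊢
        have hf := hA _ (bit_eq _ _ hb)
        obtain ⟨h1, h2⟩ := scan_sound h0 hA n (c / 8192) u h
        refine ⟨fun hu => ⟨(h1 hu).1, fun hs => (h1 hu).2 (hs.cases.resolve_left hf)⟩,
          fun hu hs => h2 hu (hs.cases.resolve_left hf)⟩
    · have hc0 := Nat.eq_of_beq_eq_true hc
      simp only [cond_true]
      subst hc0
      exact ⟨fun _ => ⟨trivial, not_sat_zero h0⟩, fun _ hs => absurd hs (not_sat_zero h0)⟩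

noncomputable def initA (fuel : ℕ) : ℕ → ℕ :=
  Nat.rec (motive := fun _ => ℕ → ℕ) (fun _ => 0) (fun _ ih c =>
    cond (Nat.beq c 0) 0 (Nat.lor (Nat.shiftLeft 1 (Nat.mod c 8192)) (ih (Nat.div c 8192)))) fuel

theorem initA_succ (n c : ℕ) : initA (n + 1) c =
    cond (Nat.beq c 0) 0 ((1 <<< (c % 8192)) ||| initA n (c / 8192)) := rfl

theorem initA_sound {F : ℕ → Prop} : ∀ (n c : ℕ), ¬ Sat F c → ∀ l, (initA n c).testBit l = true → ¬ F l
  | 0, _, _, l, h => by simp [initA] at h
  | n + 1, c, hs, l, h => by
    rw [initA_succ] at h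
    cases hc : Nat.beq c 0
    · rw [hc] at h
      simp only [cond_false, Nat.testBit_or, Bool.or_eq_true] at h
      rcases h with h | h
      · rw [Nat.one_shiftLeft, Nat.testBit_two_pow] at h
        have : c % 8192 = l := by simpa using h
        subst this
        exact fun hf => hs (Sat.here hf)
      · exact initA_sound n _ (fun h' => hs (Sat.there h')) l h
    · rw [hc] at h
      simp at h

noncomputable def rup (g : ℕ → ℕ) (i fuel : ℕ) : ℕ → ℕ → Bool :=
  Nat.rec (motive := fun _ => ℕ → ℕ → Bool) (fun _ _ => false) (fun _ ih H A =>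
    cond (Nat.ble i (Nat.mod H 16384)) false
      ((fun r => cond (Nat.beq r 0) true (cond (Nat.beq r 100000) false
        (ih (Nat.div H 16384) (Nat.lor A (Nat.shiftLeft 1 (Nat.xor r 1))))))
        (scan A 128 (g (Nat.mod H 16384)) 0))) fuel

theorem rup_succ (g : ℕ → ℕ) (i n H A : ℕ) : rup g i (n + 1) H A =
    cond (Nat.ble i (H % 16384)) false
      (cond (Nat.beq (scan A 128 (g (H % 16384)) 0) 0) true
        (cond (Nat.beq (scan A 128 (g (H % 16384)) 0) 100000) false
        (rup g i n (H / 16384) (A ||| (1 <<< ((scan A 128 (g (H % 16384)) 0) ^^^ 1)))))) := rfl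

theorem rup_sound {F : ℕ → Prop} (h0 : ¬ F 0) (hx : ∀ l, F l → ¬ F (l ^^^ 1)) {g : ℕ → ℕ} {i : ℕ}
    (hg : ∀ j < i, Sat F (g j)) :
    ∀ (n H A : ℕ), (∀ l, A.testBit l = true → ¬ F l) → rup g i n H A = true → False
  | 0, _, _, _, h => Bool.noConfusion h
  | n + 1, H, A, hA, h => by
    rw [rup_succ] at h
    cases h1 : Nat.ble i (H % 16384)
    · rw [h1] at h
      simp only [cond_false] at h
      have hlt : H % 16384 < i := by
        by_contra hc
        rw [Nat.ble_eq_true_of_le (not_lt.1 hc)] at h1
        exact Bool.noConfusion h1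
      have hs := hg _ hlt
      have key := scan_sound h0 hA 128 (g (H % 16384)) 0
      generalize scan A 128 (g (H % 16384)) 0 = r at h key
      cases h2 : Nat.beq r 0
      · rw [h2] at h
        simp only [cond_false] at h
        cases h3 : Nat.beq r 100000
        · rw [h3] at h
          simp only [cond_false] at h
          have hr := (key (beq_false h3)).2 rfl hs
          refine rup_sound h0 hx hg n _ _ ?_ h
          intro l hl
          rw [Nat.testBit_or, Bool.or_eq_true] at hl
          rcases hl with hl | hl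
          · exact hA l hl
          · rw [Nat.one_shiftLeft, Nat.testBit_two_pow] at hl
            have : r ^^^ 1 = l := by simpa using hl
            subst this
            exact hx r hr
        · rw [h3] at h
          exact Bool.noConfusion h
      · have hr0 := Nat.eq_of_beq_eq_true h2
        subst hr0
        exact h0 ((key (by norm_num)).2 rfl hs)
    · rw [h1] at h
      exact Bool.noConfusion h

noncomputable def run (g : ℕ → ℕ) (l : List ℕ) : ℕ → Bool :=
  List.rec (motive := fun _ => ℕ → Bool) (fun _ => true) (fun H _ ih i =>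
    cond (rup g i 100000 H (initA 128 (g i))) (ih (Nat.add i 1)) false) l

theorem run_sound {F : ℕ → Prop} (h0 : ¬ F 0) (hx : ∀ l, F l → ¬ F (l ^^^ 1)) {g : ℕ → ℕ} :
    ∀ (l : List ℕ) (i : ℕ), run g l i = true → (∀ j < i, Sat F (g j)) → ∀ j < i + l.length, Sat F (g j)
  | [], _, _, h => by simpa using h
  | H :: l, i, hr, h => by
    have hr' : cond (rup g i 100000 H (initA 128 (g i))) (run g l (i + 1)) false = true := hr
    cases h1 : rup g i 100000 H (initA 128 (g i))
    · rw [h1] at hr'
      exact Bool.noConfusion hr'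
    · rw [h1] at hr'
      have hi : Sat F (g i) := by
        by_contra hc
        exact rup_sound h0 hx h _ _ _ (initA_sound 128 _ hc) h1
      have := run_sound h0 hx l (i + 1) hr' (by
        intro j hj
        rcases Nat.lt_succ_iff_lt_or_eq.1 hj with hj | rfl
        · exact h j hj
        · exact hi)
      intro j hj
      exact this j (by simp only [List.length_cons] at hj; omega)

noncomputable def load (g : ℕ → ℕ) (chk : ℕ → ℕ → Bool) (l : List ℕ) : ℕ → Bool :=
  List.rec (motive := fun _ => ℕ → Bool) (fun _ => true) (fun d _ ih i =>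
    cond (chk d (g i)) (ih (Nat.add i 1)) false) l

theorem load_sound {F : ℕ → Prop} {g : ℕ → ℕ} {chk : ℕ → ℕ → Bool}
    (hc : ∀ d c, chk d c = true → Sat F c) :
    ∀ (l : List ℕ) (i : ℕ), load g chk l i = true → (∀ j < i, Sat F (g j)) →
      ∀ j < i + l.length, Sat F (g j)
  | [], _, _, h => by simpa using h
  | d :: l, i, hr, h => by
    have hr' : cond (chk d (g i)) (load g chk l (i + 1)) false = true := hr
    cases h1 : chk d (g i)
    · rw [h1] at hr'
      exact Bool.noConfusion hr'
    · rw [h1] at hr'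
      have := load_sound hc l (i + 1) hr' (by
        intro j hj
        rcases Nat.lt_succ_iff_lt_or_eq.1 hj with hj | rfl
        · exact h j hj
        · exact hc _ _ h1)
      intro j hj
      exact this j (by simp only [List.length_cons] at hj; omega)

/-- clause number `h`: the table `T` holds offset and length, `D` the digits -/
def get (T D h : ℕ) : ℕ :=
  (fun e => Nat.land (Nat.shiftRight D (Nat.mul 13 (Nat.shiftRight e 7)))
      (Nat.sub (Nat.shiftLeft 1 (Nat.mul 13 (Nat.land e 127))) 1))
    (Nat.land (Nat.shiftRight T (Nat.mul 32 h)) 4294967295)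

/-- truth value of a literal code -/
def lit (val : ℕ → Prop) (d : ℕ) : Prop := 2 ≤ d ∧ (d % 2 = 0 ↔ val (d / 2 - 1))

theorem lit_zero (val : ℕ → Prop) : ¬ lit val 0 := fun h => by simpa using h.1

theorem lit_xor (val : ℕ → Prop) (l : ℕ) (h : lit val l) : ¬ lit val (l ^^^ 1) := by
  intro h'
  have h1 : (l ^^^ 1) / 2 = l / 2 := by
    rw [Nat.xor_div_two]; simp
  have h2 : (l ^^^ 1) % 2 = 0 ↔ ¬ l % 2 = 0 := by
    have := Nat.xor_mod_two_eq_one (a := l) (b := 1)
    omega
  obtain ⟨_, ha⟩ := h
  obtain ⟨_, hb⟩ := h'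
  rw [h1, h2] at hb
  tauto

theorem lit_pos {val : ℕ → Prop} {v : ℕ} (h : val v) : lit val (2 * v + 2) :=
  ⟨by omega, by
    rw [show (2 * v + 2) / 2 - 1 = v by omega]
    exact ⟨fun _ => h, fun _ => by omega⟩⟩

theorem lit_neg {val : ℕ → Prop} {v : ℕ} (h : ¬ val v) : lit val (2 * v + 3) :=
  ⟨by omega, by
    rw [show (2 * v + 3) / 2 - 1 = v by omega]
    exact ⟨fun h' => by omega, fun h' => absurd h' h⟩⟩

end Crest.Agent.R040.Chk
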