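import Crest.Agent.R040.Defs2

/-! # Row 40: exact arithmetic for the finite certificates

`(p, q, r, s)` stands for `((p + q√33) + i(r√3 + s√11)) / 72`. -/

set_option autoImplicit false

namespace Crest.Agent.R040.Chk

structure V4 where
  p : ℤ
  q : ℤ
  r : ℤ
  s : ℤ

noncomputable def emb (v : V4) : ℂ := ⟨(v.p + v.q * √33) / 72, (v.r * √3 + v.s * √11) / 72⟩

def V4.add (a b : V4) : V4 := ⟨a.p + b.p, a.q + b.q, a.r + b.r, a.s + b.s⟩

def V4.sub (a b : V4) : V4 := ⟨a.p - b.p, a.q - b.q, a.r - b.r, a.s - b.s⟩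

theorem emb_add (a b : V4) : emb (a.add b) = emb a + emb b := by
  apply Complex.ext <;> simp [emb, V4.add] <;> ring

theorem emb_sub (a b : V4) : emb (a.sub b) = emb a - emb b := by
  apply Complex.ext <;> simp [emb, V4.sub] <;> ring

theorem s3_sq : √3 * √3 = 3 := Real.mul_self_sqrt (by norm_num)
theorem s11_sq : √11 * √11 = 11 := Real.mul_self_sqrt (by norm_num)
theorem s33_eq : √33 = √3 * √11 := by
  rw [← Real.sqrt_mul (by norm_num)]; norm_num

def ieq (a b : ℤ) : Bool := decide (a = b)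

def V4.unit (v : V4) : Bool :=
  ieq (v.p * v.p + 33 * (v.q * v.q) + 3 * (v.r * v.r) + 11 * (v.s * v.s)) 5184 &&
    ieq (v.p * v.q + v.r * v.s) 0

theorem norm_emb {v : V4} (h : v.unit = true) : ‖emb v‖ = 1 := by
  simp only [V4.unit, ieq, Bool.and_eq_true, decide_eq_true_eq] at h
  obtain ⟨h1, h2⟩ := h
  have h1' : (v.p : ℝ) * v.p + 33 * (v.q * v.q) + 3 * (v.r * v.r) + 11 * (v.s * v.s) = 5184 := by
    exact_mod_cast h1
  have h2' : (v.p : ℝ) * v.q + v.r * v.s = 0 := by exact_mod_cast h2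
  have : Complex.normSq (emb v) = 1 := by
    rw [Complex.normSq_apply]
    simp only [emb, s33_eq]
    have a := s3_sq
    have b := s11_sq
    linear_combination (1 / 5184 : ℝ) * h1' + (2 * (√3 * √11) / 5184 : ℝ) * h2' +
      ((v.q : ℝ) * v.q * (√11 * √11) / 5184 + v.r * v.r / 5184) * a +
      (3 * (v.q : ℝ) * v.q / 5184 + v.s * v.s / 5184) * b
  rw [Complex.norm_def, this, Real.sqrt_one]

def V4.nz (v : V4) : Bool :=
  !ieq (v.p * v.p) (33 * (v.q * v.q)) || !ieq (3 * (v.r * v.r)) (11 * (v.s * v.s))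

theorem emb_ne_zero {v : V4} (h : v.nz = true) : emb v ≠ 0 := by
  intro h0
  have hre : ((v.p : ℝ) + v.q * √33) / 72 = 0 := congrArg Complex.re h0
  have him : ((v.r : ℝ) * √3 + v.s * √11) / 72 = 0 := congrArg Complex.im h0
  have a := s3_sq
  have b := s11_sq
  have c : √33 * √33 = 33 := Real.mul_self_sqrt (by norm_num)
  have e1 : (v.p : ℝ) * v.p = 33 * (v.q * v.q) := by
    linear_combination (72 * ((v.p : ℝ) - v.q * √33)) * hre + (v.q : ℝ) * v.q * c
  have e2 : 3 * ((v.r : ℝ) * v.r) = 11 * (v.s * v.s) := by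
    linear_combination (72 * ((v.r : ℝ) * √3 - v.s * √11)) * him - (v.r : ℝ) * v.r * a +
      (v.s : ℝ) * v.s * b
  have e1' : v.p * v.p = 33 * (v.q * v.q) := by exact_mod_cast e1
  have e2' : 3 * (v.r * v.r) = 11 * (v.s * v.s) := by exact_mod_cast e2
  simp [V4.nz, ieq, e1', e2'] at h

def V4.isNeg (a b : V4) : Bool :=
  ieq b.p (-a.p) && ieq b.q (-a.q) && ieq b.r (-a.r) && ieq b.s (-a.s)

theorem emb_neg {a b : V4} (h : a.isNeg b = true) : emb b = -emb a := by
  simp only [V4.isNeg, ieq, Bool.and_eq_true, decide_eq_true_eq] at h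
  obtain ⟨⟨⟨h1, h2⟩, h3⟩, h4⟩ := h
  apply Complex.ext <;> simp [emb, h1, h2, h3, h4] <;> ring

def V4.isOm (a b : V4) : Bool :=
  ieq (2 * b.p) (a.p - 3 * a.r) && ieq (2 * b.q) (a.q - a.s) && ieq (2 * b.r) (a.r + a.p) &&
    ieq (2 * b.s) (a.s + 3 * a.q)

theorem om_eq' : om = ⟨1 / 2, √3 / 2⟩ := by
  apply Complex.ext
  · simp [om, cis, Complex.exp_ofReal_mul_I_re, -Complex.ofReal_div, Real.cos_pi_div_three]
  · simp [om, cis, Complex.exp_ofReal_mul_I_im, -Complex.ofReal_div, Real.sin_pi_div_three]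

theorem emb_om {a b : V4} (h : a.isOm b = true) : emb b = om * emb a := by
  simp only [V4.isOm, ieq, Bool.and_eq_true, decide_eq_true_eq] at h
  obtain ⟨⟨⟨h1, h2⟩, h3⟩, h4⟩ := h
  have h1' : 2 * (b.p : ℝ) = a.p - 3 * a.r := by exact_mod_cast h1
  have h2' : 2 * (b.q : ℝ) = a.q - a.s := by exact_mod_cast h2
  have h3' : 2 * (b.r : ℝ) = a.r + a.p := by exact_mod_cast h3
  have h4' : 2 * (b.s : ℝ) = a.s + 3 * a.q := by exact_mod_cast h4
  have e := s3_sq
  rw [om_eq']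
  apply Complex.ext
  · simp only [emb, Complex.mul_re, s33_eq]
    linear_combination (1 / 144 : ℝ) * h1' + (√3 * √11 / 144 : ℝ) * h2' + ((a.r : ℝ) / 144) * e
  · simp only [emb, Complex.mul_im, s33_eq]
    linear_combination (√3 / 144 : ℝ) * h3' + (√11 / 144 : ℝ) * h4' - ((a.q : ℝ) * √11 / 144) * e

def ilt (a b : ℤ) : Bool := decide (a < b)

/-- `R√3 + S√11 > 0` -/
def posB (R S : ℤ) : Bool :=
  (ilt 0 R && ilt (11 * (S * S)) (3 * (R * R))) || (ilt 0 S && ilt (3 * (R * R)) (11 * (S * S)))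

theorem pos_of_posB {R S : ℤ} (h : posB R S = true) : 0 < (R : ℝ) * √3 + S * √11 := by
  simp only [posB, ilt, Bool.or_eq_true, Bool.and_eq_true, decide_eq_true_eq] at h
  have a := s3_sq
  have b := s11_sq
  have a0 : 0 < √3 := Real.sqrt_pos.2 (by norm_num)
  have b0 : 0 < √11 := Real.sqrt_pos.2 (by norm_num)
  rcases h with ⟨h1, h2⟩ | ⟨h1, h2⟩
  · have h1' : (0 : ℝ) < R := by exact_mod_cast h1
    have h2' : 11 * ((S : ℝ) * S) < 3 * (R * R) := by exact_mod_cast h2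
    have hx : 0 < (R : ℝ) * √3 := mul_pos h1' a0
    have : |(S : ℝ) * √11| < R * √3 := by
      apply abs_lt_of_sq_lt_sq _ hx.le
      nlinarith
    linarith [neg_abs_le ((S : ℝ) * √11)]
  · have h1' : (0 : ℝ) < S := by exact_mod_cast h1
    have h2' : 3 * ((R : ℝ) * R) < 11 * (S * S) := by exact_mod_cast h2
    have hx : 0 < (S : ℝ) * √11 := mul_pos h1' b0
    have : |(R : ℝ) * √3| < S * √11 := by
      apply abs_lt_of_sq_lt_sq _ hx.le
      nlinarith
    linarith [neg_abs_le ((R : ℝ) * √3)]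

/-- `cr (emb a) (emb b) > 0` -/
def V4.crPos (a b : V4) : Bool :=
  posB (a.p * b.r + 11 * (a.q * b.s) - (b.p * a.r + 11 * (b.q * a.s)))
    (a.p * b.s + 3 * (a.q * b.r) - (b.p * a.s + 3 * (b.q * a.r)))

theorem cr_pos {a b : V4} (h : a.crPos b = true) : 0 < cr (emb a) (emb b) := by
  have h1 := pos_of_posB h
  have e := s3_sq
  have f := s11_sq
  have : cr (emb a) (emb b) = (((a.p * b.r + 11 * (a.q * b.s) - (b.p * a.r + 11 * (b.q * a.s)) : ℤ) : ℝ) * √3 +
      ((a.p * b.s + 3 * (a.q * b.r) - (b.p * a.s + 3 * (b.q * a.r)) : ℤ) : ℝ) * √11) / 5184 := by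
    simp only [cr, emb, s33_eq]
    push_cast
    linear_combination (((a.q : ℝ) * b.r - b.q * a.r) * √11 / 5184) * e +
      (((a.q : ℝ) * b.s - b.q * a.s) * √3 / 5184) * f
  rw [this]
  positivity

theorem cr_swap (u w : ℂ) : cr u w = -cr w u := by simp only [cr]; ring

theorem cr_neg_left (u w : ℂ) : cr (-u) w = -cr u w := by simp only [cr, Complex.neg_re, Complex.neg_im]; ring

theorem cr_neg_right (u w : ℂ) : cr u (-w) = -cr u w := by
  simp only [cr, Complex.neg_re, Complex.neg_im]; ring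

/-- digit number `i` of `T` in base `2^w` -/
def dig (T w i : ℕ) : ℕ := Nat.land (Nat.shiftRight T (Nat.mul w i)) (Nat.sub (Nat.shiftLeft 1 w) 1)

/-- direction number `t` of a packed table -/
def dir (DT t : ℕ) : V4 :=
  ⟨Int.subNatNat (dig DT 8 (4 * t)) 128, Int.subNatNat (dig DT 8 (4 * t + 1)) 128,
    Int.subNatNat (dig DT 8 (4 * t + 2)) 128, Int.subNatNat (dig DT 8 (4 * t + 3)) 128⟩

/-- point number `p`: a sum of two directions -/
def pnt (DT PT p : ℕ) : V4 := (dir DT (dig PT 6 (2 * p))).add (dir DT (dig PT 6 (2 * p + 1)))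

/-- all directions below `n` are unit vectors -/
def allUnit (DT : ℕ) : ℕ → Bool
  | 0 => true
  | n + 1 => (dir DT n).unit && allUnit DT n

theorem allUnit_sound {DT : ℕ} : ∀ {n : ℕ}, allUnit DT n = true → ∀ t < n, ‖emb (dir DT t)‖ = 1
  | 0, _, t, ht => absurd ht (Nat.not_lt_zero t)
  | n + 1, h, t, ht => by
    rw [allUnit, Bool.and_eq_true] at h
    rcases Nat.lt_succ_iff_lt_or_eq.1 ht with ht | rfl
    · exact allUnit_sound h.2 t ht
    · exact norm_emb h.1

noncomputable def dirs (DT nd : ℕ) : Finset ℂ := (Finset.range nd).image fun t => emb (dir DT t)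

noncomputable def pnts (DT PT np : ℕ) : Finset ℂ := (Finset.range np).image fun p => emb (pnt DT PT p)

theorem mem_dirs {DT nd t : ℕ} (h : t < nd) : emb (dir DT t) ∈ dirs DT nd :=
  Finset.mem_image.2 ⟨t, Finset.mem_range.2 h, rfl⟩

theorem mem_pnts {DT PT np p : ℕ} (h : p < np) : emb (pnt DT PT p) ∈ pnts DT PT np :=
  Finset.mem_image.2 ⟨p, Finset.mem_range.2 h, rfl⟩

theorem norm_dirs {DT nd : ℕ} (h : allUnit DT nd = true) : ∀ u ∈ dirs DT nd, ‖u‖ = 1 := by
  intro u hu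
  obtain ⟨t, ht, rfl⟩ := Finset.mem_image.1 hu
  exact allUnit_sound h t (Finset.mem_range.1 ht)

/-- point `p` is `u_t + u_{t'}` with `u_t ≠ ± u_{t'}` -/
def isSum (DT PT p t t' : ℕ) : Bool :=
  ((Nat.beq (dig PT 6 (2 * p)) t && Nat.beq (dig PT 6 (2 * p + 1)) t') ||
    (Nat.beq (dig PT 6 (2 * p)) t' && Nat.beq (dig PT 6 (2 * p + 1)) t)) &&
  ((dir DT t).sub (dir DT t')).nz && ((dir DT t).add (dir DT t')).nz

theorem isSum_sound {DT PT p t t' : ℕ} (h : isSum DT PT p t t' = true) :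
    emb (pnt DT PT p) = emb (dir DT t) + emb (dir DT t') ∧ emb (dir DT t) ≠ emb (dir DT t') ∧
      emb (dir DT t) ≠ -emb (dir DT t') := by
  simp only [isSum, Bool.and_eq_true, Bool.or_eq_true] at h
  obtain ⟨⟨h1, h2⟩, h3⟩ := h
  have h2' := emb_ne_zero h2
  have h3' := emb_ne_zero h3
  rw [emb_sub] at h2'
  rw [emb_add] at h3'
  refine ⟨?_, sub_ne_zero.1 h2', fun h => h3' (by rw [h]; ring)⟩
  rcases h1 with ⟨a, b⟩ | ⟨a, b⟩
  · rw [pnt, emb_add, Nat.eq_of_beq_eq_true a, Nat.eq_of_beq_eq_true b]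
  · rw [pnt, emb_add, Nat.eq_of_beq_eq_true a, Nat.eq_of_beq_eq_true b, add_comm]

def blt (a b : ℕ) : Bool := Nat.ble (a + 1) b

theorem lt_of_blt {a b : ℕ} (h : blt a b = true) : a < b := Nat.le_of_ble_eq_true h

end Crest.Agent.R040.Chk
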