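import Crest.Agent.R040.SatChk
import Crest.Agent.R040.SatGeo

/-! # Row 40: meaning of the variables and input clauses of the two certificates -/

set_option autoImplicit false

namespace Crest.Agent.R040.Chk

/-- field number `i` of a descriptor -/
def fld (d i : ℕ) : ℕ := Nat.land (Nat.shiftRight d (3 + 12 * i)) 4095

theorem of_beq {a b : ℕ} (h : Nat.beq a b = true) : a = b := Nat.eq_of_beq_eq_true h

theorem fin5_cases (x : Fin 5) : x.val = 0 ∨ x.val = 1 ∨ x.val = 2 ∨ x.val = 3 ∨ x.val = 4 := by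
  have := x.2; omega

theorem sat_two {F : ℕ → Prop} {a b : ℕ} (ha : a < 8192) (hb : b < 8192) (h : F a ∨ F b) :
    Sat F (a + 8192 * b) := sat_cons ha (h.imp id (sat_one hb))

/-! ### the first certificate -/

section one

variable (DT PT np nd : ℕ) (N : ℂ → Fin 5 → Prop) (col : ℂ → Fin 5)

def val1 (v : ℕ) : Prop :=
  if v < 5 * np then (col (emb (pnt DT PT (v / 5)))).val = v % 5
  else N (emb (dir DT ((v - 5 * np) / 5))) ⟨(v - 5 * np) % 5, Nat.mod_lt _ (by norm_num)⟩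

variable {DT PT np nd N col}

theorem val1_c {p k : ℕ} (hp : p < np) (hk : k < 5) :
    val1 DT PT np N col (5 * p + k) ↔ (col (emb (pnt DT PT p))).val = k := by
  unfold val1
  rw [if_pos (by omega), show (5 * p + k) / 5 = p by omega, show (5 * p + k) % 5 = k by omega]

theorem val1_n {t k : ℕ} (hk : k < 5) :
    val1 DT PT np N col (5 * np + 5 * t + k) ↔ N (emb (dir DT t)) ⟨k, hk⟩ := by
  unfold val1
  rw [if_neg (by omega)]
  have h1 : (5 * np + 5 * t + k - 5 * np) / 5 = t := by omega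
  have h2 : (⟨(5 * np + 5 * t + k - 5 * np) % 5, Nat.mod_lt _ (by norm_num)⟩ : Fin 5) = ⟨k, hk⟩ :=
    Fin.ext (by simp only; omega)
  rw [h1, h2]

def aloCl (p : ℕ) : ℕ := (2 * (5 * p + 0) + 2) + 8192 * ((2 * (5 * p + 1) + 2) + 8192 *
  ((2 * (5 * p + 2) + 2) + 8192 * ((2 * (5 * p + 3) + 2) + 8192 * (2 * (5 * p + 4) + 2))))

theorem sat_alo {val : ℕ → Prop} {p : ℕ} (hp : p < 800) (x : Fin 5)
    (h : ∀ k < 5, val (5 * p + k) ↔ x.val = k) : Sat (lit val) (aloCl p) := by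
  unfold aloCl
  rcases fin5_cases x with e | e | e | e | e
  · exact sat_cons (by omega) (Or.inl (lit_pos ((h 0 (by norm_num)).2 e)))
  · exact sat_cons (by omega) (Or.inr (sat_cons (by omega) (Or.inl (lit_pos ((h 1 (by norm_num)).2 e)))))
  · exact sat_cons (by omega) (Or.inr (sat_cons (by omega) (Or.inr (sat_cons (by omega)
      (Or.inl (lit_pos ((h 2 (by norm_num)).2 e)))))))
  · exact sat_cons (by omega) (Or.inr (sat_cons (by omega) (Or.inr (sat_cons (by omega)
      (Or.inr (sat_cons (by omega) (Or.inl (lit_pos ((h 3 (by norm_num)).2 e)))))))))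
  · exact sat_cons (by omega) (Or.inr (sat_cons (by omega) (Or.inr (sat_cons (by omega)
      (Or.inr (sat_cons (by omega) (Or.inr (sat_one (by omega) (lit_pos ((h 4 (by norm_num)).2 e))))))))))

theorem sat_nn {val : ℕ → Prop} {a b : ℕ} (ha : a < 4090) (hb : b < 4090) (h : val a → val b → False) :
    Sat (lit val) ((2 * a + 3) + 8192 * (2 * b + 3)) := by
  refine sat_two (by omega) (by omega) ?_
  by_cases h1 : val a
  · exact Or.inr (lit_neg (h h1))
  · exact Or.inl (lit_neg h1)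

def edgeOk (DT PT np p q k c : ℕ) : Bool :=
  blt p np && blt q np && blt k 5 && ((pnt DT PT p).sub (pnt DT PT q)).unit &&
    Nat.beq c ((2 * (5 * p + k) + 3) + 8192 * (2 * (5 * q + k) + 3))

theorem sat_edge {val : ℕ → Prop} (hnp : np < 700)
    (hval : ∀ p < np, ∀ k < 5, val (5 * p + k) ↔ (col (emb (pnt DT PT p))).val = k)
    (hp : ∀ p ∈ pnts DT PT np, ∀ q ∈ pnts DT PT np, ‖p - q‖ = 1 → col p ≠ col q) {p q k c : ℕ}
    (h : edgeOk DT PT np p q k c = true) : Sat (lit val) c := by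
  simp only [edgeOk, Bool.and_eq_true] at h
  obtain ⟨⟨⟨⟨h1, h2⟩, h3⟩, h4⟩, h5⟩ := h
  have h1 := lt_of_blt h1
  have h2 := lt_of_blt h2
  have h3 := lt_of_blt h3
  rw [of_beq h5]
  refine sat_nn (by omega) (by omega) fun a b => ?_
  rw [hval p h1 k h3] at a
  rw [hval q h2 k h3] at b
  have := norm_emb h4
  rw [emb_sub] at this
  exact hp _ (mem_pnts h1) _ (mem_pnts h2) this (Fin.ext (a.trans b.symm))

def chk1 (DT PT np nd T0 T1 d c : ℕ) : Bool :=
  bif Nat.beq (Nat.land d 7) 1 then edgeOk DT PT np (fld d 0) (fld d 1) (fld d 2) c else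
  bif Nat.beq (Nat.land d 7) 2 then
    blt (fld d 0) np && blt (fld d 1) nd && blt (fld d 2) nd && blt (fld d 3) 5 &&
      isSum DT PT (fld d 0) (fld d 1) (fld d 2) &&
      Nat.beq c ((2 * (5 * fld d 0 + fld d 3) + 3) + 8192 * (2 * (5 * np + 5 * fld d 1 + fld d 3) + 3)) else
  bif Nat.beq (Nat.land d 7) 0 then blt (fld d 0) np && Nat.beq c (aloCl (fld d 0)) else
  bif Nat.beq (Nat.land d 7) 3 then
    blt (fld d 0) nd && blt (fld d 1) 5 &&
      Nat.beq c ((2 * (5 * np + 5 * fld d 0 + (fld d 1 + 1) % 5) + 2) + 8192 *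
        ((2 * (5 * np + 5 * fld d 0 + (fld d 1 + 2) % 5) + 2) + 8192 *
        ((2 * (5 * np + 5 * fld d 0 + (fld d 1 + 3) % 5) + 2) + 8192 *
        (2 * (5 * np + 5 * fld d 0 + (fld d 1 + 4) % 5) + 2)))) else
  bif Nat.beq (Nat.land d 7) 4 then
    blt (fld d 0) nd && blt (fld d 1) nd && blt (fld d 2) 5 &&
      (dir DT (fld d 0)).isOm (dir DT (fld d 1)) &&
      Nat.beq c ((2 * (5 * np + 5 * fld d 0 + fld d 2) + 3) + 8192 *
        (2 * (5 * np + 5 * fld d 1 + fld d 2) + 3)) else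
  bif Nat.beq (Nat.land d 7) 5 then Nat.beq c (2 * (5 * np + 5 * T0 + 0) + 2) ||
    Nat.beq c (2 * (5 * np + 5 * T0 + 1) + 2) || Nat.beq c (2 * (5 * np + 5 * T1 + 2) + 2) ||
    Nat.beq c (2 * (5 * np + 5 * T1 + 3) + 2) else false

theorem chk1_sound {T0 T1 : ℕ} (hnp : np < 700) (hnd : nd < 60) (hT0 : T0 < 60) (hT1 : T1 < 60)
    (h1 : ∀ u ∈ dirs DT nd, ∀ j, ∃ k, k ≠ j ∧ N u k)
    (h2 : ∀ u ∈ dirs DT nd, ∀ k, N u k → ¬ N (om * u) k)
    (h3 : ∀ p ∈ pnts DT PT np, ∀ q ∈ pnts DT PT np, ‖p - q‖ = 1 → col p ≠ col q)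
    (h4 : ∀ u ∈ dirs DT nd, ∀ u' ∈ dirs DT nd, u ≠ u' → u ≠ -u' → u + u' ∈ pnts DT PT np →
      ¬ N u (col (u + u')))
    (u0 : N (emb (dir DT T0)) 0) (u1 : N (emb (dir DT T0)) 1) (u2 : N (emb (dir DT T1)) 2)
    (u3 : N (emb (dir DT T1)) 3) (d c : ℕ) (h : chk1 DT PT np nd T0 T1 d c = true) :
    Sat (lit (val1 DT PT np N col)) c := by
  unfold chk1 at h
  cases e1 : Nat.beq (Nat.land d 7) 1
  swap
  · rw [e1] at h
    exact sat_edge hnp (fun p hp k hk => val1_c hp hk) h3 h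
  rw [e1] at h
  cases e2 : Nat.beq (Nat.land d 7) 2
  swap
  · rw [e2] at h
    simp only [cond_false, cond_true, Bool.and_eq_true] at h
    obtain ⟨⟨⟨⟨⟨a1, a2⟩, a3⟩, a4⟩, a5⟩, a6⟩ := h
    have a1 := lt_of_blt a1
    have a2 := lt_of_blt a2
    have a3 := lt_of_blt a3
    have a4 := lt_of_blt a4
    obtain ⟨b1, b2, b3⟩ := isSum_sound a5
    rw [of_beq a6]
    refine sat_nn (by omega) (by omega) fun a b => ?_
    rw [val1_c a1 a4] at a
    rw [val1_n a4] at b
    refine h4 _ (mem_dirs a2) _ (mem_dirs a3) b2 b3 (b1 ▸ mem_pnts a1) ?_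
    rw [← b1]
    convert b using 1
    exact Fin.ext a
  rw [e2] at h
  cases e0 : Nat.beq (Nat.land d 7) 0
  swap
  · rw [e0] at h
    simp only [cond_false, cond_true, Bool.and_eq_true] at h
    have a1 := lt_of_blt h.1
    rw [of_beq h.2]
    exact sat_alo (by omega) _ fun k hk => val1_c a1 hk
  rw [e0] at h
  cases e3 : Nat.beq (Nat.land d 7) 3
  swap
  · rw [e3] at h
    simp only [cond_false, cond_true, Bool.and_eq_true] at h
    obtain ⟨⟨a1, a2⟩, a3⟩ := h
    have a1 := lt_of_blt a1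
    have a2 := lt_of_blt a2
    rw [of_beq a3]
    generalize fld d 0 = t at a1
    generalize fld d 1 = j at a2
    obtain ⟨k, hk, hN⟩ := h1 _ (mem_dirs a1) ⟨j, a2⟩
    have hk' : k.val ≠ j := fun e => hk (Fin.ext e)
    have hk5 := k.2
    have hv : val1 DT PT np N col (5 * np + 5 * t + k.val) := (val1_n k.2).2 hN
    have : k.val = (j + 1) % 5 ∨ k.val = (j + 2) % 5 ∨ k.val = (j + 3) % 5 ∨ k.val = (j + 4) % 5 := by
      omega
    rcases this with e | e | e | e <;> rw [e] at hv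
    · exact sat_cons (by omega) (Or.inl (lit_pos hv))
    · exact sat_cons (by omega) (Or.inr (sat_cons (by omega) (Or.inl (lit_pos hv))))
    · exact sat_cons (by omega) (Or.inr (sat_cons (by omega) (Or.inr (sat_cons (by omega)
        (Or.inl (lit_pos hv))))))
    · exact sat_cons (by omega) (Or.inr (sat_cons (by omega) (Or.inr (sat_cons (by omega)
        (Or.inr (sat_one (by omega) (lit_pos hv)))))))
  rw [e3] at h
  cases e4 : Nat.beq (Nat.land d 7) 4
  swap
  · rw [e4] at h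
    simp only [cond_false, cond_true, Bool.and_eq_true] at h
    obtain ⟨⟨⟨⟨a1, a2⟩, a3⟩, a4⟩, a5⟩ := h
    have a1 := lt_of_blt a1
    have a2 := lt_of_blt a2
    have a3 := lt_of_blt a3
    rw [of_beq a5]
    refine sat_nn (by omega) (by omega) fun a b => ?_
    rw [val1_n a3] at a b
    rw [emb_om a4] at b
    exact h2 _ (mem_dirs a1) _ a b
  rw [e4] at h
  cases e5 : Nat.beq (Nat.land d 7) 5
  swap
  · rw [e5] at h
    simp only [cond_false, cond_true, Bool.or_eq_true] at h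
    rcases h with ((h | h) | h) | h <;> rw [of_beq h]
    · exact sat_one (by omega) (lit_pos ((val1_n (by norm_num)).2 u0))
    · exact sat_one (by omega) (lit_pos ((val1_n (by norm_num)).2 u1))
    · exact sat_one (by omega) (lit_pos ((val1_n (by norm_num)).2 u2))
    · exact sat_one (by omega) (lit_pos ((val1_n (by norm_num)).2 u3))
  rw [e5] at h
  exact Bool.noConfusion h

end one

/-! ### the second certificate -/

section two

def opp (t : ℕ) : ℕ := 6 * (t / 6) + (t % 6 + 3) % 6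

variable (DT PT np nd : ℕ) (ty : ℂ → Fin 3) (col : ℂ → Fin 5)

def val2 (v : ℕ) : Prop :=
  if v < 5 * np then (col (emb (pnt DT PT (v / 5)))).val = v % 5
  else if v < 5 * np + 3 * nd then (ty (emb (dir DT ((v - 5 * np) / 3)))).val = (v - 5 * np) % 3
  else (ty (emb (dir DT ((v - 5 * np - 3 * nd) / 2)))).val = (v - 5 * np - 3 * nd) % 2 + 1 ∨
    (ty (emb (dir DT (opp ((v - 5 * np - 3 * nd) / 2))))).val = (v - 5 * np - 3 * nd) % 2 + 1

variable {DT PT np nd ty col}

theorem val2_c {p k : ℕ} (hp : p < np) (hk : k < 5) :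
    val2 DT PT np nd ty col (5 * p + k) ↔ (col (emb (pnt DT PT p))).val = k := by
  unfold val2
  rw [if_pos (by omega), show (5 * p + k) / 5 = p by omega, show (5 * p + k) % 5 = k by omega]

theorem val2_t {t y : ℕ} (ht : t < nd) (hy : y < 3) :
    val2 DT PT np nd ty col (5 * np + 3 * t + y) ↔ (ty (emb (dir DT t))).val = y := by
  unfold val2
  rw [if_neg (by omega), if_pos (by omega), show (5 * np + 3 * t + y - 5 * np) / 3 = t by omega,
    show (5 * np + 3 * t + y - 5 * np) % 3 = y by omega]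

theorem val2_h {t b : ℕ} (hb : b < 2) :
    val2 DT PT np nd ty col (5 * np + 3 * nd + 2 * t + b) ↔
      (ty (emb (dir DT t))).val = b + 1 ∨ (ty (emb (dir DT (opp t)))).val = b + 1 := by
  unfold val2
  rw [if_neg (by omega), if_neg (by omega),
    show (5 * np + 3 * nd + 2 * t + b - 5 * np - 3 * nd) / 2 = t by omega,
    show (5 * np + 3 * nd + 2 * t + b - 5 * np - 3 * nd) % 2 = b by omega]

def lineOk (DT nd t : ℕ) : Bool := blt t nd && blt (opp t) nd && (dir DT t).isNeg (dir DT (opp t))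

def crNz (a b : V4) : Bool := a.crPos b || b.crPos a

theorem cr_sign {a b : V4} (h : crNz a b = true) :
    if a.crPos b = true then 0 < cr (emb a) (emb b) else cr (emb a) (emb b) < 0 := by
  split_ifs with h1
  · exact cr_pos h1
  · have : b.crPos a = true := by simpa [crNz, h1] using h
    have := cr_pos this
    rw [cr_swap]
    linarith

theorem mul_sign {x y : ℝ} {p q : Bool} (hx : if p = true then 0 < x else x < 0)
    (hy : if q = true then 0 < y else y < 0) :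
    if (p == q) = true then 0 < x * y else x * y < 0 := by
  cases p <;> cases q <;> simp only [Bool.false_eq_true, if_false, if_true] at hx hy
  · simpa using mul_pos_of_neg_of_neg hx hy
  · simpa using mul_neg_of_neg_of_pos hx hy
  · simpa using mul_neg_of_pos_of_neg hx hy
  · simpa using mul_pos hx hy

def interOk (a b c d : V4) : Bool :=
  crNz b a && crNz b c && crNz d a && crNz d c &&
    !(((b.crPos a == b.crPos c) == d.crPos a) == d.crPos c)

theorem inter_sound {a b c d : V4} (h : interOk a b c d = true) :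
    cr (emb b) (emb a) * cr (emb b) (emb c) * cr (emb d) (emb a) * cr (emb d) (emb c) < 0 := by
  simp only [interOk, Bool.and_eq_true, Bool.not_eq_true'] at h
  obtain ⟨⟨⟨⟨h1, h2⟩, h3⟩, h4⟩, h5⟩ := h
  have := mul_sign (mul_sign (mul_sign (cr_sign h1) (cr_sign h2)) (cr_sign h3)) (cr_sign h4)
  rw [h5] at this
  simpa using this

def listOk (y k : ℕ) : Bool :=
  (Nat.beq y 0 && Nat.beq k 4) || (Nat.beq y 1 && (Nat.beq k 1 || Nat.beq k 3)) ||
    (Nat.beq y 2 && (Nat.beq k 0 || Nat.beq k 2))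

def chk2 (DT PT np nd d c : ℕ) : Bool :=
  bif Nat.beq (Nat.land d 7) 1 then edgeOk DT PT np (fld d 0) (fld d 1) (fld d 2) c else
  bif Nat.beq (Nat.land d 7) 2 then
    blt (fld d 0) np && blt (fld d 1) nd && blt (fld d 2) nd && listOk (fld d 3) (fld d 4) &&
      isSum DT PT (fld d 0) (fld d 1) (fld d 2) &&
      Nat.beq c ((2 * (5 * fld d 0 + fld d 4) + 3) + 8192 * (2 * (5 * np + 3 * fld d 1 + fld d 3) + 3)) else
  bif Nat.beq (Nat.land d 7) 0 then blt (fld d 0) np && Nat.beq c (aloCl (fld d 0)) else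
  bif Nat.beq (Nat.land d 7) 3 then
    blt (fld d 0) nd && Nat.beq c ((2 * (5 * np + 3 * fld d 0 + 0) + 2) + 8192 *
        ((2 * (5 * np + 3 * fld d 0 + 1) + 2) + 8192 * (2 * (5 * np + 3 * fld d 0 + 2) + 2))) else
  bif Nat.beq (Nat.land d 7) 4 then
    blt (fld d 0) nd && blt (fld d 1) nd && blt (fld d 2) 3 &&
      (dir DT (fld d 0)).isOm (dir DT (fld d 1)) &&
      Nat.beq c ((2 * (5 * np + 3 * fld d 0 + fld d 2) + 3) + 8192 *
        (2 * (5 * np + 3 * fld d 1 + fld d 2) + 3)) else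
  bif Nat.beq (Nat.land d 7) 5 then
    blt (fld d 0) nd && blt (fld d 1) nd && blt (fld d 2) 2 &&
      (Nat.beq (fld d 1) (fld d 0) || Nat.beq (fld d 1) (opp (fld d 0))) &&
      Nat.beq c ((2 * (5 * np + 3 * fld d 1 + (fld d 2 + 1)) + 3) + 8192 *
        (2 * (5 * np + 3 * nd + 2 * fld d 0 + fld d 2) + 2)) else
  bif Nat.beq (Nat.land d 7) 6 then
    lineOk DT nd (fld d 0) && Nat.beq c ((2 * (5 * np + 3 * nd + 2 * fld d 0 + 0) + 3) + 8192 *
        (2 * (5 * np + 3 * nd + 2 * fld d 0 + 1) + 3)) else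
    lineOk DT nd (fld d 0) && lineOk DT nd (fld d 1) && lineOk DT nd (fld d 2) &&
      lineOk DT nd (fld d 3) &&
      interOk (dir DT (fld d 0)) (dir DT (fld d 1)) (dir DT (fld d 2)) (dir DT (fld d 3)) &&
      Nat.beq c ((2 * (5 * np + 3 * nd + 2 * fld d 0 + 0) + 3) + 8192 *
        ((2 * (5 * np + 3 * nd + 2 * fld d 1 + 1) + 3) + 8192 *
        ((2 * (5 * np + 3 * nd + 2 * fld d 2 + 0) + 3) + 8192 *
        (2 * (5 * np + 3 * nd + 2 * fld d 3 + 1) + 3))))

theorem line_sound {t b : ℕ} (h : lineOk DT nd t = true) (hb : b < 2)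
    (hv : val2 DT PT np nd ty col (5 * np + 3 * nd + 2 * t + b)) :
    t < nd ∧ ∃ u ∈ dirs DT nd, (ty u).val = b + 1 ∧ (u = emb (dir DT t) ∨ u = -emb (dir DT t)) := by
  simp only [lineOk, Bool.and_eq_true] at h
  obtain ⟨⟨a1, a2⟩, a3⟩ := h
  refine ⟨lt_of_blt a1, ?_⟩
  rcases (val2_h hb).1 hv with h | h
  · exact ⟨_, mem_dirs (lt_of_blt a1), h, Or.inl rfl⟩
  · exact ⟨_, mem_dirs (lt_of_blt a2), h, Or.inr (emb_neg a3)⟩

theorem line_lt {t : ℕ} (h : lineOk DT nd t = true) : t < nd := by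
  simp only [lineOk, Bool.and_eq_true] at h
  exact lt_of_blt h.1.1

theorem chk2_sound (hnp : np < 700) (hnd : nd < 60)
    (h1 : ∀ u ∈ dirs DT nd, ty u ≠ ty (om * u))
    (h2 : ∀ u ∈ dirs DT nd, ∀ u' ∈ dirs DT nd, u' = -u → ty u = 1 → ty u' ≠ 2)
    (h3 : ∀ u₁ ∈ dirs DT nd, ∀ u₂ ∈ dirs DT nd, ∀ u₃ ∈ dirs DT nd, ∀ u₄ ∈ dirs DT nd, ty u₁ = 1 →
      ty u₂ = 2 → ty u₃ = 1 → ty u₄ = 2 → 0 ≤ cr u₂ u₁ * cr u₂ u₃ * cr u₄ u₁ * cr u₄ u₃)
    (h4 : ∀ p ∈ pnts DT PT np, ∀ q ∈ pnts DT PT np, ‖p - q‖ = 1 → col p ≠ col q)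
    (h5 : ∀ u ∈ dirs DT nd, ∀ u' ∈ dirs DT nd, u ≠ u' → u ≠ -u' → u + u' ∈ pnts DT PT np →
      (ty u = 0 → col (u + u') ≠ 4) ∧ (ty u = 1 → col (u + u') ≠ 1 ∧ col (u + u') ≠ 3) ∧
      (ty u = 2 → col (u + u') ≠ 0 ∧ col (u + u') ≠ 2))
    (d c : ℕ) (h : chk2 DT PT np nd d c = true) : Sat (lit (val2 DT PT np nd ty col)) c := by
  unfold chk2 at h
  cases e1 : Nat.beq (Nat.land d 7) 1
  swap
  · rw [e1] at h
    exact sat_edge hnp (fun p hp k hk => val2_c hp hk) h4 h
  rw [e1] at h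
  cases e2 : Nat.beq (Nat.land d 7) 2
  swap
  · rw [e2] at h
    simp only [cond_false, cond_true, Bool.and_eq_true] at h
    obtain ⟨⟨⟨⟨⟨a1, a2⟩, a3⟩, a4⟩, a5⟩, a6⟩ := h
    have a1 := lt_of_blt a1
    have a2 := lt_of_blt a2
    have a3 := lt_of_blt a3
    obtain ⟨b1, b2, b3⟩ := isSum_sound a5
    rw [of_beq a6]
    generalize fld d 3 = y at a4
    generalize fld d 4 = k at a4
    have a4' : (y = 0 ∧ k = 4) ∨ (y = 1 ∧ (k = 1 ∨ k = 3)) ∨ (y = 2 ∧ (k = 0 ∨ k = 2)) := by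
      simp only [listOk, Bool.and_eq_true, Bool.or_eq_true] at a4
      rcases a4 with (⟨x1, x2⟩ | ⟨x1, x2 | x2⟩) | ⟨x1, x2 | x2⟩ <;>
        (have := of_beq x1; have := of_beq x2; omega)
    refine sat_nn (by omega) (by omega) fun a b => ?_
    rw [val2_c a1 (by omega)] at a
    rw [val2_t a2 (by omega)] at b
    obtain ⟨c1, c2, c3⟩ := h5 _ (mem_dirs a2) _ (mem_dirs a3) b2 b3 (b1 ▸ mem_pnts a1)
    rw [← b1] at c1 c2 c3
    rcases a4' with ⟨rfl, rfl⟩ | ⟨rfl, rfl | rfl⟩ | ⟨rfl, rfl | rfl⟩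
    · exact c1 (Fin.ext b) (Fin.ext a)
    · exact (c2 (Fin.ext b)).1 (Fin.ext a)
    · exact (c2 (Fin.ext b)).2 (Fin.ext a)
    · exact (c3 (Fin.ext b)).1 (Fin.ext a)
    · exact (c3 (Fin.ext b)).2 (Fin.ext a)
  rw [e2] at h
  cases e0 : Nat.beq (Nat.land d 7) 0
  swap
  · rw [e0] at h
    simp only [cond_false, cond_true, Bool.and_eq_true] at h
    have a1 := lt_of_blt h.1
    rw [of_beq h.2]
    exact sat_alo (by omega) _ fun k hk => val2_c a1 hk
  rw [e0] at h
  cases e3 : Nat.beq (Nat.land d 7) 3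
  swap
  · rw [e3] at h
    simp only [cond_false, cond_true, Bool.and_eq_true] at h
    have a1 := lt_of_blt h.1
    rw [of_beq h.2]
    generalize fld d 0 = t at a1
    have hy := (ty (emb (dir DT t))).2
    have : (ty (emb (dir DT t))).val = 0 ∨ (ty (emb (dir DT t))).val = 1 ∨
      (ty (emb (dir DT t))).val = 2 := by omega
    rcases this with e | e | e
    · exact sat_cons (by omega) (Or.inl (lit_pos ((val2_t a1 (by norm_num)).2 e)))
    · exact sat_cons (by omega) (Or.inr (sat_cons (by omega)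
        (Or.inl (lit_pos ((val2_t a1 (by norm_num)).2 e)))))
    · exact sat_cons (by omega) (Or.inr (sat_cons (by omega)
        (Or.inr (sat_one (by omega) (lit_pos ((val2_t a1 (by norm_num)).2 e))))))
  rw [e3] at h
  cases e4 : Nat.beq (Nat.land d 7) 4
  swap
  · rw [e4] at h
    simp only [cond_false, cond_true, Bool.and_eq_true] at h
    obtain ⟨⟨⟨⟨a1, a2⟩, a3⟩, a4⟩, a5⟩ := h
    have a1 := lt_of_blt a1
    have a2 := lt_of_blt a2
    have a3 := lt_of_blt a3
    rw [of_beq a5]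
    refine sat_nn (by omega) (by omega) fun a b => ?_
    rw [val2_t a1 a3] at a
    rw [val2_t a2 a3, emb_om a4] at b
    exact h1 _ (mem_dirs a1) (Fin.ext (a.trans b.symm))
  rw [e4] at h
  cases e5 : Nat.beq (Nat.land d 7) 5
  swap
  · rw [e5] at h
    simp only [cond_false, cond_true, Bool.and_eq_true, Bool.or_eq_true] at h
    obtain ⟨⟨⟨⟨a1, a2⟩, a3⟩, a4⟩, a5⟩ := h
    have a1 := lt_of_blt a1
    have a2 := lt_of_blt a2
    have a3 := lt_of_blt a3
    rw [of_beq a5]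
    refine sat_two (by omega) (by omega) ?_
    by_cases hv : val2 DT PT np nd ty col (5 * np + 3 * fld d 1 + (fld d 2 + 1))
    · right
      rw [val2_t a2 (by omega)] at hv
      refine lit_pos ((val2_h a3).2 ?_)
      rcases a4 with a4 | a4
      · exact Or.inl (of_beq a4 ▸ hv)
      · exact Or.inr (of_beq a4 ▸ hv)
    · exact Or.inl (lit_neg hv)
  rw [e5] at h
  cases e6 : Nat.beq (Nat.land d 7) 6
  swap
  · rw [e6] at h
    simp only [cond_false, cond_true, Bool.and_eq_true] at h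
    have a1 := line_lt h.1
    rw [of_beq h.2]
    refine sat_nn (by omega) (by omega) fun a b => ?_
    obtain ⟨_, u, hu, hty, hu'⟩ := line_sound h.1 (by norm_num) a
    obtain ⟨_, w, hw, hty', hw'⟩ := line_sound h.1 (by norm_num) b
    have : w = u ∨ w = -u := by
      rcases hu' with rfl | rfl <;> rcases hw' with rfl | rfl <;> simp
    rcases this with rfl | e
    · omega
    · exact h2 u hu w hw e (Fin.ext hty) (Fin.ext hty')
  rw [e6] at h
  simp only [cond_false, Bool.and_eq_true] at h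
  obtain ⟨⟨⟨⟨⟨a1, a2⟩, a3⟩, a4⟩, a5⟩, a6⟩ := h
  have b1 := line_lt a1
  have b2 := line_lt a2
  have b3 := line_lt a3
  have b4 := line_lt a4
  rw [of_beq a6]
  by_contra hs
  have k1 : val2 DT PT np nd ty col (5 * np + 3 * nd + 2 * fld d 0 + 0) := by
    by_contra hv
    exact hs (sat_cons (by omega) (Or.inl (lit_neg hv)))
  have k2 : val2 DT PT np nd ty col (5 * np + 3 * nd + 2 * fld d 1 + 1) := by
    by_contra hv
    exact hs (sat_cons (by omega) (Or.inr (sat_cons (by omega) (Or.inl (lit_neg hv)))))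
  have k3 : val2 DT PT np nd ty col (5 * np + 3 * nd + 2 * fld d 2 + 0) := by
    by_contra hv
    exact hs (sat_cons (by omega) (Or.inr (sat_cons (by omega) (Or.inr (sat_cons (by omega)
      (Or.inl (lit_neg hv)))))))
  have k4 : val2 DT PT np nd ty col (5 * np + 3 * nd + 2 * fld d 3 + 1) := by
    by_contra hv
    exact hs (sat_cons (by omega) (Or.inr (sat_cons (by omega) (Or.inr (sat_cons (by omega)
      (Or.inr (sat_one (by omega) (lit_neg hv))))))))
  obtain ⟨_, u1, m1, t1, s1⟩ := line_sound a1 (by norm_num) k1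
  obtain ⟨_, u2, m2, t2, s2⟩ := line_sound a2 (by norm_num) k2
  obtain ⟨_, u3, m3, t3, s3⟩ := line_sound a3 (by norm_num) k3
  obtain ⟨_, u4, m4, t4, s4⟩ := line_sound a4 (by norm_num) k4
  have key := h3 u1 m1 u2 m2 u3 m3 u4 m4 (Fin.ext t1) (Fin.ext t2) (Fin.ext t3) (Fin.ext t4)
  have neg := inter_sound a5
  rcases s1 with rfl | rfl <;> rcases s2 with rfl | rfl <;> rcases s3 with rfl | rfl <;>
    rcases s4 with rfl | rfl <;>
    (try simp only [cr_neg_left, cr_neg_right, neg_neg, mul_neg, neg_mul] at key) <;> linarith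

end two

end Crest.Agent.R040.Chk
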