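import Crest.Agent.R040.BasM
import Crest.Agent.R040.CircSum

/-! # Row 40, Step 2: a Moser spindle in the three-coloured region -/

set_option autoImplicit false

open MeasureTheory Filter Topology Set Metric
open scoped Real

noncomputable section

namespace Crest.Agent.R040

/-- `‖cis θ - p‖² - 1` -/
def spSv (p : ℂ) (θ : ℝ) : ℝ := p.re ^ 2 + p.im ^ 2 - 2 * (p.re * Real.cos θ + p.im * Real.sin θ)

/-- `s_k(p)` -/
def spSk (p : ℂ) (k : ℕ) : ℝ := spSv p (k * (π / 3))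

theorem spindle_ivt (p : ℂ) (k : ℕ) (h : spSk p k * spSk p (k + 1) < 0) :
    ∃ α ∈ Ioo (k * (π / 3)) ((k + 1) * (π / 3)), spSv p α = 0 := by
  have hc : Continuous (spSv p) := by unfold spSv; fun_prop
  have hle : (k : ℝ) * (π / 3) ≤ (k + 1) * (π / 3) := by nlinarith [Real.pi_pos]
  simp only [spSk, Nat.cast_add, Nat.cast_one] at h
  rcases mul_neg_iff.1 h with h | h
  · exact intermediate_value_Ioo' hle hc.continuousOn ⟨h.2, h.1⟩
  · exact intermediate_value_Ioo hle hc.continuousOn ⟨h.1, h.2⟩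

theorem spindle_alg {x y c s c' s' : ℝ} (hp : 0 < x ^ 2 + y ^ 2) (h1 : c ^ 2 + s ^ 2 = 1)
    (h2 : c' ^ 2 + s' ^ 2 = 1) (hd : 0 < (c - c') ^ 2 + (s - s') ^ 2)
    (e1 : x ^ 2 + y ^ 2 - 2 * (x * c + y * s) = 0)
    (e2 : x ^ 2 + y ^ 2 - 2 * (x * c' + y * s') = 0) : x = c + c' ∧ y = s + s' := by
  have a1 : x * (c - c') + y * (s - s') = 0 := by linarith
  have a2 : (x - c - c') * (c - c') + (y - s - s') * (s - s') = 0 := by
    linear_combination a1 - h1 + h2
  have a3 : (x - c - c') * x + (y - s - s') * y = 0 := by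
    linear_combination e1 / 2 + e2 / 2
  have a4 : x * (s - s') - y * (c - c') ≠ 0 := by
    intro h
    have h3 : (x ^ 2 + y ^ 2) * ((c - c') ^ 2 + (s - s') ^ 2) = 0 := by
      linear_combination (x * (c - c') + y * (s - s')) * a1 + (x * (s - s') - y * (c - c')) * h
    exact (mul_pos hp hd).ne' h3
  constructor
  · have h3 : (x - c - c') * (x * (s - s') - y * (c - c')) = 0 := by
      linear_combination (s - s') * a3 - y * a2
    have := (mul_eq_zero.1 h3).resolve_right a4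
    linarith
  · have h3 : (y - s - s') * (x * (s - s') - y * (c - c')) = 0 := by
      linear_combination x * a2 - (c - c') * a3
    have := (mul_eq_zero.1 h3).resolve_right a4
    linarith

theorem spindle_key (p : ℂ) (k l : ℕ) (hk : k < 6) (hl : l < 6) (hkl : k ≠ l)
    (h1 : spSk p k * spSk p (k + 1) < 0) (h2 : spSk p l * spSk p (l + 1) < 0) :
    ∃ α β : ℝ, α ∈ Ioo (k * (π / 3)) ((k + 1) * (π / 3)) ∧
      β ∈ Ioo (l * (π / 3)) ((l + 1) * (π / 3)) ∧ p = cis α + cis β := by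
  obtain ⟨α, hα, e1⟩ := spindle_ivt p k h1
  obtain ⟨β, hβ, e2⟩ := spindle_ivt p l h2
  refine ⟨α, β, hα, hβ, ?_⟩
  have hpi := Real.pi_pos
  have hp : 0 < p.re ^ 2 + p.im ^ 2 := by
    by_contra h
    have h3 : p.re = 0 := by nlinarith [sq_nonneg p.re, sq_nonneg p.im]
    have h4 : p.im = 0 := by nlinarith [sq_nonneg p.re, sq_nonneg p.im]
    simp [spSk, spSv, h3, h4] at h1
  have hk0 : (0 : ℝ) ≤ k := Nat.cast_nonneg k
  have hl0 : (0 : ℝ) ≤ l := Nat.cast_nonneg l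
  have hk6 : (k : ℝ) + 1 ≤ 6 := by exact_mod_cast hk
  have hl6 : (l : ℝ) + 1 ≤ 6 := by exact_mod_cast hl
  have hne : α - β ≠ 0 := by
    intro h
    rcases lt_or_gt_of_ne hkl with h3 | h3
    · have h4 : (k : ℝ) + 1 ≤ l := by exact_mod_cast h3
      nlinarith [hα.2, hβ.1]
    · have h4 : (l : ℝ) + 1 ≤ k := by exact_mod_cast h3
      nlinarith [hα.1, hβ.2]
  have hcos : Real.cos (α - β) < 1 := lt_of_le_of_ne (Real.cos_le_one _) fun h =>
    hne ((Real.cos_eq_one_iff_of_lt_of_lt (by nlinarith [hα.1, hβ.2])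
      (by nlinarith [hα.2, hβ.1])).1 h)
  rw [Real.cos_sub] at hcos
  obtain ⟨h3, h4⟩ := spindle_alg hp (Real.cos_sq_add_sin_sq α) (Real.cos_sq_add_sin_sq β)
    (by nlinarith [Real.cos_sq_add_sin_sq α, Real.cos_sq_add_sin_sq β]) e1 e2
  exact Complex.ext (by rw [Complex.add_re, cis_re, cis_re, h3])
    (by rw [Complex.add_im, cis_im, cis_im, h4])

theorem spindle_vals (p : ℂ) :
    spSk p 0 = p.re ^ 2 + p.im ^ 2 - 2 * p.re ∧
    spSk p 1 = p.re ^ 2 + p.im ^ 2 - p.re - √3 * p.im ∧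
    spSk p 2 = p.re ^ 2 + p.im ^ 2 + p.re - √3 * p.im ∧
    spSk p 3 = p.re ^ 2 + p.im ^ 2 + 2 * p.re ∧
    spSk p 4 = p.re ^ 2 + p.im ^ 2 + p.re + √3 * p.im ∧
    spSk p 5 = p.re ^ 2 + p.im ^ 2 - p.re + √3 * p.im ∧
    spSk p 6 = p.re ^ 2 + p.im ^ 2 - 2 * p.re := by
  refine ⟨?_, ?_, ?_, ?_, ?_, ?_, ?_⟩
  · simp [spSk, spSv]
  · rw [spSk, spSv, Nat.cast_one, one_mul, Real.cos_pi_div_three, Real.sin_pi_div_three]; ring
  · rw [spSk, spSv, show ((2 : ℕ) : ℝ) * (π / 3) = π - π / 3 by push_cast; ring, Real.cos_pi_sub,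
      Real.sin_pi_sub, Real.cos_pi_div_three, Real.sin_pi_div_three]; ring
  · rw [spSk, spSv, show ((3 : ℕ) : ℝ) * (π / 3) = π by push_cast; ring, Real.cos_pi,
      Real.sin_pi]; ring
  · rw [spSk, spSv, show ((4 : ℕ) : ℝ) * (π / 3) = π / 3 + π by push_cast; ring, Real.cos_add_pi,
      Real.sin_add_pi, Real.cos_pi_div_three, Real.sin_pi_div_three]; ring
  · rw [spSk, spSv, show ((5 : ℕ) : ℝ) * (π / 3) = 2 * π - π / 3 by push_cast; ring,
      Real.cos_two_pi_sub, Real.sin_two_pi_sub, Real.cos_pi_div_three, Real.sin_pi_div_three]; ring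
  · rw [spSk, spSv, show ((6 : ℕ) : ℝ) * (π / 3) = 2 * π by push_cast; ring, Real.cos_two_pi,
      Real.sin_two_pi]; ring

theorem spindle_sqrt3 : 17320508 / 10000000 < √3 ∧ √3 < 17320509 / 10000000 :=
  ⟨Real.lt_sqrt_of_sq_lt (by norm_num), (Real.sqrt_lt' (by norm_num)).2 (by norm_num)⟩

theorem spindle_sqrt11 : 33166247 / 10000000 < √11 ∧ √11 < 33166248 / 10000000 :=
  ⟨Real.lt_sqrt_of_sq_lt (by norm_num), (Real.sqrt_lt' (by norm_num)).2 (by norm_num)⟩

theorem spindle_sqrt33 : 574456 / 100000 < √3 * √11 ∧ √3 * √11 < 574457 / 100000 := by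
  obtain ⟨h1, h2⟩ := spindle_sqrt3
  obtain ⟨h3, h4⟩ := spindle_sqrt11
  constructor <;> nlinarith

theorem spindle_approx {q y : ℂ} (hy : ‖y‖ < 1 / 20000) (a b : ℝ) (ha : |a| ≤ 2) (hb : |b| ≤ 2)
    (h1 : |q.re - a| ≤ 1 / 20000) (h2 : |q.im - b| ≤ 1 / 20000) :
    |(q + y).re - a| ≤ 1 / 10000 ∧
      |(q + y).re ^ 2 + (q + y).im ^ 2 - (a ^ 2 + b ^ 2)| ≤ 1 / 1000 ∧
      |√3 * (q + y).im - 17320508 / 10000000 * b| ≤ 1 / 1000 := by
  have h3 := abs_le.1 ((Complex.abs_re_le_norm y).trans hy.le)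
  have h4 := abs_le.1 ((Complex.abs_im_le_norm y).trans hy.le)
  obtain ⟨h5, h6⟩ := spindle_sqrt3
  rw [abs_le] at ha hb h1 h2
  obtain ⟨e, he⟩ : ∃ e, (q + y).re = a + e := ⟨_, (add_sub_cancel _ _).symm⟩
  obtain ⟨f, hf⟩ : ∃ f, (q + y).im = b + f := ⟨_, (add_sub_cancel _ _).symm⟩
  have he1 : -(1 / 10000) ≤ e ∧ e ≤ 1 / 10000 := by
    rw [Complex.add_re] at he; constructor <;> linarith [h1.1, h1.2, h3.1, h3.2]
  have hf1 : -(1 / 10000) ≤ f ∧ f ≤ 1 / 10000 := by
    rw [Complex.add_im] at hf; constructor <;> linarith [h2.1, h2.2, h4.1, h4.2]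
  obtain ⟨g, hg⟩ : ∃ g, √3 = 17320508 / 10000000 + g := ⟨_, (add_sub_cancel _ _).symm⟩
  rw [he, hf, hg]
  have hg1 : 0 ≤ g ∧ g ≤ 1 / 10000000 := by constructor <;> linarith
  have b1 : |a * e| ≤ 2 * (1 / 10000) := by
    rw [abs_mul]; exact mul_le_mul (abs_le.2 ha) (abs_le.2 he1) (abs_nonneg _) (by norm_num)
  have b2 : |b * f| ≤ 2 * (1 / 10000) := by
    rw [abs_mul]; exact mul_le_mul (abs_le.2 hb) (abs_le.2 hf1) (abs_nonneg _) (by norm_num)
  have b3 : |b * g| ≤ 2 * (1 / 10000000) := by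
    rw [abs_mul]
    exact mul_le_mul (abs_le.2 hb) (abs_le.2 ⟨by linarith [hg1.1], hg1.2⟩) (abs_nonneg _)
      (by norm_num)
  have b4 : |f * g| ≤ 1 / 10000 * (1 / 10000000) := by
    rw [abs_mul]
    exact mul_le_mul (abs_le.2 hf1) (abs_le.2 ⟨by linarith [hg1.1], hg1.2⟩) (abs_nonneg _)
      (by norm_num)
  have b5 : e ^ 2 ≤ (1 / 10000) ^ 2 := sq_le_sq' he1.1 he1.2
  have b6 : f ^ 2 ≤ (1 / 10000) ^ 2 := sq_le_sq' hf1.1 hf1.2
  rw [abs_le] at b1 b2 b3 b4
  refine ⟨abs_le.2 ⟨by linarith [he1.1], by linarith [he1.2]⟩,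
    abs_le.2 ⟨by nlinarith [b1.1, b2.1, sq_nonneg e, sq_nonneg f], by nlinarith [b1.2, b2.2]⟩,
    abs_le.2 ⟨by nlinarith [b3.1, b4.1, hf1.1], by nlinarith [b3.2, b4.2, hf1.2]⟩⟩

theorem spindle_norm {z : ℂ} (h : z.re ^ 2 + z.im ^ 2 = 1) : ‖z‖ = 1 := by
  rw [← sq_eq_sq₀ (norm_nonneg _) zero_le_one, Complex.sq_norm, Complex.normSq_apply]
  linarith

theorem spindle_rhombus {d e a b c g : Fin 5} (h : d ≠ e) (ha : a ≠ d ∧ a ≠ e)
    (hb : b ≠ d ∧ b ≠ e) (hc : c ≠ d ∧ c ≠ e) (hg : g ≠ d ∧ g ≠ e) (h1 : a ≠ b) (h2 : a ≠ c)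
    (h3 : b ≠ c) (h4 : b ≠ g) (h5 : c ≠ g) : a = g := by
  omega

/-- the points of the spindle -/
def spP (A u q w : ℂ) : Fin 7 → ℂ :=
  ![A, A + u, A + u * w, A + u * (1 + w), A + u * q, A + u * q * w, A + u * q * (1 + w)]

theorem spindle_col {A u q w : ℂ} (hu : ‖u‖ = 1) (hq : ‖q‖ = 1) (hw : ‖w‖ = 1)
    (hw' : ‖1 - w‖ = 1) (hq' : ‖(1 + w) * (1 - q)‖ = 1) (col : Fin 7 → Fin 5) (d e : Fin 5)
    (hde : d ≠ e) (h : ∀ i, col i ≠ d ∧ col i ≠ e) :
    ∃ i j, ‖spP A u q w i - spP A u q w j‖ = 1 ∧ col i = col j := by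
  by_contra H
  push Not at H
  have e1 : ∀ {i j : Fin 7} (z : ℂ), ‖z‖ = 1 → spP A u q w i - spP A u q w j = u * z →
      col i ≠ col j := fun z hz h' => H _ _ (by rw [h', norm_mul, hu, hz, mul_one])
  have n1 : ‖q * w‖ = 1 := by rw [norm_mul, hq, hw, mul_one]
  have n2 : ‖q * (1 - w)‖ = 1 := by rw [norm_mul, hq, hw', mul_one]
  have h03 : col 0 = col 3 := spindle_rhombus hde (h 0) (h 1) (h 2) (h 3)
    (e1 1 norm_one (by simp [spP])).symm (e1 w hw (by simp [spP])).symm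
    (e1 _ hw' (by simp [spP]; ring)) (e1 w hw (by simp [spP]; ring)).symm
    (e1 1 norm_one (by simp [spP]; ring)).symm
  have h06 : col 0 = col 6 := spindle_rhombus hde (h 0) (h 4) (h 5) (h 6)
    (e1 q hq (by simp [spP])).symm (e1 _ n1 (by simp [spP]; ring)).symm
    (e1 _ n2 (by simp [spP]; ring)) (e1 _ n1 (by simp [spP]; ring)).symm
    (e1 q hq (by simp [spP]; ring)).symm
  exact e1 _ hq' (by simp [spP]; ring) (h03.symm.trans h06)

/-- `s_k(p) = ‖p‖² - 2 Re(p ω^{-k}) = ‖ω^k - p‖² - 1`.  If `s_k s_{k+1} < 0` and `s_l s_{l+1} < 0` (`k` even, `l` odd) the intermediate value theorem gives `α` in arc `k`, `β` in arc `l` with `‖cis α - p‖ = ‖cis β - p‖ = 1`; two distinct such unit vectors add up to `p`.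
These are open conditions.  Spindle: `A = 0.47 - 1.14 i`, `u = (-135 + 352 i)/377`, `w = u (5 + i√11)/6`; points `A, A + u, A + uω, A + u(1 + ω), A + w, A + wω, A + w(1 + ω)` with arcs `(k, l) = (4,5), (0,3), (4,3), (4,1), (2,5), (4,3), (4,3)`; approximately
`0.47-1.14i, 0.1119-0.2063i, -0.5176-0.9833i, -0.8757-0.0496i, -0.3445-0.5599i, -0.4397-1.5553i, -1.2542-0.9752i`; every needed `|s_k| ≥ 0.0156` (use rational enclosures of `√3, √11, √33`). -/
theorem exists_spindle : ∃ (P : Fin 7 → ℂ) (ρ : ℝ), 0 < ρ ∧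
    (∀ col : Fin 7 → Fin 5, ∀ d e : Fin 5, d ≠ e → (∀ i, col i ≠ d ∧ col i ≠ e) →
      ∃ i j, ‖P i - P j‖ = 1 ∧ col i = col j) ∧
    ∀ (i : Fin 7) (y : ℂ), ‖y‖ < ρ → ∃ (k l : ℕ) (α β : ℝ), k < 6 ∧ l < 6 ∧ Even k ∧ ¬ Even l ∧
      α ∈ Ioo (k * (π / 3)) ((k + 1) * (π / 3)) ∧ β ∈ Ioo (l * (π / 3)) ((l + 1) * (π / 3)) ∧
      P i + y = cis α + cis β := by
  let A : ℂ := ⟨47 / 100, -114 / 100⟩
  let u : ℂ := ⟨-135 / 377, 352 / 377⟩
  let q : ℂ := ⟨5 / 6, √11 / 6⟩
  let w : ℂ := ⟨1 / 2, √3 / 2⟩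
  have h3 : √3 ^ 2 = 3 := Real.sq_sqrt (by norm_num)
  have h11 : √11 ^ 2 = 11 := Real.sq_sqrt (by norm_num)
  refine ⟨spP A u q w, 1 / 20000, by norm_num, spindle_col
    (spindle_norm (by simp only [u]; norm_num))
    (spindle_norm (by simp only [q]; linear_combination h11 / 36))
    (spindle_norm (by simp only [w]; linear_combination h3 / 4))
    (spindle_norm (by
      simp only [w, Complex.sub_re, Complex.sub_im, Complex.one_re, Complex.one_im]
      linear_combination h3 / 4))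
    (spindle_norm (by
      simp only [w, q, Complex.sub_re, Complex.sub_im, Complex.one_re, Complex.one_im,
        Complex.add_re, Complex.add_im, Complex.mul_re, Complex.mul_im]
      linear_combination (1 + √11 ^ 2) / 144 * h3 + h11 / 12)), fun i y hy => ?_⟩
  obtain ⟨r1, r2⟩ := spindle_sqrt3
  obtain ⟨r3, r4⟩ := spindle_sqrt11
  obtain ⟨r5, r6⟩ := spindle_sqrt33
  fin_cases i
  · obtain ⟨b1, b2, b3⟩ := spindle_approx (q := spP A u q w 0) hy (470000 / 1000000)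
      (-1140000 / 1000000) (by rw [abs_le]; constructor <;> norm_num)
      (by rw [abs_le]; constructor <;> norm_num)
      (by rw [abs_le]; constructor <;> simp [spP, A, u, q, w] <;> linarith)
      (by rw [abs_le]; constructor <;> simp [spP, A, u, q, w] <;> linarith)
    obtain ⟨s0, s1, s2, s3, s4, s5, s6⟩ := spindle_vals (spP A u q w 0 + y)
    obtain ⟨b1, b1'⟩ := abs_le.1 b1
    obtain ⟨b2, b2'⟩ := abs_le.1 b2
    obtain ⟨b3, b3'⟩ := abs_le.1 b3
    obtain ⟨α, β, h⟩ := spindle_key (spP A u q w 0 + y) 4 5 (by norm_num) (by norm_num)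
      (by norm_num)
      (mul_neg_of_pos_of_neg (by rw [s4]; linarith) (by rw [s5]; linarith))
      (mul_neg_of_neg_of_pos (by rw [s5]; linarith) (by rw [s6]; linarith))
    exact ⟨4, 5, α, β, by norm_num, by norm_num, by decide, by decide, h⟩
  · obtain ⟨b1, b2, b3⟩ := spindle_approx (q := spP A u q w 1) hy (111910 / 1000000)
      (-206313 / 1000000) (by rw [abs_le]; constructor <;> norm_num)
      (by rw [abs_le]; constructor <;> norm_num)
      (by rw [abs_le]; constructor <;> simp [spP, A, u, q, w] <;> linarith)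
      (by rw [abs_le]; constructor <;> simp [spP, A, u, q, w] <;> linarith)
    obtain ⟨s0, s1, s2, s3, s4, s5, s6⟩ := spindle_vals (spP A u q w 1 + y)
    obtain ⟨b1, b1'⟩ := abs_le.1 b1
    obtain ⟨b2, b2'⟩ := abs_le.1 b2
    obtain ⟨b3, b3'⟩ := abs_le.1 b3
    obtain ⟨α, β, h⟩ := spindle_key (spP A u q w 1 + y) 0 3 (by norm_num) (by norm_num)
      (by norm_num)
      (mul_neg_of_neg_of_pos (by rw [s0]; linarith) (by rw [s1]; linarith))
      (mul_neg_of_pos_of_neg (by rw [s3]; linarith) (by rw [s4]; linarith))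
    exact ⟨0, 3, α, β, by norm_num, by norm_num, by decide, by decide, h⟩
  · obtain ⟨b1, b2, b3⟩ := spindle_approx (q := spP A u q w 2) hy (-517642 / 1000000)
      (-983272 / 1000000) (by rw [abs_le]; constructor <;> norm_num)
      (by rw [abs_le]; constructor <;> norm_num)
      (by rw [abs_le]; constructor <;> simp [spP, A, u, q, w] <;> linarith)
      (by rw [abs_le]; constructor <;> simp [spP, A, u, q, w] <;> linarith)
    obtain ⟨s0, s1, s2, s3, s4, s5, s6⟩ := spindle_vals (spP A u q w 2 + y)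
    obtain ⟨b1, b1'⟩ := abs_le.1 b1
    obtain ⟨b2, b2'⟩ := abs_le.1 b2
    obtain ⟨b3, b3'⟩ := abs_le.1 b3
    obtain ⟨α, β, h⟩ := spindle_key (spP A u q w 2 + y) 4 3 (by norm_num) (by norm_num)
      (by norm_num)
      (mul_neg_of_neg_of_pos (by rw [s4]; linarith) (by rw [s5]; linarith))
      (mul_neg_of_pos_of_neg (by rw [s3]; linarith) (by rw [s4]; linarith))
    exact ⟨4, 3, α, β, by norm_num, by norm_num, by decide, by decide, h⟩
  · obtain ⟨b1, b2, b3⟩ := spindle_approx (q := spP A u q w 3) hy (-875732 / 1000000)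
      (-49585 / 1000000) (by rw [abs_le]; constructor <;> norm_num)
      (by rw [abs_le]; constructor <;> norm_num)
      (by rw [abs_le]; constructor <;> simp [spP, A, u, q, w] <;> linarith)
      (by rw [abs_le]; constructor <;> simp [spP, A, u, q, w] <;> linarith)
    obtain ⟨s0, s1, s2, s3, s4, s5, s6⟩ := spindle_vals (spP A u q w 3 + y)
    obtain ⟨b1, b1'⟩ := abs_le.1 b1
    obtain ⟨b2, b2'⟩ := abs_le.1 b2
    obtain ⟨b3, b3'⟩ := abs_le.1 b3
    obtain ⟨α, β, h⟩ := spindle_key (spP A u q w 3 + y) 4 1 (by norm_num) (by norm_num)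
      (by norm_num)
      (mul_neg_of_neg_of_pos (by rw [s4]; linarith) (by rw [s5]; linarith))
      (mul_neg_of_pos_of_neg (by rw [s1]; linarith) (by rw [s2]; linarith))
    exact ⟨4, 1, α, β, by norm_num, by norm_num, by decide, by decide, h⟩
  · obtain ⟨b1, b2, b3⟩ := spindle_approx (q := spP A u q w 4) hy (-344523 / 1000000)
      (-559869 / 1000000) (by rw [abs_le]; constructor <;> norm_num)
      (by rw [abs_le]; constructor <;> norm_num)
      (by rw [abs_le]; constructor <;> simp [spP, A, u, q, w] <;> linarith)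
      (by rw [abs_le]; constructor <;> simp [spP, A, u, q, w] <;> linarith)
    obtain ⟨s0, s1, s2, s3, s4, s5, s6⟩ := spindle_vals (spP A u q w 4 + y)
    obtain ⟨b1, b1'⟩ := abs_le.1 b1
    obtain ⟨b2, b2'⟩ := abs_le.1 b2
    obtain ⟨b3, b3'⟩ := abs_le.1 b3
    obtain ⟨α, β, h⟩ := spindle_key (spP A u q w 4 + y) 2 5 (by norm_num) (by norm_num)
      (by norm_num)
      (mul_neg_of_pos_of_neg (by rw [s2]; linarith) (by rw [s3]; linarith))
      (mul_neg_of_neg_of_pos (by rw [s5]; linarith) (by rw [s6]; linarith))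
    exact ⟨2, 5, α, β, by norm_num, by norm_num, by decide, by decide, h⟩
  · obtain ⟨b1, b2, b3⟩ := spindle_approx (q := spP A u q w 5) hy (-439670 / 1000000)
      (-1555333 / 1000000) (by rw [abs_le]; constructor <;> norm_num)
      (by rw [abs_le]; constructor <;> norm_num)
      (by rw [abs_le]; constructor <;> simp [spP, A, u, q, w] <;> linarith)
      (by rw [abs_le]; constructor <;> simp [spP, A, u, q, w] <;> linarith)
    obtain ⟨s0, s1, s2, s3, s4, s5, s6⟩ := spindle_vals (spP A u q w 5 + y)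
    obtain ⟨b1, b1'⟩ := abs_le.1 b1
    obtain ⟨b2, b2'⟩ := abs_le.1 b2
    obtain ⟨b3, b3'⟩ := abs_le.1 b3
    obtain ⟨α, β, h⟩ := spindle_key (spP A u q w 5 + y) 4 3 (by norm_num) (by norm_num)
      (by norm_num)
      (mul_neg_of_neg_of_pos (by rw [s4]; linarith) (by rw [s5]; linarith))
      (mul_neg_of_pos_of_neg (by rw [s3]; linarith) (by rw [s4]; linarith))
    exact ⟨4, 3, α, β, by norm_num, by norm_num, by decide, by decide, h⟩
  · obtain ⟨b1, b2, b3⟩ := spindle_approx (q := spP A u q w 6) hy (-1254193 / 1000000)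
      (-975202 / 1000000) (by rw [abs_le]; constructor <;> norm_num)
      (by rw [abs_le]; constructor <;> norm_num)
      (by rw [abs_le]; constructor <;> simp [spP, A, u, q, w] <;> linarith)
      (by rw [abs_le]; constructor <;> simp [spP, A, u, q, w] <;> linarith)
    obtain ⟨s0, s1, s2, s3, s4, s5, s6⟩ := spindle_vals (spP A u q w 6 + y)
    obtain ⟨b1, b1'⟩ := abs_le.1 b1
    obtain ⟨b2, b2'⟩ := abs_le.1 b2
    obtain ⟨b3, b3'⟩ := abs_le.1 b3
    obtain ⟨α, β, h⟩ := spindle_key (spP A u q w 6 + y) 4 3 (by norm_num) (by norm_num)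
      (by norm_num)
      (mul_neg_of_neg_of_pos (by rw [s4]; linarith) (by rw [s5]; linarith))
      (mul_neg_of_pos_of_neg (by rw [s3]; linarith) (by rw [s4]; linarith))
    exact ⟨4, 3, α, β, by norm_num, by norm_num, by decide, by decide, h⟩

/-- the points `v + cis α + cis β` (`α` in an even arc, `β` in an odd arc) that lie in `D d ∪ D e` form a null set (`sum_image_null`, Fubini); choose `y` small with all `v + cis t (P i + y)` coloured and outside it. -/
theorem MCol.spindle (c : MCol) (v : ℂ) (d e : Fin 5) (hde : d ≠ e) (t : ℝ)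
    (h : ∀ k : ℕ, k < 6 → ∀ᵐ θ : ℝ, θ ∈ Ioo (t + k * (π / 3)) (t + (k + 1) * (π / 3)) →
      c.N (v + cis θ) (if Even k then e else d)) : False := by
  obtain ⟨P, ρ, hρ, hcol, hP⟩ := exists_spindle
  let T : ℕ → Set (ℝ × ℝ) := fun k => {p | p.1 ∈ Ioo (t + k * (π / 3)) (t + (k + 1) * (π / 3)) ∧
    v + cis p.1 + cis p.2 ∈ c.D (if Even k then e else d)}
  have hT : ∀ k < 6, volume (T k) = 0 := fun k hk => by
    have hm : MeasurableSet (T k) := (measurable_fst measurableSet_Ioo).inter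
      (((continuous_const.add (continuous_cis.comp continuous_fst)).add
        (continuous_cis.comp continuous_snd)).measurable (c.meas _))
    rw [Measure.volume_eq_prod, Measure.measure_prod_null hm]
    filter_upwards [h k hk] with θ hθ
    by_cases h1 : θ ∈ Ioo (t + k * (π / 3)) (t + (k + 1) * (π / 3))
    · exact measure_mono_null (fun γ hγ => not_not.2 hγ.2) (ae_iff.1 (hθ h1))
    · exact measure_mono_null (fun γ hγ => (h1 hγ.1).elim) measure_empty
  have hZ : ∀ᵐ z : ℂ, (∃ i, z ∈ c.D i) ∧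
      ∀ k : Fin 6, z ∉ (fun p : ℝ × ℝ => v + cis p.1 + cis p.2) '' T k :=
    c.cover.and (ae_all_iff.2 fun k => measure_eq_zero_iff_ae_notMem.1
      (sum_image_null (hT k k.2) v))
  have hY : ∀ᵐ y : ℂ, ∀ i : Fin 7, (∃ j, v + cis t * P i + y ∈ c.D j) ∧
      ∀ k : Fin 6, v + cis t * P i + y ∉ (fun p : ℝ × ℝ => v + cis p.1 + cis p.2) '' T k :=
    ae_all_iff.2 fun i =>
      (measurePreserving_add_left volume (v + cis t * P i)).quasiMeasurePreserving.ae hZ
  obtain ⟨y, hy, hy'⟩ : ∃ y ∈ ball (0 : ℂ) ρ, _ :=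
    Measure.exists_mem_of_measure_ne_zero_of_ae (measure_ball_pos volume 0 hρ).ne'
      (ae_restrict_of_ae hY)
  choose col hc using fun i => (hy' i).1
  have hcis : cis t * cis (-t) = 1 := by
    rw [← cis_add, add_neg_cancel]; simp [cis]
  obtain ⟨i, j, hij, hcc⟩ := hcol col d e hde fun i => by
    obtain ⟨k, l, α, β, hk, hl, hke, hlo, hα, hβ, e1⟩ := hP i (cis (-t) * y) (by
      rw [norm_mul, norm_cis, one_mul]; simpa using hy)
    have e2 : v + cis (t + α) + cis (t + β) = v + cis t * P i + y := by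
      rw [cis_add, cis_add]
      linear_combination y * hcis - cis t * e1
    constructor
    · intro h1
      have e3 : v + cis (t + β) + cis (t + α) = v + cis t * P i + y := by rw [← e2]; ring
      refine (hy' i).2 ⟨l, hl⟩ ⟨(t + β, t + α), ⟨⟨by linarith [hβ.1], by linarith [hβ.2]⟩, ?_⟩, e3⟩
      rw [if_neg hlo, ← h1]
      exact e3 ▸ hc i
    · intro h1
      refine (hy' i).2 ⟨k, hk⟩ ⟨(t + α, t + β), ⟨⟨by linarith [hα.1], by linarith [hα.2]⟩, ?_⟩, e2⟩
      rw [if_pos hke, ← h1]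
      exact e2 ▸ hc i
  refine c.avoid (col i) _ (hc i) _ (hcc ▸ hc j) ?_
  rw [show v + cis t * P i + y - (v + cis t * P j + y) = cis t * (P i - P j) by ring, norm_mul,
    norm_cis, hij, mul_one]

end Crest.Agent.R040

end
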