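import Crest.Agent.R040.MinNorm
import Crest.Agent.R040.Rigid

/-! # Row 40, Step 1: the continuous part of the random colouring -/

set_option autoImplicit false

open MeasureTheory Filter Topology Set

noncomputable section

namespace Crest.Agent.R040

namespace Split

section Abstract

variable {H : Type} [NormedAddCommGroup H] [InnerProductSpace ℝ H] {T : K → H →ₗ[ℝ] H}

/-- isometric representation of the additive group -/
structure Rep (T : K → H →ₗ[ℝ] H) : Prop where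
  norm : ∀ a x, ‖T a x‖ = ‖x‖
  add : ∀ a b x, T (a + b) x = T a (T b x)

/-- continuous vectors -/
def Cts (T : K → H →ₗ[ℝ] H) (y : H) : Prop :=
  ∀ ε > (0 : ℝ), ∃ r > (0 : ℝ), ∀ a : K, ‖a‖ < r → ‖T a y - y‖ < ε

theorem Rep.inner (h : Rep T) (a : K) (x y : H) : inner ℝ (T a x) (T a y) = inner ℝ x y :=
  (LinearMap.norm_map_iff_inner_map_map (T a)).1 (h.norm a) x y

theorem Rep.zero (h : Rep T) (x : H) : T 0 x = x := by
  have h1 := h.norm 0 (T 0 x - x)
  rw [map_sub, ← h.add, add_zero, sub_self, norm_zero] at h1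
  exact sub_eq_zero.1 (norm_eq_zero.1 h1.symm)

theorem Cts.add {x y : H} (hx : Cts T x) (hy : Cts T y) : Cts T (x + y) := fun ε hε => by
  obtain ⟨r, hr, H1⟩ := hx (ε / 2) (half_pos hε)
  obtain ⟨r', hr', H2⟩ := hy (ε / 2) (half_pos hε)
  refine ⟨min r r', lt_min hr hr', fun a ha => ?_⟩
  rw [map_add, add_sub_add_comm]
  linarith [norm_add_le (T a x - x) (T a y - y), H1 a (ha.trans_le (min_le_left _ _)),
    H2 a (ha.trans_le (min_le_right _ _))]

theorem Cts.neg {x : H} (hx : Cts T x) : Cts T (-x) := fun ε hε => by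
  obtain ⟨r, hr, H1⟩ := hx ε hε
  refine ⟨r, hr, fun a ha => ?_⟩
  rw [map_neg, ← neg_sub', norm_neg]
  exact H1 a ha

theorem cts_of_fix {x : H} (hx : ∀ a, T a x = x) : Cts T x := fun ε hε =>
  ⟨1, one_pos, fun a _ => by rwa [hx, sub_self, norm_zero]⟩

theorem Cts.map (h : Rep T) {x : H} (hx : Cts T x) (b : K) : Cts T (T b x) := fun ε hε => by
  obtain ⟨r, hr, H1⟩ := hx ε hε
  refine ⟨r, hr, fun a ha => ?_⟩
  rw [← h.add, add_comm, h.add, ← map_sub, h.norm]
  exact H1 a ha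

theorem uniq {f x x' : H} (hx : Cts T x) (hx' : Cts T x')
    (o : ∀ y, Cts T y → inner ℝ (f - x) y = 0) (o' : ∀ y, Cts T y → inner ℝ (f - x') y = 0) :
    x = x' := by
  have hc : Cts T (x - x') := by rw [sub_eq_add_neg]; exact hx.add hx'.neg
  have h1 : inner ℝ (x - x') (x - x') = (0 : ℝ) := by
    nth_rewrite 1 [show x - x' = (f - x') - (f - x) by abel]
    rw [inner_sub_left, o _ hc, o' _ hc, sub_zero]
  exact sub_eq_zero.1 (inner_self_eq_zero.1 h1)

/-- convex weights on a disc -/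
def Wt (r : ℝ) (s : Finset K) (m : K → ℝ) : Prop := (∀ y ∈ s, 0 ≤ m y ∧ ‖y‖ < r) ∧ ∑ y ∈ s, m y = 1

theorem avg_le {r η : ℝ} {s : Finset K} {m : K → ℝ} (hm : Wt r s m) {v : K → H}
    (hv : ∀ y, ‖y‖ < r → ‖v y‖ ≤ η) : ‖∑ y ∈ s, m y • v y‖ ≤ η := by
  refine (norm_sum_le _ _).trans ?_
  rw [← one_mul η, ← hm.2, Finset.sum_mul]
  refine Finset.sum_le_sum fun y hy => ?_
  rw [norm_smul, Real.norm_of_nonneg (hm.1 y hy).1]
  exact mul_le_mul_of_nonneg_left (hv y (hm.1 y hy).2) (hm.1 y hy).1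

theorem hull {r : ℝ} (v : K → H) {w : H} (hw : w ∈ convexHull ℝ {y | ∃ a, ‖a‖ < r ∧ y = v a}) :
    ∃ s m, Wt r s m ∧ w = ∑ y ∈ s, m y • v y := by
  let C : Set (K →₀ ℝ) := {m | (∀ y, 0 ≤ m y) ∧ (∀ y, r ≤ ‖y‖ → m y = 0) ∧
    Finsupp.linearCombination ℝ (fun _ => (1 : ℝ)) m = 1}
  have hC : Convex ℝ C := by
    intro m hm m' hm' a b ha hb hab
    refine ⟨fun y => ?_, fun y hy => ?_, ?_⟩
    · exact add_nonneg (mul_nonneg ha (hm.1 y)) (mul_nonneg hb (hm'.1 y))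
    · simp [hm.2.1 y hy, hm'.2.1 y hy]
    · rw [map_add, map_smul, map_smul, hm.2.2, hm'.2.2, smul_eq_mul, smul_eq_mul, mul_one, mul_one,
        hab]
  have h1 : convexHull ℝ {y | ∃ a, ‖a‖ < r ∧ y = v a} ⊆ Finsupp.linearCombination ℝ v '' C := by
    refine convexHull_min ?_ (hC.linear_image _)
    rintro _ ⟨a, ha, rfl⟩
    refine ⟨Finsupp.single a 1, ⟨fun y => ?_, fun y hy => ?_, by simp⟩, by simp⟩
    · exact Finsupp.single_nonneg.2 zero_le_one y
    · exact Finsupp.single_eq_of_ne (by rintro rfl; linarith)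
  obtain ⟨m, hm, rfl⟩ := h1 hw
  refine ⟨m.support, m, ⟨fun y hy => ⟨hm.1 y, ?_⟩, ?_⟩, rfl⟩
  · exact not_le.1 fun h => Finsupp.mem_support_iff.1 hy (hm.2.1 y h)
  · have := hm.2.2
    simpa [Finsupp.linearCombination_apply, Finsupp.sum] using this

theorem small {f x : H} (hx : Cts T x)
    (hc : ∀ r > (0 : ℝ), x ∈ closure (convexHull ℝ {y | ∃ a : K, ‖a‖ < r ∧ y = T a f})) {r ε : ℝ}
    (hr : 0 < r) (hε : 0 < ε) : ∃ s m, Wt r s m ∧ ‖∑ y ∈ s, m y • T y (f - x)‖ < ε := by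
  obtain ⟨r', hr', H1⟩ := hx (ε / 2) (half_pos hε)
  obtain ⟨w, hw, hw'⟩ := Metric.mem_closure_iff.1 (hc _ (lt_min hr hr')) (ε / 2) (half_pos hε)
  obtain ⟨s, m, hm, rfl⟩ := hull (fun a => T a f) hw
  refine ⟨s, m, ⟨fun y hy => ⟨(hm.1 y hy).1, (hm.1 y hy).2.trans_le (min_le_left _ _)⟩, hm.2⟩, ?_⟩
  have e : ∑ y ∈ s, m y • T y (f - x) =
      -(x - ∑ y ∈ s, m y • T y f) - ∑ y ∈ s, m y • (T y x - x) := by
    simp only [map_sub, smul_sub, Finset.sum_sub_distrib, ← Finset.sum_smul, hm.2, one_smul]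
    abel
  have h2 := avg_le hm (v := fun y => T y x - x) (η := ε / 2)
    fun y hy => (H1 y (hy.trans_le (min_le_right _ _))).le
  rw [dist_eq_norm, ← norm_neg] at hw'
  rw [e]
  linarith [norm_sub_le (-(x - ∑ y ∈ s, m y • T y f)) (∑ y ∈ s, m y • (T y x - x))]

theorem orth (h : Rep T) {g y : H}
    (hg : ∀ r > (0 : ℝ), ∀ ε > (0 : ℝ), ∃ s m, Wt r s m ∧ ‖∑ y ∈ s, m y • T y g‖ < ε)
    (hy : Cts T y) : inner ℝ g y = (0 : ℝ) := by
  refine abs_nonpos_iff.1 (le_of_forall_pos_le_add fun η hη => ?_)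
  have hN : 0 < ‖g‖ + ‖y‖ + 1 := by positivity
  obtain ⟨r, hr, H1⟩ := hy (η / (‖g‖ + ‖y‖ + 1)) (by positivity)
  obtain ⟨s, m, hm, H2⟩ := hg r hr (η / (‖g‖ + ‖y‖ + 1)) (by positivity)
  have e : inner ℝ g y = inner ℝ (∑ a ∈ s, m a • T a g) y +
      ∑ a ∈ s, m a • inner ℝ (T a g) (T a y - y) := by
    simp only [sum_inner, real_inner_smul_left, inner_sub_right, h.inner, smul_eq_mul, mul_sub,
      Finset.sum_sub_distrib, ← Finset.sum_mul, hm.2]
    ring
  have b1 := (abs_real_inner_le_norm (∑ a ∈ s, m a • T a g) y).trans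
    (mul_le_mul_of_nonneg_right H2.le (norm_nonneg y))
  have b2 := avg_le (H := ℝ) hm (v := fun a => inner ℝ (T a g) (T a y - y))
    (η := ‖g‖ * (η / (‖g‖ + ‖y‖ + 1))) fun a ha => (norm_inner_le_norm _ _).trans (by
      rw [h.norm]
      exact mul_le_mul_of_nonneg_left (H1 a ha).le (norm_nonneg g))
  rw [Real.norm_eq_abs] at b2
  have b3 : η / (‖g‖ + ‖y‖ + 1) * (‖g‖ + ‖y‖ + 1) = η := div_mul_cancel₀ _ hN.ne'
  have b4 : 0 < η / (‖g‖ + ‖y‖ + 1) := by positivity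
  rw [e]
  refine (abs_add_le _ _).trans ?_
  linarith

theorem pd_eq (h : Rep T) (g : H) (s : Finset K) (c : K → ℝ) :
    ∑ a ∈ s, ∑ b ∈ s, c a * c b * inner ℝ (T (a - b) g) g = ‖∑ a ∈ s, c a • T a g‖ ^ 2 := by
  rw [← real_inner_self_eq_norm_sq, sum_inner]
  refine Finset.sum_congr rfl fun a _ => ?_
  rw [inner_sum]
  refine Finset.sum_congr rfl fun b _ => ?_
  rw [real_inner_smul_left, real_inner_smul_right, ← h.inner b, ← h.add, add_sub_cancel, mul_assoc]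

theorem main [CompleteSpace H] (h : Rep T) (f : H)
    (hR : ∀ u : K, ‖u‖ = 1 → ∃ R : H →ₗ[ℝ] H, (∀ x, ‖R x‖ = ‖x‖) ∧ Function.Surjective R ∧
      (∀ b y, T (u * b) (R y) = R (T b y)) ∧ R f = f) :
    ∃ x : H, Cts T x ∧
      (∀ r > (0 : ℝ), x ∈ closure (convexHull ℝ {y | ∃ a : K, ‖a‖ < r ∧ y = T a f})) ∧
      (∀ y, Cts T y → inner ℝ (f - x) y = 0) ∧
      ∀ u : K, ‖u‖ = 1 → inner ℝ (T u x) x = inner ℝ (T u f) f := by
  obtain ⟨x, h1, h2⟩ := minnorm (H := H)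
    (fun x y => by simpa only [sq] using parallelogram_law_with_norm ℝ x y)
    (fun z : K => ‖z‖) norm_zero norm_add_le T h.norm h.add f
  have h2' : Cts T x := h2
  have h3 : ∀ r > (0 : ℝ), ∀ ε > (0 : ℝ), ∃ s m, Wt r s m ∧ ‖∑ y ∈ s, m y • T y (f - x)‖ < ε :=
    fun r hr ε hε => small h2' h1 hr hε
  have h4 : ∀ y, Cts T y → inner ℝ (f - x) y = 0 := fun y hy => orth h h3 hy
  have hU : ∀ u a : K, ‖u‖ = 1 →
      inner ℝ (T (u * a) (f - x)) (f - x) = inner ℝ (T a (f - x)) (f - x) := by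
    intro u a hu
    obtain ⟨R, r1, r2, r3, r4⟩ := hR u hu
    have hu0 : u ≠ 0 := norm_ne_zero_iff.1 (by rw [hu]; norm_num)
    have ri := (LinearMap.norm_map_iff_inner_map_map R).1 r1
    have c1 : Cts T (R x) := fun ε hε => by
      obtain ⟨r, hr, H1⟩ := h2' ε hε
      refine ⟨r, hr, fun a ha => ?_⟩
      rw [← mul_div_cancel₀ a hu0, r3, ← map_sub, r1]
      exact H1 _ (by rwa [norm_div, hu, div_one])
    have e : R x = x := by
      refine uniq (f := f) c1 h2' (fun y hy => ?_) h4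
      obtain ⟨y', rfl⟩ := r2 y
      rw [← r4, ← map_sub, ri]
      refine h4 y' fun ε hε => ?_
      obtain ⟨r, hr, H1⟩ := hy ε hε
      refine ⟨r, hr, fun a ha => ?_⟩
      rw [← r1, map_sub, ← r3]
      exact H1 _ (by rwa [norm_mul, hu, one_mul])
    have e' : R (f - x) = f - x := by rw [map_sub, r4, e]
    rw [← ri (T a (f - x)), ← r3, e']
  have h5 := rigidity_pd (fun a => inner ℝ (T a (f - x)) (f - x))
    (fun s c => by rw [pd_eq h]; positivity) hU fun r hr ε hε => by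
      obtain ⟨s, m, hm, H1⟩ := h3 r hr √ε (Real.sqrt_pos.2 hε)
      refine ⟨s, m, hm.1, hm.2, ?_⟩
      rw [pd_eq h]
      exact (Real.lt_sqrt (norm_nonneg _)).1 H1
  refine ⟨x, h2', h1, h4, fun u hu => ?_⟩
  have h6 := hU u 1 hu
  rw [mul_one, h5] at h6
  have h7 : inner ℝ (T u x) (f - x) = (0 : ℝ) := by
    rw [real_inner_comm]; exact h4 _ (h2'.map h u)
  have h8 : inner ℝ (T u (f - x)) x = (0 : ℝ) := by
    rw [← h4 _ (h2'.map h (-u)), ← h.inner u (f - x), ← h.add, add_neg_cancel, h.zero]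
  simp only [map_sub, inner_sub_left, inner_sub_right] at h6 h7 h8
  linarith

end Abstract

variable {P : Measure Col}

/-- composition operator -/
def CC (φ : Col → Col) (hφ : MeasurePreserving φ P P) : Lp ℝ 2 P →ₗ[ℝ] Lp ℝ 2 P :=
  Lp.compMeasurePreservingₗ ℝ φ hφ

theorem CC_coe {φ : Col → Col} (hφ : MeasurePreserving φ P P) (x : Lp ℝ 2 P) :
    CC φ hφ x =ᵐ[P] fun ω => x (φ ω) := Lp.coeFn_compMeasurePreserving x hφ

theorem CC_norm {φ : Col → Col} (hφ : MeasurePreserving φ P P) (x : Lp ℝ 2 P) :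
    ‖CC φ hφ x‖ = ‖x‖ := Lp.norm_compMeasurePreserving x hφ

theorem CC_coe' {φ : Col → Col} (hφ : MeasurePreserving φ P P) {x : Lp ℝ 2 P} {g : Col → ℝ}
    (h : x =ᵐ[P] g) : CC φ hφ x =ᵐ[P] fun ω => g (φ ω) :=
  (CC_coe hφ x).trans (hφ.quasiMeasurePreserving.ae_eq_comp h)

theorem inner_eq (x y : Lp ℝ 2 P) : inner ℝ x y = ∫ ω, x ω * y ω ∂P := by
  rw [L2.inner_def]
  simp [mul_comm]

end Split

open Split in
/-- `H = Lp ℝ 2 P`, `T a = Lp.compMeasurePreserving (sh a)`, `f_i = 1{ω 0 = i}`; `x_i` from `minnorm` with `ν = ‖·‖`.  Call `y` continuous if `‖T a y - y‖ → 0`.  `g_i = f_i - x_i`: for convex weights `m` on a small disc with `m * f_i ≈ x_i`, `‖m * g_i‖` is small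
(this is `hPD` for `φ_i a = ⟪T a g_i, g_i⟫`; merge repeated points, `mem_convexHull` via `Finset.centerMass`/`convexHull_eq`), hence `g_i ⊥` every continuous `y` (`⟪m * g, y⟫ = ⟪g, m̌ * y⟫ ≈ ⟪g, y⟫`).  So `x_i` is the unique continuous vector with `f_i - x_i ⊥` continuous
vectors; this gives `x_i ∘ rt u = x_i` (`f_i ∘ rt u = f_i`, `sh a (rt u ω) = rt u (sh (u * a) ω)`) and `∑ x_i = 1`.  `0 ≤ x_i ≤ 1` a.e. (closed convex condition); `F i` = truncated measurable representative.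
`⟪T u f_i, f_i⟫ = 0` (properness) `= ⟪T u x_i, x_i⟫ + φ_i u`, and `φ_i u = φ_i 1 = 0` by `rigidity_pd`. -/
theorem exists_contCol (P : Measure Col) (hP : InvCol P) : ∃ F : Fin 5 → Col → ℝ, ContCol P F := by
  have := hP.prob
  let T : K → Lp ℝ 2 P →ₗ[ℝ] Lp ℝ 2 P := fun a => CC (sh a) (hP.sh a)
  have hT : Rep T := ⟨fun a => CC_norm _, fun a b x => Lp.ext <|
    (CC_coe _ x).trans <| EventuallyEq.trans (.of_forall fun ω => by
      refine congrArg x (funext fun z => ?_)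
      simp only [sh]
      rw [add_assoc, add_comm b a]) (CC_coe' (hP.sh a) (CC_coe (hP.sh b) x)).symm⟩
  let f₀ : Fin 5 → Col → ℝ := fun i ω => if ω 0 = i then 1 else 0
  have mf : ∀ i, MemLp (f₀ i) 2 P := fun i =>
    MemLp.of_bound (Measurable.ite (p := fun ω : Col => ω 0 = i)
      ((measurable_pi_apply (0 : K) : Measurable fun ω : Col => ω 0) (measurableSet_singleton i))
      measurable_const measurable_const).aestronglyMeasurable 1 (.of_forall fun ω => by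
        simp only [f₀]; split_ifs <;> simp)
  let f : Fin 5 → Lp ℝ 2 P := fun i => (mf i).toLp _
  have hf : ∀ i, f i =ᵐ[P] f₀ i := fun i => (mf i).coeFn_toLp
  have key := fun i => main hT (f i) fun u hu => by
    have hu0 : u ≠ 0 := norm_ne_zero_iff.1 (by rw [hu]; norm_num)
    have hu' : ‖u⁻¹‖ = 1 := by rw [norm_inv, hu, inv_one]
    refine ⟨CC (rt u) (hP.rt u hu), CC_norm _, fun y => ⟨CC (rt u⁻¹) (hP.rt _ hu') y, ?_⟩,
      fun b y => ?_, ?_⟩
    · refine Lp.ext ((CC_coe' _ (CC_coe _ y)).trans (.of_forall fun ω => ?_))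
      refine congrArg y (funext fun z => ?_)
      simp only [rt]
      rw [mul_inv_cancel_left₀ hu0]
    · refine Lp.ext ((CC_coe' _ (CC_coe _ y)).trans (EventuallyEq.trans (.of_forall fun ω => ?_)
        (CC_coe' (hP.rt u hu) (CC_coe (hP.sh b) y)).symm))
      refine congrArg y (funext fun z => ?_)
      simp only [rt, sh]
      rw [mul_add]
    · refine Lp.ext ((CC_coe' _ (hf i)).trans (EventuallyEq.trans (.of_forall fun ω => ?_)
        (hf i).symm))
      simp only [f₀, rt, mul_zero]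
  choose x hx1 hx2 hx3 hx4 using key
  have hs : ∀ y : Fin 5 → Lp ℝ 2 P, (∑ i, y i : Lp ℝ 2 P) =ᵐ[P] fun ω => ∑ i, y i ω := fun y =>
    (Lp.coeFn_finsetSum _ y).trans (.of_forall fun ω => Finset.sum_apply _ _ _)
  have hone : (∑ i, f i : Lp ℝ 2 P) =ᵐ[P] fun _ => 1 := by
    filter_upwards [hs f, ae_all_iff.2 hf] with ω h1 h2
    rw [h1]
    simp [h2, f₀]
  have hsum : ∑ i, x i = ∑ i, f i := by
    refine uniq (T := T) (f := ∑ i, f i) ?_ (cts_of_fix fun a => ?_) (fun y hy => ?_)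
      fun y _ => by rw [sub_self, inner_zero_left]
    · exact Finset.sum_induction x (Cts T) (fun _ _ => Cts.add) (cts_of_fix fun a => map_zero _)
        fun i _ => hx1 i
    · exact Lp.ext ((CC_coe' _ hone).trans hone.symm)
    · rw [← Finset.sum_sub_distrib, sum_inner]
      exact Finset.sum_eq_zero fun i _ => hx3 i y hy
  have hpos : ∀ i, ∀ᵐ ω ∂P, 0 ≤ x i ω := fun i => by
    have hc : Convex ℝ (Ici (0 : Lp ℝ 2 P)) := by
      intro y hy y' hy' a b ha hb _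
      refine (Lp.coeFn_nonneg _).1 ?_
      filter_upwards [(Lp.coeFn_nonneg y).2 hy, (Lp.coeFn_nonneg y').2 hy', Lp.coeFn_smul a y,
        Lp.coeFn_smul b y', Lp.coeFn_add (a • y) (b • y')] with ω g1 g2 g3 g4 g5
      rw [g5, Pi.add_apply, g3, g4]
      exact add_nonneg (mul_nonneg ha g1) (mul_nonneg hb g2)
    refine (Lp.coeFn_nonneg (x i)).2
      (closure_minimal (convexHull_min ?_ hc) isClosed_Ici (hx2 i 1 one_pos))
    rintro _ ⟨a, -, rfl⟩
    refine (Lp.coeFn_nonneg _).1 ((CC_coe' (hP.sh a) (hf i)).mono fun ω h => ?_)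
    change 0 ≤ CC (sh a) (hP.sh a) (f i) ω
    rw [h]
    simp only [f₀]
    split_ifs <;> norm_num
  have hone' : ∀ᵐ ω ∂P, ∑ i, x i ω = 1 := by
    filter_upwards [hs x, hsum ▸ hone] with ω h1 h2
    rw [← h1, h2]
  let F : Fin 5 → Col → ℝ := fun i ω => max 0 (min (x i ω) 1)
  have hF : ∀ i, x i =ᵐ[P] F i := fun i => by
    filter_upwards [hone', ae_all_iff.2 hpos] with ω h1 h2
    have h3 : x i ω ≤ 1 := h1 ▸ Finset.single_le_sum (fun j _ => h2 j) (Finset.mem_univ i)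
    simp only [F]
    rw [min_eq_left h3, max_eq_right (h2 i)]
  refine ⟨F, fun i => measurable_const.max
    ((Lp.stronglyMeasurable (x i)).measurable.min measurable_const),
    fun i ω => ⟨le_max_left _ _, max_le zero_le_one (min_le_right _ _)⟩, ?_, fun i ε hε => ?_,
    fun i u hu => ?_⟩
  · filter_upwards [hone', ae_all_iff.2 hF] with ω h1 h2
    rw [← h1]
    exact Finset.sum_congr rfl fun i _ => (h2 i).symm
  · obtain ⟨r, hr, H⟩ := hx1 i √ε (Real.sqrt_pos.2 hε)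
    refine ⟨r, hr, fun a ha => ?_⟩
    refine lt_of_eq_of_lt ?_ ((Real.lt_sqrt (norm_nonneg _)).1 (H a ha))
    rw [← real_inner_self_eq_norm_sq, inner_eq]
    refine integral_congr_ae ?_
    filter_upwards [CC_coe' (hP.sh a) (hF i), hF i, Lp.coeFn_sub (T a (x i)) (x i)] with ω g1 g2 g3
    rw [g3, Pi.sub_apply, g2, ← g1, sq]
  · have e := hx4 i u hu
    rw [inner_eq, inner_eq] at e
    have e1 : ∫ ω, F i (sh u ω) * F i ω ∂P = ∫ ω, T u (x i) ω * x i ω ∂P := by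
      refine integral_congr_ae ?_
      filter_upwards [CC_coe' (hP.sh u) (hF i), hF i] with ω g1 g2
      rw [g2, ← g1]
    rw [e1, e]
    refine integral_eq_zero_of_ae ?_
    filter_upwards [CC_coe' (hP.sh u) (hf i), hf i, hP.proper] with ω g1 g2 g3
    change CC (sh u) (hP.sh u) (f i) ω * f i ω = 0
    rw [g1, g2]
    have g4 := g3 (0 + u) 0 (by simpa using hu)
    simp only [f₀, sh]
    split_ifs with h1 h2
    · exact absurd (h1.trans h2.symm) g4
    all_goals simp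

end Crest.Agent.R040

end
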