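import Crest.Agent.R040.Cyc4

/-! # Row 40, Step 2: constants near the 4-cycle points -/

set_option autoImplicit false

open MeasureTheory Filter Topology Set Metric
open scoped Real

noncomputable section

namespace Crest.Agent.R040

/-- `adj_usc` and `Tf.cyc_max` -/
theorem MCol.adj_eq_near (c : MCol) (v : ℂ) :
    ∃ δ > (0 : ℝ), ∀ x : ℂ, ‖x - v‖ ≤ δ → Cyc (c.Adj x) → c.Adj x = c.Adj v := by
  obtain ⟨δ, hδ, h⟩ := c.adj_usc v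
  exact ⟨δ, hδ, fun x hx hc => ((c.tf_adj x).cyc_max (c.tf_adj v) hc (h x hx)).symm⟩

theorem Stage1_box : IsCompact box := by
  have : box = Icc (-8 : ℝ) 8 ×ℂ Icc (-8 : ℝ) 8 := by
    ext z
    simp only [box, mem_ofPred_eq, Complex.mem_reProdIm, mem_Icc, abs_le]
  rw [this]
  exact isCompact_Icc.reProdIm isCompact_Icc

theorem Stage1_glob {Q : ℝ → ℂ → Prop}
    (h : ∀ v : ℂ, ∃ s > (0 : ℝ), ∀ τ, 0 < τ → τ ≤ s → ∀ x, ‖x - v‖ < s → Q τ x) :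
    ∃ s > (0 : ℝ), ∀ τ, 0 < τ → τ ≤ s → ∀ x ∈ box, Q τ x := by
  refine Stage1_box.induction_on
    (p := fun K => ∃ s > (0 : ℝ), ∀ τ, 0 < τ → τ ≤ s → ∀ x ∈ K, Q τ x)
    ⟨1, one_pos, fun _ _ _ _ hx => hx.elim⟩ ?_ ?_ fun v _ => ?_
  · rintro S T hST ⟨s, hs, h1⟩
    exact ⟨s, hs, fun τ h2 h3 x hx => h1 τ h2 h3 x (hST hx)⟩
  · rintro S T ⟨s, hs, h1⟩ ⟨t, ht, h2⟩
    exact ⟨min s t, lt_min hs ht, fun τ h3 h4 x hx => hx.elim (h1 τ h3 (h4.trans (min_le_left _ _)) x)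
      (h2 τ h3 (h4.trans (min_le_right _ _)) x)⟩
  · obtain ⟨s, hs, h1⟩ := h v
    exact ⟨ball v s, mem_nhdsWithin_of_mem_nhds (ball_mem_nhds v hs), s, hs,
      fun τ h2 h3 x hx => h1 τ h2 h3 x (mem_ball_iff_norm.1 hx)⟩

theorem Stage1_lim {c : MCol} {v : ℂ} {F : Set (ℝ × (Fin 5 → ℝ))} (hF : IsClosed F)
    (h : ∀ q, c.Lim v q → (0, q) ∉ F) : ∃ τ > (0 : ℝ), ∃ δ > (0 : ℝ), ∀ (x : ℂ) (r : ℝ),
      ‖x - v‖ < δ → 0 < r → r < δ → (τ, c.p x r) ∉ F := by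
  have h1 : ∀ᶠ τ in 𝓝 (0 : ℝ), ∀ q ∈ {q | c.Lim v q}, (τ, q) ∉ F :=
    (MCol.isCompact_lim v).eventually_forall_of_forall_eventually fun q hq =>
      hF.isOpen_compl.mem_nhds (h q hq)
  obtain ⟨τ, h2, h3⟩ := ((h1.filter_mono nhdsWithin_le_nhds).and
    (self_mem_nhdsWithin (a := (0 : ℝ)) (s := Ioi 0))).exists
  exact ⟨τ, h3, MCol.lim_principle (F := {q | (τ, q) ∈ F})
    (hF.preimage (Continuous.prodMk_right τ)) h2⟩

theorem Stage1_ex {X ι : Type} [TopologicalSpace X] [Finite ι] {P : ι → X → Prop}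
    (h : ∀ i, IsClosed {z | P i z}) : IsClosed {z | ∃ i, P i z} := by
  rw [ofPred_exists]
  exact isClosed_iUnion_of_finite h

theorem Stage1_all {X : Type} {ι : Sort*} [TopologicalSpace X] {P : ι → X → Prop}
    (h : ∀ i, IsClosed {z | P i z}) : IsClosed {z | ∀ i, P i z} := by
  rw [ofPred_forall]
  exact isClosed_iInter h

/-- the closed form of a label -/
def Stage1_G (Γ : Fin 5 → Fin 5 → Prop) (i : Fin 5) (z : ℝ × (Fin 5 → ℝ)) : Prop :=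
  ∃ l, Cyc Γ ∧ (∃ j, Γ l j) ∧ z.2 l ≤ z.1 ∧ ∀ j, j ≠ i → mm (del Γ l) z.2 i j ≤ 1 / 2 + z.1

theorem Stage1_closed (Γ : Fin 5 → Fin 5 → Prop) (i : Fin 5) : IsClosed {z | Stage1_G Γ i z} :=
  Stage1_ex fun l => isClosed_const.inter <| isClosed_const.inter <|
    (isClosed_le (by fun_prop) continuous_fst).inter <| Stage1_all fun j => Stage1_all fun _ =>
      isClosed_le ((continuous_mm _ i j).comp continuous_snd) (by fun_prop)

theorem Stage1_ab (c : MCol) : ∃ s > (0 : ℝ), ∀ ε, 0 < ε → ε ≤ s → ∀ x ∈ box, ∀ δ ≤ ε, ∀ r : ℝ,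
    0 < r → r < δ → (∀ i j k, i ≠ j → i ≠ k → j ≠ k →
      c.Lab4 ε δ x r i → c.Lab4 ε δ x r j → c.Lab4 ε δ x r k → False) ∧
      ∀ i, c.Lab4 ε δ x r i → ε ≤ c.p x r i := by
  refine Stage1_glob fun v => ?_
  obtain ⟨δ₁, hδ₁, h1⟩ := c.adj_eq_near v
  obtain ⟨τ, hτ, δ₂, hδ₂, h2⟩ := Stage1_lim (c := c) (v := v)
    (F := {z | (∃ i j k, i ≠ j ∧ i ≠ k ∧ j ≠ k ∧ Stage1_G (c.Adj v) i z ∧ Stage1_G (c.Adj v) j z ∧
      Stage1_G (c.Adj v) k z) ∨ ∃ i, Stage1_G (c.Adj v) i z ∧ z.2 i ≤ z.1})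
    ((Stage1_ex fun i => Stage1_ex fun j => Stage1_ex fun k => isClosed_const.inter <|
      isClosed_const.inter <| isClosed_const.inter <| (Stage1_closed _ i).inter <|
      (Stage1_closed _ j).inter (Stage1_closed _ k)).union <| Stage1_ex fun i =>
      (Stage1_closed _ i).inter (isClosed_le (by fun_prop) continuous_fst)) (by
    intro q hq
    have hs := hq.simp
    have hc := c.conn_lim v hq
    rintro (⟨i, j, k, hij, hik, hjk, ⟨l, hy, hl, g1, g2⟩, gj, gk⟩ | ⟨i, ⟨l, -, -, g1, g2⟩, g3⟩)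
    · have hF := (c.tf_adj v).forest_del hy hl
      have hc' := hc.del (le_antisymm g1 (hs.1 l))
      have key : ∀ j, Stage1_G (c.Adj v) j (0, q) → ∀ m, m ≠ j →
          mm (del (c.Adj v) l) q j m ≤ 1 / 2 := by
        rintro j ⟨l', -, -, g3, g4⟩
        exact mm_indep (Γ := del (del (c.Adj v) l) l') (F := del (c.Adj v) l') hF
          (fun a b h => ⟨h.1.1, h.2⟩) (fun a b h => h.1) hs (hc'.del (le_antisymm g3 (hs.1 l')))
          fun m hm => (g4 m hm).trans_eq (add_zero _)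
      exact hF.mult hs hc' hij hik hjk (fun m hm => (g2 m hm).trans_eq (add_zero _)) (key j gj)
        (key k gk)
    · exact absurd (pos_of_mm hs (hc.del (le_antisymm g1 (hs.1 l))) fun m hm =>
        (g2 m hm).trans_lt (by norm_num)) (not_lt.2 g3))
  refine ⟨min τ (min δ₂ (δ₁ / 2)), by positivity, fun ε _ hε x hx δ hδ r hr hr' => ?_⟩
  simp only [le_min_iff, lt_min_iff] at hε hx
  have h3 := h2 x r hx.2.1 hr (by linarith [hε.2.1])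
  have key : ∀ i, c.Lab4 ε δ x r i → Stage1_G (c.Adj v) i (τ, c.p x r) := by
    rintro i ⟨w, -, hw, g1, l, hl, g2, g3⟩
    have g4 : ‖w - v‖ ≤ δ₁ := by
      have := norm_sub_le_norm_sub_add_norm_sub w x v
      rw [norm_sub_rev w x] at this
      linarith [hε.2.2, hx.2.2]
    have g5 := h1 w g4 hw
    rw [g5] at hw hl g3
    exact ⟨l, hw, hl, by linarith [hε.1], fun j hj => by linarith [hε.1, g3 j hj]⟩
  exact ⟨fun i j k hij hik hjk gi gj gk =>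
    h3 (Or.inl ⟨i, j, k, hij, hik, hjk, key i gi, key j gj, key k gk⟩),
    fun i gi => not_lt.1 fun g => h3 (Or.inr ⟨i, key i gi, by linarith [hε.1]⟩)⟩

theorem Stage1_c (c : MCol) : ∃ s > (0 : ℝ), ∀ δ, 0 < δ → δ ≤ s → ∀ v ∈ box, Cyc (c.Adj v) →
    ∀ x : ℂ, ‖x - v‖ ≤ 2 * δ → ∀ i j, c.Adj x i j → c.Adj v i j := by
  refine Stage1_glob fun v => ?_
  obtain ⟨δ₁, hδ₁, h1⟩ := c.adj_eq_near v
  obtain ⟨δ₂, hδ₂, h2⟩ := c.adj_usc v
  refine ⟨min δ₁ (δ₂ / 3), by positivity, fun δ _ hδ w hw hc x hx => ?_⟩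
  simp only [le_min_iff, lt_min_iff] at hδ hw
  rw [h1 w hw.1.le hc]
  exact h2 x (by linarith [norm_sub_le_norm_sub_add_norm_sub x w v, hδ.2, hw.2])

theorem Stage1_d (c : MCol) {κ : ℝ} (hκ : 0 < κ) : ∃ s > (0 : ℝ), ∀ δ, 0 < δ → δ ≤ s → ∀ v ∈ box,
    Cyc (c.Adj v) → ∀ (x : ℂ) (r : ℝ), ‖x - v‖ < δ → 0 < r → r < δ → ¬ ∀ t ∈ Icc (1 : ℝ) δ⁻¹,
      ∃ (x' : ℂ) (r' : ℝ), r ≤ r' ∧ ‖x' - x‖ + r' = t * r ∧ c.Four κ x' r' := by
  refine Stage1_glob fun v => ?_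
  by_cases hv : Cyc (c.Adj v)
  · obtain ⟨δ₁, hδ₁, M, hM, h1⟩ := c.no_tower hv hκ
    have hM0 : 0 < M := by linarith
    refine ⟨min (δ₁ / 2) M⁻¹, by positivity, fun δ h0 hδ w hw _ x r hx hr hr' h => ?_⟩
    simp only [le_min_iff, lt_min_iff] at hδ hw
    exact h1 x r (by linarith [norm_sub_le_norm_sub_add_norm_sub x w v, hδ.1, hw.1]) hr
      (by linarith [hδ.1]) fun t ht => h t ⟨ht.1, ht.2.trans ((le_inv_comm₀ h0 hM0).1 hδ.2)⟩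
  · obtain ⟨δ₁, hδ₁, h1⟩ := c.adj_eq_near v
    exact ⟨δ₁, hδ₁, fun δ _ _ w hw hc => absurd (h1 w hw.le hc ▸ hc) hv⟩

/-- All four parts by contradiction and sequential compactness (`box` is compact; `exists_subseq`, `adj_eq_near`); `Lab4 ε δ` is monotone in `ε` and `δ`.  (a), (b): with `ε = δ = 1/(n+4)` the centres `v` of the labels converge to the limit point `x`, their graphs are
eventually `Γ = Adj x`; along a subsequence the colours `i, j, k` and deleted colours `l` are constant; the limit vector `q` has `q l = 0`, `Conn Γ q` (`conn_lim`), `mm (del Γ l) q i · ≤ 1/2` (`continuous_mm`).  Transfer all three labels to one forest `del Γ l₁`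
with `mm_indep` (common subgraph: `Γ` with all three colours deleted, `Conn.del`), then `Forest.mult`, `pos_of_mm`.  (c) `adj_usc`.  (d) `no_tower` at the limit point. -/
theorem MCol.stage1 (c : MCol) : ∃ (ε δ M : ℝ), 0 < ε ∧ ε ≤ 1 / 4 ∧ 0 < δ ∧ 1 ≤ M ∧
    (∀ x ∈ box, ∀ r : ℝ, 0 < r → r < δ → ∀ i j k, i ≠ j → i ≠ k → j ≠ k →
      c.Lab4 ε δ x r i → c.Lab4 ε δ x r j → c.Lab4 ε δ x r k → False) ∧
    (∀ x ∈ box, ∀ r : ℝ, 0 < r → r < δ → ∀ i, c.Lab4 ε δ x r i → ε ≤ c.p x r i) ∧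
    (∀ v ∈ box, Cyc (c.Adj v) → ∀ x : ℂ, ‖x - v‖ ≤ 2 * δ → ∀ i j, c.Adj x i j → c.Adj v i j) ∧
    (∀ (x : ℂ) (r : ℝ), c.Near x δ → 0 < r → r < δ → ¬ ∀ t ∈ Icc (1 : ℝ) M,
      ∃ (x' : ℂ) (r' : ℝ), r ≤ r' ∧ ‖x' - x‖ + r' = t * r ∧ c.Four (ε / 2) x' r') := by
  obtain ⟨s₁, hs₁, h1⟩ := Stage1_ab c
  obtain ⟨ε, hε, hε1, hε2⟩ : ∃ ε : ℝ, 0 < ε ∧ ε ≤ s₁ ∧ ε ≤ 1 / 4 :=
    ⟨min s₁ (1 / 4), by positivity, min_le_left _ _, min_le_right _ _⟩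
  obtain ⟨s₂, hs₂, h2⟩ := Stage1_c c
  obtain ⟨s₃, hs₃, h3⟩ := Stage1_d c (half_pos hε)
  obtain ⟨δ, hδ, g1, g2, g3⟩ : ∃ δ : ℝ, 0 < δ ∧ δ ≤ ε ∧ δ ≤ s₂ ∧ δ ≤ s₃ :=
    ⟨min ε (min s₂ s₃), by positivity, min_le_left _ _, (min_le_right _ _).trans (min_le_left _ _),
      (min_le_right _ _).trans (min_le_right _ _)⟩
  refine ⟨ε, δ, δ⁻¹, hε, hε2, hδ, (one_le_inv₀ hδ).2 (by linarith),
    fun x hx r hr hr' => (h1 ε hε hε1 x hx δ g1 r hr hr').1,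
    fun x hx r hr hr' => (h1 ε hε hε1 x hx δ g1 r hr hr').2, h2 δ hδ g2, ?_⟩
  rintro x r ⟨v, hv, hc, hx⟩
  exact h3 δ hδ g3 v hv hc x r hx

end Crest.Agent.R040

end
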