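import Crest.Agent.R040.Bas

/-! # Row 40, Step 2: from an a.e. proper colouring to density points -/

set_option autoImplicit false

open MeasureTheory Filter Topology Set Metric
open scoped Real

noncomputable section

namespace Crest.Agent.R040

theorem toMCol_avoid {A : ℂ → Fin 5} (hA : Measurable A) (hw : WeakProper A) (i : Fin 5) {z w : ℂ}
    (hz : Tendsto (pr (A ⁻¹' {i}) z) (𝓝[>] 0) (𝓝 1))
    (hw' : Tendsto (pr (A ⁻¹' {i}) w) (𝓝[>] 0) (𝓝 1)) : ‖z - w‖ ≠ 1 := by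
  intro h1
  have hS : MeasurableSet (A ⁻¹' {i}) := hA (measurableSet_singleton i)
  obtain ⟨θ₀, hθ₀⟩ := exists_cis (u := w - z) (by rwa [norm_sub_rev])
  have h2 : ∀ᵐ θ : ℝ, ∀ᵐ y : ℂ, A y ≠ A (y + cis θ) := by
    have h3 : ∀ᵐ p ∂((volume : Measure ℂ).prod (volume : Measure ℝ)),
        A p.1 ≠ A (p.1 + cis p.2) := hw
    exact Measure.ae_ae_of_ae_prod
      ((Measure.measurePreserving_swap (μ := (volume : Measure ℝ))
        (ν := (volume : Measure ℂ))).quasiMeasurePreserving.ae h3)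
  have h4 : Tendsto (fun r : ℝ => 2 * r) (𝓝[>] 0) (𝓝[>] 0) := by
    refine tendsto_nhdsWithin_iff.2 ⟨?_, ?_⟩
    · have : Tendsto (fun r : ℝ => 2 * r) (𝓝 0) (𝓝 (2 * 0)) := (continuous_const_mul 2).tendsto 0
      rw [mul_zero] at this
      exact this.mono_left nhdsWithin_le_nhds
    · filter_upwards [self_mem_nhdsWithin] with r hr
      exact mul_pos two_pos (show (0 : ℝ) < r from hr)
  obtain ⟨r, ⟨ha, hb⟩, hr⟩ := (((hz.eventually (lt_mem_nhds (show (9 / 10 : ℝ) < 1 by norm_num))).and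
    ((hw'.comp h4).eventually (lt_mem_nhds (show (9 / 10 : ℝ) < 1 by norm_num)))).and
    self_mem_nhdsWithin).exists
  have hr : 0 < r := hr
  have hb : 9 / 10 < pr (A ⁻¹' {i}) w (2 * r) := hb
  obtain ⟨θ, hθ, h5⟩ := Measure.exists_mem_of_measure_ne_zero_of_ae
    (μ := (volume : Measure ℝ)) (s := Ioo (θ₀ - r) (θ₀ + r))
    (by simp only [Real.volume_Ioo, ne_eq, ENNReal.ofReal_eq_zero, not_le]; linarith)
    (ae_restrict_of_ae h2)
  have h6 : volume (A ⁻¹' {i} ∩ ball z r) ≤ volume ((A ⁻¹' {i})ᶜ ∩ ball w (2 * r)) := by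
    rw [← measure_preimage_add_right volume (cis θ) ((A ⁻¹' {i})ᶜ ∩ ball w (2 * r))]
    refine measure_mono_ae ?_
    filter_upwards [h5] with y hy hy'
    refine ⟨fun h => hy (hy'.1.trans (Eq.symm h)), ?_⟩
    have e : y + cis θ - w = (y - z) + (cis θ - cis θ₀) := by rw [← hθ₀]; ring
    have h7 : |θ - θ₀| < r := abs_lt.2 ⟨by linarith [hθ.1], by linarith [hθ.2]⟩
    have h8 : ‖y - z‖ < r := mem_ball_iff_norm.1 hy'.2
    rw [mem_ball_iff_norm, e]
    linarith [norm_add_le (y - z) (cis θ - cis θ₀), norm_cis_sub θ θ₀]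
  have h7 : volume.real (A ⁻¹' {i} ∩ ball z r) ≤ volume.real ((A ⁻¹' {i})ᶜ ∩ ball w (2 * r)) :=
    ENNReal.toReal_mono (ne_top_of_le_ne_top measure_ball_lt_top.ne
      (measure_mono inter_subset_right)) h6
  have h8 := pr_compl hS w (show 0 < 2 * r by linarith)
  have h9 : pr (A ⁻¹' {i})ᶜ w (2 * r) < 1 / 10 := by linarith
  have hp : 0 < π * r ^ 2 := by positivity
  rw [pr, div_lt_iff₀ (by positivity)] at h9
  rw [pr, lt_div_iff₀ hp] at ha
  nlinarith

/-- `D i` = points of `A ⁻¹' {i}` of density one (`ae_tendsto_pr`; measurable: either test rational radii using `continuousOn_pr`, or remove a measurable null superset of the bad points; `D i =ᵐ A ⁻¹' {i}`, `pr_congr`).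
Avoidance: if `w = z + cis θ₀`, both in `D i`, `r` small, then for each `|θ - θ₀| ≤ r` translation by `cis θ` maps `ball z r` into `ball w (2r)`, so `{y ∈ ball z r | A y = i ∧ A (y + cis θ) = i}` has measure
`≥ π r²(1 - ε) - 4π r² ε > 0`; this contradicts `WeakProper` by Fubini (`Measure.ae_ae_of_ae_prod` after swapping). -/
theorem exists_mcol (A : ℂ → Fin 5) (hA : Measurable A) (hw : WeakProper A) : Nonempty MCol := by
  have hS : ∀ i, MeasurableSet (A ⁻¹' {i}) := fun i => hA (measurableSet_singleton i)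
  have h1 : ∀ᵐ z : ℂ, ∀ i, z ∈ A ⁻¹' {i} → Tendsto (pr (A ⁻¹' {i}) z) (𝓝[>] 0) (𝓝 1) :=
    ae_all_iff.2 fun i => (ae_tendsto_pr (hS i)).mono fun z hz => hz.1
  obtain ⟨N, hN, hNm, hN0⟩ := exists_measurable_superset_of_null (ae_iff.1 h1)
  have h2 : ∀ i, ∀ z ∈ A ⁻¹' {i} \ N, Tendsto (pr (A ⁻¹' {i}) z) (𝓝[>] 0) (𝓝 1) := by
    intro i z hz
    by_contra h
    exact hz.2 (hN fun h' => h (h' i hz.1))
  refine ⟨⟨fun i => A ⁻¹' {i} \ N, fun i => (hS i).diff hNm, fun i j hij => ?_, ?_, fun i z hz => ?_,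
    fun i z hz w hw' => toMCol_avoid hA hw i (h2 i z hz) (h2 i w hw')⟩⟩
  · refine Set.disjoint_left.2 fun z hz hz' => hij ?_
    exact (Eq.symm hz.1).trans hz'.1
  · filter_upwards [measure_eq_zero_iff_ae_notMem.1 hN0] with z hz
    exact ⟨A z, rfl, hz⟩
  · refine (h2 i z hz).congr fun r => (pr_congr z r ?_).symm
    exact sdiff_null_ae_eq_self hN0

end Crest.Agent.R040

end
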