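import Crest.Agent.R040.Arith

/-! # Row 40, Step 1: a jointly measurable version -/

set_option autoImplicit false

open MeasureTheory Filter Topology Set

noncomputable section

namespace Crest.Agent.R040

theorem version_ae {Ω : Type} [MeasurableSpace Ω] {P : Measure Ω} {f : ℕ → Ω → ℝ}
    (hf : ∀ n, Integrable (f n) P) (h : ∀ n, ∫ ω, |f n ω| ∂P ≤ (1 / 2) ^ n) :
    ∀ᵐ ω ∂P, Summable fun n => ‖f n ω‖ := by
  refine summable_norm_of_tsum_eLpNorm_ne_top le_rfl (fun n => (hf n).1) (ne_top_of_le_ne_top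
    (summable_geometric_two.tsum_ofReal_ne_top) (ENNReal.tsum_le_tsum fun n => ?_))
  rw [eLpNorm_one_eq_lintegral_enorm, ← ofReal_integral_norm_eq_lintegral_enorm (hf n)]
  exact ENNReal.ofReal_le_ofReal (h n)

theorem version_int {P : Measure Col} [IsProbabilityMeasure P] {f : Col → ℝ} (hf : Measurable f)
    (h : ∀ ω, |f ω| ≤ 1) : Integrable f P :=
  (integrable_const (1 : ℝ)).mono' hf.aestronglyMeasurable (.of_forall h)

theorem version_sh {P : Measure Col} (hP : InvCol P) {f : Col → ℝ} (hf : Measurable f) (b : K) :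
    ∫ ω, f (sh b ω) ∂P = ∫ ω, f ω ∂P := by
  rw [← integral_map (hP.sh b).measurable.aemeasurable hf.aestronglyMeasurable, (hP.sh b).map_eq]

theorem version_sh_sh (a b : K) (ω : Col) : sh a (sh b ω) = sh (a + b) ω :=
  funext fun z => congrArg ω (add_assoc z a b)

theorem version_abs {F : Fin 5 → Col → ℝ} {P : Measure Col} (hF : ContCol P F) (i : Fin 5)
    (ω ω' : Col) : |F i ω - F i ω'| ≤ 1 ∧ |F i ω * F i ω'| ≤ 1 := by
  obtain ⟨a1, a2⟩ := hF.bdd i ω
  obtain ⟨b1, b2⟩ := hF.bdd i ω'
  exact ⟨abs_le.2 ⟨by linarith, by linarith⟩,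
    (abs_of_nonneg (mul_nonneg a1 b1)).trans_le (mul_le_one₀ a2 b1 b2)⟩

theorem version_cont {P : Measure Col} (hP : InvCol P) {F : Fin 5 → Col → ℝ} (hF : ContCol P F)
    {ε : ℝ} (hε : 0 < ε) : ∃ r > (0 : ℝ), ∀ i, ∀ a b : K, ‖(a : ℂ) - b‖ < r →
      ∫ ω, |F i (sh a ω) - F i (sh b ω)| ∂P ≤ ε := by
  have := hP.prob
  choose r hr h using fun i => hF.cont i (ε ^ 2 / 4) (by positivity)
  refine ⟨Finset.univ.inf' Finset.univ_nonempty r, (Finset.lt_inf'_iff _).2 fun i _ => hr i,
    fun i a b hab => ?_⟩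
  have h1 := h i (a - b) (hab.trans_le (Finset.inf'_le _ (Finset.mem_univ i)))
  have hm : Measurable fun ω => F i (sh (a - b) ω) - F i ω :=
    ((hF.meas i).comp (hP.sh _).measurable).sub (hF.meas i)
  have h2 := version_sh hP hm.abs b
  simp only [version_sh_sh, sub_add_cancel] at h2
  have i1 : Integrable (fun ω => (F i (sh (a - b) ω) - F i ω) ^ 2) P :=
    version_int (hm.pow_const 2) fun ω => by
      rw [abs_pow]
      exact pow_le_one₀ (abs_nonneg _) (version_abs hF i _ _).1
  rw [h2]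
  calc _ ≤ ∫ ω, (2 / ε * (F i (sh (a - b) ω) - F i ω) ^ 2 + ε / 2) ∂P := by
        refine integral_mono (version_int hm fun ω => (version_abs hF i _ _).1).abs
          ((i1.const_mul _).add (integrable_const _)) fun ω => ?_
        dsimp only
        rw [← sq_abs]
        generalize |F i (sh (a - b) ω) - F i ω| = t
        rw [div_mul_eq_mul_div, div_add' _ _ _ hε.ne', le_div_iff₀ hε]
        nlinarith [sq_nonneg (2 * t - ε), sq_nonneg t, sq_nonneg ε]
    _ ≤ ε := by
        rw [integral_add (i1.const_mul _) (integrable_const _), integral_const_mul, integral_const,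
          probReal_univ, one_smul]
        have := mul_le_mul_of_nonneg_left h1.le (by positivity : 0 ≤ 2 / ε)
        rw [show 2 / ε * (ε ^ 2 / 4) = ε / 2 by field_simp; ring] at this
        linarith

theorem version_orth {P : Measure Col} (hP : InvCol P) {F : Fin 5 → Col → ℝ} (hF : ContCol P F)
    (i : Fin 5) (a b v : K) (hv : ‖v‖ = 1) :
    ∫ ω, |F i (sh b ω) * F i (sh a ω)| ∂P ≤ ∫ ω, |F i (sh b ω) - F i (sh (v + a) ω)| ∂P := by
  have := hP.prob
  have hm : ∀ c, Measurable fun ω => F i (sh c ω) := fun c => (hF.meas i).comp (hP.sh c).measurable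
  have h1 := version_sh hP (f := fun ω => F i (sh v ω) * F i ω) ((hm v).mul (hF.meas i)) a
  simp only [version_sh_sh, hF.orth i v hv] at h1
  have i1 : Integrable (fun ω => |F i (sh b ω) - F i (sh (v + a) ω)|) P :=
    (version_int ((hm b).sub (hm (v + a))) fun ω => (version_abs hF i _ _).1).abs
  have i2 : Integrable (fun ω => F i (sh (v + a) ω) * F i (sh a ω)) P :=
    version_int ((hm (v + a)).mul (hm a)) fun ω => (version_abs hF i _ _).2
  rw [← add_zero (∫ ω, |F i (sh b ω) - _| ∂P), ← h1, ← integral_add i1 i2]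
  refine integral_mono (version_int ((hm b).mul (hm a)) fun ω => (version_abs hF i _ _).2).abs
    (i1.add i2) fun ω => ?_
  obtain ⟨a1, a2⟩ := hF.bdd i (sh a ω)
  dsimp only
  rw [abs_of_nonneg (mul_nonneg (hF.bdd i _).1 a1)]
  nlinarith [mul_le_mul_of_nonneg_right (le_abs_self (F i (sh b ω) - F i (sh (v + a) ω))) a1,
    mul_le_of_le_one_right (abs_nonneg (F i (sh b ω) - F i (sh (v + a) ω))) a2]

/-- Choose `r_n ↓ 0` with `∫ (F i ∘ sh a - F i)² < 16^{-n}` for `‖a‖ < r_n`, all `i`; `g n : ℂ → K` measurable (countably many values, e.g. rounding to a grid, or `g n z` = first point of an enumeration of `K` within `r_n/2` of `z`).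
`F̃ i z ω = limsup_n F i (sh (g n z) ω)` is jointly measurable, and for every `z` the sequence converges a.e. and in `L²` (Borel–Cantelli / summable differences).  For every `z`, `θ`: `∑_i F̃ i z = 1` a.e. and
`∫ F̃ i (z + e^{iθ}) F̃ i z = lim φ_i(g n (z + e^{iθ}) - g n z) = 0` (`φ_i a = ∫ F i ∘ sh a · F i` is uniformly continuous, vanishes on unit vectors, `unit_dense`).  Fubini (`Measure.ae_ae_comm`, `ae_prod_iff_ae_ae`) gives one `ω`;
`A z` = least `i` with `F̃ i z ω > 0` (or `0`). -/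
theorem exists_weak (P : Measure Col) (hP : InvCol P) (F : Fin 5 → Col → ℝ) (hF : ContCol P F) :
    ∃ A : ℂ → Fin 5, Measurable A ∧ WeakProper A := by
  classical
  have := hP.prob
  choose R hR0 hR using fun n : ℕ => version_cont hP hF (ε := (1 / 2) ^ n) (by positivity)
  obtain ⟨e, he⟩ := exists_surjective_nat K
  set r : ℕ → ℝ := fun n => min (R n) (R (n - 1)) / 3 with hr
  have hr0 : ∀ n, 0 < r n := fun n => div_pos (lt_min (hR0 _) (hR0 _)) three_pos
  have hr1 : ∀ n, 3 * r n ≤ R n ∧ 3 * r (n + 1) ≤ R n := fun n => by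
    have h1 := min_le_left (R n) (R (n - 1))
    have h2 := min_le_right (R (n + 1)) (R n)
    simp only [hr, Nat.add_sub_cancel]
    constructor <;> linarith
  have hex : ∀ n, ∀ q : ℂ × Col, ∃ k, ‖(e k : ℂ) - q.1‖ < r n := fun n q => by
    obtain ⟨y, -, hy⟩ := lam5_dense 1 one_ne_zero 0 q.1 _ (hr0 n)
    obtain ⟨k, rfl⟩ := he y
    exact ⟨k, hy⟩
  obtain ⟨g, hg, hGm⟩ : ∃ g : ℕ → ℂ → K, (∀ n z, ‖(g n z : ℂ) - z‖ < r n) ∧
      ∀ n i, Measurable fun q : ℂ × Col => F i (sh (g n q.1) q.2) :=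
    ⟨fun n z => e (Nat.find (hex n (z, 0))), fun n z => Nat.find_spec (hex n (z, 0)), fun n i =>
      Measurable.find (f := fun k (q : ℂ × Col) => F i (sh (e k) q.2))
        (fun k => ((hF.meas i).comp (hP.sh _).measurable).comp measurable_snd)
        (fun k => measurableSet_lt (by fun_prop) measurable_const) (hex n)⟩
  have hm : ∀ i c, Measurable fun ω => F i (sh c ω) := fun i c =>
    (hF.meas i).comp (hP.sh c).measurable
  set S : ℂ × Col → Fin 5 → Prop := fun q i => ∃ N, ∀ n ≥ N, 1 / 10 < F i (sh (g n q.1) q.2) with hS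
  have hSm : Measurable S := measurable_pi_lambda _ fun i => Measurable.exists fun N =>
    Measurable.forall fun n => measurable_const.imp (measurable_const.lt (hGm n i))
  have h1 : ∀ z, ∀ᵐ ω ∂P, ∃ i, S (z, ω) i := fun z => by
    have a1 : ∀ᵐ ω ∂P, ∀ i, Summable fun n => ‖F i (sh (g n z) ω) - F i (sh (g (n + 1) z) ω)‖ :=
      ae_all_iff.2 fun i => version_ae (fun n => version_int ((hm i _).sub (hm i _))
        fun ω => (version_abs hF i _ _).1) fun n => hR n i _ _ (by
          have := norm_sub_le ((g n z : ℂ) - z) (g (n + 1) z - z)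
          rw [sub_sub_sub_cancel_right] at this
          linarith [hg n z, hg (n + 1) z, hr1 n, hR0 n])
    have a2 : ∀ᵐ ω ∂P, ∀ n, ∑ i, F i (sh (g n z) ω) = 1 :=
      ae_all_iff.2 fun n => (hP.sh _).quasiMeasurePreserving.ae hF.sum
    filter_upwards [a1, a2] with ω b1 b2
    choose l hl using fun i => cauchySeq_tendsto_of_complete (cauchySeq_of_summable_dist
      (f := fun n => F i (sh (g n z) ω)) (by simpa only [dist_eq_norm] using b1 i))
    have b3 : ∑ i, l i = 1 := tendsto_nhds_unique (tendsto_finsetSum _ fun i _ => hl i)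
      (by simpa only [b2] using tendsto_const_nhds)
    obtain ⟨i, -, hi⟩ := Finset.exists_lt_of_sum_lt (s := Finset.univ) (f := fun _ => (1 / 10 : ℝ))
      (g := l) (by rw [b3]; norm_num)
    exact ⟨i, eventually_atTop.1 ((hl i).eventually (lt_mem_nhds hi))⟩
  have h2 : ∀ z u : ℂ, ‖u‖ = 1 → ∀ᵐ ω ∂P, ∀ i, ¬(S (z, ω) i ∧ S (z + u, ω) i) := fun z u hu => by
    refine ae_all_iff.2 fun i => ?_
    filter_upwards [version_ae (f := fun n ω => F i (sh (g n (z + u)) ω) * F i (sh (g n z) ω))
      (fun n => version_int ((hm i _).mul (hm i _)) fun ω => (version_abs hF i _ _).2) fun n => by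
        obtain ⟨v, hv, hv'⟩ := unit_dense u hu _ (hr0 n)
        refine (version_orth hP hF i _ _ v hv).trans (hR n i _ _ ?_)
        have c1 := norm_sub_le ((g n (z + u) : ℂ) - (z + u)) ((v - u) + (g n z - z))
        have c2 := norm_add_le ((v : ℂ) - u) (g n z - z)
        rw [show (g n (z + u) : ℂ) - (z + u) - ((v - u) + (g n z - z)) =
          g n (z + u) - ((v + g n z : K) : ℂ) by push_cast; ring] at c1
        linarith [hg n z, hg n (z + u), hr1 n]] with ω hω
    rintro ⟨⟨N, hN⟩, N', hN'⟩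
    obtain ⟨n, c1, c2, c3⟩ := ((hω.of_norm.tendsto_atTop_zero.eventually (gt_mem_nhds
      (by norm_num : (0 : ℝ) < 1 / 100))).and ((eventually_ge_atTop N).and
        (eventually_ge_atTop N'))).exists
    nlinarith [mul_pos (sub_pos.2 (hN n c2)) (sub_pos.2 (hN' n c3)), hN n c2, hN' n c3]
  set c : (Fin 5 → Prop) → Fin 5 := fun s => Classical.epsilon s with hc
  have hA : Measurable fun q => c (S q) := (measurable_of_finite c).comp hSm
  have h3 : ∀ᵐ p : ℂ × ℝ, ∀ᵐ ω ∂P,
      c (S (p.1, ω)) ≠ c (S (p.1 + Complex.exp (p.2 * Complex.I), ω)) := .of_forall fun p => by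
    filter_upwards [h1 p.1, h1 (p.1 + Complex.exp (p.2 * Complex.I)),
      h2 p.1 _ (Complex.norm_exp_ofReal_mul_I p.2)] with ω b1 b2 b3 b4
    exact b3 _ ⟨Classical.epsilon_spec b1, by
      have := Classical.epsilon_spec b2
      rwa [show Classical.epsilon _ = Classical.epsilon _ from b4.symm] at this⟩
  obtain ⟨ω, hω⟩ := ((Measure.ae_ae_comm (measurableSet_eq_fun (hA.comp (by fun_prop))
    (hA.comp (by fun_prop))).compl).1 h3).exists
  exact ⟨fun z => c (S (z, ω)), hA.comp (by fun_prop), hω⟩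

end Crest.Agent.R040

end
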