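import Crest.Agent.R040.InvMeas
import Crest.Agent.R040.Split
import Crest.Agent.R040.Version

/-! # Row 40, Step 1: conclusion -/

set_option autoImplicit false

open MeasureTheory Filter Topology Set

noncomputable section

namespace Crest.Agent.R040

theorem transfer (c : ℂ → Fin 5) (hc : ∀ x y : ℂ, ‖x - y‖ = 1 → c x ≠ c y) :
    ∃ A : ℂ → Fin 5, Measurable A ∧ WeakProper A := by
  obtain ⟨P, hP⟩ := exists_invCol c hc
  obtain ⟨F, hF⟩ := exists_contCol P hP
  exact exists_weak P hP F hF

end Crest.Agent.R040

end
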