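import Crest.Agent.R040.NoSep
import Crest.Agent.R040.AsepP
import Crest.Agent.R040.Pencil
import Crest.Agent.R040.AbsL
import Crest.Agent.R040.Spindle
import Crest.Agent.R040.Miss

/-! # Row 40, Step 2: three pairwise linked colours are impossible -/

set_option autoImplicit false

open MeasureTheory Filter Topology Set Metric
open scoped Real

noncomputable section

namespace Crest.Agent.R040

theorem Tri_not_sep {c : MCol} {v : ℂ} {a b : Fin 5} (h : c.Link v a b ∨ c.Link v b a) {t t' : ℝ}
    (h₁ : c.ASep v a b (cis t)) (h₂ : c.ASep v a b (cis t')) (l₁ : t < t') (l₂ : t' < t + π) :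
    False := by
  have hs : cr (cis t) (cis t') ≠ 0 := by
    rw [cr_cis]
    exact (Real.sin_pos_of_pos_of_lt_pi (by linarith) (by linarith)).ne'
  rcases h with h | h
  · exact MCol.not_sep h h₁ h₂ hs
  · exact MCol.not_sep h h₁.symm h₂.symm hs

theorem Tri_U_null {c : MCol} {v : ℂ} {a b : Fin 5} (h : c.Link v a b ∨ c.Link v b a) :
    ∀ᵐ θ : ℝ, θ ∉ c.U v a b := by
  rw [← measure_eq_zero_iff_ae_notMem]
  rcases h with h | h
  · exact MCol.U_null h
  · rw [c.U_comm]
    exact MCol.U_null h

theorem Tri_ae {c : MCol} {v : ℂ} {a b g d e : Fin 5} (h : c.TriHyp v a b g d e) {p q : ℝ}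
    (H : ∀ s ∈ Ioo p q, c.Abs v d s) : ∀ᵐ θ : ℝ, θ ∈ Ioo p q → c.N (v + cis θ) e := by
  rw [ae_iff]
  refine measure_null_of_locally_null _ fun x hx => ?_
  obtain ⟨s, hs, hae⟩ := h.ae_N (H x (Classical.not_imp.1 hx).1)
  refine ⟨_, inter_mem_nhdsWithin _ (Ioo_mem_nhds (a := x - s) (b := x + s) (by linarith)
    (by linarith)), measure_mono_null ?_ (ae_iff.1 hae)⟩
  rintro θ ⟨h1, h2⟩ h3
  exact h1 fun _ => h3 h2

theorem Tri_end {c : MCol} {v : ℂ} {a b g d e : Fin 5} (h : c.TriHyp v a b g d e) (hde : d ≠ e)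
    {t : ℝ} (H : ∀ s ∈ Ioo t (t + π / 3), c.Abs v d s) : False := by
  have key : ∀ k : ℕ, ∀ s ∈ Ioo (t + k * (π / 3)) (t + (k + 1) * (π / 3)),
      c.Abs v (if Even k then d else e) s := by
    intro k
    induction k with
    | zero => simpa using H
    | succ k ih =>
      intro s hs
      push_cast at hs
      have h1 := ih (s - π / 3) ⟨by linarith [hs.1], by linarith [hs.2]⟩
      by_cases hk : Even k
      · rw [if_pos hk] at h1
        rw [if_neg (by simpa [Nat.even_add_one] using hk)]
        simpa using h.step h1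
      · rw [if_neg hk] at h1
        rw [if_pos (by simpa [Nat.even_add_one] using hk)]
        simpa using h.swap.step h1
  refine c.spindle v d e hde t fun k _ => ?_
  by_cases hk : Even k
  · simp only [if_pos hk] at key ⊢
    exact Tri_ae h (by simpa only [if_pos hk] using key k)
  · simp only [if_neg hk] at key ⊢
    exact Tri_ae h.swap (by simpa only [if_neg hk] using key k)

theorem Tri_cover {c : MCol} {v : ℂ} {a b g d e : Fin 5} (h : c.TriHyp v a b g d e) {S : Set ℝ}
    (hS : IsPreconnected S) (H : ∀ s ∈ S, c.Abs v d s ∨ c.Abs v e s) :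
    (∀ s ∈ S, c.Abs v d s) ∨ ∀ s ∈ S, c.Abs v e s :=
  hS.subset_or_subset (c.isOpen_abs v d) (c.isOpen_abs v e)
    (Set.disjoint_left.2 fun _ h1 h2 => h.not_both h1 h2) H

theorem Tri_back {c : MCol} {v : ℂ} {a b g d e : Fin 5} (h : c.TriHyp v a b g d e) {t : ℝ}
    (H : c.Abs v d (t + π / 3) ∨ c.Abs v e (t + π / 3)) : c.Abs v d t ∨ c.Abs v e t := by
  have st : ∀ s, c.Abs v d s ∨ c.Abs v e s → c.Abs v d (s + π / 3) ∨ c.Abs v e (s + π / 3) :=
    fun s hs => hs.elim (fun h1 => Or.inr (h.step h1)) fun h1 => Or.inl (h.swap.step h1)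
  have h1 := st _ (st _ (st _ (st _ (st _ H))))
  have e1 : t + π / 3 + π / 3 + π / 3 + π / 3 + π / 3 + π / 3 = t + 2 * π := by ring
  rwa [e1, MCol.abs_periodic, MCol.abs_periodic] at h1

theorem Tri_sep {c : MCol} {v : ℂ} {a b g d e : Fin 5} (h : c.TriHyp v a b g d e) {t : ℝ}
    (H : ¬ (c.Abs v d t ∨ c.Abs v e t)) :
    c.ASep v a b (cis t) ∨ c.ASep v a g (cis t) ∨ c.ASep v b g (cis t) := by
  obtain ⟨m, hm⟩ := c.exists_missing (v + cis t)
  have H' := mt (Tri_back h) H
  have key : ∀ x y, (∀ k, k = x ∨ k = y ∨ k = m ∨ k = d ∨ k = e) → c.ASep v x y (cis t) := by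
    intro x y hall
    obtain ⟨s, hs, hae⟩ := c.pencil v x y m d e hall t h.de hm
      (fun s hs h0 => H' (Or.inl (MCol.abs_of_null hs h0)))
      (fun s hs h0 => H' (Or.inr (MCol.abs_of_null hs h0)))
    exact c.asep_of_pencil v x y t s hs hae
  rcases h.all m with rfl | rfl | rfl | rfl | rfl
  · exact Or.inr (Or.inr (key _ _ fun k => by have := h.all k; tauto))
  · exact Or.inr (Or.inl (key _ _ fun k => by have := h.all k; tauto))
  · exact Or.inl (key _ _ h.all)
  · exact absurd (Or.inl (MCol.abs_of_not_P hm)) H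
  · exact absurd (Or.inr (MCol.abs_of_not_P hm)) H

theorem Tri_rest : ∀ a b g : Fin 5, a ≠ b → a ≠ g → b ≠ g →
    ∃ d e : Fin 5, d ≠ e ∧ ∀ k, k = a ∨ k = b ∨ k = g ∨ k = d ∨ k = e := by decide

/-- `d, e` the remaining colours.  `U_null` (three times), `rule1` or `two` give `TriHyp` (if neither `d` nor `e` is unseen then by `two` the unseen colours lie in one of the three pairs).  `Σ = {t | ¬ Abs d t ∧ ¬ Abs e t}` is invariant under `+π/3` (`step` five times,
`abs_periodic`) and nonempty (`ℝ` is connected; `isOpen_abs`, `not_both`, `step`).  For `t ∈ Σ` the missing colour `m` at `v + cis t` is one of `a, b, g` (`exists_missing`, `abs_of_not_P`); `abs_of_null` at `t + π/3`, `pencil`, `asep_of_pencil` give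
`ASep` of the other two colours in direction `cis t`.  By `not_sep` (`ASep.symm`) two points of `Σ` with the same missing colour have `sin (t - t') = 0`.  So for `t₀ ∈ Σ` the points `t₀, t₀ + π/3, t₀ + 2π/3` use all three colours and `(t₀, t₀ + π/3)`
contains no point of `Σ`; being preconnected it lies in `{Abs d}` or in `{Abs e}`; `step`, `ae_N` (local to global: `measure_null_of_locally_null`), `spindle`. -/
theorem MCol.tri (c : MCol) (v : ℂ) (a b g : Fin 5) (h₁ : c.Link v a b ∨ c.Link v b a)
    (h₂ : c.Link v a g ∨ c.Link v g a) (h₃ : c.Link v b g ∨ c.Link v g b) : False := by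
  have hab : a ≠ b := h₁.elim (fun h => h.ne) fun h => h.ne.symm
  have hag : a ≠ g := h₂.elim (fun h => h.ne) fun h => h.ne.symm
  have hbg : b ≠ g := h₃.elim (fun h => h.ne) fun h => h.ne.symm
  obtain ⟨d, e, hde, hall⟩ := Tri_rest a b g hab hag hbg
  have h : c.TriHyp v a b g d e := by
    refine ⟨hall, h₁.elim (fun h => h.P.1) fun h => h.P.2, h₁.elim (fun h => h.P.2) fun h => h.P.1,
      h₂.elim (fun h => h.P.2) fun h => h.P.1, ?_⟩
    filter_upwards [Tri_U_null h₁, Tri_U_null h₂, Tri_U_null h₃, c.two v] with θ u1 u2 u3 h2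
    by_contra hn
    rw [not_or] at hn
    by_cases na : c.N (v + cis θ) a
    · by_cases nb : c.N (v + cis θ) b
      · have ng := h2 a b g hab hag hbg na nb
        refine u1 fun l hl => ?_
        rcases hall l with rfl | rfl | rfl | rfl | rfl <;> tauto
      · refine u2 fun l hl => ?_
        rcases hall l with rfl | rfl | rfl | rfl | rfl <;> tauto
    · refine u3 fun l hl => ?_
      rcases hall l with rfl | rfl | rfl | rfl | rfl <;> tauto
  have hπ := Real.pi_pos
  obtain ⟨t, ht⟩ : ∃ t, ¬ (c.Abs v d t ∨ c.Abs v e t) := by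
    by_contra hn
    rw [not_exists] at hn
    rcases Tri_cover h isPreconnected_univ fun s _ => not_not.1 (hn s) with H | H
    · exact Tri_end h hde (t := 0) fun s _ => H s trivial
    · exact Tri_end h.swap hde.symm (t := 0) fun s _ => H s trivial
  have hI : ∀ s ∈ Ioo t (t + π / 3), c.Abs v d s ∨ c.Abs v e s := by
    intro s hs
    by_contra hn
    have ht1 := mt (Tri_back h) ht
    have ht2 := mt (Tri_back h) ht1
    have n1 := fun {t t' : ℝ} => Tri_not_sep h₁ (t := t) (t' := t')
    have n2 := fun {t t' : ℝ} => Tri_not_sep h₂ (t := t) (t' := t')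
    have n3 := fun {t t' : ℝ} => Tri_not_sep h₃ (t := t) (t' := t')
    obtain ⟨l1, l2⟩ := hs
    rcases Tri_sep h ht with p | p | p <;> rcases Tri_sep h hn with q | q | q <;>
      rcases Tri_sep h ht1 with r | r | r <;> rcases Tri_sep h ht2 with w | w | w <;>
      first
      | exact n1 p q (by linarith) (by linarith)
      | exact n2 p q (by linarith) (by linarith)
      | exact n3 p q (by linarith) (by linarith)
      | exact n1 p r (by linarith) (by linarith)
      | exact n2 p r (by linarith) (by linarith)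
      | exact n3 p r (by linarith) (by linarith)
      | exact n1 q r (by linarith) (by linarith)
      | exact n2 q r (by linarith) (by linarith)
      | exact n3 q r (by linarith) (by linarith)
      | exact n1 p w (by linarith) (by linarith)
      | exact n2 p w (by linarith) (by linarith)
      | exact n3 p w (by linarith) (by linarith)
      | exact n1 q w (by linarith) (by linarith)
      | exact n2 q w (by linarith) (by linarith)
      | exact n3 q w (by linarith) (by linarith)
      | exact n1 r w (by linarith) (by linarith)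
      | exact n2 r w (by linarith) (by linarith)
      | exact n3 r w (by linarith) (by linarith)
  rcases Tri_cover h isPreconnected_Ioo hI with H | H
  · exact Tri_end h hde H
  · exact Tri_end h.swap hde.symm H

end Crest.Agent.R040

end
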