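import Crest.Agent.R040.Defs2

/-! # Row 40, Step 2: weak-* compactness -/

set_option autoImplicit false

open MeasureTheory Filter Topology Set Metric
open scoped Real

noncomputable section

namespace Crest.Agent.R040

theorem weakStar_weight : ∃ w : ℂ → ℝ, Continuous w ∧ (∀ z, 0 < w z) ∧ MemLp w 2 volume := by
  have hc : Continuous fun z : ℂ => (1 + ‖z‖) ^ (-2 : ℝ) :=
    Continuous.rpow_const (by fun_prop) fun z => Or.inl (by positivity)
  refine ⟨fun z => (1 + ‖z‖) ^ (-2 : ℝ), hc, fun z => by positivity, ?_⟩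
  rw [memLp_two_iff_integrable_sq hc.aestronglyMeasurable]
  have h := integrable_one_add_norm (E := ℂ) (μ := volume) (r := 4) (by simp; norm_num)
  refine h.congr (Eventually.of_forall fun z => ?_)
  beta_reduce
  rw [← Real.rpow_natCast, ← Real.rpow_mul (by positivity)]
  norm_num

/-- weak sequential compactness of bounded sets of `L²` -/
theorem weakStar_L2 (v : ℕ → ℂ → ℝ) (w : ℂ → ℝ) (hw : MemLp w 2 volume)
    (hv : ∀ n, AEStronglyMeasurable (v n) volume) (hle : ∀ n z, ‖v n z‖ ≤ ‖w z‖) :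
    ∃ φ : ℕ → ℕ, StrictMono φ ∧ ∃ u : ℂ → ℝ, Measurable u ∧ MemLp u 2 volume ∧
      ∀ h : ℂ → ℝ, MemLp h 2 volume →
        Tendsto (fun n => ∫ z, h z * v (φ n) z) atTop (𝓝 (∫ z, h z * u z)) := by
  have hm : ∀ n, MemLp (v n) 2 volume := fun n => hw.of_le (hv n) (Eventually.of_forall (hle n))
  let x : ℕ → WeakDual ℝ (Lp ℝ 2 (volume : Measure ℂ)) := fun n =>
    StrongDual.toWeakDual (InnerProductSpace.toDual ℝ _ ((hm n).toLp _))
  have hx : ∀ n, x n ∈ WeakDual.toStrongDual ⁻¹' Metric.closedBall 0 ‖hw.toLp _‖ := by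
    intro n
    change InnerProductSpace.toDual ℝ _ ((hm n).toLp _) ∈ Metric.closedBall 0 ‖hw.toLp _‖
    rw [mem_closedBall_zero_iff, LinearIsometryEquiv.norm_map]
    refine Lp.norm_le_norm_of_ae_le ?_
    filter_upwards [(hm n).coeFn_toLp, hw.coeFn_toLp] with z h1 h2
    rw [h1, h2]
    exact hle n z
  have : Fact ((2 : ENNReal) ≠ ⊤) := ⟨by simp⟩
  obtain ⟨L, -, φ, hφ, hL⟩ := WeakDual.isSeqCompact_closedBall ℝ _ 0 _ hx
  let U : Lp ℝ 2 (volume : Measure ℂ) :=
    (InnerProductSpace.toDual ℝ _).symm (WeakDual.toStrongDual L)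
  refine ⟨φ, hφ, U, (Lp.stronglyMeasurable U).measurable, Lp.memLp U, fun h hh => ?_⟩
  have h1 := ((WeakDual.eval_continuous (hh.toLp _)).tendsto L).comp hL
  have e1 : L (hh.toLp _) = ∫ z, h z * U z := by
    have : L (hh.toLp _) = inner ℝ U (hh.toLp _) :=
      (InnerProductSpace.toDual_symm_apply (𝕜 := ℝ)).symm
    rw [this, L2.inner_def]
    refine integral_congr_ae ?_
    filter_upwards [hh.coeFn_toLp] with z h1
    rw [h1]
    simp
  have e2 : ∀ n, x n (hh.toLp _) = ∫ z, h z * v n z := by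
    intro n
    have : x n (hh.toLp _) = inner ℝ ((hm n).toLp _) (hh.toLp _) := rfl
    rw [this, L2.inner_def]
    refine integral_congr_ae ?_
    filter_upwards [hh.coeFn_toLp, (hm n).coeFn_toLp] with z h1 h2
    rw [h1, h2]
    simp
  rw [← e1]
  refine h1.congr fun n => ?_
  exact e2 (φ n)

theorem weakStar_int {g f : ℂ → ℝ} (hg : Integrable g) (hf : Fr f) :
    Integrable fun z => g z * f z :=
  hg.mul_bdd (c := 1) hf.1.aestronglyMeasurable (Eventually.of_forall fun z => by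
    rw [Real.norm_eq_abs, abs_of_nonneg (hf.2 z).1]; exact (hf.2 z).2)

theorem weakStar_diff {g g' f : ℂ → ℝ} (hg : Integrable g) (hg' : Integrable g') (hf : Fr f) :
    |(∫ z, g z * f z) - ∫ z, g' z * f z| ≤ ∫ z, ‖g z - g' z‖ := by
  rw [← integral_sub (weakStar_int hg hf) (weakStar_int hg' hf), ← Real.norm_eq_abs]
  refine norm_integral_le_of_norm_le (hg.sub hg').norm (Eventually.of_forall fun z => ?_)
  rw [← sub_mul, norm_mul, Real.norm_eq_abs (f z), abs_of_nonneg (hf.2 z).1]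
  exact mul_le_of_le_one_right (norm_nonneg _) (hf.2 z).2

theorem weakStar_one (f : ℕ → ℂ → ℝ) (hf : ∀ n, Fr (f n)) :
    ∃ φ : ℕ → ℕ, StrictMono φ ∧ ∃ μ : ℂ → ℝ, Fr μ ∧ ∀ g : ℂ → ℝ, Integrable g →
      Tendsto (fun n => ∫ z, g z * f (φ n) z) atTop (𝓝 (∫ z, g z * μ z)) := by
  obtain ⟨w, hwc, hw0, hw⟩ := weakStar_weight
  have hle : ∀ n z, ‖w z * f n z‖ ≤ ‖w z‖ := fun n z => by
    rw [norm_mul, Real.norm_eq_abs (f n z), abs_of_nonneg ((hf n).2 z).1]
    exact mul_le_of_le_one_right (norm_nonneg _) ((hf n).2 z).2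
  have hv : ∀ n, AEStronglyMeasurable (fun z => w z * f n z) volume := fun n =>
    (hwc.measurable.mul (hf n).1).aestronglyMeasurable
  obtain ⟨φ, hφ, u, hum, hu, hlim⟩ := weakStar_L2 (fun n z => w z * f n z) w hw hv hle
  have hI : ∀ {a : ℂ → ℝ}, MemLp a 2 volume → ∀ s, MeasurableSet s → volume s < ⊤ →
      IntegrableOn a s := by
    intro a ha s hs hs'
    have : IsFiniteMeasure (volume.restrict s) := ⟨by simpa using hs'⟩
    exact (ha.restrict s).integrable (by norm_num)
  have hset : ∀ s, MeasurableSet s → volume s < ⊤ →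
      Tendsto (fun n => ∫ z in s, w z * f (φ n) z) atTop (𝓝 (∫ z in s, u z)) := by
    intro s hs hs'
    have h1 := hlim (s.indicator fun _ => (1 : ℝ)) (memLp_indicator_const 2 hs 1 (Or.inr hs'.ne))
    have e : ∀ a : ℂ → ℝ, ∫ z, s.indicator (fun _ => (1 : ℝ)) z * a z = ∫ z in s, a z := by
      intro a
      rw [← integral_indicator hs]
      refine integral_congr_ae (Eventually.of_forall fun z => ?_)
      by_cases hz : z ∈ s <;> simp [hz]
    simpa only [e] using h1
  have h0 : 0 ≤ᵐ[volume] u := by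
    refine ae_nonneg_of_forall_setIntegral_nonneg_of_sigmaFinite (hI hu) fun s hs hs' => ?_
    refine ge_of_tendsto' (hset s hs hs') fun n => ?_
    exact integral_nonneg fun z => mul_nonneg (hw0 z).le ((hf _).2 z).1
  have h1 : 0 ≤ᵐ[volume] fun z => w z - u z := by
    refine ae_nonneg_of_forall_setIntegral_nonneg_of_sigmaFinite (hI (hw.sub hu))
      fun s hs hs' => ?_
    rw [integral_sub (hI hw s hs hs') (hI hu s hs hs'), sub_nonneg]
    refine le_of_tendsto' (hset s hs hs') fun n => ?_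
    refine integral_mono (hI (hw.of_le (hv _) (Eventually.of_forall (hle _))) s hs hs')
      (hI hw s hs hs') fun z => ?_
    exact mul_le_of_le_one_right (hw0 z).le ((hf _).2 z).2
  have hμ : Fr fun z => max 0 (min 1 (u z / w z)) :=
    ⟨measurable_const.max (measurable_const.min (hum.div hwc.measurable)), fun z =>
      ⟨le_max_left _ _, max_le zero_le_one (min_le_left _ _)⟩⟩
  refine ⟨φ, hφ, _, hμ, fun g hg => ?_⟩
  rw [Metric.tendsto_atTop]
  intro ε hε
  obtain ⟨g', hg1, hg2, hg3, hg4⟩ :=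
    hg.exists_hasCompactSupport_integral_sub_le (show 0 < ε / 3 by positivity)
  have hh : MemLp (fun z => g' z * (w z)⁻¹) 2 volume :=
    Continuous.memLp_of_hasCompactSupport (hg3.mul (hwc.inv₀ fun z => (hw0 z).ne'))
      hg1.mul_right
  have h2 := hlim _ hh
  have e1 : ∀ n, ∫ z, g' z * (w z)⁻¹ * (w z * f n z) = ∫ z, g' z * f n z := by
    intro n
    refine integral_congr_ae (Eventually.of_forall fun z => ?_)
    have := (hw0 z).ne'
    beta_reduce
    field_simp
  have e2 : ∫ z, g' z * (w z)⁻¹ * u z = ∫ z, g' z * max 0 (min 1 (u z / w z)) := by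
    refine integral_congr_ae ?_
    filter_upwards [h0, h1] with z a0 a1
    have a0' : 0 ≤ u z := a0
    have a1' : 0 ≤ w z - u z := a1
    rw [min_eq_right ((div_le_one (hw0 z)).2 (by linarith)),
      max_eq_right (div_nonneg a0' (hw0 z).le)]
    ring
  simp only [e1, e2] at h2
  obtain ⟨N, hN⟩ := Metric.tendsto_atTop.1 h2 (ε / 3) (by positivity)
  refine ⟨N, fun n hn => ?_⟩
  have b1 := abs_lt.1 (show |_| < _ from hN n hn)
  have b2 := abs_le.1 ((weakStar_diff hg hg4 (hf (φ n))).trans hg2)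
  have b3 := abs_le.1 ((weakStar_diff hg hg4 hμ).trans hg2)
  rw [Real.dist_eq, abs_lt]
  constructor <;> linarith [b1.1, b1.2, b2.1, b2.2, b3.1, b3.2]

/-- One route: limits along an ultrafilter `𝒰 ≤ atTop` define `ν_i(E) = sup_k lim_𝒰 ∫_{E ∩ ball 0 k} f n i`, a measure `≤ volume` (finitely additive and dominated, `Measure.ofMeasurable`), `μ i` = its Radon–Nikodym derivative truncated to `[0,1]`; then extract a subsequence for a
countable dense family in `L¹` (`Lp.SecondCountableTopology`/`separableSpace`).  Another: the functionals `g ↦ ∫ g f` on `L²(ℂ, w·vol)` or on `Lp ℝ 2 volume` after multiplying by a fixed positive weight `w ∈ L² ∩ L^∞`: `w f n` is bounded in the separable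
Hilbert space `L²`, take a weakly convergent subsequence (`WeakDual.isSeqCompact_closedBall` + `InnerProductSpace.toDual`), divide the limit by `w`. -/
theorem weak_star (f : ℕ → Fin 5 → ℂ → ℝ) (hf : ∀ n i, Fr (f n i)) :
    ∃ φ : ℕ → ℕ, StrictMono φ ∧ ∃ μ : Fin 5 → ℂ → ℝ, (∀ i, Fr (μ i)) ∧
      ∀ (i : Fin 5) (g : ℂ → ℝ), Integrable g →
        Tendsto (fun n => ∫ z, g z * f (φ n) i z) atTop (𝓝 (∫ z, g z * μ i z)) := by
  have key : ∀ s : Finset (Fin 5), ∃ φ : ℕ → ℕ, StrictMono φ ∧ ∀ i ∈ s, ∃ μ : ℂ → ℝ, Fr μ ∧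
      ∀ g : ℂ → ℝ, Integrable g →
        Tendsto (fun n => ∫ z, g z * f (φ n) i z) atTop (𝓝 (∫ z, g z * μ z)) := by
    intro s
    induction s using Finset.induction_on with
    | empty => exact ⟨id, strictMono_id, by simp⟩
    | insert j s _ ih =>
      obtain ⟨φ, hφ, h⟩ := ih
      obtain ⟨ψ, hψ, h'⟩ := weakStar_one (fun n => f (φ n) j) fun n => hf _ _
      refine ⟨φ ∘ ψ, hφ.comp hψ, fun i hi => ?_⟩
      rcases Finset.mem_insert.1 hi with rfl | hi
      · exact h'
      · obtain ⟨μ, hμ, h1⟩ := h i hi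
        exact ⟨μ, hμ, fun g hg => (h1 g hg).comp hψ.tendsto_atTop⟩
  obtain ⟨φ, hφ, h⟩ := key Finset.univ
  choose μ hμ h using fun i => h i (Finset.mem_univ i)
  exact ⟨φ, hφ, μ, hμ, h⟩

end Crest.Agent.R040

end
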